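import Mathlib
import Vale.Agent.P146.Bdl.B1
import Vale.Agent.P146.Bdl.B10
import Vale.Agent.P146.Bdl.B11
import Vale.Agent.P146.Bdl.B13
import Vale.Agent.P146.Bdl.B15
import Vale.Agent.P146.Bdl.B2
import Vale.Agent.P146.Bdl.B21
import Vale.Agent.P146.Bdl.B22
import Vale.Agent.P146.Bdl.B4
import Vale.Agent.P146.Bdl.B5
import Vale.Agent.P146.Bdl.B6
import Vale.Agent.P146.Bdl.B9
import Vale.Agent.P166.F.AlgDefs
import Vale.Agent.P367.GT.Stein
import Vale.Agent.P157.ParDefs
import Vale.Agent.P166.Defs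
import Vale.Agent.P157.Defs

set_option linter.all false

section

/-!
P166, full formula: the commutative algebra of hierarchical matrices in the limit of zero replicas.
`K + 1` levels `0, …, K`, exponents `m` with `m 0 = 0`, `m (K + 1) = 1`, weights
`m (l + 1) - m l` of the levels.
-/

open Finset

namespace Vale.Agent.P166.F

namespace Hm

end Hm

end Vale.Agent.P166.F
end

section

section

/-!
Definitions for the Guerra upper bound (module U of the Parisi plan): the cascades in dimension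
`N`, the tilted chain, and the log-weights of a finite system in a Gaussian field.
-/

open MeasureTheory ProbabilityTheory

namespace Vale.Agent.P157.Par

variable {N : ℕ}

variable {X : Type} [Fintype X]

end Vale.Agent.P157.Par
end
end

section

section

namespace Vale.Agent.P157

end Vale.Agent.P157
end
end

section

section

/-!
Tensorization of the spin cascade (module U of the Parisi plan).
-/

open MeasureTheory ProbabilityTheory Filter Topology

namespace Vale.Agent.P157.Par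

variable {N : ℕ}

end Vale.Agent.P157.Par
end
end

section

section

namespace Vale.Agent.P166.Conc

open Matrix

/-- The orthogonal group `O(n)`. -/
abbrev OG (n : ℕ) := Matrix.orthogonalGroup (Fin n) ℝ

variable {n : ℕ}

/-- Householder reflection matrix. -/
noncomputable def rfl' (w : Fin n → ℝ) : Matrix (Fin n) (Fin n) ℝ :=
  1 - (2 / (w ⬝ᵥ w)) • Matrix.vecMulVec w w

lemma rfl'_transpose (w : Fin n → ℝ) : (rfl' w)ᵀ = rfl' w := by
  unfold rfl'
  ext i j
  simp [Matrix.one_apply, Matrix.vecMulVec_apply, eq_comm, mul_comm]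

lemma rfl'_mulVec (w x : Fin n → ℝ) :
    rfl' w *ᵥ x = x - ((2 / (w ⬝ᵥ w)) * (w ⬝ᵥ x)) • w := by
  unfold rfl'
  rw [Matrix.sub_mulVec, Matrix.one_mulVec, Matrix.smul_mulVec, Matrix.vecMulVec_mulVec]
  ext i
  simp [smul_smul, mul_comm]

lemma rfl'_mul_self (w : Fin n → ℝ) : rfl' w * rfl' w = 1 := by
  by_cases hw : w ⬝ᵥ w = 0
  · unfold rfl'
    rw [hw]; simp
  · have h1 : Matrix.vecMulVec w w * Matrix.vecMulVec w w = (w ⬝ᵥ w) • Matrix.vecMulVec w w := by
      ext i j
      simp only [Matrix.mul_apply, Matrix.vecMulVec_apply, Matrix.smul_apply, smul_eq_mul,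
        dotProduct, Finset.sum_mul]
      refine Finset.sum_congr rfl fun k _ => ?_
      ring
    unfold rfl'
    rw [sub_mul, one_mul, mul_sub, mul_one, Matrix.smul_mul, Matrix.mul_smul, h1, smul_smul,
      smul_smul]
    have h2 : 2 / (w ⬝ᵥ w) * (2 / (w ⬝ᵥ w)) * (w ⬝ᵥ w) = 2 / (w ⬝ᵥ w) + 2 / (w ⬝ᵥ w) := by
      field_simp; ring
    rw [h2, add_smul]
    abel

lemma rfl'_mem (w : Fin n → ℝ) : rfl' w ∈ Matrix.orthogonalGroup (Fin n) ℝ := by
  rw [Matrix.mem_orthogonalGroup_iff, rfl'_transpose, rfl'_mul_self]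

/-- Householder reflection as an element of `O(n)`. -/
noncomputable def rflG (w : Fin n → ℝ) : OG n := ⟨rfl' w, rfl'_mem w⟩

lemma rflG_mul_self (w : Fin n → ℝ) : rflG w * rflG w = 1 := Subtype.ext (rfl'_mul_self w)

lemma OG.mul_transpose (U : OG n) :
    (U : Matrix (Fin n) (Fin n) ℝ) * (U : Matrix (Fin n) (Fin n) ℝ)ᵀ = 1 :=
  (Matrix.mem_orthogonalGroup_iff (Fin n) ℝ).1 U.2

lemma OG.transpose_mul (U : OG n) :
    (U : Matrix (Fin n) (Fin n) ℝ)ᵀ * (U : Matrix (Fin n) (Fin n) ℝ) = 1 :=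
  (Matrix.mem_orthogonalGroup_iff' (Fin n) ℝ).1 U.2

lemma OG.coe_inv (U : OG n) :
    ((U⁻¹ : OG n) : Matrix (Fin n) (Fin n) ℝ) = (U : Matrix (Fin n) (Fin n) ℝ)ᵀ := by
  have h : (U : Matrix (Fin n) (Fin n) ℝ) * ((U⁻¹ : OG n) : Matrix (Fin n) (Fin n) ℝ) = 1 := by
    have := congrArg Subtype.val (mul_inv_cancel U)
    exact this
  calc ((U⁻¹ : OG n) : Matrix (Fin n) (Fin n) ℝ)
      = ((U : Matrix (Fin n) (Fin n) ℝ)ᵀ * (U : Matrix (Fin n) (Fin n) ℝ)) *
          ((U⁻¹ : OG n) : Matrix (Fin n) (Fin n) ℝ) := by rw [OG.transpose_mul, one_mul]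
    _ = _ := by rw [mul_assoc, h, mul_one]

lemma OG.coe_mul (U V : OG n) :
    ((U * V : OG n) : Matrix (Fin n) (Fin n) ℝ) = (U : Matrix (Fin n) (Fin n) ℝ) * V := rfl

lemma OG.dot (U : OG n) (x y : Fin n → ℝ) :
    ((U : Matrix (Fin n) (Fin n) ℝ) *ᵥ x) ⬝ᵥ ((U : Matrix (Fin n) (Fin n) ℝ) *ᵥ y) = x ⬝ᵥ y := by
  rw [Matrix.dotProduct_mulVec, Matrix.vecMul_mulVec, OG.transpose_mul, Matrix.vecMul_one]

lemma OG.dot_left (U : OG n) (x y : Fin n → ℝ) :
    ((U : Matrix (Fin n) (Fin n) ℝ) *ᵥ x) ⬝ᵥ y =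
      x ⬝ᵥ ((U : Matrix (Fin n) (Fin n) ℝ)ᵀ *ᵥ y) := by
  rw [Matrix.dotProduct_mulVec, Matrix.vecMul_transpose]

/-- Conjugation of a reflection. -/
lemma conj_rflG (h : OG n) (w : Fin n → ℝ) :
    h * rflG w * h⁻¹ = rflG ((h : Matrix (Fin n) (Fin n) ℝ) *ᵥ w) := by
  apply Subtype.ext
  rw [OG.coe_mul, OG.coe_mul, OG.coe_inv]
  show (h : Matrix (Fin n) (Fin n) ℝ) * rfl' w * (h : Matrix (Fin n) (Fin n) ℝ)ᵀ = rfl' _
  unfold rfl'
  rw [OG.dot, mul_sub, mul_one, sub_mul, OG.mul_transpose, Matrix.mul_smul, Matrix.smul_mul,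
    Matrix.mul_vecMulVec, Matrix.vecMulVec_mul, Matrix.vecMul_transpose]

/-- an element of `O(n)` mapping `e_k` to `v`, for a unit vector `v`. -/
noncomputable def hk (k : Fin n) (v : Fin n → ℝ) : OG n :=
  if v k ≤ 0 then rflG (Pi.single k 1 - v) else rflG (Pi.single k 1 + v) * rflG (Pi.single k 1)

lemma dot_single (k : Fin n) (v : Fin n → ℝ) : v ⬝ᵥ (Pi.single k 1 : Fin n → ℝ) = v k := by
  simp

lemma single_dot (k : Fin n) (v : Fin n → ℝ) : (Pi.single k 1 : Fin n → ℝ) ⬝ᵥ v = v k := by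
  simp

lemma dot_sub_self (k : Fin n) (v : Fin n → ℝ) (hv : v ⬝ᵥ v = 1) :
    (Pi.single k 1 - v) ⬝ᵥ (Pi.single k 1 - v) = 2 - 2 * v k := by
  rw [sub_dotProduct, dotProduct_sub, dotProduct_sub, hv, dot_single, single_dot, dot_single]
  simp; ring

lemma dot_add_self (k : Fin n) (v : Fin n → ℝ) (hv : v ⬝ᵥ v = 1) :
    (Pi.single k 1 + v) ⬝ᵥ (Pi.single k 1 + v) = 2 + 2 * v k := by
  rw [add_dotProduct, dotProduct_add, dotProduct_add, hv, dot_single, single_dot, dot_single]
  simp; ring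

lemma hk_mulVec (k : Fin n) (v : Fin n → ℝ) (hv : v ⬝ᵥ v = 1) :
    (hk k v : Matrix (Fin n) (Fin n) ℝ) *ᵥ Pi.single k 1 = v := by
  unfold hk
  split_ifs with h
  · show rfl' _ *ᵥ _ = _
    rw [rfl'_mulVec, dot_sub_self k v hv, sub_dotProduct, dot_single, dot_single]
    have h2 : 2 - 2 * v k ≠ 0 := by linarith
    have : 2 / (2 - 2 * v k) * ((Pi.single k 1 : Fin n → ℝ) k - v k) = 1 := by
      simp only [Pi.single_eq_same]
      rw [div_mul_eq_mul_div, div_eq_one_iff_eq h2]; ring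
    rw [this, one_smul]; abel
  · have h' : 0 < v k := not_le.1 h
    rw [OG.coe_mul]
    show (rfl' _ * rfl' _) *ᵥ _ = _
    rw [← Matrix.mulVec_mulVec]
    have h1 : rfl' (Pi.single k 1 : Fin n → ℝ) *ᵥ Pi.single k 1 = - Pi.single k 1 := by
      rw [rfl'_mulVec, dot_single]
      simp only [Pi.single_eq_same]
      ext i; simp; ring
    rw [h1, Matrix.mulVec_neg, rfl'_mulVec, dot_add_self k v hv, add_dotProduct, dot_single,
      dot_single]
    have h2 : 2 + 2 * v k ≠ 0 := by linarith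
    have : 2 / (2 + 2 * v k) * ((Pi.single k 1 : Fin n → ℝ) k + v k) = 1 := by
      simp only [Pi.single_eq_same]
      rw [div_mul_eq_mul_div, div_eq_one_iff_eq h2]; ring
    rw [this, one_smul]; abel

/-- conjugation of `hk` by an element fixing `e_k`. -/
lemma conj_hk (k : Fin n) (v : Fin n → ℝ) (h : OG n)
    (hh : (h : Matrix (Fin n) (Fin n) ℝ) *ᵥ Pi.single k 1 = Pi.single k 1) :
    h * hk k v * h⁻¹ = hk k ((h : Matrix (Fin n) (Fin n) ℝ) *ᵥ v) := by
  have hv : ((h : Matrix (Fin n) (Fin n) ℝ) *ᵥ v) k = v k := by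
    rw [← single_dot k ((h : Matrix (Fin n) (Fin n) ℝ) *ᵥ v), ← single_dot k v]
    nth_rewrite 1 [← hh]
    rw [OG.dot]
  unfold hk
  rw [hv]
  split_ifs with h'
  · rw [conj_rflG, Matrix.mulVec_sub, hh]
  · have : h * (rflG (Pi.single k 1 + v) * rflG (Pi.single k 1)) * h⁻¹
        = (h * rflG (Pi.single k 1 + v) * h⁻¹) * (h * rflG (Pi.single k 1) * h⁻¹) := by group
    rw [this, conj_rflG, conj_rflG, Matrix.mulVec_add, hh]

end Vale.Agent.P166.Conc
end
end

section

section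

namespace Vale.Agent.P166.Conc

open Matrix MeasureTheory ProbabilityTheory

variable {n : ℕ}

instance secondCountable_OG : SecondCountableTopology (OG n) := by
  have : SecondCountableTopology (Matrix (Fin n) (Fin n) ℝ) :=
    inferInstanceAs (SecondCountableTopology (Fin n → Fin n → ℝ))
  exact TopologicalSpace.Subtype.secondCountableTopology _

section Haar

variable [MeasurableSpace (OG n)] [BorelSpace (OG n)]

lemma measurable_OG {α : Type*} [MeasurableSpace α] {f : α → OG n}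
    (hf : ∀ i j, Measurable fun a => (f a : Matrix (Fin n) (Fin n) ℝ) i j) : Measurable f := by
  have h : ‹MeasurableSpace (OG n)› =
      MeasurableSpace.comap
        (fun (U : OG n) (i j : Fin n) => (U : Matrix (Fin n) (Fin n) ℝ) i j)
        MeasurableSpace.pi := by
    rw [BorelSpace.measurable_eq (α := OG n),
      BorelSpace.measurable_eq (α := Fin n → Fin n → ℝ)]
    exact borel_comap
  intro s hs
  rw [h] at hs
  obtain ⟨t, ht, rfl⟩ := hs
  have h2 : Measurable fun a => (fun (i j : Fin n) => (f a : Matrix (Fin n) (Fin n) ℝ) i j) :=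
    measurable_pi_iff.2 fun i => measurable_pi_iff.2 fun j => hf i j
  exact h2 ht

lemma continuous_coe_OG (i j : Fin n) :
    Continuous fun U : OG n => (U : Matrix (Fin n) (Fin n) ℝ) i j :=
  (continuous_apply_apply i j).comp continuous_subtype_val

lemma measurable_coe_OG (i j : Fin n) :
    Measurable fun U : OG n => (U : Matrix (Fin n) (Fin n) ℝ) i j :=
  (continuous_coe_OG i j).measurable

variable (ν ν' : Measure (OG n)) [IsProbabilityMeasure ν] [IsProbabilityMeasure ν']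
  [ν.IsMulLeftInvariant] [ν'.IsMulLeftInvariant]

lemma lintegral_inv_eq (f : OG n → ENNReal) (hf : Measurable f) :
    ∫⁻ U, f U ∂ν = ∫⁻ U, f U⁻¹ ∂ν' := by
  have h1 : ∫⁻ W, ∫⁻ U, f (W⁻¹ * U) ∂ν ∂ν' = ∫⁻ U, f U ∂ν := by
    simp_rw [lintegral_mul_left_eq_self (μ := ν) f]
    simp only [lintegral_const, measure_univ, mul_one]
  have h2 : ∫⁻ U, ∫⁻ W, f (W⁻¹ * U) ∂ν' ∂ν = ∫⁻ U, f U⁻¹ ∂ν' := by
    have : ∀ U : OG n, ∫⁻ W, f (W⁻¹ * U) ∂ν' = ∫⁻ W, f W⁻¹ ∂ν' := by
      intro U
      have := lintegral_mul_left_eq_self (μ := ν') (fun W => f W⁻¹) U⁻¹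
      simpa only [_root_.mul_inv_rev, inv_inv] using this
    simp_rw [this]
    simp
  rw [← h1, ← h2]
  apply lintegral_lintegral_swap
  exact (hf.comp ((measurable_inv.comp measurable_fst).mul measurable_snd)).aemeasurable

lemma haar_map_inv : ν.map (fun U => U⁻¹) = ν := by
  ext s hs
  rw [Measure.map_apply measurable_inv hs]
  have h1 := lintegral_inv_eq ν ν (s.indicator 1) (measurable_one.indicator hs)
  have h3 : ∀ U : OG n, s.indicator (1 : OG n → ENNReal) U⁻¹ =
      ((fun U : OG n => U⁻¹) ⁻¹' s).indicator 1 U := fun U => rfl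
  simp_rw [h3] at h1
  rw [lintegral_indicator hs, lintegral_indicator (measurable_inv hs)] at h1
  simpa only [Set.inv_preimage, Pi.one_apply, lintegral_const, MeasurableSet.univ, Measure.restrict_apply,     Set.univ_inter, one_mul] using h1.symm

lemma haar_right_inv : ν.IsMulRightInvariant := by
  constructor
  intro g
  have h : (fun U : OG n => U * g) = (fun U => U⁻¹) ∘ (fun U => g⁻¹ * U) ∘ (fun U => U⁻¹) := by
    funext U; simp only [Function.comp_apply, _root_.mul_inv_rev, inv_inv]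
  rw [h, ← Measure.map_map measurable_inv ((measurable_const_mul _).comp measurable_inv),
    ← Measure.map_map (measurable_const_mul _) measurable_inv, haar_map_inv ν,
    map_mul_left_eq_self ν, haar_map_inv ν]

end Haar

/-- The subgroup of `O(n)` fixing the first `m` basis vectors. -/
def Fx (n m : ℕ) : Subgroup (OG n) where
  carrier := {h | ∀ j : Fin n, (j : ℕ) < m →
    (h : Matrix (Fin n) (Fin n) ℝ) *ᵥ Pi.single j 1 = Pi.single j 1}
  mul_mem' := by
    intro a b ha hb j hj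
    rw [OG.coe_mul, ← Matrix.mulVec_mulVec, hb j hj, ha j hj]
  one_mem' := by
    intro j _
    exact Matrix.one_mulVec _
  inv_mem' := by
    intro a ha j hj
    have h := ha j hj
    rw [OG.coe_inv]
    nth_rewrite 1 [← h]
    rw [Matrix.mulVec_mulVec, OG.transpose_mul, Matrix.one_mulVec]

lemma Fx_mono {m m' : ℕ} (h : m ≤ m') : Fx n m' ≤ Fx n m := fun _ ha j hj =>
  ha j (lt_of_lt_of_le hj h)

/-- truncation to coordinates `≥ m`. -/
def tr (m : ℕ) (x : Fin n → ℝ) : Fin n → ℝ := fun i => if m ≤ (i : ℕ) then x i else 0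

lemma Fx_coord {m : ℕ} {h : OG n} (hh : h ∈ Fx n m) (x : Fin n → ℝ) (j : Fin n) (hj : (j : ℕ) < m) :
    ((h : Matrix (Fin n) (Fin n) ℝ) *ᵥ x) j = x j := by
  have h1 := (Fx n m).inv_mem hh j hj
  rw [OG.coe_inv] at h1
  rw [← single_dot j ((h : Matrix (Fin n) (Fin n) ℝ) *ᵥ x), dotProduct_comm, OG.dot_left, h1, dot_single]

lemma tr_mulVec {m : ℕ} {h : OG n} (hh : h ∈ Fx n m) (x : Fin n → ℝ) :
    tr m ((h : Matrix (Fin n) (Fin n) ℝ) *ᵥ x) = (h : Matrix (Fin n) (Fin n) ℝ) *ᵥ tr m x := by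
  have hx : x = tr m x + (x - tr m x) := by abel
  have hrest : (h : Matrix (Fin n) (Fin n) ℝ) *ᵥ (x - tr m x) = x - tr m x := by
    have : x - tr m x = ∑ j : Fin n, (x - tr m x) j • (Pi.single j 1 : Fin n → ℝ) := by
      rw [← pi_eq_sum_univ' ]
    rw [this, Matrix.mulVec_sum]
    refine Finset.sum_congr rfl fun j _ => ?_
    rw [Matrix.mulVec_smul]
    by_cases hj : (j : ℕ) < m
    · rw [hh j hj]
    · have : (x - tr m x) j = 0 := by simp only [Pi.sub_apply, tr, not_lt.1 hj, ↓reduceIte, sub_self]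
      rw [this]; simp
  ext i
  by_cases hi : m ≤ (i : ℕ)
  · have h2 : tr m ((h : Matrix (Fin n) (Fin n) ℝ) *ᵥ x) i = ((h : Matrix (Fin n) (Fin n) ℝ) *ᵥ x) i := by
      simp only [tr, hi, ↓reduceIte]
    rw [h2]
    nth_rewrite 1 [hx]
    rw [Matrix.mulVec_add, hrest]
    simp only [Pi.add_apply, Pi.sub_apply, tr, hi, ↓reduceIte, sub_self, add_zero]
  · have h2 : tr m ((h : Matrix (Fin n) (Fin n) ℝ) *ᵥ x) i = 0 := by
      simp [tr, hi]
    rw [h2, Fx_coord hh _ i (not_le.1 hi)]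
    simp [tr, hi]

/-- normalized truncation. -/
noncomputable def nv (m : ℕ) (x : Fin n → ℝ) : Fin n → ℝ :=
  (√(tr m x ⬝ᵥ tr m x))⁻¹ • tr m x

lemma nv_mulVec {m : ℕ} {h : OG n} (hh : h ∈ Fx n m) (x : Fin n → ℝ) :
    nv m ((h : Matrix (Fin n) (Fin n) ℝ) *ᵥ x) = (h : Matrix (Fin n) (Fin n) ℝ) *ᵥ nv m x := by
  unfold nv
  rw [tr_mulVec hh, OG.dot, Matrix.mulVec_smul]

lemma nv_unit {m : ℕ} {x : Fin n → ℝ} (hx : tr m x ≠ 0) : nv m x ⬝ᵥ nv m x = 1 := by
  unfold nv
  have h0 : 0 < tr m x ⬝ᵥ tr m x := by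
    have h1 : 0 ≤ tr m x ⬝ᵥ tr m x := Finset.sum_nonneg fun i _ => mul_self_nonneg _
    rcases h1.lt_or_eq with h | h
    · exact h
    · exact absurd (dotProduct_self_eq_zero.1 h.symm) hx
  rw [smul_dotProduct, dotProduct_smul, smul_eq_mul, smul_eq_mul, ← mul_assoc, ← mul_inv,
    Real.mul_self_sqrt h0.le, inv_mul_cancel₀ h0.ne']

lemma nv_zero_of_lt {m : ℕ} {x : Fin n → ℝ} {j : Fin n} (hj : (j : ℕ) < m) : nv m x j = 0 := by
  simp only [nv, Pi.smul_apply, tr, not_le.2 hj, ↓reduceIte, smul_eq_mul, mul_zero]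

lemma rflG_mem_Fx {m : ℕ} {w : Fin n → ℝ} (hw : ∀ j : Fin n, (j : ℕ) < m → w j = 0) :
    rflG w ∈ Fx n m := by
  intro j hj
  show rfl' w *ᵥ _ = _
  rw [rfl'_mulVec, dot_single, hw j hj]; simp only [mul_zero, zero_smul, sub_zero]

lemma hk_mem_Fx {m : ℕ} (k : Fin n) (hk' : m ≤ (k : ℕ)) {v : Fin n → ℝ}
    (hv : ∀ j : Fin n, (j : ℕ) < m → v j = 0) : hk k v ∈ Fx n m := by
  have hs : ∀ j : Fin n, (j : ℕ) < m → (Pi.single k (1 : ℝ) : Fin n → ℝ) j = 0 := by
    intro j hj
    have : j ≠ k := by rintro rfl; omega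
    simp [this]
  unfold hk
  split_ifs
  · apply rflG_mem_Fx
    intro j hj
    simp [hs j hj, hv j hj]
  · apply (Fx n m).mul_mem
    · apply rflG_mem_Fx
      intro j hj
      simp [hs j hj, hv j hj]
    · apply rflG_mem_Fx
      intro j hj
      simp [hs j hj]

/-- the standard Gaussian measure on `ℝⁿ`. -/
noncomputable def gam (n : ℕ) : Measure (Fin n → ℝ) := Measure.pi fun _ => gaussianReal 0 1

instance : IsProbabilityMeasure (gam n) := by unfold gam; infer_instance

end Vale.Agent.P166.Conc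
end
end

section

section

namespace Vale.Agent.P166.Conc

open Matrix MeasureTheory ProbabilityTheory

variable {n : ℕ}

noncomputable def isoOf (h : OG n) : EuclideanSpace ℝ (Fin n) ≃ₗᵢ[ℝ] EuclideanSpace ℝ (Fin n) where
  toLinearEquiv := LinearEquiv.ofLinearMap
    (Matrix.toEuclideanLin (h : Matrix (Fin n) (Fin n) ℝ))
    (Matrix.toEuclideanLin (h : Matrix (Fin n) (Fin n) ℝ)ᵀ)
    (by
      ext x i
      simp [Matrix.toLpLin_apply, Matrix.mulVec_mulVec, OG.mul_transpose])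
    (by
      ext x i
      simp [Matrix.toLpLin_apply, Matrix.mulVec_mulVec, OG.transpose_mul])
  norm_map' := by
    intro x
    rw [EuclideanSpace.norm_eq, EuclideanSpace.norm_eq]
    congr 1
    have := OG.dot h x.ofLp x.ofLp
    simp only [dotProduct] at this
    simp only [Real.norm_eq_abs, sq, abs_mul_abs_self]
    exact this

lemma gam_map (h : OG n) :
    (gam n).map (fun x => (h : Matrix (Fin n) (Fin n) ℝ) *ᵥ x) = gam n := by
  have h1 : (gam n).map (WithLp.toLp 2) = stdGaussian (EuclideanSpace ℝ (Fin n)) :=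
    map_pi_eq_stdGaussian
  have h2 := stdGaussian_map (E := EuclideanSpace ℝ (Fin n)) (isoOf h)
  have hm : Measurable (WithLp.ofLp : EuclideanSpace ℝ (Fin n) → (Fin n → ℝ)) := by fun_prop
  have hm2 : Measurable (WithLp.toLp 2 : (Fin n → ℝ) → EuclideanSpace ℝ (Fin n)) := by fun_prop
  have h3 : (fun x : Fin n → ℝ => (h : Matrix (Fin n) (Fin n) ℝ) *ᵥ x) =
      (WithLp.ofLp : EuclideanSpace ℝ (Fin n) → (Fin n → ℝ)) ∘ (isoOf h) ∘ (WithLp.toLp 2) := by
    funext x
    rfl
  have h4 : gam n = (stdGaussian (EuclideanSpace ℝ (Fin n))).map WithLp.ofLp := by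
    rw [← h1, Measure.map_map hm hm2]
    exact Measure.map_id.symm
  rw [h3, ← Measure.map_map hm (by fun_prop), ← Measure.map_map (by fun_prop) hm2, h1, h2, ← h4]

lemma gam_ne_zero (k : Fin n) : ∀ᵐ x ∂(gam n), x k ≠ 0 := by
  have h1 : MeasurePreserving (Function.eval k) (gam n) (gaussianReal 0 1) :=
    measurePreserving_eval (fun _ => gaussianReal 0 1) k
  have h2 : ∀ᵐ y ∂(gaussianReal 0 1), y ≠ 0 := by
    have : NullSingletonClass (gaussianReal 0 1) := nullSingletonClass_gaussianReal (by norm_num)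
    exact Measure.ae_ne _ 0
  exact h1.quasiMeasurePreserving.ae h2

lemma tr_ne_zero (k : Fin n) : ∀ᵐ x ∂(gam n), tr (k : ℕ) x ≠ 0 := by
  filter_upwards [gam_ne_zero k] with x hx h0
  apply hx
  have := congrFun h0 k
  simpa [tr] using this

lemma nv_ae_unit (k : Fin n) : ∀ᵐ x ∂(gam n), nv (k : ℕ) x ⬝ᵥ nv (k : ℕ) x = 1 := by
  filter_upwards [tr_ne_zero k] with x hx using nv_unit hx

lemma measurable_tr (m : ℕ) : Measurable (tr m : (Fin n → ℝ) → (Fin n → ℝ)) := by
  refine measurable_pi_iff.2 fun i => ?_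
  unfold tr
  split_ifs
  · exact measurable_pi_apply i
  · exact measurable_const

lemma measurable_dot {α : Type*} [MeasurableSpace α] {f g : α → (Fin n → ℝ)}
    (hf : Measurable f) (hg : Measurable g) : Measurable fun a => f a ⬝ᵥ g a := by
  unfold dotProduct
  refine Finset.measurable_sum _ fun i _ => ?_
  exact ((measurable_pi_apply i).comp hf).mul ((measurable_pi_apply i).comp hg)

lemma measurable_nv (m : ℕ) : Measurable (nv m : (Fin n → ℝ) → (Fin n → ℝ)) := by
  unfold nv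
  have h := measurable_tr (n := n) m
  exact ((measurable_dot h h).sqrt.inv).smul h

section

variable [MeasurableSpace (OG n)] [BorelSpace (OG n)]

lemma measurable_rflG {α : Type*} [MeasurableSpace α] {f : α → (Fin n → ℝ)} (hf : Measurable f) :
    Measurable fun a => rflG (f a) := by
  refine measurable_OG fun i j => ?_
  have : (fun a => (rflG (f a) : Matrix (Fin n) (Fin n) ℝ) i j) =
      fun a => (1 : Matrix (Fin n) (Fin n) ℝ) i j - (2 / (f a ⬝ᵥ f a)) * (f a i * f a j) := by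
    funext a
    show rfl' (f a) i j = _
    simp [rfl', Matrix.vecMulVec_apply]
  rw [this]
  have hi := (measurable_pi_apply i).comp hf
  have hj := (measurable_pi_apply j).comp hf
  exact measurable_const.sub ((measurable_const.div (measurable_dot hf hf)).mul (hi.mul hj))

lemma measurable_hk (k : Fin n) : Measurable fun v : Fin n → ℝ => hk k v := by
  unfold hk
  refine Measurable.ite ?_ ?_ ?_
  · exact measurableSet_le (measurable_pi_apply k) measurable_const
  · exact measurable_rflG (measurable_const.sub measurable_id)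
  · exact (measurable_rflG (measurable_const.add measurable_id)).mul measurable_const

/-- the random element `hk k (nv k x)`. -/
noncomputable def Hx (k : Fin n) (x : Fin n → ℝ) : OG n := hk k (nv (k : ℕ) x)

lemma measurable_Hx (k : Fin n) : Measurable (Hx k) := (measurable_hk k).comp (measurable_nv _)

end

lemma Hx_mem (k : Fin n) (x : Fin n → ℝ) : Hx k x ∈ Fx n (k : ℕ) :=
  hk_mem_Fx k le_rfl fun _ hj => nv_zero_of_lt hj

end Vale.Agent.P166.Conc
end
end

section

section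

namespace Vale.Agent.P166.Conc

open Matrix MeasureTheory ProbabilityTheory

variable {n : ℕ} [MeasurableSpace (OG n)] [BorelSpace (OG n)]

/-- averaging operator -/
noncomputable def T (k : Fin n) (g : OG n → ℝ) (U : OG n) : ℝ := ∫ x, g (U * Hx k x) ∂(gam n)

/-- Dirichlet form of the `k`-th step. -/
noncomputable def D (ν : Measure (OG n)) (k : Fin n) (g : OG n → ℝ) : ℝ :=
  ∫ U, ∫ x, (g (U * Hx k x) - g U) ^ 2 ∂(gam n) ∂ν

/-- bounded measurable functions -/
structure BM (B : ℝ) (g : OG n → ℝ) : Prop where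
  meas : Measurable g
  bd : ∀ U, |g U| ≤ B

lemma meas_pair (k : Fin n) {g : OG n → ℝ} (hg : Measurable g) :
    Measurable fun p : OG n × (Fin n → ℝ) => g (p.1 * Hx k p.2) :=
  hg.comp (measurable_fst.mul ((measurable_Hx k).comp measurable_snd))

lemma intg {α : Type*} [MeasurableSpace α] (μ : Measure α) [IsFiniteMeasure μ] {f : α → ℝ}
    (hf : Measurable f) (C : ℝ) (hC : ∀ a, |f a| ≤ C) : Integrable f μ :=
  Integrable.of_bound hf.aestronglyMeasurable C (Filter.Eventually.of_forall fun a => by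
    simpa using hC a)

lemma BM.T {B : ℝ} {g : OG n → ℝ} (hg : BM B g) (k : Fin n) : BM B (T k g) := by
  constructor
  · have h1 : StronglyMeasurable (Function.uncurry fun (U : OG n) (x : Fin n → ℝ) =>
        g (U * Hx k x)) := (meas_pair k hg.meas).stronglyMeasurable
    exact (h1.integral_prod_right (ν := gam n)).measurable
  · intro U
    unfold Conc.T
    have h : ‖∫ x, g (U * Hx k x) ∂(gam n)‖ ≤ B * (gam n).real Set.univ :=
      norm_integral_le_of_norm_le_const (Filter.Eventually.of_forall fun x => by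
        simpa using hg.bd (U * Hx k x))
    simpa using h

lemma T_inv {m : ℕ} (k : Fin n) (hk' : (k : ℕ) = m) {g : OG n → ℝ} (hg : Measurable g)
    (hinv : ∀ U : OG n, ∀ h ∈ Fx n (m + 1), g (U * h) = g U) :
    ∀ U : OG n, ∀ h ∈ Fx n m, T k g (U * h) = T k g U := by
  intro U h hh
  unfold T
  have h1 : ∫ x, g (U * Hx k x) ∂(gam n) =
      ∫ x, g (U * Hx k ((h : Matrix (Fin n) (Fin n) ℝ) *ᵥ x)) ∂(gam n) := by
    have hmm : Measurable fun x : Fin n → ℝ => (h : Matrix (Fin n) (Fin n) ℝ) *ᵥ x :=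
      (Continuous.matrix_mulVec continuous_const continuous_id).measurable
    nth_rewrite 1 [← gam_map h]
    rw [integral_map hmm.aemeasurable]
    exact (hg.comp (measurable_const.mul (measurable_Hx k))).aestronglyMeasurable
  rw [h1]
  refine integral_congr_ae ?_
  filter_upwards [nv_ae_unit k] with x hx
  have hmem : (Hx k ((h : Matrix (Fin n) (Fin n) ℝ) *ᵥ x))⁻¹ * (h * Hx k x) ∈ Fx n (m + 1) := by
    intro j hj
    rcases Nat.lt_succ_iff_lt_or_eq.1 hj with hj | hj
    · have hall : (Hx k ((h : Matrix (Fin n) (Fin n) ℝ) *ᵥ x))⁻¹ * (h * Hx k x) ∈ Fx n m := by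
        apply (Fx n m).mul_mem ((Fx n m).inv_mem _) ((Fx n m).mul_mem hh _)
        · rw [← hk']; exact Hx_mem _ _
        · rw [← hk']; exact Hx_mem _ _
      exact hall j hj
    · have hjk : j = k := Fin.ext (by rw [hk', ← hj])
      subst hjk
      have e1 : (Hx j x : Matrix (Fin n) (Fin n) ℝ) *ᵥ Pi.single j 1 = nv (j : ℕ) x :=
        hk_mulVec j _ hx
      have hx2 : nv (j : ℕ) ((h : Matrix (Fin n) (Fin n) ℝ) *ᵥ x) =
          (h : Matrix (Fin n) (Fin n) ℝ) *ᵥ nv (j : ℕ) x := nv_mulVec (hk' ▸ hh) x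
      have hx3 : nv (j : ℕ) ((h : Matrix (Fin n) (Fin n) ℝ) *ᵥ x) ⬝ᵥ
          nv (j : ℕ) ((h : Matrix (Fin n) (Fin n) ℝ) *ᵥ x) = 1 := by
        rw [hx2, OG.dot, hx]
      have e2 : (Hx j ((h : Matrix (Fin n) (Fin n) ℝ) *ᵥ x) : Matrix (Fin n) (Fin n) ℝ) *ᵥ
          Pi.single j 1 = (h : Matrix (Fin n) (Fin n) ℝ) *ᵥ nv (j : ℕ) x := by
        rw [← hx2]; exact hk_mulVec j _ hx3
      rw [OG.coe_mul, OG.coe_mul, ← Matrix.mulVec_mulVec, ← Matrix.mulVec_mulVec, e1, ← e2,
        OG.coe_inv, Matrix.mulVec_mulVec, OG.transpose_mul, Matrix.one_mulVec]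
  have h2 := hinv (U * Hx k ((h : Matrix (Fin n) (Fin n) ℝ) *ᵥ x)) _ hmem
  rw [← h2]
  congr 1
  group

variable (ν : Measure (OG n)) [IsProbabilityMeasure ν] [ν.IsMulRightInvariant]

lemma integral_T {B : ℝ} {g : OG n → ℝ} (hg : BM B g) (k : Fin n) :
    ∫ U, T k g U ∂ν = ∫ U, g U ∂ν := by
  unfold T
  rw [integral_integral_swap]
  · simp_rw [integral_mul_right_eq_self (μ := ν) g]
    simp
  · exact intg _ (meas_pair k hg.meas) B fun p => hg.bd _

lemma BM.sq {B : ℝ} {g : OG n → ℝ} (hg : BM B g) : BM (B ^ 2) fun U => g U ^ 2 := by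
  refine ⟨hg.meas.pow_const 2, fun U => ?_⟩
  rw [abs_pow]
  exact pow_le_pow_left₀ (abs_nonneg _) (hg.bd U) 2

lemma BM.nonneg {B : ℝ} {g : OG n → ℝ} (hg : BM B g) : 0 ≤ B := (abs_nonneg _).trans (hg.bd 1)

lemma sq_diff_bd {B : ℝ} {g : OG n → ℝ} (hg : BM B g) (U V : OG n) :
    |(g U - g V) ^ 2| ≤ (2 * B) ^ 2 := by
  rw [abs_pow]
  refine pow_le_pow_left₀ (abs_nonneg _) ?_ 2
  calc |g U - g V| ≤ |g U| + |g V| := abs_sub _ _
    _ ≤ 2 * B := by linarith [hg.bd U, hg.bd V]

lemma meas_diff (k : Fin n) {g : OG n → ℝ} (hg : Measurable g) :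
    Measurable fun p : OG n × (Fin n → ℝ) => (g (p.1 * Hx k p.2) - g p.1) ^ 2 :=
  ((meas_pair k hg).sub (hg.comp measurable_fst)).pow_const 2

omit [MeasurableSpace (OG n)] [BorelSpace (OG n)] in
lemma integral_sq_sub {α : Type*} [MeasurableSpace α] (μ : Measure α) [IsProbabilityMeasure μ]
    {X : α → ℝ} (h1 : Integrable X μ) (h2 : Integrable (fun a => X a ^ 2) μ) (c : ℝ) :
    ∫ a, (X a - c) ^ 2 ∂μ = ∫ a, X a ^ 2 ∂μ - 2 * c * ∫ a, X a ∂μ + c ^ 2 := by
  have h3 : ∀ a, (X a - c) ^ 2 = X a ^ 2 - (2 * c * X a - c ^ 2) := fun a => by ring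
  have h4 : Integrable (fun a => 2 * c * X a) μ := h1.const_mul _
  have h5 : Integrable (fun a => 2 * c * X a - c ^ 2) μ := h4.sub (integrable_const _)
  simp_rw [h3]
  rw [integral_sub h2 h5, integral_sub h4 (integrable_const _), integral_const_mul]
  simp
  ring

/-- variance drop in one step. -/
lemma var_drop {B : ℝ} {g : OG n → ℝ} (hg : BM B g) (k : Fin n) :
    ∫ U, g U ^ 2 ∂ν - ∫ U, (T k g U) ^ 2 ∂ν ≤ D ν k g := by
  rw [← integral_T ν hg.sq k, ← integral_sub]
  · unfold D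
    apply integral_mono
    · refine intg ν ?_ (B ^ 2 + B ^ 2) fun U => ?_
      · exact (hg.sq.T k).meas.sub (hg.T k).sq.meas
      · exact (abs_sub _ _).trans (add_le_add ((hg.sq.T k).bd U) ((hg.T k).sq.bd U))
    · refine intg ν ?_ ((2 * B) ^ 2) fun U => ?_
      · have h1 : StronglyMeasurable (Function.uncurry fun (U : OG n) (x : Fin n → ℝ) =>
          (g (U * Hx k x) - g U) ^ 2) := (meas_diff k hg.meas).stronglyMeasurable
        exact (h1.integral_prod_right (ν := gam n)).measurable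
      · have h : ‖∫ x, (g (U * Hx k x) - g U) ^ 2 ∂(gam n)‖ ≤
            (2 * B) ^ 2 * (gam n).real Set.univ :=
          norm_integral_le_of_norm_le_const (Filter.Eventually.of_forall fun x => by
            simpa using sq_diff_bd hg (U * Hx k x) U)
        simpa using h
    · intro U
      have hm : Measurable fun x => g (U * Hx k x) :=
        hg.meas.comp (measurable_const.mul (measurable_Hx k))
      have hi1 : Integrable (fun x => g (U * Hx k x)) (gam n) := intg _ hm B fun x => hg.bd _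
      have hi2 : Integrable (fun x => g (U * Hx k x) ^ 2) (gam n) :=
        intg _ (hm.pow_const 2) (B ^ 2) fun x => hg.sq.bd _
      show ∫ x, g (U * Hx k x) ^ 2 ∂(gam n) - (∫ x, g (U * Hx k x) ∂(gam n)) ^ 2 ≤
        ∫ x, (g (U * Hx k x) - g U) ^ 2 ∂(gam n)
      rw [integral_sq_sub (gam n) hi1 hi2 (g U)]
      nlinarith [sq_nonneg (∫ x, g (U * Hx k x) ∂(gam n) - g U)]
  · exact intg ν (hg.sq.T k).meas _ (hg.sq.T k).bd
  · exact intg ν (hg.T k).sq.meas _ (hg.T k).sq.bd

omit [MeasurableSpace (OG n)] [BorelSpace (OG n)] in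
lemma sq_integral_le {α : Type*} [MeasurableSpace α] (μ : Measure α) [IsProbabilityMeasure μ]
    {X : α → ℝ} (h1 : Integrable X μ) (h2 : Integrable (fun a => X a ^ 2) μ) :
    (∫ a, X a ∂μ) ^ 2 ≤ ∫ a, X a ^ 2 ∂μ := by
  have h := integral_sq_sub μ h1 h2 (∫ a, X a ∂μ)
  have h3 : 0 ≤ ∫ a, (X a - ∫ a, X a ∂μ) ^ 2 ∂μ := integral_nonneg fun a => sq_nonneg _
  rw [h] at h3
  nlinarith

omit [MeasurableSpace (OG n)] [BorelSpace (OG n)] in
lemma Hx_conj (i k : Fin n) (hik : i < k) (x y : Fin n → ℝ) :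
    Hx i y * Hx k x = Hx k x *
      Hx i ((((Hx k x)⁻¹ : OG n) : Matrix (Fin n) (Fin n) ℝ) *ᵥ y) := by
  have hmem : (Hx k x)⁻¹ ∈ Fx n (k : ℕ) := (Fx n _).inv_mem (Hx_mem k x)
  have hmem2 : (Hx k x)⁻¹ ∈ Fx n (i : ℕ) := Fx_mono (le_of_lt hik) hmem
  have h1 := conj_hk i (nv (i : ℕ) y) (Hx k x)⁻¹ (hmem i hik)
  rw [← nv_mulVec hmem2 y] at h1
  show Hx i y * Hx k x = Hx k x * hk i (nv (i : ℕ) _)
  rw [← h1]
  show Hx i y * Hx k x = Hx k x * ((Hx k x)⁻¹ * Hx i y * (Hx k x)⁻¹⁻¹)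
  group

lemma meas_prod_left {F : OG n × (Fin n → ℝ) → ℝ} (hF : Measurable F) (ν : Measure (OG n))
    [IsProbabilityMeasure ν] : Measurable fun y => ∫ U, F (U, y) ∂ν := by
  have h1 : StronglyMeasurable (Function.uncurry fun (y : Fin n → ℝ) (U : OG n) => F (U, y)) :=
    (hF.comp measurable_swap).stronglyMeasurable
  exact (h1.integral_prod_right (ν := ν)).measurable

lemma meas_triple (i k : Fin n) {g : OG n → ℝ} (hg : Measurable g) :
    Measurable fun p : (OG n × (Fin n → ℝ)) × (Fin n → ℝ) =>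
      (g (p.1.1 * Hx i p.1.2 * Hx k p.2) - g (p.1.1 * Hx k p.2)) ^ 2 := by
  refine ((hg.comp ?_).sub (hg.comp ?_)).pow_const 2
  · exact ((measurable_fst.comp measurable_fst).mul
      ((measurable_Hx i).comp (measurable_snd.comp measurable_fst))).mul
      ((measurable_Hx k).comp measurable_snd)
  · exact (measurable_fst.comp measurable_fst).mul ((measurable_Hx k).comp measurable_snd)

lemma D_eq {B : ℝ} {g : OG n → ℝ} (hg : BM B g) (i : Fin n) :
    D ν i g = ∫ y, ∫ U, (g (U * Hx i y) - g U) ^ 2 ∂ν ∂(gam n) := by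
  unfold D
  rw [integral_integral_swap]
  exact intg _ (meas_diff i hg.meas) _ fun p => sq_diff_bd hg _ _

lemma integral_rot {Ψ : (Fin n → ℝ) → ℝ} (hΨ : Measurable Ψ) (h : OG n) :
    ∫ y, Ψ ((h : Matrix (Fin n) (Fin n) ℝ) *ᵥ y) ∂(gam n) = ∫ y, Ψ y ∂(gam n) := by
  have hmm : Measurable fun x : Fin n → ℝ => (h : Matrix (Fin n) (Fin n) ℝ) *ᵥ x :=
    (Continuous.matrix_mulVec continuous_const continuous_id).measurable
  nth_rewrite 2 [← gam_map h]
  rw [integral_map hmm.aemeasurable hΨ.aestronglyMeasurable]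

lemma D_key {B : ℝ} {g : OG n → ℝ} (hg : BM B g) (i k : Fin n) (hik : i < k) (x : Fin n → ℝ) :
    ∫ p, (g (p.1 * Hx i p.2 * Hx k x) - g (p.1 * Hx k x)) ^ 2 ∂(ν.prod (gam n)) = D ν i g := by
  have hMx : Measurable fun p : OG n × (Fin n → ℝ) =>
      (g (p.1 * Hx i p.2 * Hx k x) - g (p.1 * Hx k x)) ^ 2 := by
    refine ((hg.meas.comp ?_).sub (hg.meas.comp ?_)).pow_const 2
    · exact (measurable_fst.mul ((measurable_Hx i).comp measurable_snd)).mul measurable_const
    · exact measurable_fst.mul measurable_const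
  rw [integral_prod_symm _ (intg _ hMx _ fun p => sq_diff_bd hg _ _), D_eq ν hg]
  have hΨm : Measurable fun y : Fin n → ℝ => ∫ U, (g (U * Hx i y) - g U) ^ 2 ∂ν :=
    meas_prod_left (meas_diff i hg.meas) ν
  rw [← integral_rot hΨm (Hx k x)⁻¹]
  refine integral_congr_ae (Filter.Eventually.of_forall fun y => ?_)
  have h2 := integral_mul_right_eq_self (μ := ν)
    (fun V => (g (V * Hx i ((((Hx k x)⁻¹ : OG n) : Matrix (Fin n) (Fin n) ℝ) *ᵥ y)) - g V) ^ 2)
    (Hx k x)
  refine Eq.trans ?_ h2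
  refine integral_congr_ae (Filter.Eventually.of_forall fun U => ?_)
  show (g (U * Hx i y * Hx k x) - g (U * Hx k x)) ^ 2 =
    (g (U * Hx k x * Hx i ((((Hx k x)⁻¹ : OG n) : Matrix (Fin n) (Fin n) ℝ) *ᵥ y))
      - g (U * Hx k x)) ^ 2
  rw [mul_assoc U (Hx i y), Hx_conj i k hik x y, mul_assoc U (Hx k x)]

lemma D_jensen {B : ℝ} {g : OG n → ℝ} (hg : BM B g) (i k : Fin n) :
    D ν i (T k g) ≤ ∫ p, ∫ x,
      (g (p.1 * Hx i p.2 * Hx k x) - g (p.1 * Hx k x)) ^ 2 ∂(gam n) ∂(ν.prod (gam n)) := by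
  have hDT : D ν i (T k g) = ∫ p, (T k g (p.1 * Hx i p.2) - T k g p.1) ^ 2 ∂(ν.prod (gam n)) := by
    rw [integral_prod]
    · rfl
    · exact intg _ (meas_diff i (hg.T k).meas) _ fun p => sq_diff_bd (hg.T k) _ _
  have hI3 : Integrable (fun p : (OG n × (Fin n → ℝ)) × (Fin n → ℝ) =>
      (g (p.1.1 * Hx i p.1.2 * Hx k p.2) - g (p.1.1 * Hx k p.2)) ^ 2)
      ((ν.prod (gam n)).prod (gam n)) :=
    intg _ (meas_triple i k hg.meas) _ fun p => sq_diff_bd hg _ _
  rw [hDT]
  apply integral_mono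
  · exact intg _ (meas_diff i (hg.T k).meas) _ fun p => sq_diff_bd (hg.T k) _ _
  · exact hI3.integral_prod_left
  · intro p
    have hm1 : Measurable fun x => g (p.1 * Hx i p.2 * Hx k x) :=
      hg.meas.comp (measurable_const.mul (measurable_Hx k))
    have hm2 : Measurable fun x => g (p.1 * Hx k x) :=
      hg.meas.comp (measurable_const.mul (measurable_Hx k))
    have hi1 : Integrable (fun x => g (p.1 * Hx i p.2 * Hx k x)) (gam n) :=
      intg _ hm1 B fun x => hg.bd _
    have hi2 : Integrable (fun x => g (p.1 * Hx k x)) (gam n) :=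
      intg _ hm2 B fun x => hg.bd _
    have h1 : T k g (p.1 * Hx i p.2) - T k g p.1 =
        ∫ x, (g (p.1 * Hx i p.2 * Hx k x) - g (p.1 * Hx k x)) ∂(gam n) :=
      (integral_sub hi1 hi2).symm
    show (T k g (p.1 * Hx i p.2) - T k g p.1) ^ 2 ≤ _
    rw [h1]
    exact sq_integral_le (gam n) (hi1.sub hi2)
      (intg _ ((hm1.sub hm2).pow_const 2) _ fun x => sq_diff_bd hg _ _)

/-- contraction of the Dirichlet forms. -/
lemma D_T {B : ℝ} {g : OG n → ℝ} (hg : BM B g) (i k : Fin n) (hik : i < k) :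
    D ν i (T k g) ≤ D ν i g := by
  have hI3 : Integrable (fun p : (OG n × (Fin n → ℝ)) × (Fin n → ℝ) =>
      (g (p.1.1 * Hx i p.1.2 * Hx k p.2) - g (p.1.1 * Hx k p.2)) ^ 2)
      ((ν.prod (gam n)).prod (gam n)) :=
    intg _ (meas_triple i k hg.meas) _ fun p => sq_diff_bd hg _ _
  refine (D_jensen ν hg i k).trans (le_of_eq ?_)
  have hswap := integral_integral_swap (f := fun (p : OG n × (Fin n → ℝ)) (x : Fin n → ℝ) =>
    (g (p.1 * Hx i p.2 * Hx k x) - g (p.1 * Hx k x)) ^ 2) hI3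
  rw [hswap]
  simp_rw [D_key ν hg i k hik]
  simp

end Vale.Agent.P166.Conc
end
end

section

section

/-! Task F-S: traces as integrals and the Schur inequality. -/

open Finset MeasureTheory

namespace Vale.Agent.P166.F

end Vale.Agent.P166.F
end
end

section

section

/-!
Block rotations: an orthogonal matrix, block diagonal for the types `t`, which concentrates the
vector `c` on one reserved index of each type.
-/

open MeasureTheory Matrix

namespace Vale.Agent.P166.L

open Conc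

variable {n κ : ℕ}

/-- The mass of the block `k`. -/
noncomputable def om (t : Fin n → Fin κ) (c : Fin n → ℝ) (k : Fin κ) : ℝ :=
  ∑ j, if t j = k then c j ^ 2 else 0

lemma om_nonneg (t : Fin n → Fin κ) (c : Fin n → ℝ) (k : Fin κ) : 0 ≤ om t c k :=
  Finset.sum_nonneg fun j _ => by split_ifs <;> positivity

lemma sum_om (t : Fin n → Fin κ) (c : Fin n → ℝ) : ∑ k, om t c k = ∑ j, c j ^ 2 := by
  unfold om
  rw [Finset.sum_comm]
  refine Finset.sum_congr rfl fun j _ => ?_
  simp only [Finset.sum_ite_eq, Finset.mem_univ, ↓reduceIte]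

/-- The concentrated vector. -/
noncomputable def cv (t : Fin n → Fin κ) (r : Fin κ → Fin n) (c : Fin n → ℝ) : Fin n → ℝ :=
  fun i => if i = r (t i) then √(om t c (t i)) else 0

/-- The block Householder matrix. -/
noncomputable def bh (t : Fin n → Fin κ) (u : Fin n → ℝ) : Matrix (Fin n) (Fin n) ℝ :=
  Matrix.of fun i j => (if i = j then 1 else 0) -
    if t i = t j then 2 / om t u (t i) * (u i * u j) else 0

lemma bh_block (t : Fin n → Fin κ) (u : Fin n → ℝ) {i j : Fin n} (h : t i ≠ t j) :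
    bh t u i j = 0 := by
  have h1 : i ≠ j := fun e => h (by rw [e])
  simp only [bh, of_apply, h1, ↓reduceIte, h, sub_self]

lemma bh_mulVec (t : Fin n → Fin κ) (u c : Fin n → ℝ) (i : Fin n) :
    (bh t u *ᵥ c) i = c i - 2 / om t u (t i) * u i * ∑ j, if t j = t i then u j * c j else 0 := by
  unfold bh
  rw [Matrix.mulVec, dotProduct]
  simp only [Matrix.of_apply, sub_mul, ite_mul, one_mul, zero_mul]
  rw [Finset.sum_sub_distrib, Finset.sum_ite_eq]
  simp only [Finset.mem_univ, if_true]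
  congr 1
  rw [Finset.mul_sum]
  refine Finset.sum_congr rfl fun j _ => ?_
  by_cases h : t i = t j
  · simp only [h, if_true]; ring
  · have h' : t j ≠ t i := fun e => h e.symm
    simp only [h, ↓reduceIte, h', mul_zero]

lemma bh_mem (t : Fin n → Fin κ) (u : Fin n → ℝ) :
    bh t u ∈ Matrix.orthogonalGroup (Fin n) ℝ := by
  rw [Matrix.mem_orthogonalGroup_iff']
  have hsymm : (bh t u)ᵀ = bh t u := by
    ext i j
    simp only [bh, Matrix.transpose_apply, Matrix.of_apply]
    by_cases h : t i = t j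
    · simp only [h, if_true, eq_comm (a := j) (b := i)]
      ring
    · have h' : t j ≠ t i := fun e => h e.symm
      simp [h, h', eq_comm (a := j) (b := i)]
  rw [hsymm]
  ext i j
  have h1 : (bh t u * bh t u) i j = (bh t u *ᵥ (fun l => bh t u l j)) i := rfl
  rw [h1, bh_mulVec]
  have h2 : (∑ l, if t l = t i then u l * bh t u l j else 0) =
      if t j = t i then u j - 2 / om t u (t i) * u j * om t u (t i) else 0 := by
    have h3 : ∀ l, (if t l = t i then u l * bh t u l j else 0) =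
        (if l = j then (if t j = t i then u j else 0) else 0) -
        (if t j = t i then 2 / om t u (t i) * u j else 0) *
          (if t l = t i then u l ^ 2 else 0) := by
      intro l
      simp only [bh, Matrix.of_apply]
      by_cases h4 : t l = t i
      · by_cases h5 : t j = t i
        · have h6 : t l = t j := h4.trans h5.symm
          by_cases h7 : l = j
          · subst h7; simp only [h4, if_true]; ring
          · simp only [h4, h5, h7, if_true, if_false]; ring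
        · have h6 : t l ≠ t j := fun e => h5 (e.symm.trans h4)
          have h7 : l ≠ j := fun e => h6 (by rw [e])
          have h8 : ¬ t i = t j := fun e => h5 e.symm
          simp only [h4, ↓reduceIte, h7, h8, sub_self, mul_zero, h5, zero_mul]
      · by_cases h5 : t j = t i
        · have h7 : l ≠ j := fun e => h4 (by rw [e]; exact h5)
          simp only [h4, ↓reduceIte, h7, h5, mul_zero, sub_self]
        · simp [h4, h5]
    simp_rw [h3]
    rw [Finset.sum_sub_distrib, Finset.sum_ite_eq', ← Finset.mul_sum]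
    simp only [Finset.mem_univ, if_true]
    by_cases h5 : t j = t i
    · simp only [h5, if_true]; rfl
    · simp only [h5, ↓reduceIte, zero_mul, sub_self]
  rw [h2]
  by_cases h5 : t j = t i
  · simp only [h5, if_true]
    have h6 : t i = t j := h5.symm
    simp only [bh, Matrix.of_apply, h6, if_true, Matrix.one_apply]
    rcases eq_or_ne (om t u (t j)) 0 with h0 | h0
    · simp [h0]
    · field_simp
      ring
  · have h6 : t i ≠ t j := fun e => h5 e.symm
    have h7 : i ≠ j := fun e => h6 (by rw [e])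
    simp only [bh, of_apply, h7, ↓reduceIte, h6, sub_self, h5, mul_zero, ne_eq, not_false_eq_true, one_apply_ne]

lemma om_cv (t : Fin n → Fin κ) (r : Fin κ → Fin n) (hr : ∀ k, t (r k) = k) (c : Fin n → ℝ)
    (k : Fin κ) : om t (cv t r c) k = om t c k := by
  have h1 : ∀ j, (if t j = k then cv t r c j ^ 2 else 0) = if j = r k then om t c k else 0 := by
    intro j
    unfold cv
    by_cases h : t j = k
    · by_cases h2 : j = r k
      · subst h2
        simp only [hr, if_true, Real.sq_sqrt (om_nonneg t c k)]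
      · simp only [h, ↓reduceIte, h2, ne_eq, OfNat.ofNat_ne_zero, not_false_eq_true, zero_pow]
    · have h2 : j ≠ r k := fun e => h (by rw [e, hr])
      simp [h, h2]
  change ∑ j, (if t j = k then cv t r c j ^ 2 else 0) = _
  simp_rw [h1]
  simp only [Finset.sum_ite_eq', Finset.mem_univ, ↓reduceIte]

/-- **Concentration of a vector by a block rotation.** -/
theorem exists_block (t : Fin n → Fin κ) (r : Fin κ → Fin n) (hr : ∀ k, t (r k) = k)
    (c : Fin n → ℝ) : ∃ A : OG n, (∀ i j, t i ≠ t j → A.1 i j = 0) ∧ A.1 *ᵥ c = cv t r c := by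
  refine ⟨⟨bh t (c - cv t r c), bh_mem t _⟩, fun i j h => bh_block t _ h, ?_⟩
  funext i
  change (bh t (c - cv t r c) *ᵥ c) i = _
  rw [bh_mulVec]
  set u := c - cv t r c with hu
  have hS : om t u (t i) = 2 * ∑ j, if t j = t i then u j * c j else 0 := by
    have h1 : om t u (t i) = 2 * (∑ j, if t j = t i then u j * c j else 0) - om t c (t i)
        + om t (cv t r c) (t i) := by
      unfold om
      rw [Finset.mul_sum, ← Finset.sum_sub_distrib, ← Finset.sum_add_distrib]
      refine Finset.sum_congr rfl fun j _ => ?_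
      by_cases h : t j = t i
      · simp only [h, if_true, hu, Pi.sub_apply]; ring
      · simp [h]
    rw [h1, om_cv t r hr]
    ring
  rcases eq_or_ne (om t u (t i)) 0 with h0 | h0
  · have h1 : u i = 0 := by
      have h2 := (Finset.sum_eq_zero_iff_of_nonneg
        (fun j _ => by split_ifs <;> positivity)).1 h0 i (Finset.mem_univ i)
      simpa using h2
    have h2 : c i = cv t r c i := by
      have : c i - cv t r c i = 0 := h1
      linarith
    rw [h1]
    simp only [h2, mul_zero, zero_mul, sub_zero]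
  · have h1 : 2 / om t u (t i) * u i * ∑ j, (if t j = t i then u j * c j else 0) = u i := by
      rw [hS] at h0 ⊢
      have h3 : (∑ j, if t j = t i then u j * c j else 0) ≠ 0 := fun e => h0 (by rw [e, mul_zero])
      field_simp
    rw [h1, hu]
    simp

end Vale.Agent.P166.L
end
end

section

section

/-!
P166, lower bound: orthogonal matrices with a prescribed column, close to a given one; the gap of
the compression of the potentials.
-/

set_option linter.all false

open MeasureTheory Matrix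

namespace Vale.Agent.P166.L

open Conc

variable {κ : ℕ}

lemma lr_entry {A : Matrix (Fin κ) (Fin κ) ℝ} (hA : A ∈ orthogonalGroup (Fin κ) ℝ)
    (i j : Fin κ) : |A i j| ≤ 1 := by
  have h := congrFun (congrFun ((Matrix.mem_orthogonalGroup_iff' (Fin κ) ℝ).1 hA) j) j
  rw [Matrix.mul_apply, Matrix.one_apply_eq] at h
  have h1 : A i j ^ 2 ≤ 1 := by
    rw [← h]
    refine le_trans (le_of_eq ?_) (Finset.single_le_sum
      (f := fun i => (star A) j i * A i j) (fun i _ => ?_) (Finset.mem_univ i))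
    · simp only [Matrix.star_apply, star_trivial]
      ring
    · simp only [Matrix.star_apply, star_trivial]
      exact mul_self_nonneg _
  exact (sq_le_one_iff_abs_le_one _).1 h1

/-- Difference of the two reflections. -/
lemma lr_refl {a w : Fin κ → ℝ} (ha0 : ∀ k, 0 ≤ a k) (hw0 : ∀ k, 0 ≤ w k)
    (ha : ∑ k, a k ^ 2 = 1) (hw : ∑ k, w k ^ 2 = 1) (i j : Fin κ) :
    |rfl' (a + w) i j - rfl' a i j| ≤ 6 * ∑ k, |w k - a k| := by
  have ha1 : ∀ k, a k ≤ 1 := fun k => by
    have h : a k ^ 2 ≤ 1 := by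
      rw [← ha]
      exact Finset.single_le_sum (f := fun k => a k ^ 2) (fun k _ => sq_nonneg _)
        (Finset.mem_univ k)
    nlinarith only [h]
  have hw1 : ∀ k, w k ≤ 1 := fun k => by
    have h : w k ^ 2 ≤ 1 := by
      rw [← hw]
      exact Finset.single_le_sum (f := fun k => w k ^ 2) (fun k _ => sq_nonneg _)
        (Finset.mem_univ k)
    nlinarith only [h]
  set D : ℝ := ∑ k, |w k - a k| with hD
  have hDk : ∀ k, |w k - a k| ≤ D := fun k =>
    Finset.single_le_sum (f := fun k => |w k - a k|) (fun k _ => abs_nonneg _)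
      (Finset.mem_univ k)
  have hd1 : ∀ k, |w k - a k| ≤ 1 := fun k => by
    rw [abs_le]
    constructor <;> linarith only [hw0 k, ha1 k, ha0 k, hw1 k]
  set q : ℝ := ∑ k, (w k - a k) ^ 2 with hq
  have hqD : q ≤ D := by
    refine Finset.sum_le_sum fun k _ => ?_
    rw [← sq_abs]
    nlinarith only [hd1 k, abs_nonneg (w k - a k)]
  have hq0 : 0 ≤ q := Finset.sum_nonneg fun k _ => sq_nonneg _
  have haw : ∑ k, a k * w k = 1 - q / 2 := by
    have : q = ∑ k, w k ^ 2 - 2 * ∑ k, a k * w k + ∑ k, a k ^ 2 := by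
      rw [hq, Finset.mul_sum, ← Finset.sum_sub_distrib, ← Finset.sum_add_distrib]
      exact Finset.sum_congr rfl fun k _ => by ring
    rw [ha, hw] at this
    linarith only [this]
  have haw0 : 0 ≤ ∑ k, a k * w k :=
    Finset.sum_nonneg fun k _ => mul_nonneg (ha0 k) (hw0 k)
  have huu : (a + w) ⬝ᵥ (a + w) = 2 * (2 - q / 2) := by
    have : (a + w) ⬝ᵥ (a + w) = ∑ k, a k ^ 2 + 2 * ∑ k, a k * w k + ∑ k, w k ^ 2 := by
      rw [dotProduct, Finset.mul_sum, ← Finset.sum_add_distrib, ← Finset.sum_add_distrib]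
      exact Finset.sum_congr rfl fun k _ => by simp only [Pi.add_apply]; ring
    rw [this, ha, hw, haw]
    ring
  have haa : a ⬝ᵥ a = 1 := by
    rw [← ha]
    exact Finset.sum_congr rfl fun k _ => by ring
  set s : ℝ := 2 - q / 2 with hs
  have hs1 : 1 ≤ s := by linarith only [haw, haw0, hs]
  have e1 : rfl' (a + w) i j - rfl' a i j =
      (-(q * (a i * a j)) - 2 * a i * (w j - a j) - 2 * (w i - a i) * a j -
        (w i - a i) * (w j - a j)) / s := by
    unfold rfl'
    rw [huu, haa]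
    simp only [Matrix.sub_apply, Matrix.smul_apply, Matrix.vecMulVec_apply, smul_eq_mul,
      Pi.add_apply]
    have hs0 : s ≠ 0 := by linarith
    have hq' : q = 4 - 2 * s := by linarith only [hs]
    rw [hq']
    field_simp
    ring
  rw [e1, abs_div, abs_of_pos (by linarith only [haw, haw0, hs] : 0 < s), div_le_iff₀ (by linarith only [haw, haw0, hs])]
  have b1 : |q * (a i * a j)| ≤ D := by
    rw [abs_mul, abs_mul, abs_of_nonneg hq0, abs_of_nonneg (ha0 i), abs_of_nonneg (ha0 j)]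
    have h1 : a i * a j ≤ 1 := mul_le_one₀ (ha1 i) (ha0 j) (ha1 j)
    calc q * (a i * a j) ≤ q * 1 := mul_le_mul_of_nonneg_left h1 hq0
      _ ≤ D := by rw [mul_one]; exact hqD
  have b2 : |2 * a i * (w j - a j)| ≤ 2 * D := by
    rw [abs_mul, abs_mul, abs_of_nonneg (ha0 i), abs_two]
    have := mul_le_mul (ha1 i) (hDk j) (abs_nonneg _) zero_le_one
    linarith only [this]
  have b3 : |2 * (w i - a i) * a j| ≤ 2 * D := by
    rw [abs_mul, abs_mul, abs_of_nonneg (ha0 j), abs_two]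
    have := mul_le_mul (hDk i) (ha1 j) (ha0 j) ((abs_nonneg _).trans (hDk i))
    linarith only [this]
  have b4 : |(w i - a i) * (w j - a j)| ≤ D := by
    rw [abs_mul]
    have := mul_le_mul (hd1 i) (hDk j) (abs_nonneg _) zero_le_one
    linarith only [this]
  have hD0 : 0 ≤ D := (abs_nonneg _).trans (hDk i)
  have b5 : |-(q * (a i * a j)) - 2 * a i * (w j - a j) - 2 * (w i - a i) * a j -
        (w i - a i) * (w j - a j)| ≤ 6 * D := by
    rw [abs_le] at b1 b2 b3 b4 ⊢
    constructor <;> linarith only [b1.2, b2.2, b3.2, b4.2, b1.1, b2.1, b3.1, b4.1]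
  nlinarith only [b5, hqD, haw, haw0, hs, hq0]

/-- `A = Rot * Q`, `Rot = s_{√α + √ω} ∘ s_{√α}` (product of two reflections) maps `√α` to `√ω`. -/
theorem exists_rot {α : Fin κ → ℝ} (hα : ∀ k, 0 < α k) (hα1 : ∑ k, α k = 1) :
    ∃ C : ℝ, 0 ≤ C ∧ ∀ (ω : Fin κ → ℝ), (∀ k, 0 ≤ ω k) → ∑ k, ω k = 1 →
      ∀ (Q : Matrix (Fin κ) (Fin κ) ℝ) (k0 : Fin κ), Q ∈ orthogonalGroup (Fin κ) ℝ →
      (∀ k, Q k k0 = √(α k)) → ∃ A ∈ orthogonalGroup (Fin κ) ℝ, (∀ k, A k k0 = √(ω k)) ∧
        ∀ i j, |A i j - Q i j| ≤ C * ∑ k, |ω k - α k| := by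
  set c : ℝ := ∑ k, (√(α k))⁻¹ with hc
  have hc0 : 0 ≤ c := Finset.sum_nonneg fun k _ => by positivity
  refine ⟨(κ : ℝ) * κ * (6 * c), by positivity, ?_⟩
  intro ω hω0 hω1 Q k0 hQ hQc
  set a : Fin κ → ℝ := fun k => √(α k) with ha
  set w : Fin κ → ℝ := fun k => √(ω k) with hw
  have ha0 : ∀ k, 0 ≤ a k := fun k => Real.sqrt_nonneg _
  have hw0 : ∀ k, 0 ≤ w k := fun k => Real.sqrt_nonneg _
  have ha2 : ∑ k, a k ^ 2 = 1 := by
    rw [← hα1]
    exact Finset.sum_congr rfl fun k _ => Real.sq_sqrt (hα k).le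
  have hw2 : ∑ k, w k ^ 2 = 1 := by
    rw [← hω1]
    exact Finset.sum_congr rfl fun k _ => Real.sq_sqrt (hω0 k)
  have hcol : Q *ᵥ Pi.single k0 1 = a := by
    rw [Matrix.mulVec_single_one]
    funext k
    exact hQc k
  have haa : a ⬝ᵥ a = 1 := by
    rw [← ha2]
    exact Finset.sum_congr rfl fun k _ => by ring
  have hww : w ⬝ᵥ w = 1 := by
    rw [← hw2]
    exact Finset.sum_congr rfl fun k _ => by ring
  have haw0 : 0 ≤ a ⬝ᵥ w := Finset.sum_nonneg fun k _ => mul_nonneg (ha0 k) (hw0 k)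
  refine ⟨rfl' (a + w) * (rfl' a * Q), ?_, ?_, ?_⟩
  · exact mul_mem (rfl'_mem _) (mul_mem (rfl'_mem _) hQ)
  · intro k
    have h1 : (rfl' (a + w) * (rfl' a * Q)) *ᵥ Pi.single k0 1 = w := by
      rw [← Matrix.mulVec_mulVec, ← Matrix.mulVec_mulVec, hcol]
      have h2 : rfl' a *ᵥ a = -a := by
        rw [rfl'_mulVec, haa]
        funext i
        simp only [Pi.sub_apply, Pi.smul_apply, Pi.neg_apply, smul_eq_mul]
        ring
      rw [h2, Matrix.mulVec_neg, rfl'_mulVec]
      have h3 : (a + w) ⬝ᵥ (a + w) = 2 * (1 + a ⬝ᵥ w) := by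
        rw [add_dotProduct, dotProduct_add, dotProduct_add, haa, hww, dotProduct_comm w a]
        ring
      have h4 : (a + w) ⬝ᵥ a = 1 + a ⬝ᵥ w := by
        rw [add_dotProduct, haa, dotProduct_comm w a]
      rw [h3, h4]
      have h5 : 2 / (2 * (1 + a ⬝ᵥ w)) * (1 + a ⬝ᵥ w) = 1 := by
        have : 1 + a ⬝ᵥ w ≠ 0 := by linarith only [haw0]
        field_simp
      rw [h5, one_smul]
      abel
    have h2 := congrFun h1 k
    rw [Matrix.mulVec_single_one] at h2
    exact h2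
  · intro i j
    have hD : ∑ k, |w k - a k| ≤ c * ∑ k, |ω k - α k| := by
      rw [Finset.mul_sum]
      refine Finset.sum_le_sum fun k _ => ?_
      have hak : 0 < a k := Real.sqrt_pos.2 (hα k)
      have h1 : |ω k - α k| = |w k - a k| * (w k + a k) := by
        have : ω k - α k = (w k - a k) * (w k + a k) := by
          have e1 : w k ^ 2 = ω k := Real.sq_sqrt (hω0 k)
          have e2 : a k ^ 2 = α k := Real.sq_sqrt (hα k).le
          rw [← e1, ← e2]
          ring
        rw [this, abs_mul, abs_of_nonneg (add_nonneg (hw0 k) (ha0 k))]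
      have h2 : (a k)⁻¹ ≤ c :=
        Finset.single_le_sum (f := fun k => (√(α k))⁻¹) (fun k _ => by positivity)
          (Finset.mem_univ k)
      calc |w k - a k| = (a k)⁻¹ * (|w k - a k| * a k) := by field_simp
        _ ≤ (a k)⁻¹ * (|w k - a k| * (w k + a k)) := by
            refine mul_le_mul_of_nonneg_left ?_ (inv_pos.2 hak).le
            exact mul_le_mul_of_nonneg_left (by linarith only [hw0 k]) (abs_nonneg _)
        _ = (a k)⁻¹ * |ω k - α k| := by rw [h1]
        _ ≤ c * |ω k - α k| := mul_le_mul_of_nonneg_right h2 (abs_nonneg _)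
    have hD' : 6 * ∑ k, |w k - a k| ≤ 6 * (c * ∑ k, |ω k - α k|) := by linarith only [hD]
    have h1 : rfl' (a + w) * (rfl' a * Q) - Q = (rfl' (a + w) - rfl' a) * (rfl' a * Q) := by
      rw [Matrix.sub_mul, ← Matrix.mul_assoc (rfl' a) (rfl' a) Q, rfl'_mul_self, Matrix.one_mul]
    have h2 : (rfl' (a + w) * (rfl' a * Q)) i j - Q i j =
        ∑ k, (rfl' (a + w) i k - rfl' a i k) * (rfl' a * Q) k j := by
      have := congrFun (congrFun h1 i) j
      rw [Matrix.mul_apply] at this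
      exact this
    rw [h2]
    have hR : rfl' a * Q ∈ orthogonalGroup (Fin κ) ℝ := mul_mem (rfl'_mem _) hQ
    have hS0 : 0 ≤ ∑ k, |w k - a k| := Finset.sum_nonneg fun k _ => abs_nonneg _
    have h3 : |∑ k, (rfl' (a + w) i k - rfl' a i k) * (rfl' a * Q) k j| ≤
        ∑ k : Fin κ, 6 * ∑ k, |w k - a k| := by
      refine (Finset.abs_sum_le_sum_abs _ _).trans (Finset.sum_le_sum fun k _ => ?_)
      rw [abs_mul]
      calc _ ≤ (6 * ∑ k, |w k - a k|) * 1 :=
            mul_le_mul (lr_refl ha0 hw0 ha2 hw2 i k) (lr_entry hR k j) (abs_nonneg _)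
              (by positivity)
        _ = _ := mul_one _
    refine h3.trans ?_
    rw [Finset.sum_const, Finset.card_univ, Fintype.card_fin, nsmul_eq_mul]
    have hκ : (1 : ℝ) ≤ κ := by
      have : 1 ≤ κ := Nat.one_le_iff_ne_zero.2 fun h => by
        subst h
        exact i.elim0
      exact_mod_cast this
    have hT : 0 ≤ 6 * (c * ∑ k, |ω k - α k|) :=
      mul_nonneg (by norm_num) (mul_nonneg hc0 (Finset.sum_nonneg fun k _ => abs_nonneg _))
    calc (κ : ℝ) * (6 * ∑ k, |w k - a k|) ≤ κ * (6 * (c * ∑ k, |ω k - α k|)) :=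
          mul_le_mul_of_nonneg_left hD' (by positivity)
      _ = (κ * 1) * (6 * (c * ∑ k, |ω k - α k|)) := by ring
      _ ≤ (κ * κ) * (6 * (c * ∑ k, |ω k - α k|)) :=
          mul_le_mul_of_nonneg_right (mul_le_mul_of_nonneg_left hκ (by positivity)) hT
      _ = _ := by ring

lemma lr_conj (A : Matrix (Fin κ) (Fin κ) ℝ) (b : Fin κ → ℝ) (i j : Fin κ) :
    (Aᵀ * diagonal b * A) i j = ∑ k, A k i * b k * A k j := by
  rw [Matrix.mul_apply]
  refine Finset.sum_congr rfl fun k _ => ?_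
  rw [Matrix.mul_diagonal, Matrix.transpose_apply]

/-- The same with the potentials. -/
theorem exists_rot_pot {α : Fin κ → ℝ} (hα : ∀ k, 0 < α k) (hα1 : ∑ k, α k = 1)
    (b : Fin κ → ℝ) :
    ∃ C : ℝ, 0 ≤ C ∧ ∀ (ω : Fin κ → ℝ), (∀ k, 0 ≤ ω k) → ∑ k, ω k = 1 →
      ∀ (Q : Matrix (Fin κ) (Fin κ) ℝ) (k0 : Fin κ), Q ∈ orthogonalGroup (Fin κ) ℝ →
      (∀ k, Q k k0 = √(α k)) → ∃ A ∈ orthogonalGroup (Fin κ) ℝ, (∀ k, A k k0 = √(ω k)) ∧
        ∀ (b' : Fin κ → ℝ) (dl : ℝ), (∀ k, |b' k - b k| ≤ dl) → dl ≤ 1 → ∀ i j,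
          |(Aᵀ * diagonal b' * A) i j - (Qᵀ * diagonal b * Q) i j| ≤
            C * (∑ k, |ω k - α k| + dl) := by
  obtain ⟨C, hC, h⟩ := exists_rot hα hα1
  set B : ℝ := ∑ k, |b k| with hB
  have hB0 : 0 ≤ B := Finset.sum_nonneg fun k _ => abs_nonneg _
  refine ⟨κ * (C * (2 * B + 1) + 1), by positivity, ?_⟩
  intro ω hω0 hω1 Q k0 hQ hQc
  obtain ⟨A, hA, hAc, hAQ⟩ := h ω hω0 hω1 Q k0 hQ hQc
  refine ⟨A, hA, hAc, ?_⟩
  intro b' dl hdl hdl1 i j
  set S : ℝ := ∑ k, |ω k - α k| with hS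
  have hS0 : 0 ≤ S := Finset.sum_nonneg fun k _ => abs_nonneg _
  have hdl0 : 0 ≤ dl := (abs_nonneg _).trans (hdl i)
  have hbk : ∀ k, |b k| ≤ B := fun k =>
    Finset.single_le_sum (f := fun k => |b k|) (fun k _ => abs_nonneg _) (Finset.mem_univ k)
  have hbk' : ∀ k, |b' k| ≤ B + 1 := fun k => by
    have : b' k = b k + (b' k - b k) := by ring
    rw [this]
    refine (abs_add_le _ _).trans ?_
    linarith only [hdl1, hbk k, hdl k]
  rw [lr_conj, lr_conj, ← Finset.sum_sub_distrib]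
  have hterm : ∀ k, |A k i * b' k * A k j - Q k i * b k * Q k j| ≤
      C * S * (B + 1) + dl + C * S * B := by
    intro k
    have e : A k i * b' k * A k j - Q k i * b k * Q k j =
        (A k i - Q k i) * b' k * A k j + Q k i * (b' k - b k) * A k j +
          Q k i * b k * (A k j - Q k j) := by ring
    rw [e]
    have t1 : |(A k i - Q k i) * b' k * A k j| ≤ C * S * (B + 1) := by
      rw [abs_mul, abs_mul]
      calc _ ≤ (C * S) * (B + 1) * 1 :=
            mul_le_mul (mul_le_mul (hAQ k i) (hbk' k) (abs_nonneg _) (by positivity))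
              (lr_entry hA k j) (abs_nonneg _) (by positivity)
        _ = _ := mul_one _
    have t2 : |Q k i * (b' k - b k) * A k j| ≤ dl := by
      rw [abs_mul, abs_mul]
      calc _ ≤ 1 * dl * 1 :=
            mul_le_mul (mul_le_mul (lr_entry hQ k i) (hdl k) (abs_nonneg _) zero_le_one)
              (lr_entry hA k j) (abs_nonneg _) (by positivity)
        _ = _ := by ring
    have t3 : |Q k i * b k * (A k j - Q k j)| ≤ C * S * B := by
      rw [abs_mul, abs_mul]
      calc _ ≤ 1 * B * (C * S) :=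
            mul_le_mul (mul_le_mul (lr_entry hQ k i) (hbk k) (abs_nonneg _) zero_le_one)
              (hAQ k j) (abs_nonneg _) (by positivity)
        _ = _ := by ring
    calc _ ≤ |(A k i - Q k i) * b' k * A k j| + |Q k i * (b' k - b k) * A k j| +
          |Q k i * b k * (A k j - Q k j)| :=
        (abs_add_le _ _).trans (add_le_add (abs_add_le _ _) le_rfl)
      _ ≤ _ := add_le_add (add_le_add t1 t2) t3
  refine (Finset.abs_sum_le_sum_abs _ _).trans ((Finset.sum_le_sum fun k _ => hterm k).trans ?_)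
  rw [Finset.sum_const, Finset.card_univ, Fintype.card_fin, nsmul_eq_mul]
  have hκ : (0 : ℝ) ≤ κ := Nat.cast_nonneg _
  rw [mul_assoc (κ : ℝ)]
  refine mul_le_mul_of_nonneg_left ?_ hκ
  have h1 : 0 ≤ C * (2 * B + 1) * dl := by positivity
  have h2 : (C * (2 * B + 1) + 1) * (S + dl) = C * S * (B + 1) + dl + C * S * B + S +
      C * (2 * B + 1) * dl := by ring
  linarith only [hS0, h1]

/-- The gap of the compression of `diag b` to the orthogonal complement of `√ω`. -/
theorem compression_gap {n : ℕ} {b ω : Fin (n + 1) → ℝ} {h : ℝ} (h0 : 0 ≤ h)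
    (hb : ∀ k, k ≠ Fin.last n → b k ≤ b (Fin.last n) - h) (hω : ∀ k, 0 ≤ ω k)
    (hω1 : ∑ k, ω k = 1) {A : Matrix (Fin (n + 1)) (Fin (n + 1)) ℝ} {k0 : Fin (n + 1)}
    (hA : A ∈ orthogonalGroup (Fin (n + 1)) ℝ) (hc : ∀ k, A k k0 = √(ω k)) (v : Fin n → ℝ) :
    ∑ i, ∑ j, (Aᵀ * diagonal b * A) (k0.succAbove i) (k0.succAbove j) * (v i * v j) ≤
      (b (Fin.last n) - h * ω (Fin.last n)) * ∑ j, v j ^ 2 := by
  have hort : ∀ i j, ∑ k, A k i * A k j = if i = j then 1 else 0 := by
    intro i j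
    have := congrFun (congrFun ((Matrix.mem_orthogonalGroup_iff' (Fin (n + 1)) ℝ).1 hA) i) j
    rw [Matrix.mul_apply, Matrix.one_apply] at this
    rw [← this]
    rfl
  set x : Fin (n + 1) → ℝ := fun k => ∑ i, A k (k0.succAbove i) * v i with hx
  have hsum : ∀ c : Fin (n + 1) → ℝ,
      ∑ i, ∑ j, (∑ k, A k (k0.succAbove i) * c k * A k (k0.succAbove j)) * (v i * v j) =
      ∑ k, c k * x k ^ 2 := by
    intro c
    have h1 : ∀ k, c k * x k ^ 2 = ∑ i, ∑ j, A k (k0.succAbove i) * c k *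
        A k (k0.succAbove j) * (v i * v j) := by
      intro k
      rw [hx, sq, Finset.sum_mul_sum, Finset.mul_sum]
      refine Finset.sum_congr rfl fun i _ => ?_
      rw [Finset.mul_sum]
      exact Finset.sum_congr rfl fun j _ => by ring
    simp_rw [h1, Finset.sum_mul]
    rw [Finset.sum_comm]
    calc _ = ∑ i, ∑ k, ∑ j, A k (k0.succAbove i) * c k *
          A k (k0.succAbove j) * (v i * v j) := by
          rw [Finset.sum_comm]
          exact Finset.sum_congr rfl fun i _ => Finset.sum_comm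
      _ = _ := Finset.sum_comm
  have hn : ∑ k, x k ^ 2 = ∑ j, v j ^ 2 := by
    have h1 := hsum fun _ => 1
    simp only [mul_one, one_mul, hort] at h1
    rw [← h1]
    refine Finset.sum_congr rfl fun i _ => ?_
    rw [Finset.sum_eq_single i]
    · rw [if_pos rfl]
      ring
    · intro j _ hj
      rw [if_neg, zero_mul]
      exact fun e => hj (Fin.succAbove_right_injective e).symm
    · intro h
      exact absurd (Finset.mem_univ i) h
  have hperp : ∑ k, √(ω k) * x k = 0 := by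
    have h1 : ∑ k, √(ω k) * x k = ∑ i, (∑ k, A k k0 * A k (k0.succAbove i)) * v i := by
      simp_rw [hx, Finset.mul_sum, Finset.sum_mul]
      rw [Finset.sum_comm]
      refine Finset.sum_congr rfl fun i _ => Finset.sum_congr rfl fun k _ => ?_
      rw [hc k]
      ring
    rw [h1]
    refine Finset.sum_eq_zero fun i _ => ?_
    rw [hort, if_neg (Fin.succAbove_ne k0 i).symm, zero_mul]
  simp_rw [lr_conj]
  rw [hsum b, ← hn]
  clear_value x
  set L := Fin.last n with hL
  have hlast : x L ^ 2 ≤ (1 - ω L) * ∑ k, x k ^ 2 := by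
    have e1 : √(ω L) * x L = -∑ k ∈ Finset.univ.erase L, √(ω k) * x k := by
      have := Finset.add_sum_erase Finset.univ (fun k => √(ω k) * x k) (Finset.mem_univ L)
      linarith
    have e2 : (∑ k ∈ Finset.univ.erase L, √(ω k) * x k) ^ 2 ≤
        (∑ k ∈ Finset.univ.erase L, √(ω k) ^ 2) * ∑ k ∈ Finset.univ.erase L, x k ^ 2 :=
      Finset.sum_mul_sq_le_sq_mul_sq _ _ _
    have e3 : ∑ k ∈ Finset.univ.erase L, √(ω k) ^ 2 = 1 - ω L := by
      have := Finset.add_sum_erase Finset.univ (fun k => ω k) (Finset.mem_univ L)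
      rw [hω1] at this
      rw [Finset.sum_congr rfl fun k _ => Real.sq_sqrt (hω k)]
      linarith only [this]
    have e4 : ∑ k ∈ Finset.univ.erase L, x k ^ 2 = ∑ k, x k ^ 2 - x L ^ 2 := by
      have := Finset.add_sum_erase Finset.univ (fun k => x k ^ 2) (Finset.mem_univ L)
      linarith only [this]
    rw [e3, e4] at e2
    have e5 : (√(ω L) * x L) ^ 2 = ω L * x L ^ 2 := by
      rw [mul_pow, Real.sq_sqrt (hω L)]
    have e6 : (√(ω L) * x L) ^ 2 = (∑ k ∈ Finset.univ.erase L, √(ω k) * x k) ^ 2 := by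
      rw [e1, neg_sq]
    linarith only [e2, e5, e6]
  have hmain : ∑ k, b k * x k ^ 2 ≤ (b L - h) * ∑ k, x k ^ 2 + h * x L ^ 2 := by
    have h1 : ∀ k ∈ Finset.univ, b k * x k ^ 2 ≤
        (b L - h) * x k ^ 2 + if k = L then h * x k ^ 2 else 0 := by
      intro k _
      by_cases hk : k = L
      · rw [if_pos hk, hk]
        linarith only []
      · rw [if_neg hk, add_zero]
        exact mul_le_mul_of_nonneg_right (hb k hk) (sq_nonneg _)
    refine (Finset.sum_le_sum h1).trans ?_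
    rw [Finset.sum_add_distrib, ← Finset.mul_sum, Finset.sum_ite_eq' Finset.univ L,
      if_pos (Finset.mem_univ L)]
  refine hmain.trans ?_
  have := mul_le_mul_of_nonneg_left hlast h0
  linarith only [this]

end Vale.Agent.P166.L
end
end

section

section

/-!
Definitions for the upper bound for general potentials (module U-ALL): a finite system with
standard Gaussian coordinates `z : ι → ℝ` organized in levels, the exponents `m`, the tilted
conditional averages `T l` and the tilted average `Ex`.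
-/

open MeasureTheory ProbabilityTheory

namespace Vale.Agent.P157.Lv

variable {ι X : Type}

namespace Sy

variable [Fintype ι] [Fintype X] (S : Sy ι X)

end Sy

end Vale.Agent.P157.Lv
end
end

section

section

open MeasureTheory ProbabilityTheory

namespace Vale.Agent.P367.GT

variable {ι : Type*} [DecidableEq ι]

variable [Fintype ι]

end Vale.Agent.P367.GT
end
end

section

section

/-!
Functions of exponential growth on `ℝ^ι`, averages over the higher levels, partial derivatives.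
-/

open MeasureTheory ProbabilityTheory Filter Topology

namespace Vale.Agent.P157.Lv

variable {ι : Type} [Fintype ι]

section eg

end eg

section J

variable {lev : ι → ℕ} {l : ℕ}

end J

section stein

end stein

section pd

variable [DecidableEq ι] {e : ι}

end pd

end Vale.Agent.P157.Lv
end
end

section

section

/-!
The tilted chain of a system: log-weights, densities, tilted conditional averages.
-/

open MeasureTheory ProbabilityTheory Filter Topology

namespace Vale.Agent.P157.Lv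

set_option linter.unusedSectionVars false

variable {ι X : Type} [Fintype ι] [Fintype X] [Nonempty X] {S : Sy ι X}

namespace Sy

/-! ### The log-weights -/

/-! ### The densities -/

/-! ### The Gibbs average -/

/-! ### Observables -/

/-! ### The tilted conditional average -/

/-! ### The tilted average -/

end Sy

end Vale.Agent.P157.Lv
end
end

section

section

/-!
Derivatives of the log-weights and of the tilted averages, integration by parts.
-/

open MeasureTheory ProbabilityTheory Filter Topology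

namespace Vale.Agent.P157.Lv

set_option linter.unusedSectionVars false

variable {ι X : Type} [Fintype ι] [DecidableEq ι] [Fintype X] [Nonempty X] {S : Sy ι X}
  {D : ι → (ι → ℝ) → X → ℝ}

namespace Sy

end Sy

end Vale.Agent.P157.Lv
end
end

section

section

/-!
Synchronization: if the fields `∑ z_{l,i} φ_i(x)` of all levels are concentrated, then the overlap
of two replicas is concentrated given the level at which they split (up to the increments of the
overlap path).
-/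

open MeasureTheory ProbabilityTheory Filter Topology

namespace Vale.Agent.P157.Lv

set_option linter.unusedSectionVars false

variable {ι X : Type} [Fintype ι] [DecidableEq ι] [Fintype X] [DecidableEq X] [Nonempty X]
  {S : Sy ι X} {D : ι → (ι → ℝ) → X → ℝ} {N : ℕ}

namespace Sy

end Sy

namespace Sy

variable {φ : X → Fin N → ℝ} {zc : ℕ → Fin N → ι} {s : ℕ → ℝ}

end Sy

namespace Fld

open Sy

variable {φ : X → Fin N → ℝ} {zc : ℕ → Fin N → ι} {s : ℕ → ℝ} (F : Fld S D φ zc s)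

include F

end Fld
end Vale.Agent.P157.Lv
end
end

section

section

/-!
Comparison of two systems which differ by their energies.
-/

open MeasureTheory ProbabilityTheory Filter Topology

namespace Vale.Agent.P157.Lv

set_option linter.unusedSectionVars false

variable {ι X : Type} [Fintype ι] [Fintype X] [Nonempty X] {S : Sy ι X}
  {H' : (ι → ℝ) → X → ℝ}

namespace Sy

/-! ### One step of the recursion -/

end Sy

end Vale.Agent.P157.Lv
end
end

section

section

set_option linter.all false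

/-!
Measurable families of systems: the averages are measurable functions of the parameter.
-/

open MeasureTheory ProbabilityTheory

namespace Vale.Agent.P166.U

open Vale.Agent.P157.Lv

variable {ι X Ω : Type} [Fintype ι] [Fintype X] [MeasurableSpace Ω] {S : Sy ι X}
  {H : Ω → (ι → ℝ) → X → ℝ}

/-- The average over the higher levels of a jointly measurable function. -/
theorem meas_J {lev : ι → ℕ} {l : ℕ} {f : Ω → (ι → ℝ) → ℝ}
    (hf : Measurable fun p : Ω × (ι → ℝ) => f p.1 p.2) :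
    Measurable fun p : Ω × (ι → ℝ) => J lev l (f p.1) p.2 := by
  have hmix : Measurable fun q : (Ω × (ι → ℝ)) × (ι → ℝ) => mix lev l q.1.2 q.2 := by
    refine measurable_pi_lambda _ fun e => ?_
    unfold mix
    split_ifs
    · exact (measurable_pi_apply e).comp (measurable_snd.comp measurable_fst)
    · exact (measurable_pi_apply e).comp measurable_snd
  have h : Measurable fun q : (Ω × (ι → ℝ)) × (ι → ℝ) => f q.1.1 (mix lev l q.1.2 q.2) :=
    hf.comp ((measurable_fst.comp measurable_fst).prodMk hmix)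
  exact (h.stronglyMeasurable.integral_prod_right' (ν := gI ι)).measurable

/-- The integral over the fields of a jointly measurable function. -/
theorem meas_int {f : Ω → (ι → ℝ) → ℝ} (hf : Measurable fun p : Ω × (ι → ℝ) => f p.1 p.2) :
    Measurable fun ω => ∫ z, f ω z ∂(gI ι) :=
  (hf.stronglyMeasurable.integral_prod_right' (ν := gI ι)).measurable

theorem meas_lg (hH : ∀ x, Measurable fun p : Ω × (ι → ℝ) => H p.1 p.2 x) {l : ℕ} (hl : l ≤ S.K) :
    Measurable fun p : Ω × (ι → ℝ) => (S.wH (H p.1)).lg l p.2 := by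
  have key : ∀ d l, l + d = S.K → Measurable fun p : Ω × (ι → ℝ) => (S.wH (H p.1)).lg l p.2 := by
    intro d
    induction d with
    | zero =>
      intro l h
      have e : (fun p : Ω × (ι → ℝ) => (S.wH (H p.1)).lg l p.2) =
          fun p => Real.log (∑ x, Real.exp (H p.1 p.2 x)) := by
        funext p
        have h1 : (S.wH (H p.1)).K - l = 0 := by
          change S.K - l = 0
          omega
        unfold Sy.lg
        rw [h1]
        rfl
      rw [e]
      exact Real.measurable_log.comp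
        (Finset.measurable_fun_sum _ fun x _ => Real.measurable_exp.comp (hH x))
    | succ d ih =>
      intro l h
      have h2 := ih (l + 1) (by omega)
      have e : (fun p : Ω × (ι → ℝ) => (S.wH (H p.1)).lg l p.2) =
          fun p => 1 / S.m (l + 1) * Real.log (J S.lev l
            (fun z => Real.exp (S.m (l + 1) * (S.wH (H p.1)).lg (l + 1) z)) p.2) := by
        funext p
        have h1 : (S.wH (H p.1)).K - l = ((S.wH (H p.1)).K - (l + 1)) + 1 := by
          change S.K - l = (S.K - (l + 1)) + 1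
          omega
        unfold Sy.lg
        rw [h1]
        rfl
      rw [e]
      refine Measurable.const_mul (Real.measurable_log.comp ?_) _
      exact meas_J (f := fun w z => Real.exp (S.m (l + 1) * (S.wH (H w)).lg (l + 1) z))
        (Real.measurable_exp.comp (h2.const_mul _))
  exact key (S.K - l) l (by omega)

theorem meas_dn (hH : ∀ x, Measurable fun p : Ω × (ι → ℝ) => H p.1 p.2 x) (l : ℕ) :
    Measurable fun p : Ω × (ι → ℝ) => (S.wH (H p.1)).dn l p.2 := by
  have e : (fun p : Ω × (ι → ℝ) => (S.wH (H p.1)).dn l p.2) = fun p =>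
      Real.exp (∑ i ∈ Finset.Ico l S.K,
        S.m (i + 1) * ((S.wH (H p.1)).lg (i + 1) p.2 - (S.wH (H p.1)).lg i p.2)) := rfl
  rw [e]
  refine Real.measurable_exp.comp (Finset.measurable_fun_sum _ fun i hi => ?_)
  have hi' := (Finset.mem_Ico.mp hi).2
  exact ((meas_lg hH (by omega)).sub (meas_lg hH (by omega))).const_mul _

theorem meas_av (hH : ∀ x, Measurable fun p : Ω × (ι → ℝ) => H p.1 p.2 x)
    {h : Ω → (ι → ℝ) → X → ℝ} (hh : ∀ x, Measurable fun p : Ω × (ι → ℝ) => h p.1 p.2 x) :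
    Measurable fun p : Ω × (ι → ℝ) => (S.wH (H p.1)).av (h p.1) p.2 := by
  have e : (fun p : Ω × (ι → ℝ) => (S.wH (H p.1)).av (h p.1) p.2) = fun p =>
      ∑ x, Real.exp (H p.1 p.2 x) / (∑ x', Real.exp (H p.1 p.2 x')) * h p.1 p.2 x := rfl
  rw [e]
  refine Finset.measurable_fun_sum _ fun x _ => ?_
  exact ((Real.measurable_exp.comp (hH x)).div
    (Finset.measurable_fun_sum _ fun x' _ => Real.measurable_exp.comp (hH x'))).mul (hh x)

theorem meas_T (hH : ∀ x, Measurable fun p : Ω × (ι → ℝ) => H p.1 p.2 x)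
    {h : Ω → (ι → ℝ) → X → ℝ} (hh : ∀ x, Measurable fun p : Ω × (ι → ℝ) => h p.1 p.2 x) (l : ℕ) :
    Measurable fun p : Ω × (ι → ℝ) => (S.wH (H p.1)).T l (h p.1) p.2 :=
  meas_J (lev := S.lev) (f := fun w z => (S.wH (H w)).dn l z * (S.wH (H w)).av (h w) z)
    ((meas_dn hH l).mul (meas_av hH hh))

theorem meas_Ex (hH : ∀ x, Measurable fun p : Ω × (ι → ℝ) => H p.1 p.2 x)
    {h : Ω → (ι → ℝ) → X → ℝ} (hh : ∀ x, Measurable fun p : Ω × (ι → ℝ) => h p.1 p.2 x) :
    Measurable fun ω => (S.wH (H ω)).Ex (h ω) :=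
  meas_int (f := fun w z => (S.wH (H w)).dn 0 z * (S.wH (H w)).av (h w) z)
    ((meas_dn hH 0).mul (meas_av hH hh))

theorem meas_pairEx [DecidableEq X] (hH : ∀ x, Measurable fun p : Ω × (ι → ℝ) => H p.1 p.2 x)
    {ψ : Ω → X → X → ℝ} (hψ : ∀ x x', Measurable fun ω => ψ ω x x') (l : ℕ) :
    Measurable fun ω => (S.wH (H ω)).pairEx l (ψ ω) := by
  have hpr : ∀ x, Measurable fun p : Ω × (ι → ℝ) => (S.wH (H p.1)).pr l p.2 x := fun x =>
    meas_T (h := fun _ _ y => if y = x then 1 else 0) hH (fun y => measurable_const) l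
  refine meas_Ex (h := fun w z _ =>
    ∑ x, ∑ x', (S.wH (H w)).pr l z x * (S.wH (H w)).pr l z x' * ψ w x x') hH fun _ => ?_
  refine Finset.measurable_fun_sum _ fun x _ => Finset.measurable_fun_sum _ fun x' _ => ?_
  exact ((hpr x).mul (hpr x')).mul ((hψ x x').comp measurable_fst)

theorem meas_fe (hH : ∀ x, Measurable fun p : Ω × (ι → ℝ) => H p.1 p.2 x) :
    Measurable fun ω => (S.wH (H ω)).fe :=
  meas_int (f := fun w z => (S.wH (H w)).lg 0 z) (meas_lg hH (Nat.zero_le _))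

end Vale.Agent.P166.U
end
end

section

section

/-!
General systems with Haar patterns: the energy is `E0(z, x)` plus the terms which depend on the
orthogonal matrix `U` through `y = U (sg x)`: quadratic terms with one coupling for each pattern,
linear terms `kap_i(x) y_i` and Gaussian fields of strengths `u_{i,l}`.
-/

open MeasureTheory ProbabilityTheory Filter Topology Matrix
open Vale.Agent.P157.Lv Vale.Agent.P157.Lv.Sy

namespace Vale.Agent.P166.H

open Vale.Agent

set_option linter.unusedSectionVars false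

/-- A system with Haar patterns. -/
structure GS (N : ℕ) (ι X : Type) where
  /-- the levels of the coordinates -/
  lev : ι → ℕ
  K : ℕ
  m : ℕ → ℝ
  /-- the vectors of the configurations -/
  sg : X → Fin N → ℝ
  /-- the part of the energy which does not depend on `U` -/
  E0 : (ι → ℝ) → X → ℝ
  lam : Fin N → ℝ
  kap : Fin N → X → ℝ
  u : Fin N → ℕ → ℝ
  /-- the coordinates of the pattern fields -/
  bc : ℕ → Fin N → ι

variable {N : ℕ} {ι X : Type}

namespace GS

variable (A : GS N ι X)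

/-- The pattern coordinates of a configuration. -/
def y (U : Matrix (Fin N) (Fin N) ℝ) (x : X) : Fin N → ℝ := U *ᵥ A.sg x

/-- The part of the energy which depends on the vector `v = y` (`w` are the fields). -/
noncomputable def ev (w : ℕ → Fin N → ℝ) (v : Fin N → ℝ) (x : X) : ℝ :=
  ∑ i, A.lam i / 2 * v i ^ 2 + ∑ i, A.kap i x * v i +
    ∑ l ∈ Finset.range (A.K + 1), ∑ i, A.u i l * (w l i * v i)

/-- The energy. -/
noncomputable def en (U : Matrix (Fin N) (Fin N) ℝ) : (ι → ℝ) → X → ℝ := fun z x =>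
  A.E0 z x + A.ev (fun l i => z (A.bc l i)) (A.y U x) x

/-- The system. -/
noncomputable def sy (U : Matrix (Fin N) (Fin N) ℝ) : Sy ι X := ⟨A.lev, A.K, A.m, A.en U⟩

/-- The overlap in the set `B` of patterns. -/
noncomputable def R (B : Finset (Fin N)) (U : Matrix (Fin N) (Fin N) ℝ) (x x' : X) : ℝ :=
  1 / N * ∑ i ∈ B, A.y U x i * A.y U x' i

/-- Regularity. -/
structure Ok [Fintype ι] : Prop where
  m0 : A.m 0 = 0
  mK : A.m (A.K + 1) = 1
  mono : ∀ l ≤ A.K, A.m l ≤ A.m (l + 1)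
  pos : 0 < A.m 1
  lev : ∀ e, A.lev e ≤ A.K
  norm : ∀ x, ∑ i, A.sg x i ^ 2 = N
  lip : ∀ x, Lip fun z => A.E0 z x
  /-- `E0` does not depend on the pattern fields -/
  e0 : ∀ x z w, (∀ e, (∀ l ≤ A.K, ∀ i, e ≠ A.bc l i) → z e = w e) → A.E0 z x = A.E0 w x
  bcinj : ∀ l ≤ A.K, ∀ l' ≤ A.K, ∀ i i', A.bc l i = A.bc l' i' → l = l' ∧ i = i'
  bclev : ∀ l ≤ A.K, ∀ i, A.lev (A.bc l i) = l

end GS

end Vale.Agent.P166.H
end
end

section

section

/-!
P166, full formula: the enriched model.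

The enriched model has two families of Gaussian fields at each level `l = 0, …, K`: the site
fields `s_l ∑_i z_{l,i} x_i` and the block fields `∑_i u_{c(i),l} z'_{l,i} y_i`, `y = U x`; the
couplings are constant on the blocks `{i | c i = k}`. For each matrix `U` it is a system `Sy` of
the tree library `Vale.Agent.P157.Lv*`; `U` is averaged outside.
-/

open MeasureTheory ProbabilityTheory Matrix

namespace Vale.Agent.P166

namespace Md

open Vale.Agent.P157 (spin)
open Vale.Agent.P157.Lv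

/-- The coordinates: `(l, true, i)` for the site fields and `(l, false, i)` for the block
fields. -/
abbrev Ix (N K : ℕ) : Type := Fin (K + 1) × Bool × Fin N

variable {N K κ : ℕ}

/-- The levels. -/
def lvl (e : Ix N K) : ℕ := e.1

/-- The coordinates of the site field of the level `l`. -/
def sco (l : ℕ) (i : Fin N) : Ix N K := (Fin.ofNat (K + 1) l, true, i)

/-- The coordinates of the block field of the level `l`. -/
def bco (l : ℕ) (i : Fin N) : Ix N K := (Fin.ofNat (K + 1) l, false, i)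

/-- The parameters: couplings `b` of the blocks, strengths `s` of the site fields, strengths `u`
of the block fields. -/
@[ext] structure Pm (κ : ℕ) where
  b : Fin κ → ℝ
  s : ℕ → ℝ
  u : Fin κ → ℕ → ℝ

/-- The coordinates `y = U x` of a configuration. -/
def ph (U : Matrix (Fin N) (Fin N) ℝ) (x : Fin N → Bool) : Fin N → ℝ := U *ᵥ spin x

/-- The energy. -/
noncomputable def en (c : Fin N → Fin κ) (P : Pm κ) (U : Matrix (Fin N) (Fin N) ℝ) :
    (Ix N K → ℝ) → (Fin N → Bool) → ℝ := fun z x =>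
  ∑ i, P.b (c i) / 2 * ph U x i ^ 2 +
    ∑ l ∈ Finset.range (K + 1), P.s l * ∑ i, z (sco l i) * spin x i +
    ∑ l ∈ Finset.range (K + 1), ∑ i, P.u (c i) l * (z (bco l i) * ph U x i)

/-- The partial derivatives of the energy. -/
noncomputable def enD (c : Fin N → Fin κ) (P : Pm κ) (U : Matrix (Fin N) (Fin N) ℝ) :
    Ix N K → (Ix N K → ℝ) → (Fin N → Bool) → ℝ := fun e _ x =>
  if e.2.1 then P.s e.1 * spin x e.2.2 else P.u (c e.2.2) e.1 * ph U x e.2.2

/-- The enriched model. -/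
noncomputable def mdl (K : ℕ) (m : ℕ → ℝ) (c : Fin N → Fin κ) (P : Pm κ)
    (U : Matrix (Fin N) (Fin N) ℝ) : Sy (Ix N K) (Fin N → Bool) := ⟨lvl, K, m, en c P U⟩

/-- The part of the overlap in the block `k`. -/
noncomputable def Rb (c : Fin N → Fin κ) (U : Matrix (Fin N) (Fin N) ℝ) (k : Fin κ)
    (x x' : Fin N → Bool) : ℝ := 1 / N * ∑ i, if c i = k then ph U x i * ph U x' i else 0

/-- The field of the level `l` in the block `k`, divided by `N`. -/
noncomputable def hb (c : Fin N → Fin κ) (U : Matrix (Fin N) (Fin N) ℝ) (k : Fin κ) (l : ℕ) :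
    (Ix N K → ℝ) → (Fin N → Bool) → ℝ := fun z x =>
  1 / N * ∑ i, if c i = k then z (bco l i) * ph U x i else 0

variable [MeasurableSpace (orthogonalGroup (Fin N) ℝ)]

/-- The average over the orthogonal matrix. -/
noncomputable def EU (ν : Measure (orthogonalGroup (Fin N) ℝ))
    (f : Matrix (Fin N) (Fin N) ℝ → ℝ) : ℝ := ∫ U, f U.1 ∂ν

/-- The mean free energy per spin (with respect to the uniform measure on the cube). -/
noncomputable def Fe (ν : Measure (orthogonalGroup (Fin N) ℝ)) (K : ℕ) (m : ℕ → ℝ)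
    (c : Fin N → Fin κ) (P : Pm κ) : ℝ :=
  1 / N * EU ν (fun U => (mdl K m c P U).fe) - Real.log 2

/-- The mean self-overlap of the block `k`. -/
noncomputable def rho (ν : Measure (orthogonalGroup (Fin N) ℝ)) (K : ℕ) (m : ℕ → ℝ)
    (c : Fin N → Fin κ) (P : Pm κ) (k : Fin κ) : ℝ :=
  EU ν (fun U => (mdl K m c P U).Ex (fun _ x => Rb c U k x x))

/-- The mean overlap of the block `k` of two replicas which split at the level `l`. -/
noncomputable def Rkl (ν : Measure (orthogonalGroup (Fin N) ℝ)) (K : ℕ) (m : ℕ → ℝ)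
    (c : Fin N → Fin κ) (P : Pm κ) (k : Fin κ) (l : ℕ) : ℝ :=
  EU ν (fun U => (mdl K m c P U).pairEx l (Rb c U k))

end Md

end Vale.Agent.P166
end
end

section

section

/-!
The free energy of the fields alone, and of energies of the level zero.
-/

open MeasureTheory ProbabilityTheory Filter Topology

namespace Vale.Agent.P157.Lv

set_option linter.unusedSectionVars false

open Par (topN lw)

variable {ι X : Type} [Fintype ι] [DecidableEq ι] [Fintype X] [Nonempty X]
  {S : Sy ι X} {D : ι → (ι → ℝ) → X → ℝ}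

end Vale.Agent.P157.Lv
end
end

section

section

namespace Vale.Agent.P166

open MeasureTheory Matrix Filter Topology

section LogSumExp

theorem log_sum_exp_tangent {ι : Type*} (S : Finset ι) (hS : S.Nonempty) (h h' : ι → ℝ) :
    Real.log (∑ s ∈ S, Real.exp (h s)) +
      (∑ s ∈ S, Real.exp (h s) * (h' s - h s)) / (∑ s ∈ S, Real.exp (h s))
      ≤ Real.log (∑ s ∈ S, Real.exp (h' s)) := by
  set Z := ∑ s ∈ S, Real.exp (h s) with hZ
  have hZpos : 0 < Z := Finset.sum_pos (fun s _ => Real.exp_pos _) hS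
  set m := (∑ s ∈ S, Real.exp (h s) * (h' s - h s)) / Z with hm
  have hmZ : m * Z = ∑ s ∈ S, Real.exp (h s) * (h' s - h s) := by
    rw [hm]; field_simp
  have key : Real.exp m * Z ≤ ∑ s ∈ S, Real.exp (h' s) := by
    have h1 : ∑ s ∈ S, Real.exp m * (Real.exp (h s) * (1 + ((h' s - h s) - m))) ≤
        ∑ s ∈ S, Real.exp (h' s) := by
      apply Finset.sum_le_sum
      intro s _
      have h1 : (h' s - h s - m) + 1 ≤ Real.exp (h' s - h s - m) := Real.add_one_le_exp _
      have h2 : Real.exp (h' s) = Real.exp m * (Real.exp (h s) * Real.exp (h' s - h s - m)) := by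
        rw [← Real.exp_add, ← Real.exp_add]; congr 1; ring
      rw [h2]
      gcongr
      linarith
    have h2 : ∑ s ∈ S, Real.exp m * (Real.exp (h s) * (1 + ((h' s - h s) - m))) =
        Real.exp m * Z := by
      rw [← Finset.mul_sum]
      congr 1
      have : ∀ s ∈ S, Real.exp (h s) * (1 + ((h' s - h s) - m)) =
          Real.exp (h s) + Real.exp (h s) * (h' s - h s) - m * Real.exp (h s) := by
        intro s _; ring
      rw [Finset.sum_congr rfl this, Finset.sum_sub_distrib, Finset.sum_add_distrib, ← hmZ,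
        ← Finset.mul_sum, ← hZ]
      ring
    linarith
  have h3 : Real.log (Real.exp m * Z) = m + Real.log Z := by
    rw [Real.log_mul (Real.exp_pos _).ne' hZpos.ne', Real.log_exp]
  have h4 := Real.log_le_log (by positivity) key
  linarith

theorem log_sum_exp_mono {ι : Type*} (S : Finset ι) (hS : S.Nonempty) (h h' : ι → ℝ)
    (hle : ∀ s ∈ S, h s ≤ h' s) :
    Real.log (∑ s ∈ S, Real.exp (h s)) ≤ Real.log (∑ s ∈ S, Real.exp (h' s)) := by
  apply Real.log_le_log (Finset.sum_pos (fun s _ => Real.exp_pos _) hS)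
  exact Finset.sum_le_sum fun s hs => Real.exp_le_exp.mpr (hle s hs)

end LogSumExp

section Abel

/-- Summation by parts. -/
theorem abel_nonneg : ∀ (n : ℕ) (g x : Fin n → ℝ), Antitone g → (∀ i, 0 ≤ g i) →
    (∀ j : ℕ, 0 ≤ ∑ k : Fin n, if k.val < j then x k else 0) → 0 ≤ ∑ k, g k * x k := by
  intro n
  induction n with
  | zero => intro g x _ _ _; simp
  | succ n ih =>
    intro g x hg hg0 hx
    have h1 : ∑ k, g k * x k = (∑ k, (g k - g (Fin.last n)) * x k) +
        g (Fin.last n) * ∑ k, x k := by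
      rw [Finset.mul_sum, ← Finset.sum_add_distrib]
      apply Finset.sum_congr rfl; intro k _; ring
    have h2 : 0 ≤ ∑ k, x k := by
      have := hx (n + 1)
      have h3 : (∑ k : Fin (n + 1), if k.val < n + 1 then x k else 0) = ∑ k, x k := by
        apply Finset.sum_congr rfl; intro k _; rw [if_pos k.isLt]
      rwa [h3] at this
    have h3 : 0 ≤ ∑ k, (g k - g (Fin.last n)) * x k := by
      rw [Fin.sum_univ_castSucc]
      simp only [sub_self, zero_mul, add_zero]
      apply ih (fun k => g k.castSucc - g (Fin.last n)) (fun k => x k.castSucc)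
      · intro a b hab
        simp only
        have := hg (Fin.castSucc_le_castSucc_iff.mpr hab)
        linarith
      · intro i
        have := hg (Fin.le_last i.castSucc)
        linarith
      · intro j
        have h4 := hx (min j n)
        rw [Fin.sum_univ_castSucc] at h4
        simp only [Fin.val_last, Fin.val_castSucc] at h4
        have h5 : ¬ (n < min j n) := by omega
        rw [if_neg h5, add_zero] at h4
        have h6 : (∑ k : Fin n, if k.val < min j n then x k.castSucc else 0) =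
            ∑ k : Fin n, if k.val < j then x k.castSucc else 0 := by
          apply Finset.sum_congr rfl
          intro k _
          have : (k.val < min j n) ↔ (k.val < j) := by
            have := k.isLt
            omega
          simp [this]
        rwa [h6] at h4
    rw [h1]
    have := mul_nonneg (hg0 (Fin.last n)) h2
    linarith

/-- Weak majorization (increasing convex order) and symmetric functions with nonnegative
subgradients. -/
theorem icx_le_of_subgradient {N : ℕ} (F : (Fin N → ℝ) → ℝ)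
    (hsymm : ∀ (π : Equiv.Perm (Fin N)) (a : Fin N → ℝ), F (a ∘ π) = F a)
    (hsub : ∀ a : Fin N → ℝ, ∃ g : Fin N → ℝ, (∀ i, 0 ≤ g i) ∧
      ∀ b : Fin N → ℝ, F a + ∑ i, (b i - a i) * g i ≤ F b)
    (a b : Fin N → ℝ)
    (hab : ∀ t : ℝ, ∑ i, max (a i - t) 0 ≤ ∑ i, max (b i - t) 0) : F a ≤ F b := by
  obtain ⟨g, hg0, hg⟩ := hsub a
  set α : Equiv.Perm (Fin N) := Tuple.sort (fun i => - g i) with hα
  set γ : Equiv.Perm (Fin N) := Tuple.sort (fun i => - b i) with hγ
  have hαm : Antitone (fun k => g (α k)) := by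
    have := Tuple.monotone_sort (fun i => - g i)
    intro i j hij
    have := this hij
    simp only [Function.comp] at this
    simp only [hα]
    linarith
  have hγm : Antitone (fun k => b (γ k)) := by
    have := Tuple.monotone_sort (fun i => - b i)
    intro i j hij
    have := this hij
    simp only [Function.comp] at this
    simp only [hγ]
    linarith
  have h1 := hg (b ∘ (α.symm.trans γ))
  rw [hsymm] at h1
  have h2 : ∑ i, ((b ∘ (α.symm.trans γ)) i - a i) * g i =
      ∑ k, g (α k) * (b (γ k) - a (α k)) := by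
    rw [← Equiv.sum_comp α]
    apply Finset.sum_congr rfl
    intro k _
    simp [mul_comm]
  have h3 : 0 ≤ ∑ k, g (α k) * (b (γ k) - a (α k)) := by
    apply abel_nonneg N (fun k => g (α k)) (fun k => b (γ k) - a (α k)) hαm (fun k => hg0 _)
    intro j
    rcases Nat.eq_zero_or_pos j with hj | hj
    · subst hj; simp
    rcases Nat.eq_zero_or_pos N with hN | hN
    · subst hN; simp
    set j' : ℕ := min j N with hj'
    have hj'pos : 0 < j' := by omega
    have hj'N : j' ≤ N := by omega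
    have e1 : (∑ k : Fin N, if k.val < j then b (γ k) - a (α k) else 0) =
        ∑ k : Fin N, if k.val < j' then b (γ k) - a (α k) else 0 := by
      apply Finset.sum_congr rfl
      intro k _
      have : (k.val < j) ↔ (k.val < j') := by
        have := k.isLt
        omega
      simp [this]
    rw [e1]
    set t : ℝ := b (γ ⟨j' - 1, by omega⟩) with ht
    have e2 : ∑ i, max (b i - t) 0 = ∑ k : Fin N, if k.val < j' then b (γ k) - t else 0 := by
      rw [← Equiv.sum_comp γ]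
      apply Finset.sum_congr rfl
      intro k _
      split_ifs with hk
      · apply max_eq_left
        have : b (γ ⟨j' - 1, by omega⟩) ≤ b (γ k) := hγm (by
          rw [Fin.le_def]; simp only; omega)
        linarith
      · apply max_eq_right
        have : b (γ k) ≤ b (γ ⟨j' - 1, by omega⟩) := hγm (by
          rw [Fin.le_def]; simp only; omega)
        linarith
    have e3 : (∑ k : Fin N, if k.val < j' then a (α k) - t else 0) ≤ ∑ i, max (a i - t) 0 := by
      rw [← Equiv.sum_comp α (fun i => max (a i - t) 0)]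
      apply Finset.sum_le_sum
      intro k _
      split_ifs with hk
      · exact le_max_left (a (α k) - t) 0
      · exact le_max_right (a (α k) - t) 0
    have e4 : (∑ k : Fin N, if k.val < j' then b (γ k) - a (α k) else 0) =
        (∑ k : Fin N, if k.val < j' then b (γ k) - t else 0) -
        ∑ k : Fin N, if k.val < j' then a (α k) - t else 0 := by
      rw [← Finset.sum_sub_distrib]
      apply Finset.sum_congr rfl
      intro k _
      split_ifs <;> ring
    have := hab t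
    rw [e4]
    linarith
  rw [h2] at h1
  linarith

end Abel

end Vale.Agent.P166
end
end

section

section

namespace Vale.Agent.P166

open MeasureTheory Matrix Filter Topology

/-- The cube of sign vectors. -/
noncomputable abbrev cube (N : ℕ) : Finset (Fin N → ℝ) :=
  Fintype.piFinset (fun _ : Fin N => ({-1, 1} : Finset ℝ))

/-- Energy. -/
noncomputable def en {N : ℕ} (β : ℝ) (a : Fin N → ℝ) (U : Matrix (Fin N) (Fin N) ℝ)
    (σ : Fin N → ℝ) : ℝ :=
  β / 2 * ∑ i, a i * ((U *ᵥ σ) i) ^ 2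

/-- Logarithm of the unnormalised partition function. -/
noncomputable def LZ {N : ℕ} (β : ℝ) (a : Fin N → ℝ) (U : Matrix (Fin N) (Fin N) ℝ) : ℝ :=
  Real.log (∑ σ ∈ cube N, Real.exp (en β a U σ))

/-- Gradient. -/
noncomputable def GZ {N : ℕ} (β : ℝ) (a : Fin N → ℝ) (U : Matrix (Fin N) (Fin N) ℝ) (i : Fin N) :
    ℝ :=
  (∑ σ ∈ cube N, Real.exp (en β a U σ) * (β / 2 * ((U *ᵥ σ) i) ^ 2)) /
    (∑ σ ∈ cube N, Real.exp (en β a U σ))

theorem cube_nonempty (N : ℕ) : (cube N).Nonempty := by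
  refine ⟨fun _ => 1, ?_⟩
  simp [cube, Fintype.mem_piFinset]

theorem sq_of_mem_cube {N : ℕ} {σ : Fin N → ℝ} (hσ : σ ∈ cube N) (i : Fin N) : σ i ^ 2 = 1 := by
  have := (Fintype.mem_piFinset.mp hσ) i
  simp only [Finset.mem_insert, Finset.mem_singleton] at this
  rcases this with h | h <;> rw [h] <;> norm_num

theorem quad_form {N : ℕ} (U : Matrix (Fin N) (Fin N) ℝ) (a σ : Fin N → ℝ) :
    σ ⬝ᵥ ((Uᵀ * diagonal a * U) *ᵥ σ) = ∑ i, a i * ((U *ᵥ σ) i) ^ 2 := by
  rw [← Matrix.mulVec_mulVec, ← Matrix.mulVec_mulVec, Matrix.dotProduct_mulVec,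
    Matrix.vecMul_transpose]
  simp only [dotProduct, Matrix.mulVec_diagonal]
  apply Finset.sum_congr rfl
  intro i _
  ring

theorem norm_rot {N : ℕ} (U : Matrix.orthogonalGroup (Fin N) ℝ) {σ : Fin N → ℝ}
    (hσ : σ ∈ cube N) : ∑ i, ((U.1 *ᵥ σ) i) ^ 2 = N := by
  have h1 := quad_form U.1 (fun _ => 1) σ
  simp only [one_mul] at h1
  rw [← h1]
  have h2 : (U.1)ᵀ * diagonal (fun _ => (1 : ℝ)) * U.1 = 1 := by
    rw [Matrix.diagonal_one, Matrix.mul_one]
    exact (Matrix.mem_orthogonalGroup_iff' (Fin N) ℝ).mp U.2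
  rw [h2, Matrix.one_mulVec]
  simp only [dotProduct]
  have : ∀ i ∈ Finset.univ, σ i * σ i = (1 : ℝ) := by
    intro i _
    have := sq_of_mem_cube hσ i
    nlinarith
  rw [Finset.sum_congr rfl this]
  simp

theorem pressure_eq {N : ℕ} (hN : 0 < N) (β : ℝ) (a : Fin N → ℝ)
    (U : Matrix (Fin N) (Fin N) ℝ) :
    pressure N β (Uᵀ * diagonal a * U) = (1 / (N : ℝ)) * LZ β a U - Real.log 2 := by
  unfold pressure LZ en
  have hpos : 0 < ∑ σ ∈ cube N, Real.exp (β / 2 * ∑ i, a i * ((U *ᵥ σ) i) ^ 2) :=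
    Finset.sum_pos (fun s _ => Real.exp_pos _) (cube_nonempty N)
  simp only [quad_form]
  rw [Real.log_mul (by positivity) hpos.ne', Real.log_pow, Real.log_inv]
  have : (N : ℝ) ≠ 0 := by positivity
  field_simp
  ring

theorem GZ_nonneg {N : ℕ} {β : ℝ} (hβ : 0 ≤ β) (a : Fin N → ℝ) (U : Matrix (Fin N) (Fin N) ℝ)
    (i : Fin N) : 0 ≤ GZ β a U i := by
  unfold GZ
  apply div_nonneg
  · apply Finset.sum_nonneg; intro σ _; positivity
  · apply Finset.sum_nonneg; intro σ _; positivity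

theorem LZ_tangent {N : ℕ} (β : ℝ) (a b : Fin N → ℝ) (U : Matrix (Fin N) (Fin N) ℝ) :
    LZ β a U + ∑ i, (b i - a i) * GZ β a U i ≤ LZ β b U := by
  have h := log_sum_exp_tangent (cube N) (cube_nonempty N) (en β a U) (en β b U)
  have h2 : (∑ s ∈ cube N, Real.exp (en β a U s) * (en β b U s - en β a U s)) /
      (∑ s ∈ cube N, Real.exp (en β a U s)) = ∑ i, (b i - a i) * GZ β a U i := by
    unfold GZ
    have : ∀ i ∈ Finset.univ, (b i - a i) * ((∑ σ ∈ cube N, Real.exp (en β a U σ) *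
        (β / 2 * ((U *ᵥ σ) i) ^ 2)) / (∑ σ ∈ cube N, Real.exp (en β a U σ))) =
        ((b i - a i) * (∑ σ ∈ cube N, Real.exp (en β a U σ) *
        (β / 2 * ((U *ᵥ σ) i) ^ 2))) / (∑ σ ∈ cube N, Real.exp (en β a U σ)) := by
      intro i _; ring
    rw [Finset.sum_congr rfl this, ← Finset.sum_div]
    congr 1
    simp_rw [Finset.mul_sum]
    rw [Finset.sum_comm]
    apply Finset.sum_congr rfl
    intro σ _
    have e1 : en β b U σ - en β a U σ = ∑ i, β / 2 * ((b i - a i) * ((U *ᵥ σ) i) ^ 2) := by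
      unfold en
      rw [← mul_sub, ← Finset.sum_sub_distrib, Finset.mul_sum]
      apply Finset.sum_congr rfl
      intro i _
      ring
    rw [e1, Finset.mul_sum]
    apply Finset.sum_congr rfl
    intro i _
    ring
  rw [h2] at h
  exact h

theorem LZ_mono {N : ℕ} {β : ℝ} (hβ : 0 ≤ β) (a b : Fin N → ℝ) (hab : ∀ i, a i ≤ b i)
    (U : Matrix (Fin N) (Fin N) ℝ) : LZ β a U ≤ LZ β b U := by
  apply log_sum_exp_mono (cube N) (cube_nonempty N)
  intro σ _
  unfold en
  gcongr with i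
  exact hab i

theorem LZ_shift {N : ℕ} (β : ℝ) (a : Fin N → ℝ) (c : ℝ)
    (U : Matrix.orthogonalGroup (Fin N) ℝ) :
    LZ β (fun i => a i + c) U.1 = LZ β a U.1 + β / 2 * c * N := by
  unfold LZ
  have hpos : 0 < ∑ σ ∈ cube N, Real.exp (en β a U.1 σ) :=
    Finset.sum_pos (fun s _ => Real.exp_pos _) (cube_nonempty N)
  have h1 : ∀ σ ∈ cube N, Real.exp (en β (fun i => a i + c) U.1 σ) =
      Real.exp (en β a U.1 σ) * Real.exp (β / 2 * c * N) := by
    intro σ hσ
    rw [← Real.exp_add]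
    congr 1
    unfold en
    have := norm_rot U hσ
    rw [← this]
    rw [Finset.mul_sum, Finset.mul_sum, Finset.mul_sum, ← Finset.sum_add_distrib]
    apply Finset.sum_congr rfl
    intro i _
    ring
  rw [Finset.sum_congr rfl h1, ← Finset.sum_mul, Real.log_mul hpos.ne' (Real.exp_pos _).ne',
    Real.log_exp]

/-- The permutation matrix as an element of the orthogonal group. -/
noncomputable def permO {N : ℕ} (π : Equiv.Perm (Fin N)) : Matrix.orthogonalGroup (Fin N) ℝ :=
  ⟨Equiv.Perm.permMatrix ℝ π, by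
    rw [Matrix.mem_orthogonalGroup_iff, Matrix.transpose_permMatrix, ← Matrix.permMatrix_mul,
      inv_mul_cancel, Matrix.permMatrix_one]⟩

theorem LZ_perm {N : ℕ} (β : ℝ) (π : Equiv.Perm (Fin N)) (a : Fin N → ℝ)
    (U : Matrix.orthogonalGroup (Fin N) ℝ) :
    LZ β a (permO π * U : Matrix.orthogonalGroup (Fin N) ℝ).1 = LZ β (a ∘ π.symm) U.1 := by
  unfold LZ
  congr 1
  apply Finset.sum_congr rfl
  intro σ _
  congr 1
  unfold en
  congr 1
  have h1 : (permO π * U : Matrix.orthogonalGroup (Fin N) ℝ).1 *ᵥ σ = (U.1 *ᵥ σ) ∘ π := by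
    have : (permO π * U : Matrix.orthogonalGroup (Fin N) ℝ).1 =
        Equiv.Perm.permMatrix ℝ π * U.1 := rfl
    rw [this, ← Matrix.mulVec_mulVec, Matrix.permMatrix_mulVec]
  rw [h1, ← Equiv.sum_comp π.symm]
  apply Finset.sum_congr rfl
  intro i _
  simp

end Vale.Agent.P166
end
end

section

section

namespace Vale.Agent.P166

open MeasureTheory Matrix Filter Topology

variable {N : ℕ}

theorem continuous_en (β : ℝ) (a : Fin N → ℝ) (σ : Fin N → ℝ) :
    Continuous (fun U : Matrix.orthogonalGroup (Fin N) ℝ => en β a U.1 σ) := by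
  unfold en
  have : Continuous (fun U : Matrix.orthogonalGroup (Fin N) ℝ => U.1 *ᵥ σ) :=
    Continuous.matrix_mulVec continuous_subtype_val continuous_const
  fun_prop

theorem continuous_LZ (β : ℝ) (a : Fin N → ℝ) :
    Continuous (fun U : Matrix.orthogonalGroup (Fin N) ℝ => LZ β a U.1) := by
  unfold LZ
  apply Continuous.log
  · apply continuous_finsetSum
    intro σ _
    exact Real.continuous_exp.comp (continuous_en β a σ)
  · intro U
    exact (Finset.sum_pos (fun s _ => Real.exp_pos _) (cube_nonempty N)).ne'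

theorem continuous_GZ (β : ℝ) (a : Fin N → ℝ) (i : Fin N) :
    Continuous (fun U : Matrix.orthogonalGroup (Fin N) ℝ => GZ β a U.1 i) := by
  unfold GZ
  apply Continuous.div
  · apply continuous_finsetSum
    intro σ _
    have : Continuous (fun U : Matrix.orthogonalGroup (Fin N) ℝ => U.1 *ᵥ σ) :=
      Continuous.matrix_mulVec continuous_subtype_val continuous_const
    have h2 := continuous_en β a σ
    fun_prop
  · apply continuous_finsetSum
    intro σ _
    exact Real.continuous_exp.comp (continuous_en β a σ)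
  · intro U
    exact (Finset.sum_pos (fun s _ => Real.exp_pos _) (cube_nonempty N)).ne'

theorem en_le (β : ℝ) (hβ : 0 ≤ β) (a : Fin N → ℝ) (R : ℝ) (ha : ∀ i, |a i| ≤ R)
    (U : Matrix.orthogonalGroup (Fin N) ℝ) {σ : Fin N → ℝ} (hσ : σ ∈ cube N) :
    |en β a U.1 σ| ≤ β / 2 * (R * N) := by
  unfold en
  rw [abs_mul, abs_of_nonneg (by positivity : 0 ≤ β / 2)]
  gcongr
  calc |∑ i, a i * ((U.1 *ᵥ σ) i) ^ 2| ≤ ∑ i, |a i * ((U.1 *ᵥ σ) i) ^ 2| :=
        Finset.abs_sum_le_sum_abs _ _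
    _ ≤ ∑ i, R * ((U.1 *ᵥ σ) i) ^ 2 := by
        apply Finset.sum_le_sum
        intro i _
        rw [abs_mul, abs_of_nonneg (sq_nonneg ((U.1 *ᵥ σ) i))]
        gcongr
        exact ha i
    _ = R * N := by rw [← Finset.mul_sum, norm_rot U hσ]

theorem card_cube : (cube N).card = 2 ^ N := by
  unfold cube
  rw [Fintype.card_piFinset]
  simp only [Finset.prod_const, Finset.card_univ, Fintype.card_fin]
  congr 1
  rw [Finset.card_pair]
  norm_num

theorem LZ_bound (β : ℝ) (hβ : 0 ≤ β) (a : Fin N → ℝ) (R : ℝ) (ha : ∀ i, |a i| ≤ R)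
    (U : Matrix.orthogonalGroup (Fin N) ℝ) :
    |LZ β a U.1| ≤ N * Real.log 2 + β / 2 * (R * N) := by
  have hlow : ∀ σ ∈ cube N, Real.exp (-(β / 2 * (R * N))) ≤ Real.exp (en β a U.1 σ) := by
    intro σ hσ
    apply Real.exp_le_exp.mpr
    exact (abs_le.mp (en_le β hβ a R ha U hσ)).1
  have hup : ∀ σ ∈ cube N, Real.exp (en β a U.1 σ) ≤ Real.exp (β / 2 * (R * N)) := by
    intro σ hσ
    apply Real.exp_le_exp.mpr
    exact (abs_le.mp (en_le β hβ a R ha U hσ)).2
  have h1 : (2 : ℝ) ^ N * Real.exp (-(β / 2 * (R * N))) ≤ ∑ σ ∈ cube N, Real.exp (en β a U.1 σ) := by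
    have := Finset.sum_le_sum hlow
    rw [Finset.sum_const, card_cube] at this
    simpa only [ge_iff_le, nsmul_eq_mul, Nat.cast_pow, Nat.cast_ofNat] using this
  have h2 : ∑ σ ∈ cube N, Real.exp (en β a U.1 σ) ≤ (2 : ℝ) ^ N * Real.exp (β / 2 * (R * N)) := by
    have := Finset.sum_le_sum hup
    rw [Finset.sum_const, card_cube] at this
    simpa only [ge_iff_le, nsmul_eq_mul, Nat.cast_pow, Nat.cast_ofNat] using this
  have hpos : 0 < ∑ σ ∈ cube N, Real.exp (en β a U.1 σ) :=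
    Finset.sum_pos (fun s _ => Real.exp_pos _) (cube_nonempty N)
  have h3 := Real.log_le_log (by positivity) h1
  have h4 := Real.log_le_log hpos h2
  rw [Real.log_mul (by positivity) (Real.exp_pos _).ne', Real.log_exp, Real.log_pow] at h3 h4
  have h5 : 0 ≤ (N : ℝ) * Real.log 2 := by (clear * -; positivity)
  unfold LZ
  rw [abs_le]
  constructor
  · linarith only [h3, h5]
  · linarith only [h4]

theorem exists_abs_bound (a : Fin N → ℝ) : ∃ R : ℝ, ∀ i, |a i| ≤ R := by
  refine ⟨∑ i, |a i|, fun i => ?_⟩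
  exact Finset.single_le_sum (f := fun i => |a i|) (fun j _ => abs_nonneg _) (Finset.mem_univ i)

section Measure

variable [MeasurableSpace (Matrix.orthogonalGroup (Fin N) ℝ)]
  [BorelSpace (Matrix.orthogonalGroup (Fin N) ℝ)]
  (ν : Measure (Matrix.orthogonalGroup (Fin N) ℝ)) [IsProbabilityMeasure ν]

theorem integrable_LZ {β : ℝ} (hβ : 0 ≤ β) (a : Fin N → ℝ) :
    Integrable (fun U : Matrix.orthogonalGroup (Fin N) ℝ => LZ β a U.1) ν := by
  obtain ⟨R, hR⟩ := exists_abs_bound a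
  apply Integrable.of_bound (continuous_LZ β a).measurable.aestronglyMeasurable
    (N * Real.log 2 + β / 2 * (R * N))
  filter_upwards with U
  rw [Real.norm_eq_abs]
  exact LZ_bound β hβ a R hR U

theorem GZ_le {β : ℝ} (hβ : 0 ≤ β) (a : Fin N → ℝ) (U : Matrix.orthogonalGroup (Fin N) ℝ)
    (i : Fin N) : GZ β a U.1 i ≤ β / 2 * N := by
  unfold GZ
  have hpos : 0 < ∑ σ ∈ cube N, Real.exp (en β a U.1 σ) :=
    Finset.sum_pos (fun s _ => Real.exp_pos _) (cube_nonempty N)
  rw [div_le_iff₀ hpos, Finset.mul_sum]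
  apply Finset.sum_le_sum
  intro σ hσ
  rw [mul_comm]
  gcongr
  rw [← norm_rot U hσ]
  exact Finset.single_le_sum (f := fun i => ((U.1 *ᵥ σ) i) ^ 2) (fun j _ => sq_nonneg _)
    (Finset.mem_univ i)

theorem integrable_GZ {β : ℝ} (hβ : 0 ≤ β) (a : Fin N → ℝ) (i : Fin N) :
    Integrable (fun U : Matrix.orthogonalGroup (Fin N) ℝ => GZ β a U.1 i) ν := by
  apply Integrable.of_bound (continuous_GZ β a i).measurable.aestronglyMeasurable
    (β / 2 * N)
  filter_upwards with U
  rw [Real.norm_eq_abs, abs_of_nonneg (GZ_nonneg hβ a U.1 i)]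
  exact GZ_le hβ a U i

/-- Expected logarithm of the partition function. -/
noncomputable def FZ (β : ℝ) (a : Fin N → ℝ) : ℝ := ∫ U, LZ β a U.1 ∂ν

theorem FZ_perm [ν.IsMulLeftInvariant] (β : ℝ) (π : Equiv.Perm (Fin N)) (a : Fin N → ℝ) :
    FZ ν β (a ∘ π) = FZ ν β a := by
  unfold FZ
  have h := MeasureTheory.integral_mul_left_eq_self (μ := ν)
    (fun U : Matrix.orthogonalGroup (Fin N) ℝ => LZ β a U.1) (permO π.symm)
  rw [← h]
  congr 1
  ext U
  rw [LZ_perm]
  rfl

theorem FZ_sub {β : ℝ} (hβ : 0 ≤ β) (a : Fin N → ℝ) : ∃ g : Fin N → ℝ, (∀ i, 0 ≤ g i) ∧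
      ∀ b : Fin N → ℝ, FZ ν β a + ∑ i, (b i - a i) * g i ≤ FZ ν β b := by
  refine ⟨fun i => ∫ U, GZ β a U.1 i ∂ν, fun i => ?_, fun b => ?_⟩
  · apply integral_nonneg
    intro U
    exact GZ_nonneg hβ a U.1 i
  · have h1 : ∀ i ∈ Finset.univ, (b i - a i) * ∫ U, GZ β a U.1 i ∂ν =
        ∫ U, (b i - a i) * GZ β a U.1 i ∂ν := by
      intro i _
      rw [integral_const_mul]
    rw [Finset.sum_congr rfl h1, ← integral_finsetSum]
    · unfold FZ
      rw [← integral_add (integrable_LZ ν hβ a)]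
      · apply integral_mono
        · apply (integrable_LZ ν hβ a).add
          apply integrable_finsetSum
          intro i _
          exact (integrable_GZ ν hβ a i).const_mul _
        · exact integrable_LZ ν hβ b
        · intro U
          exact LZ_tangent β a b U.1
      · apply integrable_finsetSum
        intro i _
        exact (integrable_GZ ν hβ a i).const_mul _
    · intro i _
      exact (integrable_GZ ν hβ a i).const_mul _

theorem FZ_mono {β : ℝ} (hβ : 0 ≤ β) (a b : Fin N → ℝ) (hab : ∀ i, a i ≤ b i) :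
    FZ ν β a ≤ FZ ν β b := by
  unfold FZ
  apply integral_mono (integrable_LZ ν hβ a) (integrable_LZ ν hβ b)
  intro U
  exact LZ_mono hβ a b hab U.1

theorem FZ_shift {β : ℝ} (hβ : 0 ≤ β) (a : Fin N → ℝ) (c : ℝ) :
    FZ ν β (fun i => a i + c) = FZ ν β a + β / 2 * c * N := by
  unfold FZ
  have : (fun U : Matrix.orthogonalGroup (Fin N) ℝ => LZ β (fun i => a i + c) U.1) =
      fun U => LZ β a U.1 + β / 2 * c * N := by
    ext U
    exact LZ_shift β a c U
  rw [this, integral_add (integrable_LZ ν hβ a) (integrable_const _)]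
  simp only [integral_const, probReal_univ, smul_eq_mul, one_mul]

/-- Finite-size comparison principle: the mean pressure is monotone for the increasing convex
order of the spectra. -/
theorem FZ_icx [ν.IsMulLeftInvariant] {β : ℝ} (hβ : 0 ≤ β) (a b : Fin N → ℝ)
    (hab : ∀ t : ℝ, ∑ i, max (a i - t) 0 ≤ ∑ i, max (b i - t) 0) : FZ ν β a ≤ FZ ν β b :=
  icx_le_of_subgradient (FZ ν β) (fun π a => FZ_perm ν β π a) (fun a => FZ_sub ν hβ a) a b hab

end Measure

end Vale.Agent.P166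
end
end

section

section

/-!
Synchronization for block fields: if the fields of a set `A` of coordinates and the self-overlap
of `A` are concentrated, then the overlap on `A` of two replicas is concentrated given the level
at which they split. (Same proofs as in `LvPair`, with restricted sums and a self-overlap which is
not constant.)
-/

open MeasureTheory ProbabilityTheory

namespace Vale.Agent.P166.U

set_option linter.unusedSectionVars false

open Vale.Agent.P157.Lv

variable {ι X : Type} [Fintype ι] [DecidableEq ι] [Fintype X] [DecidableEq X] [Nonempty X]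
  {S : Sy ι X} {D : ι → (ι → ℝ) → X → ℝ} {N : ℕ}

/-- The overlap on the set `A`. -/
noncomputable def Rk (φ : X → Fin N → ℝ) (A : Finset (Fin N)) (x x' : X) : ℝ :=
  1 / N * ∑ i ∈ A, φ x i * φ x' i

/-- The field of the level `l` on the set `A`, divided by `N`. -/
noncomputable def hk (φ : X → Fin N → ℝ) (zc : ℕ → Fin N → ι) (A : Finset (Fin N))
    (l : ℕ) (z : ι → ℝ) (x : X) : ℝ :=
  1 / N * ∑ i ∈ A, z (zc l i) * φ x i

/-- The overlap, on the set `A`, of the configuration and of the magnetization of level `l`. -/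
noncomputable def ov (S : Sy ι X) (φ : X → Fin N → ℝ) (A : Finset (Fin N))
    (l : ℕ) (z : ι → ℝ) (x : X) : ℝ :=
  1 / N * ∑ i ∈ A, S.mg φ l i z * φ x i

/-- The system contains the fields `∑_{i ∈ A} u_l z_{l,i} φ_i(x)`. -/
structure BFld (S : Sy ι X) (D : ι → (ι → ℝ) → X → ℝ) (φ : X → Fin N → ℝ) (zc : ℕ → Fin N → ι)
    (A : Finset (Fin N)) (u : ℕ → ℝ) : Prop where
  reg : S.RegD D
  N0 : 0 < N
  norm : ∀ x, ∑ i ∈ A, φ x i ^ 2 ≤ N
  lev : ∀ l ≤ S.K, ∀ i ∈ A, S.lev (zc l i) = l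
  D : ∀ l ≤ S.K, ∀ i ∈ A, ∀ z x, D (zc l i) z x = u l * φ x i

namespace BFld

open Vale.Agent.P157.Lv.Sy

variable {φ : X → Fin N → ℝ} {zc : ℕ → Fin N → ι} {A : Finset (Fin N)} {u : ℕ → ℝ}
  (F : BFld S D φ zc A u)

include F

lemma sy_Npos : (0 : ℝ) < N := by exact_mod_cast F.N0

lemma sy_reg : S.Reg := F.reg.toReg

lemma abs_Rk_le (x x' : X) : |Rk φ A x x'| ≤ 1 := by
  have hN := F.sy_Npos
  have h := Finset.sum_mul_sq_le_sq_mul_sq A (φ x) (φ x')
  have h0 : (∑ i ∈ A, φ x i ^ 2) * (∑ i ∈ A, φ x' i ^ 2) ≤ N * N :=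
    mul_le_mul (F.norm x) (F.norm x') (Finset.sum_nonneg fun i _ => sq_nonneg _) hN.le
  have h1 : Rk φ A x x' ^ 2 ≤ 1 := by
    rw [Rk, mul_pow, one_div, inv_pow, inv_mul_le_iff₀ (by positivity)]
    linarith only [h, h0]
  exact abs_le_one_iff_mul_self_le_one.mpr (by linarith only [h1])

lemma Rk_self_nonneg (x : X) : 0 ≤ Rk φ A x x := by
  have hN := F.sy_Npos
  unfold Rk
  exact mul_nonneg (by positivity) (Finset.sum_nonneg fun i _ => mul_self_nonneg _)

omit F in
lemma sy_sum_mg_sq (hS : S.Reg) {l : ℕ} (hl : l ≤ S.K) (z : ι → ℝ) :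
    1 / N * ∑ i ∈ A, S.mg φ l i z ^ 2 = ∑ x, ∑ x', S.pr l z x * S.pr l z x' * Rk φ A x x' := by
  have e : ∀ i, S.mg φ l i z ^ 2 =
      ∑ x, ∑ x', S.pr l z x * S.pr l z x' * (φ x i * φ x' i) := by
    intro i
    rw [Fld.mg_eq hS hl, sq, Finset.sum_mul_sum]
    refine Finset.sum_congr rfl fun x _ => Finset.sum_congr rfl fun x' _ => ?_
    ring
  simp_rw [e]
  rw [Finset.sum_comm, Finset.mul_sum]
  refine Finset.sum_congr rfl fun x _ => ?_
  rw [Finset.sum_comm, Finset.mul_sum]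
  refine Finset.sum_congr rfl fun x' _ => ?_
  rw [← Finset.mul_sum, Rk]
  ring

/-- The pair average of the overlap in terms of the magnetizations. -/
lemma pairEx_Rk {l : ℕ} (hl : l ≤ S.K) : S.pairEx l (Rk φ A) =
    1 / N * S.Ex (fun z _ => ∑ i ∈ A, S.mg φ l i z ^ 2) := by
  rw [Sy.pairEx, ← Sy.Ex_const_mul]
  congr 1
  funext z _
  exact (sy_sum_mg_sq F.sy_reg hl z).symm

lemma pairEx_Rk_nonneg {l : ℕ} (hl : l ≤ S.K) : 0 ≤ S.pairEx l (Rk φ A) := by
  rw [F.pairEx_Rk hl, ← Sy.Ex_const_mul, ← F.sy_reg.Ex_const 0]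
  refine F.sy_reg.Ex_mono (Nh.fst (EG.const 0)) (Nh.fst (EG.const_mul _ (EG.sum _ fun i _ =>
    (Fld.eg_mg F.sy_reg hl i).pow 2))) fun z _ => ?_
  have := F.sy_Npos
  have h0 : 0 ≤ ∑ i ∈ A, S.mg φ l i z ^ 2 := Finset.sum_nonneg fun i _ => sq_nonneg _
  positivity

lemma sy_pairEx_le_one {l : ℕ} (hl : l ≤ S.K) : S.pairEx l (Rk φ A) ≤ 1 := by
  rw [← F.sy_reg.pairEx_const hl 1]
  exact F.sy_reg.pairEx_mono hl fun x x' => (le_abs_self _).trans (F.abs_Rk_le x x')

/-- The overlaps increase: `E|m_{l+1} - m_l|² = N (R_{l+1} - R_l)`. -/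
lemma sy_Rl_sub {l : ℕ} (hl : l < S.K) :
    1 / N * S.Ex (fun z _ => ∑ i ∈ A, (S.mg φ (l + 1) i z - S.mg φ l i z) ^ 2) =
      S.pairEx (l + 1) (Rk φ A) - S.pairEx l (Rk φ A) := by
  have hS := F.sy_reg
  have e1 := Fld.eg_mg (φ := φ) hS (l := l + 1) hl
  have e0 := Fld.eg_mg (φ := φ) hS (l := l) hl.le
  rw [F.pairEx_Rk hl, F.pairEx_Rk hl.le, ← mul_sub]
  congr 1
  rw [hS.Ex_sum _ fun i _ => Nh.fst (((e1 i).sub (e0 i)).pow 2),
    hS.Ex_sum _ fun i _ => Nh.fst ((e1 i).pow 2), hS.Ex_sum _ fun i _ => Nh.fst ((e0 i).pow 2),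
    ← Finset.sum_sub_distrib]
  refine Finset.sum_congr rfl fun i _ => ?_
  have h1 : (fun (z : ι → ℝ) (_ : X) => (S.mg φ (l + 1) i z - S.mg φ l i z) ^ 2) =
      fun z x => ((fun (z : ι → ℝ) (_ : X) => S.mg φ (l + 1) i z ^ 2) z x -
        (fun (z : ι → ℝ) (_ : X) => 2 * (S.mg φ l i z * S.mg φ (l + 1) i z)) z x) +
        (fun (z : ι → ℝ) (_ : X) => S.mg φ l i z ^ 2) z x := by
    funext z _
    ring
  rw [h1, hS.Ex_add (Nh.sub (Nh.fst ((e1 i).pow 2))
    (Nh.fst (EG.const_mul 2 ((e0 i).mul (e1 i))))) (Nh.fst ((e0 i).pow 2)),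
    hS.Ex_sub (Nh.fst ((e1 i).pow 2)) (Nh.fst (EG.const_mul 2 ((e0 i).mul (e1 i)))),
    Sy.Ex_const_mul, Fld.Ex_mg_mul hS (Nat.le_succ l) hl]
  ring

lemma pairEx_Rk_mono {l : ℕ} (hl : l < S.K) :
    S.pairEx l (Rk φ A) ≤ S.pairEx (l + 1) (Rk φ A) := by
  rw [← sub_nonneg, ← F.sy_Rl_sub hl, ← Sy.Ex_const_mul, ← F.sy_reg.Ex_const 0]
  refine F.sy_reg.Ex_mono (Nh.fst (EG.const 0)) (Nh.fst (EG.const_mul _ (EG.sum _ fun i _ =>
    ((Fld.eg_mg F.sy_reg (show l + 1 ≤ S.K from hl) i).sub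
      (Fld.eg_mg F.sy_reg hl.le i)).pow 2))) fun z _ => ?_
  have := F.sy_Npos
  have h0 : 0 ≤ ∑ i ∈ A, (S.mg φ (l + 1) i z - S.mg φ l i z) ^ 2 :=
    Finset.sum_nonneg fun i _ => sq_nonneg _
  positivity

lemma pairEx_Rk_le {l : ℕ} (hl : l ≤ S.K) :
    S.pairEx l (Rk φ A) ≤ S.Ex (fun _ x => Rk φ A x x) := by
  have hS := F.sy_reg
  have e0 := fun i => Fld.eg_mg (φ := φ) hS (l := l) hl i
  have ns : ∀ i, Nh (ι := ι) (fun (_ : ι → ℝ) (x : X) => φ x i ^ 2) := fun i =>
    Nh.snd fun x => φ x i ^ 2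
  have e1 : S.Ex (fun _ x => Rk φ A x x) = 1 / N * S.Ex (fun _ x => ∑ i ∈ A, φ x i ^ 2) := by
    rw [← Sy.Ex_const_mul]
    congr 1
    funext z x
    unfold Rk
    congr 1
    exact Finset.sum_congr rfl fun i _ => (sq _).symm
  rw [F.pairEx_Rk hl, e1]
  have := F.sy_Npos
  refine mul_le_mul_of_nonneg_left ?_ (by (clear * - this; positivity))
  rw [hS.Ex_sum _ fun i _ => Nh.fst ((e0 i).pow 2), hS.Ex_sum _ fun i _ => ns i]
  refine Finset.sum_le_sum fun i _ => ?_
  rw [← hS.Ex_T hl (ns i)]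
  refine hS.Ex_mono (Nh.fst ((e0 i).pow 2)) (Nh.fst (hS.eg_T hl (ns i))) fun z _ => ?_
  exact hS.sq_T_le hl (Nh.snd fun x => φ x i) z

omit F in
lemma sy_nh_ov (hS : S.Reg) {l : ℕ} (hl : l ≤ S.K) : Nh (ov S φ A l) :=
  Nh.const_mul _ (Nh.sum _ fun a _ => Nh.mul (Nh.fst (Fld.eg_mg hS hl a)) (Nh.snd fun x => φ x a))

lemma sy_Ex_ov {l : ℕ} (hl : l ≤ S.K) : S.Ex (ov S φ A l) = S.pairEx l (Rk φ A) := by
  have hS := F.sy_reg
  have e : ov S φ A l = fun z x => 1 / N * ∑ a ∈ A, S.mg φ l a z * φ x a := rfl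
  rw [e, Sy.Ex_const_mul, F.pairEx_Rk hl, hS.Ex_sum _ fun a _ =>
    Nh.mul (Nh.fst (Fld.eg_mg hS hl a)) (Nh.snd fun x => φ x a),
    hS.Ex_sum _ fun a _ => Nh.fst ((Fld.eg_mg hS hl a).pow 2)]
  congr 1
  refine Finset.sum_congr rfl fun a _ => ?_
  have h2 := hS.Ex_mul_T hl (S.dep_T l (fun _ x => φ x a)) (Fld.eg_mg hS hl a)
    (Nh.snd fun x => φ x a)
  rw [← Fld.Ex_mg_mul hS le_rfl hl]
  exact h2.symm

omit F in
lemma sy_nh_hk (j : ℕ) : Nh (hk φ zc A j) :=
  Nh.const_mul _ (Nh.sum _ fun i _ => Nh.mul (Nh.fst (EG.coord (zc j i)))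
    (Nh.snd fun x => φ x i))

omit F in
lemma sy_nh_Rk : Nh (ι := ι) (fun (_ : ι → ℝ) (x : X) => Rk φ A x x) :=
  Nh.snd fun x => Rk φ A x x

/-- integration by parts for the coordinates of the fields -/
lemma sy_ibp {j : ℕ} (hj : j ≤ S.K) {i : Fin N} (hi : i ∈ A) {h h' : (ι → ℝ) → X → ℝ}
    (hd : ∀ x, PD (zc j i) (fun z => h z x) (fun z => h' z x)) (hh : Nh h) (hh' : Nh h') :
    S.Ex (fun z x => z (zc j i) * h z x) = S.Ex (fun z x => h' z x + h z x * (u j * φ x i -
      ∑ k ∈ Finset.Ico j (S.K + 1), S.p k * (u j * S.mg φ k i z))) := by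
  rw [F.reg.ibp (zc j i) hd hh hh', F.lev j hj i hi]
  congr 1
  funext z x
  rw [F.D j hj i hi]
  have e : D (zc j i) = fun z x => u j * φ x i := by
    funext z x
    exact F.D j hj i hi z x
  rw [e]
  simp only [Sy.T_const_mul]
  rfl

/-- the average of the field of the level `j` against an observable -/
lemma sy_Ex_hk_mul {j : ℕ} (hj : j ≤ S.K) {w : (ι → ℝ) → X → ℝ} {w' : Fin N → (ι → ℝ) → X → ℝ}
    (hd : ∀ i ∈ A, ∀ x, PD (zc j i) (fun z => w z x) (fun z => w' i z x)) (hu : Nh w)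
    (hu' : ∀ i, Nh (w' i)) :
    S.Ex (fun z x => hk φ zc A j z x * w z x) =
      S.Ex (fun z x => 1 / N * ∑ i ∈ A, φ x i * w' i z x) +
        u j * (S.Ex (fun z x => w z x * Rk φ A x x) - ∑ k ∈ Finset.Ico j (S.K + 1), S.p k *
          S.Ex (fun z x => w z x * ov S φ A k z x)) := by
  have hS := F.sy_reg
  have hN := F.sy_Npos
  have hk : ∀ k ∈ Finset.Ico j (S.K + 1), k ≤ S.K := fun k hk => by
    rw [Finset.mem_Ico] at hk; omega
  -- termwise integration by parts
  have h1 : ∀ i ∈ A, S.Ex (fun z x => z (zc j i) * (φ x i * w z x)) =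
      S.Ex (fun z x => φ x i * w' i z x + φ x i * w z x * (u j * φ x i -
        ∑ k ∈ Finset.Ico j (S.K + 1), S.p k * (u j * S.mg φ k i z))) := fun i hi =>
    F.sy_ibp hj hi (h := fun z x => φ x i * w z x) (h' := fun z x => φ x i * w' i z x)
      (fun x => (hd i hi x).const_mul (φ x i)) (Nh.mul (Nh.snd fun x => φ x i) hu)
      (Nh.mul (Nh.snd fun x => φ x i) (hu' i))
  have nz : ∀ i, Nh (fun (z : ι → ℝ) (x : X) => z (zc j i) * (φ x i * w z x)) := fun i =>
    Nh.mul (Nh.fst (EG.coord _)) (Nh.mul (Nh.snd fun x => φ x i) hu)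
  have nk : ∀ k ∈ Finset.Ico j (S.K + 1), ∀ i, Nh (fun (z : ι → ℝ) (_ : X) =>
      S.p k * (u j * S.mg φ k i z)) := fun k hk' i =>
    Nh.fst (EG.const_mul _ (EG.const_mul _ (Fld.eg_mg hS (hk k hk') i)))
  have nr : ∀ i, Nh (fun (z : ι → ℝ) (x : X) => φ x i * w' i z x + φ x i * w z x * (u j * φ x i -
        ∑ k ∈ Finset.Ico j (S.K + 1), S.p k * (u j * S.mg φ k i z))) := fun i =>
    Nh.add (Nh.mul (Nh.snd fun x => φ x i) (hu' i)) (Nh.mul (Nh.mul (Nh.snd fun x => φ x i) hu)
      (Nh.sub (Nh.const_mul _ (Nh.snd fun x => φ x i)) (Nh.sum _ fun k hk' => nk k hk' i)))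
  have e1 : S.Ex (fun z x => U.hk φ zc A j z x * w z x) =
      1 / N * ∑ i ∈ A, S.Ex (fun z x => z (zc j i) * (φ x i * w z x)) := by
    rw [← hS.Ex_sum _ fun i _ => nz i, ← Sy.Ex_const_mul]
    congr 1
    funext z x
    rw [U.hk, mul_assoc, Finset.sum_mul]
    congr 1
    refine Finset.sum_congr rfl fun i _ => ?_
    ring
  rw [e1, Finset.sum_congr rfl h1, ← hS.Ex_sum _ fun i _ => nr i, ← Sy.Ex_const_mul]
  have e2 : (fun (z : ι → ℝ) (x : X) => 1 / (N : ℝ) * ∑ i ∈ A, (φ x i * w' i z x +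
      φ x i * w z x * (u j * φ x i -
        ∑ k ∈ Finset.Ico j (S.K + 1), S.p k * (u j * S.mg φ k i z)))) =
      fun z x => (fun (z : ι → ℝ) (x : X) => 1 / (N : ℝ) * ∑ i ∈ A, φ x i * w' i z x) z x +
        (fun (z : ι → ℝ) (x : X) => u j * (w z x * Rk φ A x x - ∑ k ∈ Finset.Ico j (S.K + 1),
          S.p k * (w z x * ov S φ A k z x))) z x := by
    funext z x
    rw [Finset.sum_add_distrib, mul_add]
    congr 1
    have e3 : ∑ i ∈ A, φ x i * w z x * (u j * φ x i -
        ∑ k ∈ Finset.Ico j (S.K + 1), S.p k * (u j * S.mg φ k i z)) =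
        u j * (w z x * ∑ i ∈ A, φ x i * φ x i) - u j * ∑ k ∈ Finset.Ico j (S.K + 1), S.p k *
          (w z x * ∑ i ∈ A, S.mg φ k i z * φ x i) := by
      simp_rw [mul_sub]
      rw [Finset.sum_sub_distrib]
      congr 1
      · rw [Finset.mul_sum, Finset.mul_sum]
        refine Finset.sum_congr rfl fun i _ => ?_
        ring
      · simp_rw [Finset.mul_sum]
        rw [Finset.sum_comm]
        refine Finset.sum_congr rfl fun k _ => Finset.sum_congr rfl fun i _ => ?_
        ring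
    rw [e3]
    have e4 : ∀ k, S.p k * (w z x * ov S φ A k z x) =
        1 / N * (S.p k * (w z x * ∑ i ∈ A, S.mg φ k i z * φ x i)) := by
      intro k
      rw [ov]
      ring
    simp_rw [e4]
    rw [← Finset.mul_sum, Rk]
    ring
  rw [e2]
  have nu : ∀ k ∈ Finset.Ico j (S.K + 1), Nh (fun (z : ι → ℝ) (x : X) =>
      S.p k * (w z x * ov S φ A k z x)) := fun k hk' =>
    Nh.const_mul _ (Nh.mul hu (sy_nh_ov hS (hk k hk')))
  have nR : Nh (fun (z : ι → ℝ) (x : X) => w z x * Rk φ A x x) := Nh.mul hu sy_nh_Rk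
  rw [hS.Ex_add (Nh.const_mul _ (Nh.sum _ fun i _ => Nh.mul (Nh.snd fun x => φ x i) (hu' i)))
    (Nh.const_mul _ (Nh.sub nR (Nh.sum _ nu)))]
  congr 1
  rw [Sy.Ex_const_mul, hS.Ex_sub nR (Nh.sum _ nu), hS.Ex_sum _ nu]
  congr 2
  refine Finset.sum_congr rfl fun k _ => ?_
  rw [Sy.Ex_const_mul]

/-- The mean of the field. -/
theorem Ex_hk {j : ℕ} (hj : j ≤ S.K) : S.Ex (hk φ zc A j) =
    u j * (S.Ex (fun _ x => Rk φ A x x) -
      ∑ i ∈ Finset.Ico j (S.K + 1), S.p i * S.pairEx i (Rk φ A)) := by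
  have hS := F.sy_reg
  have h := F.sy_Ex_hk_mul hj (w := fun _ _ => 1) (w' := fun _ _ _ => 0)
    (fun i _ x => PD.const 1) (Nh.fst (EG.const 1)) (fun i => Nh.fst (EG.const 0))
  simp only [mul_one, one_mul, mul_zero, Finset.sum_const_zero, hS.Ex_const, zero_add] at h
  rw [show S.Ex (hk φ zc A j) = S.Ex (fun z x => hk φ zc A j z x) from rfl, h]
  congr 2
  refine Finset.sum_congr rfl fun k hk => ?_
  rw [Finset.mem_Ico] at hk
  rw [← F.sy_Ex_ov (by omega : k ≤ S.K)]

/-- (A). -/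
theorem ident_A {l j : ℕ} (hlj : l < j) (hj : j ≤ S.K) :
    S.Ex (fun z x => hk φ zc A j z x * ov S φ A l z x) =
      u j * (S.Ex (fun z x => ov S φ A l z x * Rk φ A x x) -
        ∑ i ∈ Finset.Ico j (S.K + 1), S.p i *
          S.Ex (fun z x => ov S φ A l z x * ov S φ A i z x)) := by
  have hS := F.sy_reg
  have hl : l ≤ S.K := hlj.le.trans hj
  have hd : ∀ i ∈ A, ∀ x, PD (zc j i) (fun z => ov S φ A l z x) (fun _ => 0) := by
    intro i hi x
    refine Dep.pd (lev := S.lev) (l := l) ?_ (by rw [F.lev j hj i hi]; exact hlj)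
    intro z w
    simp only [ov]
    congr 1
    refine Finset.sum_congr rfl fun a _ => ?_
    congr 1
    exact S.dep_T l (fun _ x => φ x a) z w
  have h := F.sy_Ex_hk_mul hj (w := ov S φ A l) (w' := fun _ _ _ => 0) hd (sy_nh_ov hS hl)
    (fun i => Nh.fst (EG.const 0))
  simp only [mul_zero, Finset.sum_const_zero, hS.Ex_const, zero_add] at h
  exact h

/-- the derivative of the magnetization -/
lemma sy_pd_mg {l : ℕ} (hl : l ≤ S.K) (a : Fin N) {b : Fin N} (hb : b ∈ A) :
    PD (zc l b) (S.mg φ l a) (fun z => u l * (S.T l (fun _ x => φ x a * φ x b) z -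
      ∑ k ∈ Finset.Ico (l + 1) (S.K + 1), S.p k * S.T l (fun z _ => S.mg φ k a z * S.mg φ k b z) z -
      S.m (l + 1) * (S.mg φ l a z * S.mg φ l b z))) := by
  have hS := F.sy_reg
  have h := F.reg.pd_T hl (e := zc l b) (F.lev l hl b hb).le (h := fun _ x => φ x a)
    (h' := fun _ _ => 0) (fun x => PD.const _) (Nh.snd fun x => φ x a) (Nh.fst (EG.const 0))
  refine h.congr fun z => ?_
  have hD : D (zc l b) = fun z x => u l * φ x b := by
    funext z x
    exact F.D l hl b hb z x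
  have hk : ∀ k ∈ Finset.Ico (l + 1) (S.K + 1), k ≤ S.K := fun k hk => by
    rw [Finset.mem_Ico] at hk; omega
  have hlk : ∀ k ∈ Finset.Ico (l + 1) (S.K + 1), l ≤ k := fun k hk => by
    rw [Finset.mem_Ico] at hk; omega
  have na : Nh (ι := ι) (fun _ x => φ x a) := Nh.snd fun x => φ x a
  have nab : Nh (ι := ι) (fun _ x => φ x a * φ x b) := Nh.snd fun x => φ x a * φ x b
  have nk : ∀ k ∈ Finset.Ico (l + 1) (S.K + 1), Nh (fun (z : ι → ℝ) (x : X) =>
      S.p k * (φ x a * S.mg φ k b z)) := fun k hk' =>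
    Nh.const_mul _ (Nh.mul na (Nh.fst (Fld.eg_mg hS (hk k hk') b)))
  have nl : Nh (fun (z : ι → ℝ) (x : X) => S.m (l + 1) * (S.mg φ l b z * φ x a)) :=
    Nh.const_mul _ (Nh.mul (Nh.fst (Fld.eg_mg hS hl b)) na)
  have e : (fun (z : ι → ℝ) (x : X) => (0 : ℝ) + φ x a * (D (zc l b) z x -
      ∑ i ∈ Finset.Ico (l + 1) (S.K + 1), S.p i * S.T i (D (zc l b)) z -
        S.m (l + 1) * S.T l (D (zc l b)) z)) =
      fun z x => u l * ((φ x a * φ x b - ∑ k ∈ Finset.Ico (l + 1) (S.K + 1),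
        S.p k * (φ x a * S.mg φ k b z)) - S.m (l + 1) * (S.mg φ l b z * φ x a)) := by
    funext z x
    rw [hD]
    simp only [Sy.T_const_mul]
    have e1 : ∀ k, S.T k (fun _ x => φ x b) z = S.mg φ k b z := fun k => rfl
    simp only [e1]
    have e2 : ∑ i ∈ Finset.Ico (l + 1) (S.K + 1), S.p i * (u l * S.mg φ i b z) =
        u l * ∑ i ∈ Finset.Ico (l + 1) (S.K + 1), S.p i * S.mg φ i b z := by
      rw [Finset.mul_sum]
      refine Finset.sum_congr rfl fun i _ => ?_
      ring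
    have e3 : ∑ k ∈ Finset.Ico (l + 1) (S.K + 1), S.p k * (φ x a * S.mg φ k b z) =
        φ x a * ∑ i ∈ Finset.Ico (l + 1) (S.K + 1), S.p i * S.mg φ i b z := by
      rw [Finset.mul_sum]
      refine Finset.sum_congr rfl fun i _ => ?_
      ring
    rw [e2, e3]
    ring
  rw [e, Sy.T_const_mul, hS.T_sub hl (Nh.sub nab (Nh.sum _ nk)) nl,
    hS.T_sub hl nab (Nh.sum _ nk), hS.T_sum hl _ nk, Sy.T_const_mul,
    T_mul_left S (Fld.dep_mg S φ l b)]
  congr 2
  · congr 1
    refine Finset.sum_congr rfl fun k hk' => ?_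
    rw [Sy.T_const_mul]
    congr 1
    rw [← hS.T_T (hlk k hk') (hk k hk') (Nh.mul na (Nh.fst (Fld.eg_mg hS (hk k hk') b)))]
    congr 1
    funext z' _
    have e4 : (fun (z : ι → ℝ) (x : X) => φ x a * S.mg φ k b z) =
        fun z x => S.mg φ k b z * (fun (_ : ι → ℝ) (x : X) => φ x a) z x := by
      funext z x
      exact mul_comm _ _
    rw [e4, T_mul_left S (Fld.dep_mg S φ k b), mul_comm]
    rfl
  · rw [mul_comm (S.mg φ l a z)]
    rfl

/-- the covariance matrix of two replicas -/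
lemma sy_pairEx_sq {l : ℕ} (hl : l ≤ S.K) :
    S.pairEx l (fun x x' => Rk φ A x x' ^ 2) = 1 / N ^ 2 * S.Ex (fun z _ => ∑ a ∈ A, ∑ b ∈ A,
      S.T l (fun _ x => φ x a * φ x b) z * S.T l (fun _ x => φ x a * φ x b) z) := by
  have hS := F.sy_reg
  rw [Sy.pairEx, ← Sy.Ex_const_mul]
  congr 1
  funext z _
  have e : ∀ a b, S.T l (fun _ x => φ x a * φ x b) z * S.T l (fun _ x => φ x a * φ x b) z =
      ∑ x, ∑ x', S.pr l z x * S.pr l z x' * ((φ x a * φ x b) * (φ x' a * φ x' b)) := by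
    intro a b
    rw [hS.T_pr hl (fun x => φ x a * φ x b), Finset.sum_mul_sum]
    refine Finset.sum_congr rfl fun x _ => Finset.sum_congr rfl fun x' _ => ?_
    ring
  have e2 : ∀ x x', Rk φ A x x' ^ 2 =
      1 / (N : ℝ) ^ 2 * ∑ a ∈ A, ∑ b ∈ A, (φ x a * φ x b) * (φ x' a * φ x' b) := by
    intro x x'
    rw [Rk, mul_pow, sq (∑ i ∈ A, φ x i * φ x' i), Finset.sum_mul_sum, div_pow, one_pow]
    congr 1
    refine Finset.sum_congr rfl fun a _ => Finset.sum_congr rfl fun b _ => ?_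
    ring
  simp_rw [e, e2]
  have e3 : ∑ a ∈ A, ∑ b ∈ A, ∑ x, ∑ x', S.pr l z x * S.pr l z x' *
      ((φ x a * φ x b) * (φ x' a * φ x' b)) =
      ∑ x, ∑ x', S.pr l z x * S.pr l z x' * ∑ a ∈ A, ∑ b ∈ A, (φ x a * φ x b) * (φ x' a * φ x' b) := by
    calc ∑ a ∈ A, ∑ b ∈ A, ∑ x, ∑ x', S.pr l z x * S.pr l z x' *
          ((φ x a * φ x b) * (φ x' a * φ x' b))
        = ∑ a ∈ A, ∑ x, ∑ b ∈ A, ∑ x', S.pr l z x * S.pr l z x' *
          ((φ x a * φ x b) * (φ x' a * φ x' b)) :=
          Finset.sum_congr rfl fun a _ => Finset.sum_comm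
      _ = ∑ x, ∑ a ∈ A, ∑ b ∈ A, ∑ x', S.pr l z x * S.pr l z x' *
          ((φ x a * φ x b) * (φ x' a * φ x' b)) := Finset.sum_comm
      _ = ∑ x, ∑ x', ∑ a ∈ A, ∑ b ∈ A, S.pr l z x * S.pr l z x' *
          ((φ x a * φ x b) * (φ x' a * φ x' b)) := by
          refine Finset.sum_congr rfl fun x _ => ?_
          calc ∑ a ∈ A, ∑ b ∈ A, ∑ x', S.pr l z x * S.pr l z x' *
                ((φ x a * φ x b) * (φ x' a * φ x' b))
              = ∑ a ∈ A, ∑ x', ∑ b ∈ A, S.pr l z x * S.pr l z x' *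
                ((φ x a * φ x b) * (φ x' a * φ x' b)) :=
                Finset.sum_congr rfl fun a _ => Finset.sum_comm
            _ = _ := Finset.sum_comm
      _ = _ := by
          refine Finset.sum_congr rfl fun x _ => Finset.sum_congr rfl fun x' _ => ?_
          simp_rw [Finset.mul_sum]
  rw [e3, Finset.mul_sum]
  refine Finset.sum_congr rfl fun x _ => ?_
  rw [Finset.mul_sum]
  refine Finset.sum_congr rfl fun x' _ => ?_
  ring

/-- (B). -/
theorem ident_B {l : ℕ} (hl : l ≤ S.K) :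
    S.Ex (fun z x => hk φ zc A l z x * ov S φ A l z x) =
      u l * (S.pairEx l (fun x x' => Rk φ A x x' ^ 2) -
        ∑ i ∈ Finset.Ico (l + 1) (S.K + 1), S.p i * (1 / N ^ 2 * S.Ex (fun z _ =>
          ∑ a ∈ A, ∑ b ∈ A, S.T l (fun _ x => φ x a * φ x b) z *
            S.T l (fun z _ => S.mg φ i a z * S.mg φ i b z) z)) -
        S.m (l + 1) * S.Ex (fun z x => ov S φ A l z x ^ 2) +
        S.Ex (fun z x => ov S φ A l z x * Rk φ A x x) -
        ∑ i ∈ Finset.Ico l (S.K + 1), S.p i *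
          S.Ex (fun z x => ov S φ A l z x * ov S φ A i z x)) := by
  have hS := F.sy_reg
  have hk : ∀ k ∈ Finset.Ico (l + 1) (S.K + 1), k ≤ S.K := fun k hk => by
    rw [Finset.mem_Ico] at hk; omega
  -- the derivative of the magnetization
  set d : Fin N → Fin N → (ι → ℝ) → ℝ := fun a b z =>
    u l * (S.T l (fun _ x => φ x a * φ x b) z -
      ∑ k ∈ Finset.Ico (l + 1) (S.K + 1), S.p k * S.T l (fun z _ => S.mg φ k a z * S.mg φ k b z) z -
      S.m (l + 1) * (S.mg φ l a z * S.mg φ l b z)) with hd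
  have nab : ∀ a b, Nh (ι := ι) (fun (_ : ι → ℝ) (x : X) => φ x a * φ x b) := fun a b =>
    Nh.snd fun x => φ x a * φ x b
  have eB : ∀ k ∈ Finset.Ico (l + 1) (S.K + 1), ∀ a b,
      EG (S.T l (fun z _ => S.mg φ k a z * S.mg φ k b z)) := fun k hk' a b =>
    hS.eg_T hl (Nh.fst ((Fld.eg_mg hS (hk k hk') a).mul (Fld.eg_mg hS (hk k hk') b)))
  have eA : ∀ a b, EG (S.T l (fun _ x => φ x a * φ x b)) := fun a b => hS.eg_T hl (nab a b)
  have ed : ∀ a b, EG (d a b) := fun a b =>
    EG.const_mul _ (((eA a b).sub (EG.sum _ fun k hk' => EG.const_mul _ (eB k hk' a b))).sub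
      (EG.const_mul _ ((Fld.eg_mg hS hl a).mul (Fld.eg_mg hS hl b))))
  have dB : ∀ k a b, Dep S.lev l (S.T l (fun z _ => S.mg φ k a z * S.mg φ k b z)) :=
    fun k a b => S.dep_T l _
  have dA : ∀ a b, Dep S.lev l (S.T l (fun _ x => φ x a * φ x b)) := fun a b => S.dep_T l _
  have dd : ∀ a b, Dep S.lev l (d a b) := by
    intro a b z w
    simp only [hd]
    rw [dA a b z w, Fld.dep_mg S φ l a z w, Fld.dep_mg S φ l b z w]
    simp only [fun k => dB k a b z w]
  -- integration by parts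
  have h := F.sy_Ex_hk_mul hl (w := ov S φ A l) (w' := fun b z x => 1 / N * ∑ a ∈ A, d a b z * φ x a)
    (fun b hb x => (PD.sum A fun a _ =>
      ((F.sy_pd_mg hl a hb).mul (PD.const (φ x a))).congr fun y => by
        rw [mul_zero, add_zero]).const_mul _) (sy_nh_ov hS hl)
    (fun b => Nh.const_mul _ (Nh.sum _ fun a _ => Nh.mul (Nh.fst (ed a b))
      (Nh.snd fun x => φ x a)))
  have h2 : S.Ex (fun z x => 1 / N * ∑ b ∈ A, φ x b * (1 / N * ∑ a ∈ A, d a b z * φ x a)) =
      u l * (S.pairEx l (fun x x' => Rk φ A x x' ^ 2) -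
        ∑ i ∈ Finset.Ico (l + 1) (S.K + 1), S.p i * (1 / N ^ 2 * S.Ex (fun z _ => ∑ a ∈ A, ∑ b ∈ A,
          S.T l (fun _ x => φ x a * φ x b) z * S.T l (fun z _ => S.mg φ i a z * S.mg φ i b z) z)) -
        S.m (l + 1) * S.Ex (fun z x => (1 / N * ∑ a ∈ A, S.mg φ l a z * φ x a) ^ 2)) := by
    -- replace `φ_a φ_b` by its conditional average
    have g1 : S.Ex (fun z x => 1 / N * ∑ b ∈ A, φ x b * (1 / N * ∑ a ∈ A, d a b z * φ x a)) =
        1 / N ^ 2 * ∑ a ∈ A, ∑ b ∈ A, S.Ex (fun z _ => d a b z * S.T l (fun _ x => φ x a * φ x b) z) := by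
      have e1 : (fun (z : ι → ℝ) (x : X) => 1 / (N : ℝ) * ∑ b ∈ A, φ x b *
          (1 / N * ∑ a ∈ A, d a b z * φ x a)) =
          fun z x => 1 / N ^ 2 * ∑ a ∈ A, ∑ b ∈ A, d a b z * (φ x a * φ x b) := by
        funext z x
        simp_rw [Finset.mul_sum]
        rw [Finset.sum_comm]
        refine Finset.sum_congr rfl fun a _ => Finset.sum_congr rfl fun b _ => ?_
        ring
      rw [e1, Sy.Ex_const_mul, hS.Ex_sum _ fun a _ => Nh.sum _ fun b _ =>
        Nh.mul (Nh.fst (ed a b)) (nab a b)]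
      congr 1
      refine Finset.sum_congr rfl fun a _ => ?_
      rw [hS.Ex_sum _ fun b _ => Nh.mul (Nh.fst (ed a b)) (nab a b)]
      refine Finset.sum_congr rfl fun b _ => ?_
      exact (hS.Ex_mul_T hl (dd a b) (ed a b) (nab a b)).symm
    have g2 : S.Ex (fun z x => (1 / N * ∑ a ∈ A, S.mg φ l a z * φ x a) ^ 2) =
        1 / N ^ 2 * ∑ a ∈ A, ∑ b ∈ A, S.Ex (fun z _ => (S.mg φ l a z * S.mg φ l b z) *
          S.T l (fun _ x => φ x a * φ x b) z) := by
      have e1 : (fun (z : ι → ℝ) (x : X) => (1 / (N : ℝ) * ∑ a ∈ A, S.mg φ l a z * φ x a) ^ 2) =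
          fun z x => 1 / N ^ 2 * ∑ a ∈ A, ∑ b ∈ A, (S.mg φ l a z * S.mg φ l b z) * (φ x a * φ x b) := by
        funext z x
        rw [mul_pow, sq (∑ a ∈ A, S.mg φ l a z * φ x a), Finset.sum_mul_sum, div_pow, one_pow]
        congr 1
        refine Finset.sum_congr rfl fun a _ => Finset.sum_congr rfl fun b _ => ?_
        ring
      have em : ∀ a b, EG (fun z => S.mg φ l a z * S.mg φ l b z) := fun a b =>
        (Fld.eg_mg hS hl a).mul (Fld.eg_mg hS hl b)
      rw [e1, Sy.Ex_const_mul, hS.Ex_sum _ fun a _ => Nh.sum _ fun b _ =>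
        Nh.mul (Nh.fst (em a b)) (nab a b)]
      congr 1
      refine Finset.sum_congr rfl fun a _ => ?_
      rw [hS.Ex_sum _ fun b _ => Nh.mul (Nh.fst (em a b)) (nab a b)]
      refine Finset.sum_congr rfl fun b _ => ?_
      refine (hS.Ex_mul_T hl (φ := fun z => S.mg φ l a z * S.mg φ l b z) ?_ (em a b)
        (nab a b)).symm
      intro z w
      exact congrArg₂ (· * ·) (Fld.dep_mg S φ l a z w) (Fld.dep_mg S φ l b z w)
    have g3 : ∀ k ∈ Finset.Ico (l + 1) (S.K + 1), S.Ex (fun z _ => ∑ a ∈ A, ∑ b ∈ A,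
          S.T l (fun _ x => φ x a * φ x b) z * S.T l (fun z _ => S.mg φ k a z * S.mg φ k b z) z) =
        ∑ a ∈ A, ∑ b ∈ A, S.Ex (fun z _ =>
          S.T l (fun _ x => φ x a * φ x b) z * S.T l (fun z _ => S.mg φ k a z * S.mg φ k b z) z) := by
      intro k hk'
      rw [hS.Ex_sum _ fun a _ => Nh.sum _ fun b _ => Nh.fst ((eA a b).mul (eB k hk' a b))]
      refine Finset.sum_congr rfl fun a _ => ?_
      rw [hS.Ex_sum _ fun b _ => Nh.fst ((eA a b).mul (eB k hk' a b))]
    have g4 : S.Ex (fun z _ => ∑ a ∈ A, ∑ b ∈ A,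
          S.T l (fun _ x => φ x a * φ x b) z * S.T l (fun _ x => φ x a * φ x b) z) =
        ∑ a ∈ A, ∑ b ∈ A, S.Ex (fun z _ =>
          S.T l (fun _ x => φ x a * φ x b) z * S.T l (fun _ x => φ x a * φ x b) z) := by
      rw [hS.Ex_sum _ fun a _ => Nh.sum _ fun b _ => Nh.fst ((eA a b).mul (eA a b))]
      refine Finset.sum_congr rfl fun a _ => ?_
      rw [hS.Ex_sum _ fun b _ => Nh.fst ((eA a b).mul (eA a b))]
    have g5 : ∀ a b, S.Ex (fun z _ => d a b z * S.T l (fun _ x => φ x a * φ x b) z) =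
        u l * (S.Ex (fun z _ => S.T l (fun _ x => φ x a * φ x b) z *
            S.T l (fun _ x => φ x a * φ x b) z) -
          ∑ k ∈ Finset.Ico (l + 1) (S.K + 1), S.p k * S.Ex (fun z _ =>
            S.T l (fun _ x => φ x a * φ x b) z *
              S.T l (fun z _ => S.mg φ k a z * S.mg φ k b z) z) -
          S.m (l + 1) * S.Ex (fun z _ => (S.mg φ l a z * S.mg φ l b z) *
            S.T l (fun _ x => φ x a * φ x b) z)) := by
      intro a b
      have n1 : Nh (X := X) (fun z _ => S.T l (fun _ x => φ x a * φ x b) z *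
            S.T l (fun _ x => φ x a * φ x b) z) := Nh.fst ((eA a b).mul (eA a b))
      have n2 : ∀ k ∈ Finset.Ico (l + 1) (S.K + 1), Nh (X := X) (fun z _ => S.p k *
          (S.T l (fun _ x => φ x a * φ x b) z *
              S.T l (fun z _ => S.mg φ k a z * S.mg φ k b z) z)) := fun k hk' =>
        Nh.fst (EG.const_mul _ ((eA a b).mul (eB k hk' a b)))
      have n3 : Nh (X := X) (fun z _ => S.m (l + 1) * ((S.mg φ l a z * S.mg φ l b z) *
            S.T l (fun _ x => φ x a * φ x b) z)) :=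
        Nh.fst (EG.const_mul _ (((Fld.eg_mg hS hl a).mul (Fld.eg_mg hS hl b)).mul (eA a b)))
      have e1 : (fun (z : ι → ℝ) (_ : X) => d a b z * S.T l (fun _ x => φ x a * φ x b) z) =
          fun z _ => u l * ((S.T l (fun _ x => φ x a * φ x b) z *
            S.T l (fun _ x => φ x a * φ x b) z - ∑ k ∈ Finset.Ico (l + 1) (S.K + 1), S.p k *
          (S.T l (fun _ x => φ x a * φ x b) z *
              S.T l (fun z _ => S.mg φ k a z * S.mg φ k b z) z)) -
              S.m (l + 1) * ((S.mg φ l a z * S.mg φ l b z) *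
            S.T l (fun _ x => φ x a * φ x b) z)) := by
        funext z _
        simp only [hd]
        have e2 : ∑ k ∈ Finset.Ico (l + 1) (S.K + 1), S.p k *
          (S.T l (fun _ x => φ x a * φ x b) z *
              S.T l (fun z _ => S.mg φ k a z * S.mg φ k b z) z) =
            S.T l (fun _ x => φ x a * φ x b) z * ∑ k ∈ Finset.Ico (l + 1) (S.K + 1), S.p k *
              S.T l (fun z _ => S.mg φ k a z * S.mg φ k b z) z := by
          rw [Finset.mul_sum]
          refine Finset.sum_congr rfl fun k _ => ?_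
          ring
        rw [e2]
        ring
      rw [e1, Sy.Ex_const_mul, hS.Ex_sub (Nh.sub n1 (Nh.sum _ n2)) n3,
        hS.Ex_sub n1 (Nh.sum _ n2), hS.Ex_sum _ n2, Sy.Ex_const_mul]
      congr 3
      refine Finset.sum_congr rfl fun k _ => ?_
      rw [Sy.Ex_const_mul]
    rw [g1, g2, F.sy_pairEx_sq hl, g4]
    simp_rw [g5]
    have g6 : ∑ i ∈ Finset.Ico (l + 1) (S.K + 1), S.p i * (1 / (N : ℝ) ^ 2 *
        S.Ex (fun z _ => ∑ a ∈ A, ∑ b ∈ A, S.T l (fun _ x => φ x a * φ x b) z *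
          S.T l (fun z _ => S.mg φ i a z * S.mg φ i b z) z)) =
        1 / (N : ℝ) ^ 2 * ∑ a ∈ A, ∑ b ∈ A, ∑ k ∈ Finset.Ico (l + 1) (S.K + 1), S.p k * S.Ex (fun z _ =>
            S.T l (fun _ x => φ x a * φ x b) z *
              S.T l (fun z _ => S.mg φ k a z * S.mg φ k b z) z) := by
      rw [Finset.sum_congr rfl fun k hk' => by rw [g3 k hk']]
      simp_rw [Finset.mul_sum]
      rw [Finset.sum_comm]
      refine Finset.sum_congr rfl fun a _ => ?_
      rw [Finset.sum_comm]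
      refine Finset.sum_congr rfl fun b _ => Finset.sum_congr rfl fun k _ => ?_
      ring
    rw [g6]
    simp_rw [mul_sub, Finset.sum_sub_distrib, ← Finset.mul_sum]
    ring
  rw [h2] at h
  refine Eq.trans h ?_
  rw [← mul_add]
  congr 1
  have e5 : S.Ex (fun z x => ov S φ A l z x ^ 2) =
      S.Ex (fun z x => (1 / N * ∑ a ∈ A, S.mg φ l a z * φ x a) ^ 2) := rfl
  rw [e5]
  ring

/-- In (B), the averages over three replicas are at most the average over two replicas. -/
theorem three_le_two {l i : ℕ} (hl : l ≤ i) (hi : i ≤ S.K) :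
    1 / N ^ 2 * S.Ex (fun z _ => ∑ a ∈ A, ∑ b ∈ A,
      S.T l (fun _ x => φ x a * φ x b) z * S.T l (fun z _ => S.mg φ i a z * S.mg φ i b z) z) ≤
        S.pairEx l (fun x x' => Rk φ A x x' ^ 2) := by
  have hS := F.sy_reg
  have hlK : l ≤ S.K := hl.trans hi
  rw [F.sy_pairEx_sq hlK]
  refine mul_le_mul_of_nonneg_left ?_ (by positivity)
  have na : ∀ a, Nh (ι := ι) (fun (_ : ι → ℝ) (x : X) => φ x a) := fun a => Nh.snd fun x => φ x a
  have nab : ∀ a b, Nh (ι := ι) (fun (_ : ι → ℝ) (x : X) => φ x a * φ x b) := fun a b =>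
    Nh.snd fun x => φ x a * φ x b
  have em : ∀ a, EG (S.mg φ i a) := fun a => Fld.eg_mg hS hi a
  have emm : ∀ a b, EG (fun z => S.mg φ i a z * S.mg φ i b z) := fun a b => (em a).mul (em b)
  have eA : ∀ a b, EG (S.T l (fun _ x => φ x a * φ x b)) := fun a b => hS.eg_T hlK (nab a b)
  have eB : ∀ a b, EG (S.T l (fun z _ => S.mg φ i a z * S.mg φ i b z)) := fun a b =>
    hS.eg_T hlK (Nh.fst (emm a b))
  refine hS.Ex_mono (Nh.sum _ fun a _ => Nh.sum _ fun b _ => Nh.fst ((eA a b).mul (eB a b)))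
    (Nh.sum _ fun a _ => Nh.sum _ fun b _ => Nh.fst ((eA a b).mul (eA a b))) fun z _ => ?_
  rw [← sub_nonneg, ← Finset.sum_sub_distrib]
  simp_rw [← Finset.sum_sub_distrib, ← mul_sub]
  -- the conditional covariance
  have nd : ∀ a, Nh (fun (z : ι → ℝ) (x : X) => φ x a - S.mg φ i a z) := fun a =>
    Nh.sub (na a) (Nh.fst (em a))
  have e1 : ∀ a b, S.T l (fun _ x => φ x a * φ x b) z -
      S.T l (fun z _ => S.mg φ i a z * S.mg φ i b z) z =
      S.T l (fun z x => (φ x a - S.mg φ i a z) * (φ x b - S.mg φ i b z)) z := by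
    intro a b
    have t1 : ∀ a b, S.T l (fun z x => S.mg φ i a z * φ x b) z =
        S.T l (fun z _ => S.mg φ i a z * S.mg φ i b z) z := by
      intro a b
      rw [← hS.T_T hl hi (Nh.mul (Nh.fst (em a)) (na b))]
      congr 1
      funext z' _
      rw [T_mul_left S (Fld.dep_mg S φ i a)]
      rfl
    have e2 : (fun (z : ι → ℝ) (x : X) => (φ x a - S.mg φ i a z) * (φ x b - S.mg φ i b z)) =
        fun z x => ((φ x a * φ x b - S.mg φ i a z * φ x b) - S.mg φ i b z * φ x a) +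
          S.mg φ i a z * S.mg φ i b z := by
      funext z x
      ring
    have n1 := Nh.mul (Nh.fst (em a)) (na b)
    have n2 := Nh.mul (Nh.fst (em b)) (na a)
    rw [e2, hS.T_add hlK (Nh.sub (Nh.sub (nab a b) n1) n2) (Nh.fst (emm a b)),
      hS.T_sub hlK (Nh.sub (nab a b) n1) n2, hS.T_sub hlK (nab a b) n1, t1, t1]
    have e3 : (fun (z : ι → ℝ) (_ : X) => S.mg φ i b z * S.mg φ i a z) =
        fun z _ => S.mg φ i a z * S.mg φ i b z := by
      funext z _
      exact mul_comm _ _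
    rw [e3]
    ring
  simp_rw [e1]
  have e4 : ∑ a ∈ A, ∑ b ∈ A, S.T l (fun _ x => φ x a * φ x b) z *
      S.T l (fun z x => (φ x a - S.mg φ i a z) * (φ x b - S.mg φ i b z)) z =
      ∑ x, S.pr l z x * S.T l (fun z y => (∑ a ∈ A, φ x a * (φ y a - S.mg φ i a z)) ^ 2) z := by
    have e5 : ∀ x, S.T l (fun z y => (∑ a ∈ A, φ x a * (φ y a - S.mg φ i a z)) ^ 2) z =
        ∑ a ∈ A, ∑ b ∈ A, (φ x a * φ x b) *
          S.T l (fun z x => (φ x a - S.mg φ i a z) * (φ x b - S.mg φ i b z)) z := by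
      intro x
      have e6 : (fun (z : ι → ℝ) (y : X) => (∑ a ∈ A, φ x a * (φ y a - S.mg φ i a z)) ^ 2) =
          fun z y => ∑ a ∈ A, ∑ b ∈ A, (φ x a * φ x b) *
            ((fun (z : ι → ℝ) (x : X) => (φ x a - S.mg φ i a z) * (φ x b - S.mg φ i b z)) z y) := by
        funext z y
        rw [sq, Finset.sum_mul_sum]
        refine Finset.sum_congr rfl fun a _ => Finset.sum_congr rfl fun b _ => ?_
        ring
      rw [e6, hS.T_sum hlK _ fun a _ => Nh.sum _ fun b _ =>
        Nh.const_mul _ (Nh.mul (nd a) (nd b))]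
      refine Finset.sum_congr rfl fun a _ => ?_
      rw [hS.T_sum hlK _ fun b _ => Nh.const_mul _ (Nh.mul (nd a) (nd b))]
      refine Finset.sum_congr rfl fun b _ => ?_
      rw [Sy.T_const_mul]
    simp_rw [e5, Finset.mul_sum]
    rw [Finset.sum_comm]
    rw [Finset.sum_comm (s := (Finset.univ : Finset X))]
    rw [Finset.sum_comm]
    refine Finset.sum_congr rfl fun a _ => ?_
    rw [Finset.sum_comm (s := (Finset.univ : Finset X))]
    refine Finset.sum_congr rfl fun b _ => ?_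
    rw [hS.T_pr hlK (fun x => φ x a * φ x b), Finset.sum_mul]
    refine Finset.sum_congr rfl fun x _ => ?_
    ring
  rw [e4]
  refine Finset.sum_nonneg fun x _ => mul_nonneg (hS.pr_nonneg hlK z x) ?_
  have h0 := hS.T_mono hlK (f := fun _ _ => (0 : ℝ))
    (g := fun z y => (∑ a ∈ A, φ x a * (φ y a - S.mg φ i a z)) ^ 2) (Nh.snd fun _ => 0)
    (Nh.pow (Nh.sum _ fun a _ => Nh.const_mul _ (nd a)) 2) (fun z y => sq_nonneg _) z
  rwa [hS.T_const hlK] at h0

lemma sy_ov_eq {l : ℕ} (hl : l ≤ S.K) (z : ι → ℝ) (x : X) :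
    ov S φ A l z x = ∑ x', S.pr l z x' * Rk φ A x' x := by
  have hS := F.sy_reg
  simp_rw [ov, Fld.mg_eq hS hl, Rk, Finset.sum_mul]
  rw [Finset.sum_comm, Finset.mul_sum]
  refine Finset.sum_congr rfl fun x' _ => ?_
  rw [Finset.mul_sum, Finset.mul_sum, Finset.mul_sum]
  refine Finset.sum_congr rfl fun a _ => ?_
  ring

lemma sy_abs_ov_le {l : ℕ} (hl : l ≤ S.K) (z : ι → ℝ) (x : X) : |ov S φ A l z x| ≤ 1 := by
  have hS := F.sy_reg
  rw [F.sy_ov_eq hl]
  refine (Finset.abs_sum_le_sum_abs _ _).trans ?_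
  rw [← hS.sum_pr hl z]
  refine Finset.sum_le_sum fun x' _ => ?_
  rw [abs_mul, abs_of_nonneg (hS.pr_nonneg hl z x')]
  exact mul_le_of_le_one_right (hS.pr_nonneg hl z x') (F.abs_Rk_le x' x)

/-- a concentrated observable is almost uncorrelated with the overlap -/
lemma sy_dev_gen {l : ℕ} (hl : l ≤ S.K) {ε c : ℝ} {h : (ι → ℝ) → X → ℝ} (nh : Nh h)
    (hc : S.Ex (fun z x => |h z x - c|) ≤ ε) :
    |S.Ex (fun z x => h z x * ov S φ A l z x) - S.Ex h * S.pairEx l (Rk φ A)| ≤ 2 * ε := by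
  have hS := F.sy_reg
  have nu := sy_nh_ov (φ := φ) (A := A) hS hl
  have nc : ∀ c : ℝ, Nh (ι := ι) (X := X) (fun _ _ => c) := fun c => Nh.fst (EG.const c)
  have n1 : Nh (fun z x => h z x - c) := Nh.sub nh (nc c)
  have n2 : Nh (fun z x => ov S φ A l z x - S.pairEx l (Rk φ A)) := Nh.sub nu (nc _)
  have e : S.Ex (fun z x => h z x * ov S φ A l z x) - S.Ex h * S.pairEx l (Rk φ A) =
      S.Ex (fun z x => (h z x - c) * (ov S φ A l z x - S.pairEx l (Rk φ A))) := by
    have e1 : (fun z x => (h z x - c) * (ov S φ A l z x - S.pairEx l (Rk φ A))) =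
        fun z x => (h z x * ov S φ A l z x - S.pairEx l (Rk φ A) * h z x) -
          c * (ov S φ A l z x - S.pairEx l (Rk φ A)) := by
      funext z x
      ring
    rw [e1, hS.Ex_sub (Nh.sub (Nh.mul nh nu) (Nh.const_mul _ nh)) (Nh.const_mul _ n2),
      hS.Ex_sub (Nh.mul nh nu) (Nh.const_mul _ nh), Sy.Ex_const_mul, Sy.Ex_const_mul,
      hS.Ex_sub nu (nc _), hS.Ex_const, F.sy_Ex_ov hl, sub_self, mul_zero, sub_zero,
      mul_comm (S.pairEx l (Rk φ A))]
  rw [e]
  refine (hS.abs_Ex_le (Nh.mul n1 n2)).trans ?_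
  have h2 : S.Ex (fun z x => |(h z x - c) * (ov S φ A l z x - S.pairEx l (Rk φ A))|) ≤
      S.Ex (fun z x => 2 * |h z x - c|) := by
    refine hS.Ex_mono (Nh.abs (Nh.mul n1 n2)) (Nh.const_mul _ (Nh.abs n1)) fun z x => ?_
    rw [abs_mul, mul_comm]
    refine mul_le_mul_of_nonneg_right ?_ (abs_nonneg _)
    have h3 := abs_le.mp (F.sy_abs_ov_le hl z x)
    have h4 := F.pairEx_Rk_nonneg hl
    have h5 := F.sy_pairEx_le_one hl
    rw [abs_le]
    constructor <;> linarith only [h3, h4, h5]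
  refine h2.trans ?_
  rw [Sy.Ex_const_mul]
  linarith only [hc]

/-- **Synchronization.** -/
theorem sync {ε σ π ρ : ℝ} (hε : 0 ≤ ε) (hσ : 0 < σ) (hσ1 : σ ≤ 1)
    (hu : ∀ l, 1 ≤ l → l ≤ S.K → σ ≤ u l) (hπ : 0 < π) (hp : ∀ l ≤ S.K, π ≤ S.p l)
    (hρ : S.Ex (fun _ x => |Rk φ A x x - ρ|) ≤ ε)
    (hc : ∀ l, 1 ≤ l → l ≤ S.K → ∃ C, S.Ex (fun z x => |hk φ zc A l z x - C|) ≤ ε)
    {l : ℕ} (hl0 : 1 ≤ l) (hl : l < S.K) :
    S.pairEx l (fun x x' => (Rk φ A x x' - S.pairEx l (Rk φ A)) ^ 2) ≤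
      2 * (S.pairEx (l + 1) (Rk φ A) - S.pairEx l (Rk φ A)) + 100 * ε / (σ * π) := by
  have hS := F.sy_reg
  have hN := F.sy_Npos
  have hlK := hl.le
  set R : ℕ → ℝ := fun k => S.pairEx k (Rk φ A) with hR
  set W : ℕ → ℝ := fun k => S.Ex (fun z x => ov S φ A l z x * ov S φ A k z x) with hW
  set G : ℕ → ℝ := fun k => W k - R l * R k with hG
  set B : ℕ → ℝ := fun j => ∑ k ∈ Finset.Ico j (S.K + 1), S.p k * G k with hB'
  set E0 : ℝ := S.Ex (fun _ x => Rk φ A x x) with hE0
  set E1 : ℝ := S.Ex (fun z x => ov S φ A l z x * Rk φ A x x) with hE1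
  have hδ : 0 ≤ 4 * ε / σ := by (clear * - hε hσ; positivity)
  have hεσ : ε ≤ ε / σ := by
    rw [le_div_iff₀ hσ]
    exact mul_le_of_le_one_right hε hσ1
  -- the self-overlap
  have hdev2 : |E1 - E0 * R l| ≤ 2 * ε := by
    have h1 := F.sy_dev_gen hlK (h := fun _ x => Rk φ A x x) sy_nh_Rk hρ
    have e : S.Ex (fun z x => Rk φ A x x * ov S φ A l z x) = E1 := by
      rw [hE1]
      congr 1
      funext z x
      exact mul_comm _ _
    rw [e] at h1
    exact h1
  have e3 : ∀ j, B j = ∑ i ∈ Finset.Ico j (S.K + 1), S.p i * W i -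
      R l * ∑ i ∈ Finset.Ico j (S.K + 1), S.p i * R i := by
    intro j
    simp only [hB', hG]
    rw [Finset.mul_sum, ← Finset.sum_sub_distrib]
    refine Finset.sum_congr rfl fun i _ => ?_
    ring
  -- consequences of (A)
  have cA : ∀ j, l < j → j ≤ S.K + 1 → |B j| ≤ 4 * ε / σ := by
    intro j hlj hj
    rcases Nat.lt_or_ge j (S.K + 1) with hj' | hj'
    · have hjK : j ≤ S.K := by omega
      have hj1 : 1 ≤ j := by omega
      obtain ⟨c, hc'⟩ := hc j hj1 hjK
      have h1 := F.sy_dev_gen hlK (sy_nh_hk j) hc'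
      have h2 := F.ident_A hlj hjK
      have h3 := F.Ex_hk hjK
      have e1 : S.Ex (fun z x => hk φ zc A j z x * ov S φ A l z x) -
          S.Ex (hk φ zc A j) * S.pairEx l (Rk φ A) = u j * ((E1 - E0 * R l) - B j) := by
        have e2 : S.Ex (fun z x => hk φ zc A j z x * ov S φ A l z x) =
            u j * (E1 - ∑ i ∈ Finset.Ico j (S.K + 1), S.p i * W i) := h2
        rw [e2, h3, e3 j]
        simp only [hR, ← hE0]
        ring
      have huj := hu j hj1 hjK
      have huj0 : 0 < u j := lt_of_lt_of_le hσ huj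
      rw [e1, abs_mul, abs_of_pos huj0] at h1
      have h4 : |E1 - E0 * R l - B j| ≤ 2 * ε / σ := by
        rw [le_div_iff₀ hσ]
        have h5 := mul_le_mul_of_nonneg_left huj (abs_nonneg (E1 - E0 * R l - B j))
        rw [mul_comm (|E1 - E0 * R l - B j|) (u j)] at h5
        exact h5.trans h1
      have h6 := abs_le.1 h4
      have h7 := abs_le.1 hdev2
      have h8 : 4 * ε / σ = 2 * ε / σ + 2 * (ε / σ) := by ring
      rw [abs_le, h8]
      constructor <;> linarith only [hεσ, h6, h7]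
    · have : B j = 0 := by
        simp only [hB']
        rw [Finset.Ico_eq_empty (by omega), Finset.sum_empty]
      rw [this, abs_zero]
      exact hδ
  -- the covariance with the next level
  have hG1 : G (l + 1) ≤ 8 * ε / (σ * π) := by
    have e1 : B (l + 1) = S.p (l + 1) * G (l + 1) + B (l + 1 + 1) := by
      simp only [hB']
      rw [Finset.sum_eq_sum_Ico_succ_bot (by omega : l + 1 < S.K + 1)]
    have h1 := abs_le.mp (cA (l + 1) (by omega) (by omega))
    have h2 := abs_le.mp (cA (l + 1 + 1) (by omega) (by omega))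
    have h3 := hp (l + 1) (by omega)
    have h4 : S.p (l + 1) * G (l + 1) ≤ 8 * ε / σ := by
      have : 8 * ε / σ = 4 * ε / σ + 4 * ε / σ := by ring
      rw [this]
      linarith only [e1, h1, h2]
    by_cases hg : G (l + 1) ≤ 0
    · exact hg.trans (by (clear * - hε hσ hπ; positivity))
    · push Not at hg
      rw [← div_div, le_div_iff₀ hπ]
      have h5 := mul_le_mul_of_nonneg_left h3 hg.le
      rw [mul_comm (G (l + 1)) (S.p (l + 1))] at h5
      exact h5.trans h4
  -- the variance of the overlap with the magnetization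
  have nu := sy_nh_ov (φ := φ) (A := A) hS hlK
  have nu' := sy_nh_ov (φ := φ) (A := A) hS (show l + 1 ≤ S.K from hl)
  have nc : ∀ c : ℝ, Nh (ι := ι) (X := X) (fun _ _ => c) := fun c => Nh.fst (EG.const c)
  set V : ℝ := W l - R l * R l with hV
  have hV1 : S.Ex (fun z x => (ov S φ A l z x - R l) ^ 2) = V := by
    have e1 : (fun z x => (ov S φ A l z x - R l) ^ 2) =
        fun z x => (ov S φ A l z x * ov S φ A l z x - 2 * R l * ov S φ A l z x) + R l ^ 2 := by
      funext z x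
      ring
    rw [e1, hS.Ex_add (Nh.sub (Nh.mul nu nu) (Nh.const_mul _ nu)) (nc _),
      hS.Ex_sub (Nh.mul nu nu) (Nh.const_mul _ nu), Sy.Ex_const_mul, hS.Ex_const, F.sy_Ex_ov hlK]
    simp only [hV, hR, hW]
    ring
  have hV0 : 0 ≤ V := by
    rw [← hV1, ← hS.Ex_const 0]
    exact hS.Ex_mono (nc 0) (Nh.pow (Nh.sub nu (nc _)) 2) fun z x => sq_nonneg _
  have hdif : S.Ex (fun z x => (ov S φ A l z x - ov S φ A (l + 1) z x) ^ 2) ≤
      R (l + 1) - R l := by
    simp only [hR]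
    rw [← F.sy_Rl_sub hl, ← Sy.Ex_const_mul]
    refine hS.Ex_mono (Nh.pow (Nh.sub nu nu') 2) (Nh.fst (EG.const_mul _ (EG.sum _ fun i _ =>
      ((Fld.eg_mg hS (show l + 1 ≤ S.K from hl) i).sub (Fld.eg_mg hS hlK i)).pow 2)))
      fun z x => ?_
    have e1 : ov S φ A l z x - ov S φ A (l + 1) z x =
        -(1 / N * ∑ a ∈ A, (S.mg φ (l + 1) a z - S.mg φ l a z) * φ x a) := by
      simp_rw [ov, sub_mul]
      rw [Finset.sum_sub_distrib]
      ring
    rw [e1, neg_sq, mul_pow]
    have h1 := Finset.sum_mul_sq_le_sq_mul_sq A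
      (fun a => S.mg φ (l + 1) a z - S.mg φ l a z) (φ x)
    have h0 : 0 ≤ ∑ a ∈ A, (S.mg φ (l + 1) a z - S.mg φ l a z) ^ 2 :=
      Finset.sum_nonneg fun a _ => sq_nonneg _
    have h2 := h1.trans (mul_le_mul_of_nonneg_left (F.norm x) h0)
    calc (1 / (N : ℝ)) ^ 2 * (∑ a ∈ A, (S.mg φ (l + 1) a z - S.mg φ l a z) * φ x a) ^ 2
        ≤ (1 / (N : ℝ)) ^ 2 * ((∑ a ∈ A, (S.mg φ (l + 1) a z - S.mg φ l a z) ^ 2) * N) :=
          mul_le_mul_of_nonneg_left h2 (by (clear * - hN; positivity))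
      _ = 1 / N * ∑ i ∈ A, (S.mg φ (l + 1) i z - S.mg φ l i z) ^ 2 := by
          (clear * - hN; field_simp)
  have hV2 : V ≤ (R (l + 1) - R l) + 2 * G (l + 1) := by
    have e1 : V - G (l + 1) =
        S.Ex (fun z x => (ov S φ A l z x - R l) * (ov S φ A l z x - ov S φ A (l + 1) z x)) := by
      have e2 : (fun z x => (ov S φ A l z x - R l) * (ov S φ A l z x - ov S φ A (l + 1) z x)) =
          fun z x => (ov S φ A l z x * ov S φ A l z x - ov S φ A l z x * ov S φ A (l + 1) z x) -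
            (R l * ov S φ A l z x - R l * ov S φ A (l + 1) z x) := by
        funext z x
        ring
      rw [e2, hS.Ex_sub (Nh.sub (Nh.mul nu nu) (Nh.mul nu nu'))
        (Nh.sub (Nh.const_mul _ nu) (Nh.const_mul _ nu')), hS.Ex_sub (Nh.mul nu nu) (Nh.mul nu nu'),
        hS.Ex_sub (Nh.const_mul _ nu) (Nh.const_mul _ nu'), Sy.Ex_const_mul, Sy.Ex_const_mul,
        F.sy_Ex_ov hlK, F.sy_Ex_ov (show l + 1 ≤ S.K from hl)]
      simp only [hV, hG, hR, hW]
      ring
    have h1 : S.Ex (fun z x => (ov S φ A l z x - R l) * (ov S φ A l z x - ov S φ A (l + 1) z x)) ≤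
        S.Ex (fun z x => 1 / 2 * (ov S φ A l z x - R l) ^ 2 +
          1 / 2 * (ov S φ A l z x - ov S φ A (l + 1) z x) ^ 2) := by
      refine hS.Ex_mono (Nh.mul (Nh.sub nu (nc _)) (Nh.sub nu nu'))
        (Nh.add (Nh.const_mul _ (Nh.pow (Nh.sub nu (nc _)) 2))
          (Nh.const_mul _ (Nh.pow (Nh.sub nu nu') 2))) fun z x => ?_
      have := two_mul_le_add_sq (ov S φ A l z x - R l) (ov S φ A l z x - ov S φ A (l + 1) z x)
      linarith only [this]
    rw [hS.Ex_add (Nh.const_mul _ (Nh.pow (Nh.sub nu (nc _)) 2))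
      (Nh.const_mul _ (Nh.pow (Nh.sub nu nu') 2)), Sy.Ex_const_mul, Sy.Ex_const_mul, hV1] at h1
    linarith only [hdif, e1, h1]
  -- (B)
  set Q : ℝ := S.pairEx l (fun x x' => Rk φ A x x' ^ 2) with hQ
  set a : ℕ → ℝ := fun i => 1 / (N : ℝ) ^ 2 * S.Ex (fun z _ => ∑ a ∈ A, ∑ b ∈ A,
          S.T l (fun _ x => φ x a * φ x b) z * S.T l (fun z _ => S.mg φ i a z * S.mg φ i b z) z)
    with ha
  have hp0 : ∀ i ≤ S.K, 0 ≤ S.p i := fun i hi => by
    rw [Sy.p]
    linarith only [hS.mono i hi]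
  have hsum : ∑ i ∈ Finset.Ico (l + 1) (S.K + 1), S.p i = 1 - S.m (l + 1) := by
    have h1 : ∀ n, l + 1 ≤ n → ∑ i ∈ Finset.Ico (l + 1) n, S.p i = S.m n - S.m (l + 1) := by
      intro n hn
      induction n, hn using Nat.le_induction with
      | base => simp
      | succ n hn ih =>
        rw [Finset.sum_Ico_succ_top hn, ih, Sy.p]
        ring
    rw [h1 _ (by omega), hS.mK]
  have ha1 : ∑ i ∈ Finset.Ico (l + 1) (S.K + 1), S.p i * a i ≤ Q * (1 - S.m (l + 1)) := by
    rw [← hsum, Finset.mul_sum]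
    refine Finset.sum_le_sum fun i hi => ?_
    rw [Finset.mem_Ico] at hi
    rw [mul_comm Q]
    exact mul_le_mul_of_nonneg_left (F.three_le_two (by omega) (by omega)) (hp0 i (by omega))
  have hB : Q - ∑ i ∈ Finset.Ico (l + 1) (S.K + 1), S.p i * a i - S.m (l + 1) * W l - B l ≤
      4 * ε / σ := by
    obtain ⟨c, hc'⟩ := hc l hl0 hlK
    have h1 := F.sy_dev_gen hlK (sy_nh_hk l) hc'
    have h2 := F.ident_B hlK
    have h3 := F.Ex_hk hlK
    have e1 : S.Ex (fun z x => hk φ zc A l z x * ov S φ A l z x) -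
        S.Ex (hk φ zc A l) * S.pairEx l (Rk φ A) =
        u l * ((Q - ∑ i ∈ Finset.Ico (l + 1) (S.K + 1), S.p i * a i - S.m (l + 1) * W l - B l) +
          (E1 - E0 * R l)) := by
      have e0 : W l = S.Ex (fun z x => ov S φ A l z x ^ 2) := by
        simp only [hW]
        congr 1
        funext z x
        rw [sq]
      have e2 : S.Ex (fun z x => hk φ zc A l z x * ov S φ A l z x) =
          u l * (Q - ∑ i ∈ Finset.Ico (l + 1) (S.K + 1), S.p i * a i - S.m (l + 1) * W l + E1 -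
            ∑ i ∈ Finset.Ico l (S.K + 1), S.p i * W i) := by
        rw [e0]
        exact h2
      rw [e2, h3, e3 l]
      simp only [hR, ← hE0]
      ring
    have huj := hu l hl0 hlK
    have huj0 : 0 < u l := lt_of_lt_of_le hσ huj
    rw [e1, abs_mul, abs_of_pos huj0] at h1
    set Z := Q - ∑ i ∈ Finset.Ico (l + 1) (S.K + 1), S.p i * a i - S.m (l + 1) * W l - B l with hZ
    have h4 : |Z + (E1 - E0 * R l)| ≤ 2 * ε / σ := by
      rw [le_div_iff₀ hσ]
      have h5 := mul_le_mul_of_nonneg_left huj (abs_nonneg (Z + (E1 - E0 * R l)))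
      rw [mul_comm (|Z + (E1 - E0 * R l)|) (u l)] at h5
      exact h5.trans h1
    have h6 := abs_le.1 h4
    have h7 := abs_le.1 hdev2
    have h8 : 4 * ε / σ = 2 * ε / σ + 2 * (ε / σ) := by ring
    rw [h8]
    linarith only [hεσ, h6, h7]
  have hAl : B l = S.p l * V + B (l + 1) := by
    simp only [hB', hV]
    rw [Finset.sum_eq_sum_Ico_succ_bot (by omega : l < S.K + 1)]
  have hA1 := (abs_le.mp (cA (l + 1) (by omega) (by omega))).2
  have hm0 : 0 ≤ S.m l := (hS.m_pos hl0 (by omega)).le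
  have hpl : S.p l ≤ S.m (l + 1) := by
    rw [Sy.p]
    linarith only [hm0]
  have hmπ : π ≤ S.m (l + 1) := (hp l hlK).trans hpl
  have hmain : S.m (l + 1) * (Q - R l * R l - 2 * V) ≤ 8 * ε / σ := by
    have e1 : 8 * ε / σ = 4 * ε / σ + 4 * ε / σ := by ring
    have e2 : W l = V + R l * R l := by simp only [hV]; ring
    rw [hAl, e2] at hB
    rw [e1]
    have h6 : S.p l * V ≤ S.m (l + 1) * V := mul_le_mul_of_nonneg_right hpl hV0
    have e3 : S.m (l + 1) * (V + R l * R l) = S.m (l + 1) * V + S.m (l + 1) * (R l * R l) :=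
      mul_add _ _ _
    have e4 : Q * (1 - S.m (l + 1)) = Q - S.m (l + 1) * Q := by ring
    have e5 : S.m (l + 1) * (Q - R l * R l - 2 * V) = S.m (l + 1) * Q -
        S.m (l + 1) * (R l * R l) - 2 * (S.m (l + 1) * V) := by ring
    rw [e3] at hB
    rw [e4] at ha1
    rw [e5]
    linarith only [ha1, hB, hA1, h6]
  have hfin : Q - R l * R l - 2 * V ≤ 8 * ε / (σ * π) := by
    by_cases hx : Q - R l * R l - 2 * V ≤ 0
    · exact hx.trans (by (clear * - hε hσ hπ; positivity))
    · push Not at hx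
      rw [← div_div, le_div_iff₀ hπ]
      have h5 := mul_le_mul_of_nonneg_left hmπ hx.le
      rw [mul_comm _ (S.m (l + 1))] at h5
      exact h5.trans hmain
  have hexp : S.pairEx l (fun x x' => (Rk φ A x x' - R l) ^ 2) = Q - R l * R l := by
    have e1 : (fun x x' => (Rk φ A x x' - R l) ^ 2) =
        fun x x' => Rk φ A x x' ^ 2 + ((-(2 * R l)) * Rk φ A x x' + R l * R l) := by
      funext x x'
      ring
    rw [e1, hS.pairEx_add hlK (fun x x' => Rk φ A x x' ^ 2)
      (fun x x' => (-(2 * R l)) * Rk φ A x x' + R l * R l),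
      hS.pairEx_add hlK (fun x x' => (-(2 * R l)) * Rk φ A x x') (fun _ _ => R l * R l),
      hS.pairEx_const_mul, hS.pairEx_const hlK]
    have e2 : S.pairEx l (fun x x' => Rk φ A x x') = R l := rfl
    rw [e2]
    simp only [hQ]
    ring
  have hexp' : S.pairEx l (fun x x' => (Rk φ A x x' - S.pairEx l (Rk φ A)) ^ 2) =
      Q - R l * R l := hexp
  rw [hexp']
  have e1 : 40 * ε / (σ * π) = 8 * ε / (σ * π) + 4 * (8 * ε / (σ * π)) := by ring
  have e4 : 40 * ε / (σ * π) ≤ 100 * ε / (σ * π) := by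
    apply div_le_div_of_nonneg_right _ (by positivity)
    linarith only [hε]
  have e5 : S.pairEx (l + 1) (Rk φ A) = R (l + 1) := rfl
  have e6 : S.pairEx l (Rk φ A) = R l := rfl
  rw [e5, e6]
  linarith only [hG1, hV2, hfin, e1, e4]

/-- The overlaps are determined by the means of the fields. -/
theorem pairEx_close {ε σ π : ℝ} (hσ : 0 < σ) (hπ : 0 < π) (hp : ∀ l ≤ S.K, π ≤ S.p l)
    {C : ℕ → ℝ} (hu : ∀ l, 1 ≤ l → l ≤ S.K → σ ≤ u l)
    (hc : ∀ l, 1 ≤ l → l ≤ S.K → S.Ex (fun z x => |hk φ zc A l z x - C l|) ≤ ε)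
    {l : ℕ} (hl0 : 1 ≤ l) (hl : l < S.K) :
    |S.pairEx l (Rk φ A) - (C (l + 1) / u (l + 1) - C l / u l) / S.p l| ≤
      2 * ε / (σ * π) := by
  have hS := F.sy_reg
  have nc : ∀ c : ℝ, Nh (ι := ι) (X := X) (fun _ _ => c) := fun c => Nh.fst (EG.const c)
  have key : ∀ j, 1 ≤ j → j ≤ S.K → |S.Ex (hk φ zc A j) / u j - C j / u j| ≤ ε / σ := by
    intro j h1 h2
    have hj : 0 < u j := lt_of_lt_of_le hσ (hu j h1 h2)
    have h3 : |S.Ex (hk φ zc A j) - C j| ≤ ε := by
      have e1 : S.Ex (hk φ zc A j) - C j = S.Ex (fun z x => hk φ zc A j z x - C j) := by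
        rw [hS.Ex_sub (sy_nh_hk j) (nc _), hS.Ex_const]
      rw [e1]
      exact (hS.abs_Ex_le (Nh.sub (sy_nh_hk j) (nc _))).trans (hc j h1 h2)
    rw [← sub_div, abs_div, abs_of_pos hj]
    have h4 : 0 ≤ ε := (abs_nonneg _).trans h3
    exact div_le_div₀ h4 h3 hσ (hu j h1 h2)
  have k1 := abs_le.1 (key l hl0 hl.le)
  have k2 := abs_le.1 (key (l + 1) (by omega) hl)
  have hul : 0 < u l := lt_of_lt_of_le hσ (hu l hl0 hl.le)
  have hul' : 0 < u (l + 1) := lt_of_lt_of_le hσ (hu (l + 1) (by omega) hl)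
  have e1 : S.Ex (hk φ zc A (l + 1)) / u (l + 1) - S.Ex (hk φ zc A l) / u l =
      S.p l * S.pairEx l (Rk φ A) := by
    rw [F.Ex_hk (show l + 1 ≤ S.K from hl), F.Ex_hk hl.le, mul_div_cancel_left₀ _ hul'.ne',
      mul_div_cancel_left₀ _ hul.ne', Finset.sum_eq_sum_Ico_succ_bot (by omega : l < S.K + 1)]
    ring
  have hpl : 0 < S.p l := lt_of_lt_of_le hπ (hp l hl.le)
  have e2 : S.pairEx l (Rk φ A) - (C (l + 1) / u (l + 1) - C l / u l) / S.p l =
      (S.p l * S.pairEx l (Rk φ A) - (C (l + 1) / u (l + 1) - C l / u l)) / S.p l := by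
    rw [eq_div_iff hpl.ne', sub_mul, div_mul_cancel₀ _ hpl.ne']
    ring
  rw [e2, abs_div, abs_of_pos hpl, ← div_div]
  have h3 : |S.p l * S.pairEx l (Rk φ A) - (C (l + 1) / u (l + 1) - C l / u l)| ≤ 2 * ε / σ := by
    rw [← e1, abs_le]
    have e3 : 2 * ε / σ = ε / σ + ε / σ := by ring
    rw [e3]
    constructor <;> linarith only [k1, k2]
  exact div_le_div₀ ((abs_nonneg _).trans h3) h3 hπ (hp l hl.le)

end BFld

end Vale.Agent.P166.U
end
end

section

section

/-!
Basic facts on the enriched model: regularity, tangent inequality of the mean free energy,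
first moments of the fields, values without fields.
-/

open MeasureTheory ProbabilityTheory Matrix Filter Topology

namespace Vale.Agent.P166.U

open Vale.Agent.P157 (spin)
open Vale.Agent.P157.Lv Vale.Agent.P157.Par Md

variable {N K κ : ℕ} {m : ℕ → ℝ} {c : Fin N → Fin κ} {P P' : Pm κ}
  {U : Matrix (Fin N) (Fin N) ℝ}

theorem spin_sq (x : Fin N → Bool) (i : Fin N) : spin x i ^ 2 = 1 := by
  unfold spin
  split_ifs <;> norm_num

theorem mdl_dot (hU : U ∈ orthogonalGroup (Fin N) ℝ) (a b : Fin N → ℝ) :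
    (U *ᵥ a) ⬝ᵥ (U *ᵥ b) = a ⬝ᵥ b := by
  have h1 : Uᵀ * U = 1 := by
    exact (mem_orthogonalGroup_iff' (Fin N) ℝ).1 hU
  rw [dotProduct_mulVec, ← mulVec_transpose, mulVec_mulVec, h1, one_mulVec]

theorem mdl_ph_mul (hU : U ∈ orthogonalGroup (Fin N) ℝ) (x x' : Fin N → Bool) :
    ∑ i, ph U x i * ph U x' i = ∑ i, spin x i * spin x' i :=
  mdl_dot hU (spin x) (spin x')

theorem mdl_spin_sum (x : Fin N → Bool) : ∑ i, spin x i ^ 2 = N := by
  simp only [spin_sq, Finset.sum_const, Finset.card_univ, Fintype.card_fin, nsmul_eq_mul, mul_one]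

theorem ph_sq (hU : U ∈ orthogonalGroup (Fin N) ℝ) (x : Fin N → Bool) :
    ∑ i, ph U x i ^ 2 = N := by
  have h := mdl_ph_mul hU x x
  simp only [← sq] at h
  rw [h, mdl_spin_sum]

theorem mdl_ofNat {l : ℕ} (hl : l ≤ K) : ((Fin.ofNat (K + 1) l : Fin (K + 1)) : ℕ) = l := by
  rw [Fin.val_ofNat]
  exact Nat.mod_eq_of_lt (by omega)

theorem mdl_sco_eq {l : ℕ} (hl : l ≤ K) (i : Fin N) (e : Ix N K) :
    sco l i = e ↔ l = e.1 ∧ e.2.1 = true ∧ i = e.2.2 := by
  obtain ⟨a, b, j⟩ := e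
  unfold sco
  rw [Prod.mk.injEq, Prod.mk.injEq, Fin.ext_iff, mdl_ofNat hl]
  constructor
  · rintro ⟨h1, h2, h3⟩; exact ⟨h1, h2.symm, h3⟩
  · rintro ⟨h1, h2, h3⟩; exact ⟨h1, h2.symm, h3⟩

theorem mdl_bco_eq {l : ℕ} (hl : l ≤ K) (i : Fin N) (e : Ix N K) :
    bco l i = e ↔ l = e.1 ∧ e.2.1 = false ∧ i = e.2.2 := by
  obtain ⟨a, b, j⟩ := e
  unfold bco
  rw [Prod.mk.injEq, Prod.mk.injEq, Fin.ext_iff, mdl_ofNat hl]
  constructor
  · rintro ⟨h1, h2, h3⟩; exact ⟨h1, h2.symm, h3⟩
  · rintro ⟨h1, h2, h3⟩; exact ⟨h1, h2.symm, h3⟩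

theorem mdl_lip (x : Fin N → Bool) : Lip fun z : Ix N K → ℝ => Md.en c P U z x := by
  unfold Md.en
  refine Lip.add (Lip.add (Lip.const _) (Lip.sum _ fun l _ => Lip.const_mul (Lip.sum _ fun i _ => ?_) _))
    (Lip.sum _ fun l _ => Lip.sum _ fun i _ => Lip.const_mul ?_ _)
  · have h := (Lip.coord (sco (K := K) l i)).const_mul (spin x i)
    simpa only [mul_comm] using h
  · have h := (Lip.coord (bco (K := K) l i)).const_mul (ph U x i)
    simpa only [mul_comm] using h

theorem mdl_pd (e : Ix N K) (x : Fin N → Bool) :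
    PD e (fun z => Md.en c P U z x) (fun z => enD c P U e z x) := by
  have h1 : PD e (fun z => Md.en c P U z x) (fun _ => 0 +
      ∑ l ∈ Finset.range (K + 1), P.s l * ∑ i, (if sco l i = e then (1 : ℝ) else 0) * spin x i +
      ∑ l ∈ Finset.range (K + 1), ∑ i, P.u (c i) l *
        ((if bco l i = e then (1 : ℝ) else 0) * ph U x i)) := by
    unfold Md.en
    refine PD.add (PD.add (PD.const _) (PD.sum _ fun l _ => PD.const_mul (PD.sum _ fun i _ => ?_) _))
      (PD.sum _ fun l _ => PD.sum _ fun i _ => PD.const_mul ?_ _)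
    · have h := (PD.coord (e := e) (sco (K := K) l i)).const_mul (spin x i)
      simpa only [mul_comm] using h
    · have h := (PD.coord (e := e) (bco (K := K) l i)).const_mul (ph U x i)
      simpa only [mul_comm] using h
  refine h1.congr fun z => ?_
  obtain ⟨a, b, j⟩ := e
  have hs : ∀ l ∈ Finset.range (K + 1), ∀ i : Fin N,
      (if sco l i = ((a, b, j) : Ix N K) then (1 : ℝ) else 0) =
        if (l = (a : ℕ) ∧ b = true ∧ i = j) then 1 else 0 := by
    intro l hl i
    rw [Finset.mem_range] at hl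
    exact if_congr (mdl_sco_eq (by omega) i _) rfl rfl
  have hb : ∀ l ∈ Finset.range (K + 1), ∀ i : Fin N,
      (if bco l i = ((a, b, j) : Ix N K) then (1 : ℝ) else 0) =
        if (l = (a : ℕ) ∧ b = false ∧ i = j) then 1 else 0 := by
    intro l hl i
    rw [Finset.mem_range] at hl
    exact if_congr (mdl_bco_eq (by omega) i _) rfl rfl
  have ha : (a : ℕ) ∈ Finset.range (K + 1) := Finset.mem_range.2 a.2
  have e1 : ∑ l ∈ Finset.range (K + 1), P.s l *
      ∑ i, (if sco l i = ((a, b, j) : Ix N K) then (1 : ℝ) else 0) * spin x i =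
      if b = true then P.s a * spin x j else 0 := by
    rw [Finset.sum_eq_single_of_mem (a : ℕ) ha]
    · rw [Finset.sum_eq_single_of_mem j (Finset.mem_univ j)]
      · rw [hs _ ha]
        by_cases h : b = true
        · simp [h]
        · simp [h]
      · intro i _ hi
        rw [hs _ ha]
        simp [hi]
    · intro l hl hne
      rw [Finset.sum_eq_zero, mul_zero]
      intro i _
      rw [hs _ hl]
      simp [hne]
  have e2 : ∑ l ∈ Finset.range (K + 1), ∑ i, P.u (c i) l *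
        ((if bco l i = ((a, b, j) : Ix N K) then (1 : ℝ) else 0) * ph U x i) =
      if b = true then 0 else P.u (c j) a * ph U x j := by
    rw [Finset.sum_eq_single_of_mem (a : ℕ) ha]
    · rw [Finset.sum_eq_single_of_mem j (Finset.mem_univ j)]
      · rw [hb _ ha]
        by_cases h : b = true
        · simp [h]
        · simp [h]
      · intro i _ hi
        rw [hb _ ha]
        simp [hi]
    · intro l hl hne
      refine Finset.sum_eq_zero fun i _ => ?_
      rw [hb _ hl]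
      simp [hne]
  rw [e1, e2]
  unfold Vale.Agent.P166.Md.enD
  by_cases h : b = true
  · simp [h]
  · simp [h]

theorem mdl_regD (hm : Exponents K m) : (mdl K m c P U).RegD (enD c P U) := by
  obtain ⟨h0, h1, h2⟩ := hm
  refine ⟨⟨h0, h1, fun l hl => (h2 l hl).le, ?_, fun e => ?_, fun x => mdl_lip x⟩,
    fun e x => mdl_pd e x, fun e x => measurable_const, ?_⟩
  · have h3 := h2 0 (Nat.zero_le _)
    rw [h0] at h3
    exact h3
  · exact Nat.lt_succ_iff.1 e.1.2
  · refine ⟨∑ e : Ix N K, ∑ x : Fin N → Bool, |enD c P U e 0 x|, fun e z x => ?_⟩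
    have h3 : |enD c P U e z x| = |enD c P U e 0 x| := rfl
    rw [h3]
    refine (Finset.single_le_sum (f := fun x => |enD c P U e 0 x|) (fun _ _ => abs_nonneg _)
      (Finset.mem_univ x)).trans ?_
    exact Finset.single_le_sum (f := fun e => ∑ x : Fin N → Bool, |enD c P U e 0 x|)
      (fun _ _ => Finset.sum_nonneg fun _ _ => abs_nonneg _) (Finset.mem_univ e)

theorem mdl_fld (hm : Exponents K m) (hN : 0 < N) (hs : ∀ l ≤ K, 0 ≤ P.s l) :
    Fld (mdl K m c P U) (enD c P U) spin sco P.s where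
  reg := mdl_regD hm
  N0 := hN
  norm := mdl_spin_sum
  lev := fun l hl i => mdl_ofNat hl
  D := fun l hl i z x => by
    show P.s ((Fin.ofNat (K + 1) l : Fin (K + 1)) : ℕ) * spin x i = _
    rw [mdl_ofNat (K := K) hl]
  pos := hs

/-- The coordinates of the block `k`. -/
def blk (c : Fin N → Fin κ) (k : Fin κ) : Finset (Fin N) := Finset.univ.filter fun i => c i = k

theorem Rb_eq (k : Fin κ) (x x' : Fin N → Bool) : Rb c U k x x' = Rk (ph U) (blk c k) x x' := by
  unfold Rb Rk blk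
  rw [Finset.sum_filter]

theorem hb_eq (k : Fin κ) (l : ℕ) (z : Ix N K → ℝ) (x : Fin N → Bool) :
    hb c U k l z x = hk (ph U) bco (blk c k) l z x := by
  unfold hb hk blk
  rw [Finset.sum_filter]

theorem mdl_bfld (hm : Exponents K m) (hN : 0 < N) (hU : U ∈ orthogonalGroup (Fin N) ℝ)
    (k : Fin κ) : BFld (mdl K m c P U) (enD c P U) (ph U) bco (blk c k) (P.u k) where
  reg := mdl_regD hm
  N0 := hN
  norm := fun x => by
    rw [← ph_sq hU x]
    exact Finset.sum_le_sum_of_subset_of_nonneg (Finset.filter_subset _ _)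
      fun i _ _ => sq_nonneg _
  lev := fun l hl i _ => mdl_ofNat hl
  D := fun l hl i hi z x => by
    have hi' : c i = k := (Finset.mem_filter.1 hi).2
    show P.u (c i) ((Fin.ofNat (K + 1) l : Fin (K + 1)) : ℕ) * ph U x i = _
    rw [mdl_ofNat (K := K) hl, hi']

/-- The overlap of the configurations is the sum of the overlaps of the blocks. -/
theorem Rov_eq (hU : U ∈ orthogonalGroup (Fin N) ℝ) (x x' : Fin N → Bool) :
    Rov spin x x' = ∑ k, Rb c U k x x' := by
  unfold Rov Rb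
  rw [← mdl_ph_mul hU x x', ← Finset.mul_sum, Finset.sum_comm]
  congr 1
  refine Finset.sum_congr rfl fun i _ => ?_
  simp only [Finset.sum_ite_eq, Finset.mem_univ, ↓reduceIte]

/-- The energy is affine in the parameters. -/
theorem en_sub (z : Ix N K → ℝ) (x : Fin N → Bool) (hN : 0 < N) :
    Md.en c P' U z x - Md.en c P U z x = N * (∑ k, (P'.b k - P.b k) / 2 * Rb c U k x x +
      ∑ l ∈ Finset.range (K + 1), (P'.s l - P.s l) * hz spin sco l z x +
      ∑ k, ∑ l ∈ Finset.range (K + 1), (P'.u k l - P.u k l) * hb c U k l z x) := by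
  have hN' : (N : ℝ) ≠ 0 := by exact_mod_cast hN.ne'
  have e1 : (N : ℝ) * ∑ k, (P'.b k - P.b k) / 2 * Rb c U k x x =
      ∑ i, (P'.b (c i) - P.b (c i)) / 2 * ph U x i ^ 2 := by
    unfold Rb
    rw [Finset.mul_sum]
    have h : ∀ k : Fin κ, (N : ℝ) * ((P'.b k - P.b k) / 2 *
        (1 / N * ∑ i, if c i = k then ph U x i * ph U x i else 0)) =
        ∑ i, if c i = k then (P'.b (c i) - P.b (c i)) / 2 * ph U x i ^ 2 else 0 := by
      intro k
      have h2 : (N : ℝ) * ((P'.b k - P.b k) / 2 *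
        (1 / N * ∑ i, if c i = k then ph U x i * ph U x i else 0)) =
        (P'.b k - P.b k) / 2 * ∑ i, if c i = k then ph U x i * ph U x i else 0 := by
        field_simp
      rw [h2, Finset.mul_sum]
      refine Finset.sum_congr rfl fun i _ => ?_
      by_cases hi : c i = k
      · rw [if_pos hi, if_pos hi, hi]; ring
      · rw [if_neg hi, if_neg hi, mul_zero]
    rw [Finset.sum_congr rfl fun k _ => h k, Finset.sum_comm]
    refine Finset.sum_congr rfl fun i _ => ?_
    simp only [Finset.sum_ite_eq, Finset.mem_univ, ↓reduceIte]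
  have e2 : (N : ℝ) * ∑ l ∈ Finset.range (K + 1), (P'.s l - P.s l) * hz spin sco l z x =
      ∑ l ∈ Finset.range (K + 1), (P'.s l - P.s l) * ∑ i, z (sco l i) * spin x i := by
    unfold hz
    rw [Finset.mul_sum]
    refine Finset.sum_congr rfl fun l _ => ?_
    field_simp
  have e3 : (N : ℝ) * ∑ k, ∑ l ∈ Finset.range (K + 1), (P'.u k l - P.u k l) * hb c U k l z x =
      ∑ l ∈ Finset.range (K + 1), ∑ i, (P'.u (c i) l - P.u (c i) l) * (z (bco l i) * ph U x i) := by
    rw [Finset.sum_comm, Finset.mul_sum]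
    refine Finset.sum_congr rfl fun l _ => ?_
    unfold hb
    rw [Finset.mul_sum]
    have h : ∀ k : Fin κ, (N : ℝ) * ((P'.u k l - P.u k l) *
        (1 / N * ∑ i, if c i = k then z (bco l i) * ph U x i else 0)) =
        ∑ i, if c i = k then (P'.u (c i) l - P.u (c i) l) * (z (bco l i) * ph U x i) else 0 := by
      intro k
      have h2 : (N : ℝ) * ((P'.u k l - P.u k l) *
        (1 / N * ∑ i, if c i = k then z (bco l i) * ph U x i else 0)) =
        (P'.u k l - P.u k l) * ∑ i, if c i = k then z (bco l i) * ph U x i else 0 := by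
        field_simp
      rw [h2, Finset.mul_sum]
      refine Finset.sum_congr rfl fun i _ => ?_
      by_cases hi : c i = k
      · rw [if_pos hi, if_pos hi, hi]
      · rw [if_neg hi, if_neg hi, mul_zero]
    rw [Finset.sum_congr rfl fun k _ => h k, Finset.sum_comm]
    refine Finset.sum_congr rfl fun i _ => ?_
    simp only [Finset.sum_ite_eq, Finset.mem_univ, ↓reduceIte]
  rw [mul_add, mul_add, e1, e2, e3]
  unfold Md.en
  have f1 : ∑ i, (P'.b (c i) - P.b (c i)) / 2 * ph U x i ^ 2 =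
      ∑ i, P'.b (c i) / 2 * ph U x i ^ 2 - ∑ i, P.b (c i) / 2 * ph U x i ^ 2 := by
    rw [← Finset.sum_sub_distrib]
    exact Finset.sum_congr rfl fun i _ => by ring
  have f2 : ∑ l ∈ Finset.range (K + 1), (P'.s l - P.s l) * ∑ i, z (sco l i) * spin x i =
      ∑ l ∈ Finset.range (K + 1), P'.s l * ∑ i, z (sco l i) * spin x i -
      ∑ l ∈ Finset.range (K + 1), P.s l * ∑ i, z (sco l i) * spin x i := by
    rw [← Finset.sum_sub_distrib]
    exact Finset.sum_congr rfl fun i _ => by ring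
  have f3 : ∑ l ∈ Finset.range (K + 1), ∑ i, (P'.u (c i) l - P.u (c i) l) *
        (z (bco l i) * ph U x i) =
      ∑ l ∈ Finset.range (K + 1), ∑ i, P'.u (c i) l * (z (bco l i) * ph U x i) -
      ∑ l ∈ Finset.range (K + 1), ∑ i, P.u (c i) l * (z (bco l i) * ph U x i) := by
    rw [← Finset.sum_sub_distrib]
    refine Finset.sum_congr rfl fun l _ => ?_
    rw [← Finset.sum_sub_distrib]
    exact Finset.sum_congr rfl fun i _ => by ring
  rw [f1, f2, f3]
  ring

section average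

variable [MeasurableSpace (orthogonalGroup (Fin N) ℝ)] [BorelSpace (orthogonalGroup (Fin N) ℝ)]
  {ν : Measure (orthogonalGroup (Fin N) ℝ)} [IsProbabilityMeasure ν]

omit [IsProbabilityMeasure ν] in
theorem meas_ph (x : Fin N → Bool) (i : Fin N) :
    Measurable fun U : orthogonalGroup (Fin N) ℝ => ph U.1 x i := by
  unfold ph
  simp only [mulVec, dotProduct]
  exact Finset.measurable_fun_sum _ fun j _ =>
    (Vale.Agent.P166.Conc.measurable_coe_OG i j).mul_const _

theorem meas_en (x : Fin N → Bool) :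
    Measurable fun p : orthogonalGroup (Fin N) ℝ × (Ix N K → ℝ) => Md.en c P p.1.1 p.2 x := by
  unfold Md.en
  have hp : ∀ i, Measurable fun p : orthogonalGroup (Fin N) ℝ × (Ix N K → ℝ) => ph p.1.1 x i :=
    fun i => (meas_ph x i).comp measurable_fst
  have hz : ∀ e : Ix N K, Measurable fun p : orthogonalGroup (Fin N) ℝ × (Ix N K → ℝ) => p.2 e :=
    fun e => (measurable_pi_apply e).comp measurable_snd
  refine Measurable.add (Measurable.add ?_ ?_) ?_
  · exact Finset.measurable_fun_sum _ fun i _ => ((hp i).pow_const 2).const_mul _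
  · exact Finset.measurable_fun_sum _ fun l _ => (Finset.measurable_fun_sum _ fun i _ =>
      (hz _).mul_const _).const_mul _
  · exact Finset.measurable_fun_sum _ fun l _ => Finset.measurable_fun_sum _ fun i _ =>
      ((hz _).mul (hp i)).const_mul _

theorem meas_Rb (k : Fin κ) (x x' : Fin N → Bool) :
    Measurable fun U : orthogonalGroup (Fin N) ℝ => Rb c U.1 k x x' := by
  simp only [Rb_eq]
  unfold Rk
  exact (Finset.measurable_fun_sum _ fun i _ => (meas_ph x i).mul (meas_ph x' i)).const_mul _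

theorem meas_hb (k : Fin κ) (l : ℕ) (x : Fin N → Bool) :
    Measurable fun p : orthogonalGroup (Fin N) ℝ × (Ix N K → ℝ) => hb c p.1.1 k l p.2 x := by
  simp only [hb_eq]
  unfold hk
  have hp : ∀ i, Measurable fun p : orthogonalGroup (Fin N) ℝ × (Ix N K → ℝ) => ph p.1.1 x i :=
    fun i => (meas_ph x i).comp measurable_fst
  have hz : ∀ e : Ix N K, Measurable fun p : orthogonalGroup (Fin N) ℝ × (Ix N K → ℝ) => p.2 e :=
    fun e => (measurable_pi_apply e).comp measurable_snd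
  exact (Finset.measurable_fun_sum _ fun i _ => (hz _).mul (hp i)).const_mul _

/-- Bounded measurable functions of `U` can be averaged. -/
theorem integrable_of_bdd {f : orthogonalGroup (Fin N) ℝ → ℝ} (hf : Measurable f) {C : ℝ}
    (hC : ∀ U, |f U| ≤ C) : Integrable f ν :=
  Integrable.of_bound hf.aestronglyMeasurable C (Filter.Eventually.of_forall fun U => by
    rw [Real.norm_eq_abs]; exact hC U)

end average

/-- site fields as block fields (no sign condition) -/
theorem mdl_sfld (hm : Exponents K m) (hN : 0 < N) :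
    BFld (mdl K m c P U) (enD c P U) spin sco (Finset.univ : Finset (Fin N)) P.s where
  reg := mdl_regD hm
  N0 := hN
  norm := fun x => (mdl_spin_sum x).le
  lev := fun l hl i _ => mdl_ofNat hl
  D := fun l hl i _ z x => by
    show P.s ((Fin.ofNat (K + 1) l : Fin (K + 1)) : ℕ) * spin x i = _
    rw [mdl_ofNat (K := K) hl]

theorem mdl_abs_Ex_hk {S : Sy (Ix N K) (Fin N → Bool)} {D : Ix N K → (Ix N K → ℝ) → (Fin N → Bool) → ℝ}
    {φ : (Fin N → Bool) → Fin N → ℝ} {zc : ℕ → Fin N → Ix N K} {A : Finset (Fin N)} {u : ℕ → ℝ}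
    (F : BFld S D φ zc A u) {j : ℕ} (hj : j ≤ S.K) : |S.Ex (hk φ zc A j)| ≤ |u j| := by
  have hS : S.Reg := F.reg.toReg
  rw [F.Ex_hk hj, abs_mul]
  refine mul_le_of_le_one_right (abs_nonneg _) ?_
  have hnh : Nh (ι := Ix N K) fun _ x => Rk φ A x x := Sy.Nh.snd fun x => Rk φ A x x
  have h1 : S.Ex (fun _ x => Rk φ A x x) ≤ 1 := by
    have h := hS.Ex_mono hnh (Sy.Nh.snd fun _ => (1 : ℝ)) fun z x =>
      (abs_le.1 (F.abs_Rk_le x x)).2
    rwa [hS.Ex_const] at h
  have hp : ∀ i ∈ Finset.Ico j (S.K + 1), 0 ≤ S.p i := by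
    intro i hi
    rw [Finset.mem_Ico] at hi
    exact sub_nonneg.2 (hS.mono i (by omega))
  have h2 : 0 ≤ ∑ i ∈ Finset.Ico j (S.K + 1), S.p i * S.pairEx i (Rk φ A) := by
    refine Finset.sum_nonneg fun i hi => mul_nonneg (hp i hi) ?_
    rw [Finset.mem_Ico] at hi
    exact F.pairEx_Rk_nonneg (by omega)
  have h3 : ∑ i ∈ Finset.Ico j (S.K + 1), S.p i * S.pairEx i (Rk φ A) ≤
      S.Ex (fun _ x => Rk φ A x x) := by
    have h4 : ∑ i ∈ Finset.Ico j (S.K + 1), S.p i = 1 - S.m j := by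
      unfold Sy.p
      rw [Finset.sum_Ico_sub S.m (by omega : j ≤ S.K + 1), hS.mK]
    have h5 : 0 ≤ S.m j := by
      rw [← hS.m0]; exact hS.m_mono (Nat.zero_le _) (by omega)
    have h6 : 0 ≤ S.Ex (fun _ x => Rk φ A x x) := by
      have h := hS.Ex_mono (Sy.Nh.snd fun _ => (0 : ℝ)) hnh fun z x => F.Rk_self_nonneg x
      rwa [hS.Ex_const] at h
    calc ∑ i ∈ Finset.Ico j (S.K + 1), S.p i * S.pairEx i (Rk φ A)
        ≤ ∑ i ∈ Finset.Ico j (S.K + 1), S.p i * S.Ex (fun _ x => Rk φ A x x) := by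
          refine Finset.sum_le_sum fun i hi => mul_le_mul_of_nonneg_left ?_ (hp i hi)
          rw [Finset.mem_Ico] at hi
          exact F.pairEx_Rk_le (by omega)
      _ = (1 - S.m j) * S.Ex (fun _ x => Rk φ A x x) := by rw [← Finset.sum_mul, h4]
      _ ≤ 1 * S.Ex (fun _ x => Rk φ A x x) := by
          refine mul_le_mul_of_nonneg_right (by linarith only [h5]) h6
      _ = _ := one_mul _
  rw [abs_le]
  constructor <;> linarith only [h1, h2, h3]

theorem mdl_en_eq (z : Ix N K → ℝ) (x : Fin N → Bool) (hN : 0 < N) :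
    Md.en c P U z x = N * (∑ k, P.b k / 2 * Rb c U k x x +
      ∑ l ∈ Finset.range (K + 1), P.s l * hz spin sco l z x +
      ∑ k, ∑ l ∈ Finset.range (K + 1), P.u k l * hb c U k l z x) := by
  have h := en_sub (c := c) (P := ⟨0, 0, 0⟩) (P' := P) (U := U) z x hN
  have h0 : Md.en c (⟨0, 0, 0⟩ : Pm κ) U z x = 0 := by
    unfold Md.en
    simp only [Pi.zero_apply, zero_div, zero_mul, Finset.sum_const_zero, add_zero]
  rw [h0, sub_zero] at h
  simpa only [Pi.zero_apply, sub_zero] using h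

theorem mdl_nh_hz (l : ℕ) : Nh (hz spin sco l : (Ix N K → ℝ) → (Fin N → Bool) → ℝ) :=
  Sy.Nh.const_mul _ (Sy.Nh.sum _ fun i _ => Sy.Nh.mul (Sy.Nh.fst (EG.coord (sco l i)))
    (Sy.Nh.snd fun x => spin x i))

theorem mdl_nh_hb (k : Fin κ) (l : ℕ) :
    Nh (hb c U k l : (Ix N K → ℝ) → (Fin N → Bool) → ℝ) := by
  have h : (hb c U k l : (Ix N K → ℝ) → (Fin N → Bool) → ℝ) = hk (ph U) bco (blk c k) l := by
    funext z x
    exact hb_eq k l z x
  rw [h]
  exact Sy.Nh.const_mul _ (Sy.Nh.sum _ fun i _ => Sy.Nh.mul (Sy.Nh.fst (EG.coord (bco l i)))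
    (Sy.Nh.snd fun x => ph U x i))

theorem mdl_Ex_en {S : Sy (Ix N K) (Fin N → Bool)} (hS : S.Reg) (hN : 0 < N) :
    S.Ex (Md.en c P U) = N * (∑ k, P.b k / 2 * S.Ex (fun _ x => Rb c U k x x) +
      ∑ l ∈ Finset.range (K + 1), P.s l * S.Ex (hz spin sco l) +
      ∑ k, ∑ l ∈ Finset.range (K + 1), P.u k l * S.Ex (hb c U k l)) := by
  have h0 : (Md.en c P U : (Ix N K → ℝ) → (Fin N → Bool) → ℝ) = fun z x => (N : ℝ) *
      (∑ k, P.b k / 2 * Rb c U k x x +
      ∑ l ∈ Finset.range (K + 1), P.s l * hz spin sco l z x +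
      ∑ k, ∑ l ∈ Finset.range (K + 1), P.u k l * hb c U k l z x) := by
    funext z x
    exact mdl_en_eq z x hN
  have n1 : ∀ k : Fin κ, Nh (ι := Ix N K) fun _ x => P.b k / 2 * Rb c U k x x :=
    fun k => Sy.Nh.snd fun x => P.b k / 2 * Rb c U k x x
  have n2 : ∀ l : ℕ, Nh fun (z : Ix N K → ℝ) (x : Fin N → Bool) => P.s l * hz spin sco l z x :=
    fun l => Sy.Nh.const_mul _ (mdl_nh_hz l)
  have n3 : ∀ (k : Fin κ) (l : ℕ),
      Nh fun (z : Ix N K → ℝ) (x : Fin N → Bool) => P.u k l * hb c U k l z x :=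
    fun k l => Sy.Nh.const_mul _ (mdl_nh_hb k l)
  rw [h0, Sy.Ex_const_mul, hS.Ex_add (Sy.Nh.add (Sy.Nh.sum _ fun k _ => n1 k)
    (Sy.Nh.sum _ fun l _ => n2 l)) (Sy.Nh.sum _ fun k _ => Sy.Nh.sum _ fun l _ => n3 k l),
    hS.Ex_add (Sy.Nh.sum _ fun k _ => n1 k) (Sy.Nh.sum _ fun l _ => n2 l),
    hS.Ex_sum _ (fun k _ => n1 k), hS.Ex_sum _ (fun l _ => n2 l),
    hS.Ex_sum _ (fun k _ => Sy.Nh.sum _ fun l _ => n3 k l)]
  congr 1
  congr 1
  · congr 1
    · refine Finset.sum_congr rfl fun k _ => ?_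
      exact Sy.Ex_const_mul S _ _
    · refine Finset.sum_congr rfl fun l _ => ?_
      exact Sy.Ex_const_mul S _ _
  · refine Finset.sum_congr rfl fun k _ => ?_
    rw [hS.Ex_sum _ (fun l _ => n3 k l)]
    refine Finset.sum_congr rfl fun l _ => ?_
    exact Sy.Ex_const_mul S _ _

/-- The mean energy in the model with other parameters. -/
theorem mdl_abs_Ex_en (hm : Exponents K m) (hN : 0 < N) (hU : U ∈ orthogonalGroup (Fin N) ℝ)
    (P P' : Pm κ) : |(mdl K m c P' U).Ex (Md.en c P U)| ≤ N * (∑ k, |P.b k| / 2 +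
      ∑ l ∈ Finset.range (K + 1), |P.s l| * |P'.s l| +
      ∑ k, ∑ l ∈ Finset.range (K + 1), |P.u k l| * |P'.u k l|) := by
  have hR := (mdl_regD (c := c) (P := P') (U := U) hm).toReg
  rw [mdl_Ex_en hR hN, abs_mul, abs_of_nonneg (Nat.cast_nonneg N : (0 : ℝ) ≤ N)]
  refine mul_le_mul_of_nonneg_left ?_ (Nat.cast_nonneg N)
  refine (abs_add_le _ _).trans (add_le_add ((abs_add_le _ _).trans (add_le_add ?_ ?_)) ?_)
  · refine (Finset.abs_sum_le_sum_abs _ _).trans (Finset.sum_le_sum fun k _ => ?_)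
    have F := mdl_bfld (c := c) (P := P') (U := U) hm hN hU k
    have h1 : |(mdl K m c P' U).Ex (fun _ x => Rb c U k x x)| ≤ 1 := by
      have e : (fun (_ : Ix N K → ℝ) (x : Fin N → Bool) => Rb c U k x x) =
          fun _ x => Rk (ph U) (blk c k) x x := by
        funext _ x
        exact Rb_eq k x x
      rw [e]
      refine (hR.abs_Ex_le (Sy.Nh.snd fun x => Rk (ph U) (blk c k) x x)).trans ?_
      have h := hR.Ex_mono (Sy.Nh.snd fun x => |Rk (ph U) (blk c k) x x|)
        (Sy.Nh.snd fun _ => (1 : ℝ)) fun z x => F.abs_Rk_le x x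
      rwa [hR.Ex_const] at h
    rw [abs_mul, abs_div, abs_of_pos (two_pos : (0 : ℝ) < 2)]
    exact mul_le_of_le_one_right (by (clear * -; positivity)) h1
  · refine (Finset.abs_sum_le_sum_abs _ _).trans (Finset.sum_le_sum fun l hl => ?_)
    rw [Finset.mem_range] at hl
    rw [abs_mul]
    refine mul_le_mul_of_nonneg_left ?_ (abs_nonneg _)
    have e : (hz spin sco l : (Ix N K → ℝ) → (Fin N → Bool) → ℝ) =
        hk spin sco (Finset.univ : Finset (Fin N)) l := rfl
    rw [e]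
    exact mdl_abs_Ex_hk (mdl_sfld (c := c) (P := P') (U := U) hm hN) (by
      show l ≤ K
      omega)
  · refine (Finset.abs_sum_le_sum_abs _ _).trans (Finset.sum_le_sum fun k _ => ?_)
    refine (Finset.abs_sum_le_sum_abs _ _).trans (Finset.sum_le_sum fun l hl => ?_)
    rw [Finset.mem_range] at hl
    rw [abs_mul]
    refine mul_le_mul_of_nonneg_left ?_ (abs_nonneg _)
    have e : (hb c U k l : (Ix N K → ℝ) → (Fin N → Bool) → ℝ) = hk (ph U) bco (blk c k) l := by
      funext z x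
      exact hb_eq k l z x
    rw [e]
    exact mdl_abs_Ex_hk (mdl_bfld (c := c) (P := P') (U := U) hm hN hU k) (by
      show l ≤ K
      omega)

theorem mdl_en_zero : (Md.en c (⟨0, 0, 0⟩ : Pm κ) U : (Ix N K → ℝ) → (Fin N → Bool) → ℝ) =
    fun _ _ => 0 := by
  funext z x
  unfold Md.en
  simp only [Pi.zero_apply, zero_div, zero_mul, Finset.sum_const_zero, add_zero]

/-- A bound of the free energy which does not depend on the matrix. -/
theorem mdl_abs_fe (hm : Exponents K m) (hN : 0 < N) (hU : U ∈ orthogonalGroup (Fin N) ℝ) :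
    |(mdl K m c P U).fe - (mdl K m c (⟨0, 0, 0⟩ : Pm κ) 1).fe| ≤ N * (∑ k, |P.b k| / 2 +
      ∑ l ∈ Finset.range (K + 1), |P.s l| * |P.s l| +
      ∑ k, ∑ l ∈ Finset.range (K + 1), |P.u k l| * |P.u k l|) := by
  have e0 : mdl K m c (⟨0, 0, 0⟩ : Pm κ) 1 = mdl K m c (⟨0, 0, 0⟩ : Pm κ) U := by
    unfold Vale.Agent.P166.Md.mdl
    rw [mdl_en_zero, mdl_en_zero]
  rw [e0]
  have hR := (mdl_regD (c := c) (P := P) (U := U) hm).toReg
  have hR0 := (mdl_regD (c := c) (P := (⟨0, 0, 0⟩ : Pm κ)) (U := U) hm).toReg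
  have j1 := hR0.jensen (H' := Md.en c P U) hR
  have j2 := hR.jensen (H' := Md.en c (⟨0, 0, 0⟩ : Pm κ) U) hR0
  have f1 : ((mdl K m c (⟨0, 0, 0⟩ : Pm κ) U).wH (Md.en c P U)).fe = (mdl K m c P U).fe := rfl
  have f2 : ((mdl K m c P U).wH (Md.en c (⟨0, 0, 0⟩ : Pm κ) U)).fe =
    (mdl K m c (⟨0, 0, 0⟩ : Pm κ) U).fe := rfl
  rw [f1] at j1
  rw [f2] at j2
  have g1 : (mdl K m c (⟨0, 0, 0⟩ : Pm κ) U).Ex (fun z x => Md.en c P U z x -
      (mdl K m c (⟨0, 0, 0⟩ : Pm κ) U).H z x) =
      (mdl K m c (⟨0, 0, 0⟩ : Pm κ) U).Ex (Md.en c P U) := by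
    congr 1
    funext z x
    have h : (mdl K m c (⟨0, 0, 0⟩ : Pm κ) U).H z x = 0 :=
      congrFun (congrFun (mdl_en_zero (c := c) (U := U)) z) x
    rw [h, sub_zero]
  have g2 : (mdl K m c P U).Ex (fun z x => Md.en c (⟨0, 0, 0⟩ : Pm κ) U z x -
      (mdl K m c P U).H z x) = - (mdl K m c P U).Ex (Md.en c P U) := by
    have e : (fun (z : Ix N K → ℝ) (x : Fin N → Bool) => Md.en c (⟨0, 0, 0⟩ : Pm κ) U z x -
      (mdl K m c P U).H z x) = fun z x => (-1 : ℝ) * Md.en c P U z x := by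
      funext z x
      rw [mdl_en_zero]
      show 0 - Md.en c P U z x = _
      ring
    rw [e, Sy.Ex_const_mul]
    ring
  rw [g1] at j1
  rw [g2] at j2
  have b1 := abs_le.1 (mdl_abs_Ex_en (c := c) (U := U) hm hN hU P (⟨0, 0, 0⟩ : Pm κ))
  have b2 := abs_le.1 (mdl_abs_Ex_en (c := c) (U := U) hm hN hU P P)
  simp only [Pi.zero_apply, abs_zero, mul_zero, Finset.sum_const_zero, add_zero] at b1
  have hN0 : (0 : ℝ) ≤ N := Nat.cast_nonneg N
  have p1 : (0 : ℝ) ≤ N * (∑ l ∈ Finset.range (K + 1), |P.s l| * |P.s l|) :=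
    mul_nonneg hN0 (Finset.sum_nonneg fun l _ => by (clear * -; positivity))
  have p2 : (0 : ℝ) ≤ N * (∑ k, ∑ l ∈ Finset.range (K + 1), |P.u k l| * |P.u k l|) :=
    mul_nonneg hN0 (Finset.sum_nonneg fun k _ => Finset.sum_nonneg fun l _ => by (clear * -; positivity))
  rw [mul_add, mul_add] at b2 ⊢
  rw [abs_le]
  constructor <;> linarith only [j1, b1, p1, p2, j2, b2]

section average2

variable [MeasurableSpace (orthogonalGroup (Fin N) ℝ)] [BorelSpace (orthogonalGroup (Fin N) ℝ)]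
  {ν : Measure (orthogonalGroup (Fin N) ℝ)} [IsProbabilityMeasure ν]

theorem integrable_fe (hm : Exponents K m) (hN : 0 < N) :
    Integrable (fun U : orthogonalGroup (Fin N) ℝ => (mdl K m c P U.1).fe) ν := by
  have h1 : Measurable fun U : orthogonalGroup (Fin N) ℝ => (mdl K m c P U.1).fe :=
    meas_fe (S := mdl K m c P 1) (H := fun U : orthogonalGroup (Fin N) ℝ => Md.en c P U.1)
      fun x => meas_en x
  refine integrable_of_bdd h1 (C := N * (∑ k, |P.b k| / 2 +
      ∑ l ∈ Finset.range (K + 1), |P.s l| * |P.s l| +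
      ∑ k, ∑ l ∈ Finset.range (K + 1), |P.u k l| * |P.u k l|) +
      |(mdl K m c (⟨0, 0, 0⟩ : Pm κ) (1 : Matrix (Fin N) (Fin N) ℝ)).fe|) fun U => ?_
  have h2 := mdl_abs_fe (c := c) (P := P) hm hN U.2
  have h3 := abs_add_le ((mdl K m c P U.1).fe -
    (mdl K m c (⟨0, 0, 0⟩ : Pm κ) (1 : Matrix (Fin N) (Fin N) ℝ)).fe)
    (mdl K m c (⟨0, 0, 0⟩ : Pm κ) (1 : Matrix (Fin N) (Fin N) ℝ)).fe
  rw [sub_add_cancel] at h3
  linarith

end average2

end Vale.Agent.P166.U
end
end

section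

section

open MeasureTheory ProbabilityTheory Filter Topology Finset

namespace Vale.Agent.P157.Par

set_option linter.unusedSectionVars false

open Vale.Agent.P367.GT (gM)

variable {J K : Type} [Fintype J] [DecidableEq J] [Fintype K] [DecidableEq K]

end Vale.Agent.P157.Par
end
end

section

section

open MeasureTheory ProbabilityTheory Filter Topology Finset

namespace Vale.Agent.P157.Par

set_option linter.unusedSectionVars false

variable {J K K' : Type} [Fintype J] [DecidableEq J] [Fintype K] [DecidableEq K] [Fintype K']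
  [DecidableEq K']

end Vale.Agent.P157.Par
end
end

section

section

open MeasureTheory ProbabilityTheory Filter Topology Finset

namespace Vale.Agent.P157.Par

set_option linter.unusedSectionVars false

section Clusters

variable {k : ℕ} {J : Type}

variable [Fintype J] [DecidableEq J]

end Clusters

namespace Arr

variable {k : ℕ} {w : Fin (k + 1) → ℝ} {δ : Type} [Fintype δ]

end Arr

end Vale.Agent.P157.Par
end
end

section

section

open MeasureTheory ProbabilityTheory Filter Topology Finset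

namespace Vale.Agent.P157.Par

set_option linter.unusedSectionVars false

section

variable {k : ℕ} {J J' : Type} [Fintype J] [DecidableEq J] [Fintype J'] [DecidableEq J']

end

namespace Arr

variable {k : ℕ} {w : Fin (k + 1) → ℝ} {δ : Type} [Fintype δ] [DecidableEq δ]

end Arr

end Vale.Agent.P157.Par
end
end

section

section

open MeasureTheory ProbabilityTheory Filter Topology Finset

namespace Vale.Agent.P157.Par

set_option linter.unusedSectionVars false

section

variable {J K : Type} [Fintype J] [DecidableEq J] [Fintype K] [DecidableEq K]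

end

namespace Arr

variable {k : ℕ} {w : Fin (k + 1) → ℝ} {δ : Type} [Fintype δ] [DecidableEq δ]

end Arr

end Vale.Agent.P157.Par
end
end

section

section

open MeasureTheory ProbabilityTheory Filter Topology Finset

namespace Vale.Agent.P157.Par

end Vale.Agent.P157.Par
end
end

section

section

open MeasureTheory ProbabilityTheory Filter Topology Finset

namespace Vale.Agent.P157.Par

/-! ### Functions with two derivatives -/

/-! ### The heat semigroup -/

/-! ### Bounds -/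

/-! ### Regularity -/

/-! ### The equations -/

end Vale.Agent.P157.Par
end
end

section

section

/-!
Trigonometric interpolation between two Gaussian fields with disjoint sets of coordinates, and the
step from the pattern field to the tree field.
-/

open MeasureTheory ProbabilityTheory Filter Topology

namespace Vale.Agent.P157.Lv

set_option linter.unusedSectionVars false

variable {ι X : Type} [Fintype ι] [DecidableEq ι] [Fintype X] [DecidableEq X] [Nonempty X]
  {S : Sy ι X} {D : ι → (ι → ℝ) → X → ℝ} {f f' f'' : ℝ → ℝ} {C₁ C₂ : ℝ} {α β : X → ι → ℝ}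

open Sy

end Vale.Agent.P157.Lv
end
end

section

section

/-!
P166, lower bound: definitions. Systems with one more spin `ε` (the new site) whose `y`
coordinates are the ones of an orthogonal matrix of size `N`.
-/

open MeasureTheory ProbabilityTheory Matrix Filter Topology

namespace Vale.Agent.P166.L

open Vale.Agent.P157 (spin)
open Vale.Agent.P157.Lv Vale.Agent.P157.Par Md H

variable {N K n : ℕ}

/-- The coordinates of the systems with a new spin: the ones of the model of size `N + 1` and one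
more Gaussian variable (the cavity field) at each level. -/
abbrev Ie (N K : ℕ) : Type := Ix (N + 1) K ⊕ Fin (K + 1)

/-- The configurations: the new spin and the other ones. -/
abbrev Xe (N : ℕ) : Type := Bool × (Fin N → Bool)

/-- The value of a spin. -/
def sg1 (b : Bool) : ℝ := if b then 1 else -1

/-- The levels. -/
def lve : Ie N K → ℕ
  | Sum.inl e => lvl e
  | Sum.inr l => l

/-- The site fields of the old sites. -/
def scE (l : ℕ) (i : Fin N) : Ie N K := Sum.inl (sco l i.succ)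

/-- The site field of the new site. -/
def ecE (N K : ℕ) (l : ℕ) : Ie N K := Sum.inl (sco l 0)

/-- The pattern fields. -/
def bcE (l : ℕ) (i : Fin N) : Ie N K := Sum.inl (bco l i.succ)

/-- The cavity fields. -/
def zcE (N K : ℕ) (l : ℕ) : Ie N K := Sum.inr (Fin.ofNat (K + 1) l)

/-- The parameters of a system with a new spin: constant `c0`, strengths `s` of the site fields,
`s'` of the site field of the new spin, `t` of the cavity fields, potentials `lam`, couplings `kap`
to the new spin and strengths `u` of the fields of the patterns. -/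
structure EPm (N : ℕ) where
  c0 : ℝ
  s : ℕ → ℝ
  s' : ℕ → ℝ
  t : ℕ → ℝ
  lam : Fin N → ℝ
  kap : Fin N → ℝ
  u : Fin N → ℕ → ℝ

/-- The part of the energy which does not depend on the matrix. -/
noncomputable def eE0 (K : ℕ) (E : EPm N) (z : Ie N K → ℝ) (x : Xe N) : ℝ :=
  E.c0 + ∑ l ∈ Finset.range (K + 1), E.s l * ∑ i, z (scE l i) * spin x.2 i +
    sg1 x.1 * ∑ l ∈ Finset.range (K + 1), (E.s' l * z (ecE N K l) + E.t l * z (zcE N K l))

/-- The system with a new spin. -/
noncomputable def egs (K : ℕ) (m : ℕ → ℝ) (E : EPm N) : GS N (Ie N K) (Xe N) where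
  lev := lve
  K := K
  m := m
  sg := fun x => spin x.2
  E0 := eE0 K E
  lam := E.lam
  kap := fun i x => E.kap i * sg1 x.1
  u := E.u
  bc := bcE

/-- The model itself as a `GS`. -/
noncomputable def ngs {κ : ℕ} (K : ℕ) (m : ℕ → ℝ) (c : Fin N → Fin κ) (P : Pm κ) :
    GS N (Ix N K) (Fin N → Bool) where
  lev := lvl
  K := K
  m := m
  sg := spin
  E0 := fun z x => ∑ l ∈ Finset.range (K + 1), P.s l * ∑ i, z (sco l i) * spin x i
  lam := fun i => P.b (c i)
  kap := fun _ _ => 0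
  u := fun i => P.u (c i)
  bc := bco

/-- The data of the outliers: the potentials `μ` of the outliers, their couplings `g` to the new
spin, the orthogonal matrices `Q k0`. -/
structure Out (b α : Fin (n + 1) → ℝ) (μ g : Fin n → ℝ)
    (Q : Fin (n + 1) → Matrix (Fin (n + 1)) (Fin (n + 1)) ℝ) : Prop where
  lo : ∀ j, b j.castSucc < μ j
  hi : ∀ j, μ j < b j.succ
  orth : ∀ k0, Q k0 ∈ orthogonalGroup (Fin (n + 1)) ℝ
  col : ∀ k0 k, Q k0 k k0 = √(α k)
  e00 : ∀ k0, ((Q k0)ᵀ * diagonal b * Q k0) k0 k0 = ∑ k, α k * b k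
  e0j : ∀ k0 j, ((Q k0)ᵀ * diagonal b * Q k0) k0 (k0.succAbove j) = g j
  ej0 : ∀ k0 j, ((Q k0)ᵀ * diagonal b * Q k0) (k0.succAbove j) k0 = g j
  eij : ∀ k0 i j, ((Q k0)ᵀ * diagonal b * Q k0) (k0.succAbove i) (k0.succAbove j) =
    if i = j then μ j else 0
  prod : ∀ A, (∀ k, b k < A) → (∑ k, α k / (A - b k)) * ∏ k, (A - b k) = ∏ j, (A - μ j)
  sum : ∀ A, (∀ k, b k < A) →
    ∑ j, g j ^ 2 / (A - μ j) = A - ∑ k, α k * b k - 1 / ∑ k, α k / (A - b k)

/-- The patterns which are replaced by the outliers, when the new pattern has the type `k0`;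
`r k` is a pattern of type `k`. -/
def wi (r : Fin (n + 1) → Fin N) (k0 : Fin (n + 1)) (j : Fin n) : Fin N := r (k0.succAbove j)

/-- The strengths of the cavity fields of the covariances `r l`. -/
noncomputable def tcov (τ : ℝ) (r : ℕ → ℝ) : ℕ → ℝ
  | 0 => 0
  | l + 1 => τ * √(r (l + 1) - r l)

/-- The parameters of the interpolation: coupling `σ` of the outliers to the new spin, amplitude
`τ` of the cavity field (covariances `rr l`, diagonal entry `rd`), strengths `s'` of the site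
field of the new spin. -/
noncomputable def MP (K : ℕ) (c : Fin N → Fin (n + 1)) (w : Fin n → Fin N) (P : Pm (n + 1))
    (μ g : Fin n → ℝ) (mb : ℝ) (rd : ℝ) (rr s' : ℕ → ℝ) (σ τ : ℝ) : EPm N where
  c0 := 1 / 2 * mb + 1 / 2 * τ ^ 2 * (rd - rr K)
  s := P.s
  s' := s'
  t := tcov τ rr
  lam := Function.extend w μ fun i => P.b (c i)
  kap := Function.extend w (fun j => σ * g j) fun _ => 0
  u := Function.extend w (fun _ _ => 0) fun i => P.u (c i)

/-- Average over the orthogonal group of the free energy of a system with a new spin. -/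
noncomputable def EF [MeasurableSpace (orthogonalGroup (Fin N) ℝ)]
    (ν : Measure (orthogonalGroup (Fin N) ℝ)) (K : ℕ) (m : ℕ → ℝ) (E : EPm N) : ℝ :=
  EU ν fun U => ((egs K m E).sy U).fe

/-- The extensive mean free energy of the model. -/
noncomputable def Ph {κ : ℕ} [MeasurableSpace (orthogonalGroup (Fin N) ℝ)]
    (ν : Measure (orthogonalGroup (Fin N) ℝ)) (K : ℕ) (m : ℕ → ℝ) (c : Fin N → Fin κ)
    (P : Pm κ) : ℝ := EU ν fun U => (mdl K m c P U).fe

end Vale.Agent.P166.L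
end
end

section

section

namespace Vale.Agent.P166.Conc

open Finset

/-- the hypercube `{-1,1}ⁿ`. -/
noncomputable def cube (n : ℕ) : Finset (Fin n → ℝ) := Fintype.piFinset fun _ => ({-1, 1} : Finset ℝ)

variable {n : ℕ}

lemma mem_cube {s : Fin n → ℝ} : s ∈ cube n ↔ ∀ i, s i = -1 ∨ s i = 1 := by
  simp only [cube, Fintype.mem_piFinset, mem_insert, mem_singleton]

lemma cube_sq {s : Fin n → ℝ} (hs : s ∈ cube n) (i : Fin n) : s i ^ 2 = 1 := by
  rcases mem_cube.1 hs i with h | h <;> rw [h] <;> norm_num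

lemma card_cube : ((cube n).card : ℝ) = 2 ^ n := by
  unfold cube
  rw [Fintype.card_piFinset]
  have : ({-1, 1} : Finset ℝ).card = 2 := by
    rw [Finset.card_pair (by norm_num)]
  simp only [this, prod_const, card_univ, Fintype.card_fin, Nat.cast_pow, Nat.cast_ofNat]

lemma sum_exp_cube (c : Fin n → ℝ) :
    ∑ s ∈ cube n, Real.exp (∑ i, s i * c i) ≤ 2 ^ n * Real.exp ((∑ i, c i ^ 2) / 2) := by
  have h1 : ∀ s : Fin n → ℝ, Real.exp (∑ i, s i * c i) = ∏ i, Real.exp (s i * c i) := fun s =>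
    Real.exp_sum _ _
  simp_rw [h1]
  unfold cube
  rw [← Finset.prod_univ_sum (fun _ => ({-1, 1} : Finset ℝ)) (fun i e => Real.exp (e * c i))]
  have h2 : ∀ i, ∑ e ∈ ({-1, 1} : Finset ℝ), Real.exp (e * c i) ≤ 2 * Real.exp (c i ^ 2 / 2) := by
    intro i
    rw [Finset.sum_pair (by norm_num)]
    have := Real.cosh_le_exp_half_sq (c i)
    rw [Real.cosh_eq] at this
    rw [neg_one_mul, one_mul]
    linarith
  calc ∏ i, ∑ e ∈ ({-1, 1} : Finset ℝ), Real.exp (e * c i)
      ≤ ∏ i : Fin n, (2 * Real.exp (c i ^ 2 / 2)) := by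
        refine Finset.prod_le_prod (fun i _ => ?_) fun i _ => h2 i
        exact Finset.sum_nonneg fun e _ => (Real.exp_pos _).le
    _ = 2 ^ n * Real.exp ((∑ i, c i ^ 2) / 2) := by
        rw [Finset.prod_mul_distrib, ← Real.exp_sum, ← Finset.sum_div]
        simp only [prod_const, card_univ, Fintype.card_fin]

lemma neg_sum_exp_cube (c : Fin n → ℝ) :
    ∑ s ∈ cube n, Real.exp (-∑ i, s i * c i) ≤ 2 ^ n * Real.exp ((∑ i, c i ^ 2) / 2) := by
  have := sum_exp_cube (fun i => - c i)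
  simpa only [ge_iff_le, mul_neg, sum_neg_distrib, even_two, Even.neg_pow] using this

lemma pow4_le (x : ℝ) : x ^ 4 ≤ 24 * (Real.exp x + Real.exp (-x)) := by
  have h := Real.pow_div_factorial_le_exp |x| (abs_nonneg x) 4
  have h1 : |x| ^ 4 = x ^ 4 := by
    rw [← abs_pow]; exact abs_of_nonneg (by positivity)
  rw [h1] at h
  have h2 : Real.exp |x| ≤ Real.exp x + Real.exp (-x) := by
    rcases abs_cases x with ⟨h, _⟩ | ⟨h, _⟩ <;> rw [h]
    · linarith only [Real.exp_pos (-x)]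
    · linarith only [Real.exp_pos x]
  have h3 : ((4 : ℕ).factorial : ℝ) = 24 := by norm_num [Nat.factorial]
  rw [h3] at h
  linarith

/-- fourth moment of Rademacher sums -/
lemma rad4 (c : Fin n → ℝ) :
    ∑ s ∈ cube n, (∑ i, s i * c i) ^ 4 ≤ 24 * 2 ^ n * (∑ i, c i ^ 2) ^ 2 := by
  set q := ∑ i, c i ^ 2 with hq
  have hq0 : 0 ≤ q := Finset.sum_nonneg fun i _ => sq_nonneg _
  rcases hq0.lt_or_eq with hpos | hzero
  · -- scale by t with t^2 q = 4
    set t := 2 / √q with ht
    have hsq : √q ^ 2 = q := Real.sq_sqrt hq0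
    have hsp : 0 < √q := Real.sqrt_pos.2 hpos
    have ht2 : t ^ 2 * q = 4 := by
      rw [ht, div_pow, hsq]; field_simp; norm_num
    have h1 := sum_exp_cube (fun i => t * c i)
    have h2 := neg_sum_exp_cube (fun i => t * c i)
    have h3 : ∀ s : Fin n → ℝ, ∑ i, s i * (t * c i) = t * ∑ i, s i * c i := by
      intro s
      rw [Finset.mul_sum]
      refine Finset.sum_congr rfl fun i _ => by ring
    have h4 : (∑ i, (t * c i) ^ 2) / 2 = 2 := by
      have : ∑ i, (t * c i) ^ 2 = t ^ 2 * q := by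
        rw [hq, Finset.mul_sum]
        refine Finset.sum_congr rfl fun i _ => by ring
      rw [this, ht2]; norm_num
    rw [h4] at h1 h2
    simp_rw [h3] at h1 h2
    have h5 : ∑ s ∈ cube n, (t * ∑ i, s i * c i) ^ 4 ≤ 24 * (2 * (2 ^ n * Real.exp 2)) := by
      calc ∑ s ∈ cube n, (t * ∑ i, s i * c i) ^ 4
          ≤ ∑ s ∈ cube n, 24 * (Real.exp (t * ∑ i, s i * c i) + Real.exp (-(t * ∑ i, s i * c i))) :=
            Finset.sum_le_sum fun s _ => pow4_le _
        _ = 24 * (∑ s ∈ cube n, Real.exp (t * ∑ i, s i * c i) +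
              ∑ s ∈ cube n, Real.exp (-(t * ∑ i, s i * c i))) := by
            rw [← Finset.mul_sum, Finset.sum_add_distrib]
        _ ≤ 24 * (2 * (2 ^ n * Real.exp 2)) := by linarith only [h1, h2]
    have h6 : ∑ s ∈ cube n, (t * ∑ i, s i * c i) ^ 4 = t ^ 4 * ∑ s ∈ cube n, (∑ i, s i * c i) ^ 4 := by
      rw [Finset.mul_sum]
      refine Finset.sum_congr rfl fun s _ => by ring
    rw [h6] at h5
    have ht4 : t ^ 4 * q ^ 2 = 16 := by
      have : t ^ 4 * q ^ 2 = (t ^ 2 * q) ^ 2 := by ring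
      rw [this, ht2]; norm_num
    have he : Real.exp 2 ≤ 8 := by
      have h := Real.exp_one_lt_d9
      have : Real.exp 2 = Real.exp 1 ^ 2 := by rw [← Real.exp_nat_mul]; norm_num
      rw [this]
      nlinarith only [h, Real.exp_pos 1]
    have h7 : t ^ 4 * ∑ s ∈ cube n, (∑ i, s i * c i) ^ 4 ≤ t ^ 4 * (24 * 2 ^ n * q ^ 2) := by
      have : t ^ 4 * (24 * 2 ^ n * q ^ 2) = 24 * (2 * (2 ^ n * 8)) := by
        have : t ^ 4 * (24 * 2 ^ n * q ^ 2) = 24 * 2 ^ n * (t ^ 4 * q ^ 2) := by ring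
        rw [this, ht4]; ring
      rw [this]
      refine h5.trans ?_
      have : (0 : ℝ) < 2 ^ n := by positivity
      nlinarith only [he, this]
    have ht4pos : 0 < t ^ 4 := by (clear * - hpos; positivity)
    exact le_of_mul_le_mul_left h7 ht4pos
  · have hc : ∀ i, c i = 0 := by
      intro i
      have := (Finset.sum_eq_zero_iff_of_nonneg (fun i _ => sq_nonneg (c i))).1 hzero.symm i
        (Finset.mem_univ i)
      exact pow_eq_zero_iff (two_ne_zero) |>.1 this
    simp only [hc, mul_zero, sum_const_zero, ne_eq, OfNat.ofNat_ne_zero, not_false_eq_true, zero_pow, Nat.ofNat_pos, mul_pos_iff_of_pos_left, pow_pos, mul_nonneg_iff_of_pos_left, ge_iff_le]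
    (clear * -; positivity)

lemma rad22 (a b : Fin n → ℝ) :
    ∑ s ∈ cube n, (∑ i, s i * a i) ^ 2 * (∑ i, s i * b i) ^ 2 ≤
      24 * 2 ^ n * ((∑ i, a i ^ 2) * (∑ i, b i ^ 2)) := by
  have h := Finset.sum_mul_sq_le_sq_mul_sq (cube n) (fun s => (∑ i, s i * a i) ^ 2)
    (fun s => (∑ i, s i * b i) ^ 2)
  have h1 := rad4 a
  have h2 := rad4 b
  have ha : 0 ≤ ∑ i, a i ^ 2 := Finset.sum_nonneg fun i _ => sq_nonneg _
  have hb : 0 ≤ ∑ i, b i ^ 2 := Finset.sum_nonneg fun i _ => sq_nonneg _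
  apply le_of_sq_le_sq _ (by (clear * -; positivity))
  refine h.trans ?_
  simp_rw [← pow_mul]
  calc (∑ s ∈ cube n, (∑ i, s i * a i) ^ (2 * 2)) * (∑ s ∈ cube n, (∑ i, s i * b i) ^ (2 * 2))
      ≤ (24 * 2 ^ n * (∑ i, a i ^ 2) ^ 2) * (24 * 2 ^ n * (∑ i, b i ^ 2) ^ 2) := by
        apply mul_le_mul h1 h2
        · exact Finset.sum_nonneg fun s _ => by (clear * -; positivity)
        · (clear * -; positivity)
    _ = _ := by ring

lemma rad2 (c : Fin n → ℝ) :
    ∑ s ∈ cube n, (∑ i, s i * c i) ^ 2 ≤ 5 * 2 ^ n * (∑ i, c i ^ 2) := by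
  have h := Finset.sum_mul_sq_le_sq_mul_sq (cube n) (fun s => (∑ i, s i * c i) ^ 2)
    (fun s => 1)
  have h1 := rad4 c
  have ha : 0 ≤ ∑ i, c i ^ 2 := Finset.sum_nonneg fun i _ => sq_nonneg _
  have hcard : ∑ s ∈ cube n, (1 : ℝ) ^ 2 = 2 ^ n := by
    rw [one_pow, Finset.sum_const, nsmul_eq_mul, mul_one, card_cube]
  rw [hcard] at h
  simp only [mul_one] at h
  apply le_of_sq_le_sq _ (by (clear * -; positivity))
  refine h.trans ?_
  simp_rw [← pow_mul]
  have h2 : (0 : ℝ) < 2 ^ n := by positivity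
  calc (∑ s ∈ cube n, (∑ i, s i * c i) ^ (2 * 2)) * 2 ^ n
      ≤ (24 * 2 ^ n * (∑ i, c i ^ 2) ^ 2) * 2 ^ n := by
        apply mul_le_mul_of_nonneg_right h1 h2.le
    _ ≤ _ := by
      have : (5 * 2 ^ n * ∑ i, c i ^ 2) ^ 2 = 25 * (2 ^ n * 2 ^ n * (∑ i, c i ^ 2) ^ 2) := by ring
      rw [this]
      have h3 : 0 ≤ (2 : ℝ) ^ n * 2 ^ n * (∑ i, c i ^ 2) ^ 2 := by (clear * -; positivity)
      linarith

end Vale.Agent.P166.Conc
end
end

section

section

namespace Vale.Agent.P166.Conc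

open Matrix MeasureTheory ProbabilityTheory

variable {n : ℕ}

/-- energy -/
noncomputable def en (J : Matrix (Fin n) (Fin n) ℝ) (s : Fin n → ℝ) : ℝ := s ⬝ᵥ (J *ᵥ s)

/-- partition function -/
noncomputable def Zf (β : ℝ) (J : Matrix (Fin n) (Fin n) ℝ) : ℝ :=
  ∑ s ∈ cube n, Real.exp (β / 2 * en J s)

/-- Gibbs weights -/
noncomputable def gw (β : ℝ) (J : Matrix (Fin n) (Fin n) ℝ) (s : Fin n → ℝ) : ℝ :=
  Real.exp (β / 2 * en J s) / Zf β J

lemma cube_nonempty : (cube n).Nonempty := ⟨fun _ => 1, mem_cube.2 fun _ => Or.inr rfl⟩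

lemma Zf_pos (β : ℝ) (J : Matrix (Fin n) (Fin n) ℝ) : 0 < Zf β J :=
  Finset.sum_pos (fun s _ => Real.exp_pos _) cube_nonempty

lemma gw_nonneg (β : ℝ) (J : Matrix (Fin n) (Fin n) ℝ) (s : Fin n → ℝ) : 0 ≤ gw β J s :=
  div_nonneg (Real.exp_pos _).le (Zf_pos β J).le

lemma gw_sum (β : ℝ) (J : Matrix (Fin n) (Fin n) ℝ) : ∑ s ∈ cube n, gw β J s = 1 := by
  unfold gw
  rw [← Finset.sum_div]
  exact div_self (Zf_pos β J).ne'

/-- Gibbs variational inequality. -/
lemma lse_ge (β : ℝ) (J J' : Matrix (Fin n) (Fin n) ℝ) :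
    ∑ s ∈ cube n, gw β J s * (β / 2 * (en J' s - en J s)) ≤
      Real.log (Zf β J') - Real.log (Zf β J) := by
  set m := ∑ s ∈ cube n, gw β J s * (β / 2 * (en J' s - en J s)) with hm
  rw [← Real.log_div (Zf_pos β J').ne' (Zf_pos β J).ne',
    Real.le_log_iff_exp_le (div_pos (Zf_pos β J') (Zf_pos β J))]
  have h1 : Zf β J' / Zf β J = ∑ s ∈ cube n, gw β J s * Real.exp (β / 2 * (en J' s - en J s)) := by
    unfold gw
    rw [Zf, Finset.sum_div]
    refine Finset.sum_congr rfl fun s _ => ?_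
    have e : Real.exp (β / 2 * en J' s) =
        Real.exp (β / 2 * en J s) * Real.exp (β / 2 * (en J' s - en J s)) := by
      rw [← Real.exp_add]; congr 1; ring
    rw [e]; ring
  rw [h1]
  have h2 : ∀ s ∈ cube n, gw β J s * (Real.exp m * (1 + (β / 2 * (en J' s - en J s) - m))) ≤
      gw β J s * Real.exp (β / 2 * (en J' s - en J s)) := by
    intro s _
    apply mul_le_mul_of_nonneg_left _ (gw_nonneg _ _ _)
    have h := Real.add_one_le_exp (β / 2 * (en J' s - en J s) - m)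
    have e : Real.exp (β / 2 * (en J' s - en J s)) =
        Real.exp m * Real.exp (β / 2 * (en J' s - en J s) - m) := by
      rw [← Real.exp_add]; congr 1; ring
    rw [e]
    apply mul_le_mul_of_nonneg_left _ (Real.exp_pos _).le
    linarith only [h]
  refine le_trans (le_of_eq ?_) (Finset.sum_le_sum h2)
  have h3 : ∑ s ∈ cube n, gw β J s * (Real.exp m * (1 + (β / 2 * (en J' s - en J s) - m))) =
      Real.exp m * ((∑ s ∈ cube n, gw β J s) + ((∑ s ∈ cube n, gw β J s * (β / 2 * (en J' s - en J s)))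
        - m * ∑ s ∈ cube n, gw β J s)) := by
    rw [Finset.mul_sum (cube n) _ m, ← Finset.sum_sub_distrib, ← Finset.sum_add_distrib,
      Finset.mul_sum]
    refine Finset.sum_congr rfl fun s _ => by ring
  rw [h3, gw_sum, ← hm]
  ring

/-- the change of energy under a reflection. -/
noncomputable def Xf (β : ℝ) (J : Matrix (Fin n) (Fin n) ℝ) (w s : Fin n → ℝ) : ℝ :=
  β / 2 * (-(2 * (2 / (w ⬝ᵥ w) * (w ⬝ᵥ s))) * (w ⬝ᵥ (J *ᵥ s)) +
    (2 / (w ⬝ᵥ w) * (w ⬝ᵥ s)) ^ 2 * (w ⬝ᵥ (J *ᵥ w)))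

lemma en_rfl (J : Matrix (Fin n) (Fin n) ℝ) (hJ : Jᵀ = J) (w s : Fin n → ℝ) :
    en (rfl' w * J * rfl' w) s = en J s +
      (-(2 * (2 / (w ⬝ᵥ w) * (w ⬝ᵥ s))) * (w ⬝ᵥ (J *ᵥ s)) +
    (2 / (w ⬝ᵥ w) * (w ⬝ᵥ s)) ^ 2 * (w ⬝ᵥ (J *ᵥ w))) := by
  have h1 : en (rfl' w * J * rfl' w) s = (rfl' w *ᵥ s) ⬝ᵥ (J *ᵥ (rfl' w *ᵥ s)) := by
    unfold en
    rw [← Matrix.mulVec_mulVec, ← Matrix.mulVec_mulVec, Matrix.dotProduct_mulVec s (rfl' w)]
    congr 1
    rw [← Matrix.mulVec_transpose, rfl'_transpose]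
  have hsym : s ⬝ᵥ (J *ᵥ w) = w ⬝ᵥ (J *ᵥ s) := by
    rw [Matrix.dotProduct_mulVec, dotProduct_comm, ← Matrix.mulVec_transpose, hJ]
  rw [h1, rfl'_mulVec]
  set c := 2 / (w ⬝ᵥ w) * (w ⬝ᵥ s) with hc
  unfold en
  rw [Matrix.mulVec_sub, Matrix.mulVec_smul, sub_dotProduct, dotProduct_sub, dotProduct_sub,
    smul_dotProduct, smul_dotProduct, dotProduct_smul, dotProduct_smul, hsym]
  simp only [smul_eq_mul]
  ring

lemma Xf_eq (β : ℝ) (J : Matrix (Fin n) (Fin n) ℝ) (hJ : Jᵀ = J) (w s : Fin n → ℝ) :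
    β / 2 * (en (rfl' w * J * rfl' w) s - en J s) = Xf β J w s := by
  rw [en_rfl J hJ]; unfold Xf; ring

/-- `J` is symmetric with `|w·Jw| ≤ K |w|²` and `|J w|² ≤ K² |w|²`. -/
structure Nice (K : ℝ) (J : Matrix (Fin n) (Fin n) ℝ) : Prop where
  symm : Jᵀ = J
  form : ∀ w, |w ⬝ᵥ (J *ᵥ w)| ≤ K * (w ⬝ᵥ w)
  norm : ∀ w, (J *ᵥ w) ⬝ᵥ (J *ᵥ w) ≤ K ^ 2 * (w ⬝ᵥ w)
  nonneg : 0 ≤ K

lemma Xf_abs_le {β K : ℝ} {J : Matrix (Fin n) (Fin n) ℝ} (hJ : Nice K J) {w : Fin n → ℝ}
    (hw : 2 ≤ w ⬝ᵥ w) (s : Fin n → ℝ) :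
    |Xf β J w s| ≤ |β| * (|w ⬝ᵥ s| * |w ⬝ᵥ (J *ᵥ s)| + K * (w ⬝ᵥ s) ^ 2) := by
  have hK := hJ.nonneg
  set q := w ⬝ᵥ w with hq
  have hq0 : 0 < q := by linarith
  set a := w ⬝ᵥ s
  set b := w ⬝ᵥ (J *ᵥ s)
  set c := w ⬝ᵥ (J *ᵥ w)
  have hc : |c| ≤ K * q := hJ.form w
  unfold Xf
  rw [abs_mul, abs_div, abs_two]
  have h1 : |-(2 * (2 / q * a)) * b + (2 / q * a) ^ 2 * c| ≤ 2 * (|a| * |b| + K * a ^ 2) := by
    refine (abs_add_le _ _).trans ?_
    have e1 : |-(2 * (2 / q * a)) * b| = (4 / q) * (|a| * |b|) := by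
      rw [abs_mul, abs_neg, abs_mul, abs_mul, abs_two, abs_of_pos (div_pos two_pos hq0)]; ring
    have e2 : |(2 / q * a) ^ 2 * c| ≤ (4 / q) * (K * a ^ 2) := by
      rw [abs_mul, abs_of_nonneg (sq_nonneg _)]
      calc (2 / q * a) ^ 2 * |c| ≤ (2 / q * a) ^ 2 * (K * q) :=
            mul_le_mul_of_nonneg_left hc (sq_nonneg _)
        _ = (4 / q) * (K * a ^ 2) := by field_simp; ring
    have h4 : 4 / q ≤ 2 := by rw [div_le_iff₀ hq0]; linarith only [hw]
    have h5 : 0 ≤ |a| * |b| + K * a ^ 2 := by (clear * - hK; positivity)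
    calc |-(2 * (2 / q * a)) * b| + |(2 / q * a) ^ 2 * c| ≤
        (4 / q) * (|a| * |b| + K * a ^ 2) := by rw [e1]; linarith only [e2]
      _ ≤ 2 * (|a| * |b| + K * a ^ 2) := mul_le_mul_of_nonneg_right h4 h5
  calc |β| / 2 * |-(2 * (2 / q * a)) * b + (2 / q * a) ^ 2 * c| ≤
      |β| / 2 * (2 * (|a| * |b| + K * a ^ 2)) :=
        mul_le_mul_of_nonneg_left h1 (by (clear * -; positivity))
    _ = _ := by ring

/-- the reflection direction -/
noncomputable def Wv (k : Fin n) (v : Fin n → ℝ) : Fin n → ℝ :=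
  if v k ≤ 0 then Pi.single k 1 - v else Pi.single k 1 + v

lemma Wv_sq (k : Fin n) {v : Fin n → ℝ} (hv : v ⬝ᵥ v = 1) : 2 ≤ Wv k v ⬝ᵥ Wv k v := by
  unfold Wv
  split_ifs with h
  · rw [dot_sub_self k v hv]; linarith
  · rw [dot_add_self k v hv]; linarith only [h]

lemma Wv_dot (k : Fin n) (v a : Fin n → ℝ) : |Wv k v ⬝ᵥ a| ≤ |a k| + |v ⬝ᵥ a| := by
  unfold Wv
  split_ifs with h
  · rw [sub_dotProduct, single_dot]; exact abs_sub _ _
  · rw [add_dotProduct, single_dot]; exact abs_add_le _ _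

lemma measurable_Wv (k : Fin n) : Measurable (Wv k) := by
  unfold Wv
  refine Measurable.ite ?_ ?_ ?_
  · exact measurableSet_le (measurable_pi_apply k) measurable_const
  · exact measurable_const.sub measurable_id
  · exact measurable_const.add measurable_id

lemma measurable_mulVec_const {α : Type*} [MeasurableSpace α] (J : Matrix (Fin n) (Fin n) ℝ)
    {f : α → (Fin n → ℝ)} (hf : Measurable f) : Measurable fun a => J *ᵥ f a := by
  refine measurable_pi_iff.2 fun i => ?_
  exact measurable_dot measurable_const hf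

lemma measurable_Xf (β : ℝ) (J : Matrix (Fin n) (Fin n) ℝ) (s : Fin n → ℝ) :
    Measurable fun w => Xf β J w s := by
  unfold Xf
  have h1 : Measurable fun w : Fin n → ℝ => w ⬝ᵥ w := measurable_dot measurable_id measurable_id
  have h2 : Measurable fun w : Fin n → ℝ => w ⬝ᵥ s := measurable_dot measurable_id measurable_const
  have h3 : Measurable fun w : Fin n → ℝ => w ⬝ᵥ (J *ᵥ s) :=
    measurable_dot measurable_id measurable_const
  have h4 : Measurable fun w : Fin n → ℝ => w ⬝ᵥ (J *ᵥ w) :=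
    measurable_dot measurable_id (measurable_mulVec_const J measurable_id)
  have h5 : Measurable fun w : Fin n → ℝ => 2 / (w ⬝ᵥ w) * (w ⬝ᵥ s) :=
    (measurable_const.div h1).mul h2
  exact measurable_const.mul ((((h5.const_mul 2).neg).mul h3).add ((h5.pow_const 2).mul h4))

lemma Xf_sq_le {β K : ℝ} {J : Matrix (Fin n) (Fin n) ℝ} (hJ : Nice K J) (k : Fin n)
    {v : Fin n → ℝ} (hv : v ⬝ᵥ v = 1) {s : Fin n → ℝ} (hs : s ∈ cube n) :
    Xf β J (Wv k v) s ^ 2 ≤ 8 * β ^ 2 * ((1 + (v ⬝ᵥ s) ^ 2) * ((J *ᵥ s) k ^ 2 + (v ⬝ᵥ (J *ᵥ s)) ^ 2)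
      + K ^ 2 * (1 + (v ⬝ᵥ s) ^ 2) ^ 2) := by
  have h1 := Xf_abs_le (β := β) hJ (Wv_sq k hv) s
  have h2 := Wv_dot k v s
  have h3 := Wv_dot k v (J *ᵥ s)
  have hsk : |s k| = 1 := by
    rcases mem_cube.1 hs k with h | h <;> rw [h] <;> norm_num
  rw [hsk] at h2
  set A := Wv k v ⬝ᵥ s
  set Bq := Wv k v ⬝ᵥ (J *ᵥ s)
  set a := v ⬝ᵥ s
  set b := v ⬝ᵥ (J *ᵥ s)
  set y := (J *ᵥ s) k
  have hA2 : A ^ 2 ≤ 2 * (1 + a ^ 2) := by
    rw [← sq_abs A, ← sq_abs a]
    nlinarith only [h2, abs_nonneg A, sq_nonneg (1 - |a|)]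
  have hB2 : Bq ^ 2 ≤ 2 * (y ^ 2 + b ^ 2) := by
    rw [← sq_abs Bq, ← sq_abs y, ← sq_abs b]
    nlinarith only [h3, abs_nonneg Bq, sq_nonneg (|y| - |b|)]
  have h4 : Xf β J (Wv k v) s ^ 2 ≤ β ^ 2 * (2 * (A ^ 2 * Bq ^ 2) + 2 * (K ^ 2 * (A ^ 2) ^ 2)) := by
    rw [← sq_abs (Xf _ _ _ _), ← sq_abs β]
    calc |Xf β J (Wv k v) s| ^ 2 ≤ (|β| * (|A| * |Bq| + K * A ^ 2)) ^ 2 :=
          pow_le_pow_left₀ (abs_nonneg _) h1 2
      _ = |β| ^ 2 * (|A| * |Bq| + K * A ^ 2) ^ 2 := by ring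
      _ ≤ |β| ^ 2 * (2 * (A ^ 2 * Bq ^ 2) + 2 * (K ^ 2 * (A ^ 2) ^ 2)) := by
          apply mul_le_mul_of_nonneg_left _ (sq_nonneg _)
          have e : A ^ 2 * Bq ^ 2 = (|A| * |Bq|) ^ 2 := by rw [mul_pow, sq_abs, sq_abs]
          rw [e]
          nlinarith only [sq_nonneg (|A| * |Bq| - K * A ^ 2)]
  refine h4.trans ?_
  have hA0 := sq_nonneg A
  have hB0 := sq_nonneg Bq
  have h5 : A ^ 2 * Bq ^ 2 ≤ (2 * (1 + a ^ 2)) * (2 * (y ^ 2 + b ^ 2)) :=
    mul_le_mul hA2 hB2 hB0 (by (clear * -; positivity))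
  have h6 : (A ^ 2) ^ 2 ≤ (2 * (1 + a ^ 2)) ^ 2 := pow_le_pow_left₀ hA0 hA2 2
  have h7 : K ^ 2 * (A ^ 2) ^ 2 ≤ K ^ 2 * (2 * (1 + a ^ 2)) ^ 2 :=
    mul_le_mul_of_nonneg_left h6 (sq_nonneg _)
  have h8 : 2 * (A ^ 2 * Bq ^ 2) + 2 * (K ^ 2 * (A ^ 2) ^ 2) ≤
      8 * ((1 + a ^ 2) * (y ^ 2 + b ^ 2) + K ^ 2 * (1 + a ^ 2) ^ 2) := by linarith
  calc β ^ 2 * (2 * (A ^ 2 * Bq ^ 2) + 2 * (K ^ 2 * (A ^ 2) ^ 2)) ≤
      β ^ 2 * (8 * ((1 + a ^ 2) * (y ^ 2 + b ^ 2) + K ^ 2 * (1 + a ^ 2) ^ 2)) :=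
        mul_le_mul_of_nonneg_left h8 (sq_nonneg _)
    _ = _ := by ring

end Vale.Agent.P166.Conc
end
end

section

section

/-!
The tilted chain for energies of linear growth (not necessarily Lipschitz): needed in order to
differentiate with respect to a parameter, which is treated as a coordinate.
(The proofs are the ones of `LvChain`, with `Lip` replaced by `LGr`.)
-/

open MeasureTheory ProbabilityTheory Filter Topology
open Vale.Agent.P157.Lv Vale.Agent.P157.Lv.Sy

namespace Vale.Agent.P166.H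

set_option linter.unusedSectionVars false
set_option linter.unusedVariables false

variable {ι X : Type} [Fintype ι]

/-- Measurable functions of at most linear growth. -/
structure LGr (G : (ι → ℝ) → ℝ) : Prop where
  meas : Measurable G
  bdd : ∃ C : ℝ, 0 ≤ C ∧ ∀ y, |G y| ≤ C * (1 + ‖y‖)

lemma Lip.lgr {G : (ι → ℝ) → ℝ} (h : Lip G) : LGr G := by
  refine ⟨h.measurable, ?_⟩
  obtain ⟨L, hL0, hL⟩ := h
  refine ⟨L + |G 0|, by positivity, fun y => ?_⟩
  have h1 := hL y 0
  rw [sub_zero] at h1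
  have h2 : |G y| ≤ |G y - G 0| + |G 0| := by
    have := abs_add_le (G y - G 0) (G 0)
    rwa [sub_add_cancel] at this
  have h3 := norm_nonneg y
  have h4 := abs_nonneg (G 0)
  nlinarith only [hL0, h1, h2, h3, h4]

lemma LGr.exp_eg {G : (ι → ℝ) → ℝ} (h : LGr G) (m : ℝ) : EG (fun y => Real.exp (m * G y)) := by
  refine ⟨(h.meas.const_mul m).exp, ?_⟩
  obtain ⟨C, hC0, hC⟩ := h.bdd
  refine ⟨Real.exp (|m| * C), |m| * C, (Real.exp_pos _).le, by positivity, fun y => ?_⟩
  rw [abs_of_pos (Real.exp_pos _), ← Real.exp_add]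
  apply Real.exp_le_exp.2
  have h1 : m * G y ≤ |m| * |G y| := by
    rw [← abs_mul]; exact le_abs_self _
  have h2 : |m| * |G y| ≤ |m| * (C * (1 + ‖y‖)) := mul_le_mul_of_nonneg_left (hC y) (abs_nonneg _)
  linarith only [h1, h2]

lemma LGr.eg {G : (ι → ℝ) → ℝ} (h : LGr G) : EG G := by
  refine ⟨h.meas, ?_⟩
  obtain ⟨C, hC0, hC⟩ := h.bdd
  refine ⟨C, 1, hC0, zero_le_one, fun y => (hC y).trans ?_⟩
  refine mul_le_mul_of_nonneg_left ?_ hC0
  have := Real.add_one_le_exp (1 * ‖y‖)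
  linarith only [this]

lemma LGr.add {F G : (ι → ℝ) → ℝ} (hF : LGr F) (hG : LGr G) : LGr (fun y => F y + G y) := by
  refine ⟨hF.meas.add hG.meas, ?_⟩
  obtain ⟨C, hC0, hC⟩ := hF.bdd
  obtain ⟨C', hC0', hC'⟩ := hG.bdd
  refine ⟨C + C', by positivity, fun y => ?_⟩
  have := abs_add_le (F y) (G y)
  have h1 := hC y
  have h2 := hC' y
  linarith

lemma LGr.const_mul {F : (ι → ℝ) → ℝ} (hF : LGr F) (c : ℝ) : LGr (fun y => c * F y) := by
  refine ⟨hF.meas.const_mul c, ?_⟩
  obtain ⟨C, hC0, hC⟩ := hF.bdd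
  refine ⟨|c| * C, by positivity, fun y => ?_⟩
  rw [abs_mul, mul_assoc]
  exact mul_le_mul_of_nonneg_left (hC y) (abs_nonneg _)

lemma LGr.const (c : ℝ) : LGr (fun _ : ι → ℝ => c) :=
  ⟨measurable_const, |c|, abs_nonneg _, fun y => by
    have := norm_nonneg y
    have := abs_nonneg c
    nlinarith⟩

lemma LGr.sum {κ : Type*} (s : Finset κ) {f : κ → (ι → ℝ) → ℝ} (hf : ∀ i ∈ s, LGr (f i)) :
    LGr (fun y => ∑ i ∈ s, f i y) := by
  classical
  induction s using Finset.induction_on with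
  | empty => simpa only [Finset.sum_empty] using LGr.const (ι := ι) 0
  | insert a s ha ih =>
    simp only [Finset.sum_insert ha]
    exact (hf a (Finset.mem_insert_self _ _)).add
      (ih fun i hi => hf i (Finset.mem_insert_of_mem hi))

lemma gc_eg_exp {G : (ι → ℝ) → ℝ} (hG : LGr G) : EG fun z => Real.exp (G z) := by
  have h := hG.exp_eg 1
  simp only [one_mul] at h
  exact h

variable [Fintype X]

/-- Regularity of a system, with energies of linear growth. -/
structure RegG (S : Sy ι X) : Prop where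
  m0 : S.m 0 = 0
  mK : S.m (S.K + 1) = 1
  mono : ∀ l ≤ S.K, S.m l ≤ S.m (l + 1)
  pos : 0 < S.m 1
  lev : ∀ e, S.lev e ≤ S.K
  gr : ∀ x, LGr fun z => S.H z x

lemma RegG.of_reg {S : Sy ι X} (h : S.Reg) : RegG S :=
  ⟨h.m0, h.mK, h.mono, h.pos, h.lev, fun x => Lip.lgr (h.lip x)⟩

variable [Nonempty X] {S : Sy ι X}

lemma RegG.gr_top (hS : RegG S) : LGr S.top := by
  have hm : ∀ x, Measurable fun z => S.H z x := fun x => (hS.gr x).meas
  choose C hC0 hC using fun x => (hS.gr x).bdd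
  refine ⟨(Finset.measurable_sum _ fun x _ => (hm x).exp).log, (∑ x, C x) + Real.log (Fintype.card X), ?_, ?_⟩
  · have : 0 ≤ ∑ x, C x := Finset.sum_nonneg fun x _ => hC0 x
    have h2 : 0 ≤ Real.log (Fintype.card X) := Real.log_natCast_nonneg _
    linarith
  · intro y
    have hle : ∀ x, C x ≤ ∑ x, C x := fun x =>
      Finset.single_le_sum (f := C) (fun x _ => hC0 x) (Finset.mem_univ x)
    have hy := norm_nonneg y
    have h2 : 0 ≤ Real.log (Fintype.card X) := Real.log_natCast_nonneg _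
    have hcard : (0 : ℝ) < Fintype.card X := by exact_mod_cast Fintype.card_pos
    have hsum : 0 ≤ ∑ x, C x := Finset.sum_nonneg fun x _ => hC0 x
    unfold top
    rw [abs_le]
    constructor
    · obtain ⟨x0⟩ := ‹Nonempty X›
      have h3 : Real.exp (S.H y x0) ≤ ∑ x, Real.exp (S.H y x) :=
        Finset.single_le_sum (f := fun x => Real.exp (S.H y x)) (fun x _ => (Real.exp_pos _).le)
          (Finset.mem_univ x0)
      have h4 := Real.log_le_log (Real.exp_pos _) h3
      rw [Real.log_exp] at h4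
      have h5 := (abs_le.1 (hC x0 y)).1
      have h6 : C x0 * (1 + ‖y‖) ≤ (∑ x, C x) * (1 + ‖y‖) :=
        mul_le_mul_of_nonneg_right (hle x0) (by linarith only [hy])
      nlinarith only [h2, h4, h5, h6, hy]
    · have h3 : ∑ x, Real.exp (S.H y x) ≤ Fintype.card X * Real.exp ((∑ x, C x) * (1 + ‖y‖)) := by
        calc ∑ x, Real.exp (S.H y x) ≤ ∑ _x : X, Real.exp ((∑ x, C x) * (1 + ‖y‖)) := by
              refine Finset.sum_le_sum fun x _ => Real.exp_le_exp.2 ?_
              have h5 := (abs_le.1 (hC x y)).2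
              have h6 : C x * (1 + ‖y‖) ≤ (∑ x, C x) * (1 + ‖y‖) :=
                mul_le_mul_of_nonneg_right (hle x) (by linarith only [hy])
              linarith
          _ = _ := by simp only [Finset.sum_const, Finset.card_univ, nsmul_eq_mul]
      have h4 := Real.log_le_log (sum_exp_pos (S := S) y) h3
      rw [Real.log_mul hcard.ne' (Real.exp_pos _).ne', Real.log_exp] at h4
      nlinarith only [h4, hy, h2]

lemma gc_gr_stp (hS : RegG S) {F : (ι → ℝ) → ℝ} (hF : LGr F) {l : ℕ} (hm : 0 < S.m (l + 1)) :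
    LGr (S.stp l F) := by
  have heg := hF.exp_eg (S.m (l + 1))
  have hpos : ∀ z, 0 < J S.lev l (fun z => Real.exp (S.m (l + 1) * F z)) z :=
    fun z => J_pos heg (fun _ => Real.exp_pos _) z
  obtain ⟨C, hC0, hC⟩ := hF.bdd
  have hmC : 0 ≤ S.m (l + 1) * C := by positivity
  have hint := integrable_exp_norm (ι := ι) (S.m (l + 1) * C)
  set A : ℝ := ∫ w, Real.exp (S.m (l + 1) * C * ‖w‖) ∂(gI ι) with hA
  have hA1 : 1 ≤ A := by
    have h1 : ∫ _w : ι → ℝ, (1 : ℝ) ∂(gI ι) ≤ A :=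
      integral_mono (integrable_const _) hint fun w => Real.one_le_exp (by positivity)
    simpa only [ge_iff_le, integral_const, probReal_univ, smul_eq_mul, mul_one] using h1
  have hlogA : 0 ≤ Real.log A := Real.log_nonneg hA1
  -- the lower bound by Jensen: use `exp u ≥ exp(-C...)` and `∫ exp(-c‖w‖) ≥ 1/A`
  have hint2 : Integrable (fun w : ι → ℝ => Real.exp (-(S.m (l + 1) * C) * ‖w‖)) (gI ι) := by
    refine Integrable.mono' (integrable_const (1 : ℝ)) (by fun_prop) (Eventually.of_forall fun w => ?_)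
    rw [Real.norm_eq_abs, abs_of_pos (Real.exp_pos _)]
    refine Real.exp_le_one_iff.2 ?_
    have := norm_nonneg w
    nlinarith only [hmC, this]
  have hB : 1 ≤ A * ∫ w, Real.exp (-(S.m (l + 1) * C) * ‖w‖) ∂(gI ι) := by
    set B : ℝ := ∫ w, Real.exp (-(S.m (l + 1) * C) * ‖w‖) ∂(gI ι) with hB'
    have hB0 : 0 < B := by
      rw [hB']
      refine (integral_pos_iff_support_of_nonneg (fun w => (Real.exp_pos _).le) hint2).2 ?_
      have : Function.support (fun w : ι → ℝ => Real.exp (-(S.m (l + 1) * C) * ‖w‖)) = Set.univ := by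
        ext w
        simp only [neg_mul, Function.mem_support, ne_eq, (Real.exp_pos _).ne', not_false_eq_true, Set.mem_univ]
      rw [this]
      simp only [measure_univ, zero_lt_one]
    -- `t e^{u} + t^{-1} e^{-u} ≥ 2`
    have h2 : ∀ t : ℝ, 0 < t → 2 ≤ t * A + t⁻¹ * B := by
      intro t ht
      have h3 : ∫ _w : ι → ℝ, (2 : ℝ) ∂(gI ι) ≤ ∫ w, (t * Real.exp (S.m (l + 1) * C * ‖w‖) +
          t⁻¹ * Real.exp (-(S.m (l + 1) * C) * ‖w‖)) ∂(gI ι) := by
        refine integral_mono (integrable_const _) ((hint.const_mul t).add (hint2.const_mul _)) fun w => ?_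
        have e1 : Real.exp (-(S.m (l + 1) * C) * ‖w‖) = (Real.exp (S.m (l + 1) * C * ‖w‖))⁻¹ := by
          rw [← Real.exp_neg]; congr 1; ring
        simp only
        rw [e1]
        have h4 := Real.exp_pos (S.m (l + 1) * C * ‖w‖)
        set E := Real.exp (S.m (l + 1) * C * ‖w‖)
        have h5 : t⁻¹ * E⁻¹ = (t * E)⁻¹ := by rw [mul_inv]
        rw [h5]
        have h6 : 0 < t * E := by positivity
        rw [← sub_nonneg]
        have : t * E + (t * E)⁻¹ - 2 = (t * E - 1) ^ 2 / (t * E) := by field_simp; ring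
        rw [this]
        positivity
      rw [integral_add (hint.const_mul t) (hint2.const_mul _), integral_const_mul, integral_const_mul] at h3
      have h8 : ∫ _w : ι → ℝ, (2 : ℝ) ∂(gI ι) = 2 := by simp
      rw [h8] at h3
      exact h3
    have hA0 : 0 < A := by linarith only [hA1]
    have h7 := h2 (1 / A) (by positivity)
    rw [one_div, inv_mul_cancel₀ hA0.ne', inv_inv] at h7
    linarith
  refine ⟨?_, C + C + 1 / S.m (l + 1) * Real.log A, by positivity, fun y => ?_⟩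
  · unfold stp
    exact ((heg.J S.lev l).meas.log).const_mul _
  · unfold stp
    have hy := norm_nonneg y
    have hup : Real.log (J S.lev l (fun z => Real.exp (S.m (l + 1) * F z)) y) ≤
        S.m (l + 1) * C * (1 + ‖y‖) + Real.log A := by
      have h1 : J S.lev l (fun z => Real.exp (S.m (l + 1) * F z)) y ≤
          Real.exp (S.m (l + 1) * C * (1 + ‖y‖)) * A := by
        rw [hA, ← integral_const_mul]
        refine integral_mono (heg.mix y) (hint.const_mul _) fun w => ?_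
        simp only
        rw [← Real.exp_add]
        apply Real.exp_le_exp.2
        have h2 := (abs_le.1 (hC (mix S.lev l y w))).2
        have h3 := norm_mix_le (lev := S.lev) (l := l) y w
        have h4 : S.m (l + 1) * F (mix S.lev l y w) ≤ S.m (l + 1) * (C * (1 + (‖y‖ + ‖w‖))) := by
          refine mul_le_mul_of_nonneg_left (h2.trans ?_) hm.le
          exact mul_le_mul_of_nonneg_left (by linarith) hC0
        linarith only [h4]
      have h2 := Real.log_le_log (hpos y) h1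
      rwa [Real.log_mul (Real.exp_pos _).ne' (by linarith), Real.log_exp] at h2
    have hlo : -(S.m (l + 1) * C * (1 + ‖y‖) + Real.log A) ≤
        Real.log (J S.lev l (fun z => Real.exp (S.m (l + 1) * F z)) y) := by
      have h1 : Real.exp (-(S.m (l + 1) * C * (1 + ‖y‖))) * A⁻¹ ≤
          J S.lev l (fun z => Real.exp (S.m (l + 1) * F z)) y := by
        have hA0 : 0 < A := by linarith
        have h5 : A⁻¹ ≤ ∫ w, Real.exp (-(S.m (l + 1) * C) * ‖w‖) ∂(gI ι) := by
          rw [inv_le_iff_one_le_mul₀ hA0]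
          linarith only [hB]
        refine (mul_le_mul_of_nonneg_left h5 (Real.exp_pos _).le).trans ?_
        rw [← integral_const_mul]
        refine integral_mono (hint2.const_mul _) (heg.mix y) fun w => ?_
        simp only
        rw [← Real.exp_add]
        apply Real.exp_le_exp.2
        have h2 := (abs_le.1 (hC (mix S.lev l y w))).1
        have h3 := norm_mix_le (lev := S.lev) (l := l) y w
        have h4 : S.m (l + 1) * (-(C * (1 + (‖y‖ + ‖w‖)))) ≤ S.m (l + 1) * F (mix S.lev l y w) := by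
          refine mul_le_mul_of_nonneg_left (le_trans ?_ h2) hm.le
          exact neg_le_neg (mul_le_mul_of_nonneg_left (by linarith only [h3]) hC0)
        linarith only [h4]
      have hA0 : 0 < A := by linarith only [hA1]
      have h2 := Real.log_le_log (by positivity) h1
      rw [Real.log_mul (Real.exp_pos _).ne' (by positivity), Real.log_exp, Real.log_inv] at h2
      linarith only [h2]
    rw [abs_mul, abs_of_pos (by positivity : 0 < 1 / S.m (l + 1))]
    have habs : |Real.log (J S.lev l (fun z => Real.exp (S.m (l + 1) * F z)) y)| ≤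
        S.m (l + 1) * C * (1 + ‖y‖) + Real.log A := abs_le.2 ⟨hlo, hup⟩
    calc 1 / S.m (l + 1) * |Real.log (J S.lev l (fun z => Real.exp (S.m (l + 1) * F z)) y)|
        ≤ 1 / S.m (l + 1) * (S.m (l + 1) * C * (1 + ‖y‖) + Real.log A) :=
          mul_le_mul_of_nonneg_left habs (by positivity)
      _ = C * (1 + ‖y‖) + 1 / S.m (l + 1) * Real.log A := by field_simp
      _ ≤ _ := by
          have h9 : 0 ≤ 1 / S.m (l + 1) * Real.log A := by positivity
          nlinarith only [hC0, hy, h9]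

lemma RegG.m_mono (hS : RegG S) {l l' : ℕ} (h : l ≤ l') (hl : l' ≤ S.K + 1) : S.m l ≤ S.m l' := by
  induction l', h using Nat.le_induction with
  | base => exact le_rfl
  | succ n hn ih => exact (ih (by omega)).trans (hS.mono n (by omega))

lemma RegG.m_pos (hS : RegG S) {l : ℕ} (hl : 1 ≤ l) (hl' : l ≤ S.K + 1) : 0 < S.m l :=
  lt_of_lt_of_le hS.pos (hS.m_mono hl hl')

lemma RegG.m_le_one (hS : RegG S) {l : ℕ} (hl : l ≤ S.K + 1) : S.m l ≤ 1 := by
  rw [← hS.mK]
  exact hS.m_mono hl le_rfl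

lemma RegG.gr_lg (hS : RegG S) {l : ℕ} (hl : l ≤ S.K) : LGr (S.lg l) := by
  refine down_ind (P := fun l => LGr (S.lg l)) ?_ ?_ l hl
  · rw [lg_top]
    exact hS.gr_top
  · intro l hl ih
    rw [lg_step S hl]
    exact gc_gr_stp hS ih (hS.m_pos (by omega) (by omega))

lemma RegG.dep_lg (hS : RegG S) {l : ℕ} (hl : l ≤ S.K) : Dep S.lev l (S.lg l) := by
  rcases Nat.lt_or_ge l S.K with h | h
  · rw [lg_step S h]
    intro z w
    unfold stp
    rw [dep_J S.lev l _ z w]
  · have e : l = S.K := le_antisymm hl h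
    subst e
    intro z w
    rw [mix_top hS.lev]

lemma RegG.J_exp_lg (hS : RegG S) {l : ℕ} (hl : l < S.K) (z : ι → ℝ) :
    J S.lev l (fun z => Real.exp (S.m (l + 1) * S.lg (l + 1) z)) z =
      Real.exp (S.m (l + 1) * S.lg l z) := by
  have hm : 0 < S.m (l + 1) := hS.m_pos (by omega) (by omega)
  have heg := (hS.gr_lg (l := l + 1) (by omega)).exp_eg (S.m (l + 1))
  have hpos := J_pos (lev := S.lev) (l := l) heg (fun _ => Real.exp_pos _) z
  have e : S.lg l z = 1 / S.m (l + 1) *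
      Real.log (J S.lev l (fun z => Real.exp (S.m (l + 1) * S.lg (l + 1) z)) z) := by
    rw [lg_step S hl]
    rfl
  rw [e, ← mul_assoc, mul_one_div_cancel hm.ne', one_mul, Real.exp_log hpos]

lemma RegG.integrable_lg (hS : RegG S) {l : ℕ} (hl : l ≤ S.K) : Integrable (S.lg l) (gI ι) :=
  (hS.gr_lg hl).eg.integrable

lemma gc_gr_sum (hS : RegG S) {a b : ℕ} (hb : b ≤ S.K) :
    LGr fun z => ∑ i ∈ Finset.Ico a b, S.m (i + 1) * (S.lg (i + 1) z - S.lg i z) := by
  refine LGr.sum _ fun i hi => ?_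
  rw [Finset.mem_Ico] at hi
  have h1 := hS.gr_lg (l := i + 1) (by omega)
  have h2 := (hS.gr_lg (l := i) (by omega)).const_mul (-1)
  have h3 := (h1.add h2).const_mul (S.m (i + 1))
  have e : (fun z => S.m (i + 1) * (S.lg (i + 1) z - S.lg i z)) =
      fun z => S.m (i + 1) * (S.lg (i + 1) z + -1 * S.lg i z) := by
    funext z
    ring
  rw [e]
  exact h3

lemma RegG.eg_dn (hS : RegG S) {l : ℕ} (_hl : l ≤ S.K) : EG (S.dn l) :=
  gc_eg_exp (gc_gr_sum hS le_rfl)

lemma RegG.J_dn (hS : RegG S) {l : ℕ} (hl : l ≤ S.K) (z : ι → ℝ) : J S.lev l (S.dn l) z = 1 := by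
  revert z
  refine down_ind (P := fun l => ∀ z, J S.lev l (S.dn l) z = 1) ?_ ?_ l hl
  · intro z
    have e : S.dn S.K = fun _ => 1 := funext fun z => dn_top S z
    rw [e, J_const]
  · intro l hl ih z
    have e1 : S.dn l = fun z => Real.exp (S.m (l + 1) * (S.lg (l + 1) z - S.lg l z)) *
        S.dn (l + 1) z := funext fun z => dn_step S hl z
    have heg := hS.eg_dn hl.le
    rw [← J_J (Nat.le_succ l) heg]
    have hdep : Dep S.lev (l + 1) fun z =>
        Real.exp (S.m (l + 1) * (S.lg (l + 1) z - S.lg l z)) := by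
      intro z w
      dsimp only
      rw [hS.dep_lg (l := l + 1) (by omega) z w, (hS.dep_lg hl.le).mono (Nat.le_succ l) z w]
    have e2 : J S.lev l.succ (S.dn l) = fun z =>
        Real.exp (S.m (l + 1) * (S.lg (l + 1) z - S.lg l z)) := by
      funext z
      rw [e1]
      show J S.lev (l + 1) _ z = _
      rw [hdep.J_mul, ih, mul_one]
    rw [e2]
    have e3 : (fun z => Real.exp (S.m (l + 1) * (S.lg (l + 1) z - S.lg l z))) =
        fun z => Real.exp (-(S.m (l + 1) * S.lg l z)) * Real.exp (S.m (l + 1) * S.lg (l + 1) z) := by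
      funext z
      rw [← Real.exp_add]
      congr 1
      ring
    have hdep2 : Dep S.lev l fun z => Real.exp (-(S.m (l + 1) * S.lg l z)) := by
      intro z w
      dsimp only
      rw [hS.dep_lg hl.le z w]
    rw [e3, hdep2.J_mul, hS.J_exp_lg hl, ← Real.exp_add, neg_add_cancel, Real.exp_zero]

lemma RegG.eg_gb (hS : RegG S) (x : X) : EG (fun z => S.gb z x) := by
  refine EG.of_bdd (C := 1) ?_ ?_
  · unfold gb
    exact ((hS.gr x).meas.exp).div
      (Finset.measurable_sum _ fun x' _ => (hS.gr x').meas.exp)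
  · intro y
    rw [abs_of_pos (gb_pos S y x), ← sum_gb S y]
    exact Finset.single_le_sum (f := fun x => S.gb y x) (fun x _ => (gb_pos S y x).le)
      (Finset.mem_univ x)

lemma RegG.eg_av (hS : RegG S) {h : (ι → ℝ) → X → ℝ} (hh : Nh h) : EG (S.av h) :=
  EG.sum _ fun x _ => (hS.eg_gb x).mul (hh x)

lemma RegG.eg_T (hS : RegG S) {l : ℕ} (hl : l ≤ S.K) {h : (ι → ℝ) → X → ℝ} (hh : Nh h) :
    EG (S.T l h) := ((hS.eg_dn hl).mul (hS.eg_av hh)).J _ _

lemma RegG.T_add (hS : RegG S) {l : ℕ} (hl : l ≤ S.K) {f g : (ι → ℝ) → X → ℝ} (hf : Nh f)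
    (hg : Nh g) (z : ι → ℝ) : S.T l (fun z x => f z x + g z x) z = S.T l f z + S.T l g z := by
  unfold T
  rw [← J_add ((hS.eg_dn hl).mul (hS.eg_av hf)) ((hS.eg_dn hl).mul (hS.eg_av hg))]
  congr 1
  funext z
  rw [av_add S, mul_add]

lemma RegG.T_sub (hS : RegG S) {l : ℕ} (hl : l ≤ S.K) {f g : (ι → ℝ) → X → ℝ} (hf : Nh f)
    (hg : Nh g) (z : ι → ℝ) : S.T l (fun z x => f z x - g z x) z = S.T l f z - S.T l g z := by
  unfold T
  rw [← J_sub ((hS.eg_dn hl).mul (hS.eg_av hf)) ((hS.eg_dn hl).mul (hS.eg_av hg))]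
  congr 1
  funext z
  rw [av_sub S, mul_sub]

lemma RegG.T_sum (hS : RegG S) {l : ℕ} (hl : l ≤ S.K) {κ : Type*} (s : Finset κ)
    {f : κ → (ι → ℝ) → X → ℝ} (hf : ∀ i ∈ s, Nh (f i)) (z : ι → ℝ) :
    S.T l (fun z x => ∑ i ∈ s, f i z x) z = ∑ i ∈ s, S.T l (f i) z := by
  unfold T
  rw [← J_sum s fun i hi => (hS.eg_dn hl).mul (hS.eg_av (hf i hi))]
  congr 1
  funext z
  rw [av_sum S, Finset.mul_sum]

lemma RegG.T_fst (hS : RegG S) {l : ℕ} (hl : l ≤ S.K) {φ : (ι → ℝ) → ℝ} (hφ : Dep S.lev l φ)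
    (z : ι → ℝ) : S.T l (fun z _ => φ z) z = φ z := by
  have e : S.T l (fun z _ => φ z) z = J S.lev l (fun z => φ z * S.dn l z) z := by
    unfold T
    congr 1
    funext z
    rw [av_fst S φ, mul_comm]
  rw [e, hφ.J_mul, hS.J_dn hl, mul_one]

lemma RegG.T_const (hS : RegG S) {l : ℕ} (hl : l ≤ S.K) (c : ℝ) (z : ι → ℝ) :
    S.T l (fun _ _ => c) z = c := hS.T_fst hl (φ := fun _ => c) (fun _ _ => rfl) z

lemma RegG.T_mono (hS : RegG S) {l : ℕ} (hl : l ≤ S.K) {f g : (ι → ℝ) → X → ℝ} (hf : Nh f)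
    (hg : Nh g) (h : ∀ z x, f z x ≤ g z x) (z : ι → ℝ) : S.T l f z ≤ S.T l g z :=
  J_mono ((hS.eg_dn hl).mul (hS.eg_av hf)) ((hS.eg_dn hl).mul (hS.eg_av hg))
    (fun z => mul_le_mul_of_nonneg_left (av_mono S (h z)) (dn_pos S l z).le) z

lemma RegG.abs_T_le (hS : RegG S) {l : ℕ} (hl : l ≤ S.K) {f : (ι → ℝ) → X → ℝ} (hf : Nh f)
    {C : ℝ} (h : ∀ z x, |f z x| ≤ C) (z : ι → ℝ) : |S.T l f z| ≤ C := by
  rw [abs_le]
  constructor
  · rw [← hS.T_const hl (-C) z]
    exact hS.T_mono hl (fun _ => EG.const _) hf (fun z x => (abs_le.1 (h z x)).1) z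
  · rw [← hS.T_const hl C z]
    exact hS.T_mono hl hf (fun _ => EG.const _) (fun z x => (abs_le.1 (h z x)).2) z

/-- Jensen. -/
lemma RegG.sq_T_le (hS : RegG S) {l : ℕ} (hl : l ≤ S.K) {f : (ι → ℝ) → X → ℝ} (hf : Nh f)
    (z : ι → ℝ) : S.T l f z ^ 2 ≤ S.T l (fun z x => f z x ^ 2) z := by
  obtain ⟨c, hc⟩ : ∃ c, c = S.T l f z := ⟨_, rfl⟩
  have h0 : 0 ≤ S.T l (fun z x => (f z x - c) ^ 2) z := by
    have h1 := hS.T_mono hl (f := fun _ _ => 0) (g := fun z x => (f z x - c) ^ 2)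
      (fun _ => EG.const _) (Nh.pow (Nh.sub hf (fun _ => EG.const c)) 2)
      (fun z x => sq_nonneg _) z
    rwa [hS.T_const hl] at h1
  have h1 : S.T l (fun z x => (f z x - c) ^ 2) z =
      S.T l (fun z x => f z x ^ 2) z - 2 * c * S.T l f z + c ^ 2 := by
    have e : (fun (z : ι → ℝ) (x : X) => (f z x - c) ^ 2) =
        fun z x => (f z x ^ 2 - 2 * c * f z x) + c ^ 2 := by
      funext z x
      ring
    rw [e, hS.T_add hl (Nh.sub (Nh.pow hf 2) (Nh.const_mul _ hf)) (fun _ => EG.const _),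
      hS.T_sub hl (Nh.pow hf 2) (Nh.const_mul _ hf), T_const_mul, hS.T_const hl]
  rw [h1, ← hc] at h0
  rw [← hc]
  linarith only [h0]

lemma RegG.T_top (hS : RegG S) (f : (ι → ℝ) → X → ℝ) (z : ι → ℝ) : S.T S.K f z = S.av f z := by
  unfold T J
  simp only [mix_top hS.lev, dn_top, one_mul]
  simp

/-- The tower property. -/
lemma RegG.T_T (hS : RegG S) {l l' : ℕ} (hl : l ≤ l') (hl' : l' ≤ S.K) {f : (ι → ℝ) → X → ℝ}
    (hf : Nh f) (z : ι → ℝ) : S.T l (fun z _ => S.T l' f z) z = S.T l f z := by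
  have hll : l ≤ S.K := hl.trans hl'
  obtain ⟨P, hP⟩ : ∃ P : (ι → ℝ) → ℝ, P = fun z =>
    Real.exp (∑ i ∈ Finset.Ico l l', S.m (i + 1) * (S.lg (i + 1) z - S.lg i z)) := ⟨_, rfl⟩
  have hdn : ∀ z, S.dn l z = P z * S.dn l' z := by
    intro z
    rw [hP]
    unfold dn
    rw [← Real.exp_add, Finset.sum_Ico_consecutive _ hl hl']
  have hPd : Dep S.lev l' P := by
    rw [hP]
    intro z w
    dsimp only
    congr 1
    refine Finset.sum_congr rfl fun i hi => ?_
    rw [Finset.mem_Ico] at hi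
    rw [(hS.dep_lg (l := i + 1) (by omega)).mono (show i + 1 ≤ l' by omega) z w,
      (hS.dep_lg (l := i) (by omega)).mono (show i ≤ l' by omega) z w]
  have hPe : EG P := by
    rw [hP]
    exact gc_eg_exp (gc_gr_sum hS hl')
  have hTe := hS.eg_T hl' hf
  have e1 : S.T l (fun z _ => S.T l' f z) z =
      J S.lev l (fun z => (P z * S.T l' f z) * S.dn l' z) z := by
    unfold T
    congr 1
    funext z
    rw [av_fst S (fun z => J S.lev l' (fun z => S.dn l' z * S.av f z) z), hdn]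
    ring
  have e2 : S.T l f z = J S.lev l (fun z => P z * (S.dn l' z * S.av f z)) z := by
    unfold T
    congr 1
    funext z
    rw [hdn]
    ring
  have hd2 : Dep S.lev l' fun z => P z * S.T l' f z := lc_dep_mul hPd (dep_T S l' f)
  rw [e1, e2, ← J_J hl ((hPe.mul hTe).mul (hS.eg_dn hl')),
    ← J_J hl (hPe.mul ((hS.eg_dn hl').mul (hS.eg_av hf)))]
  congr 1
  funext z
  rw [hd2.J_mul, hPd.J_mul, hS.J_dn hl', mul_one]
  rfl

lemma gc_int (hS : RegG S) {f : (ι → ℝ) → X → ℝ} (hf : Nh f) :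
    Integrable (fun z => S.dn 0 z * S.av f z) (gI ι) :=
  ((hS.eg_dn (Nat.zero_le _)).mul (hS.eg_av hf)).integrable

lemma RegG.Ex_add (hS : RegG S) {f g : (ι → ℝ) → X → ℝ} (hf : Nh f) (hg : Nh g) :
    S.Ex (fun z x => f z x + g z x) = S.Ex f + S.Ex g := by
  unfold Ex
  rw [← integral_add (gc_int hS hf) (gc_int hS hg)]
  congr 1
  funext z
  rw [av_add S, mul_add]

lemma RegG.Ex_sub (hS : RegG S) {f g : (ι → ℝ) → X → ℝ} (hf : Nh f) (hg : Nh g) :
    S.Ex (fun z x => f z x - g z x) = S.Ex f - S.Ex g := by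
  unfold Ex
  rw [← integral_sub (gc_int hS hf) (gc_int hS hg)]
  congr 1
  funext z
  rw [av_sub S, mul_sub]

lemma RegG.Ex_sum (hS : RegG S) {κ : Type*} (s : Finset κ) {f : κ → (ι → ℝ) → X → ℝ}
    (hf : ∀ i ∈ s, Nh (f i)) : S.Ex (fun z x => ∑ i ∈ s, f i z x) = ∑ i ∈ s, S.Ex (f i) := by
  unfold Ex
  rw [← integral_finsetSum s fun i hi => gc_int hS (hf i hi)]
  congr 1
  funext z
  rw [av_sum S, Finset.mul_sum]

lemma gc_Ex_T0 (hS : RegG S) {f : (ι → ℝ) → X → ℝ} (hf : Nh f) :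
    S.Ex f = ∫ z, S.T 0 f z ∂(gI ι) :=
  (integral_J ((hS.eg_dn (Nat.zero_le _)).mul (hS.eg_av hf))).symm

lemma RegG.Ex_const (hS : RegG S) (c : ℝ) : S.Ex (fun _ _ => c) = c := by
  rw [gc_Ex_T0 hS (fun _ => EG.const c)]
  simp only [hS.T_const (Nat.zero_le _)]
  simp

lemma RegG.Ex_mono (hS : RegG S) {f g : (ι → ℝ) → X → ℝ} (hf : Nh f) (hg : Nh g)
    (h : ∀ z x, f z x ≤ g z x) : S.Ex f ≤ S.Ex g :=
  integral_mono (gc_int hS hf) (gc_int hS hg)
    fun z => mul_le_mul_of_nonneg_left (av_mono S (h z)) (dn_pos S 0 z).le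

lemma RegG.abs_Ex_le (hS : RegG S) {f : (ι → ℝ) → X → ℝ} (hf : Nh f) :
    |S.Ex f| ≤ S.Ex (fun z x => |f z x|) := by
  rw [abs_le]
  constructor
  · have h := hS.Ex_mono (f := fun z x => -1 * |f z x|) (Nh.const_mul (-1) (Nh.abs hf)) hf
      (fun z x => by
        have := neg_abs_le (f z x)
        linarith)
    rw [Ex_const_mul] at h
    linarith only [h]
  · exact hS.Ex_mono hf (Nh.abs hf) fun z x => le_abs_self _

/-- Cauchy-Schwarz. -/
lemma RegG.Ex_cs (hS : RegG S) {f g : (ι → ℝ) → X → ℝ} (hf : Nh f) (hg : Nh g) :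
    S.Ex (fun z x => f z x * g z x) ^ 2 ≤
      S.Ex (fun z x => f z x ^ 2) * S.Ex (fun z x => g z x ^ 2) := by
  have h0 : ∀ t : ℝ, 0 ≤ S.Ex (fun z x => g z x ^ 2) * (t * t) +
      (-2 * S.Ex (fun z x => f z x * g z x)) * t + S.Ex (fun z x => f z x ^ 2) := by
    intro t
    have h1 : 0 ≤ S.Ex (fun z x => (f z x - t * g z x) ^ 2) := by
      have h2 := hS.Ex_mono (f := fun _ _ => 0) (g := fun z x => (f z x - t * g z x) ^ 2)
        (fun _ => EG.const _) (Nh.pow (Nh.sub hf (Nh.const_mul t hg)) 2)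
        (fun z x => sq_nonneg _)
      rwa [hS.Ex_const] at h2
    have h2 : S.Ex (fun z x => (f z x - t * g z x) ^ 2) = S.Ex (fun z x => f z x ^ 2) -
        2 * t * S.Ex (fun z x => f z x * g z x) + t * t * S.Ex (fun z x => g z x ^ 2) := by
      have e : (fun (z : ι → ℝ) (x : X) => (f z x - t * g z x) ^ 2) =
          fun z x => (f z x ^ 2 - 2 * t * (f z x * g z x)) + t * t * g z x ^ 2 := by
        funext z x
        ring
      rw [e, hS.Ex_add (Nh.sub (Nh.pow hf 2) (Nh.const_mul _ (Nh.mul hf hg)))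
        (Nh.const_mul _ (Nh.pow hg 2)), hS.Ex_sub (Nh.pow hf 2) (Nh.const_mul _ (Nh.mul hf hg)),
        Ex_const_mul, Ex_const_mul]
    rw [h2] at h1
    linarith only [h1]
  have h3 := discrim_le_zero h0
  unfold discrim at h3
  linarith only [h3]

lemma RegG.Ex_T (hS : RegG S) {l : ℕ} (hl : l ≤ S.K) {f : (ι → ℝ) → X → ℝ} (hf : Nh f) :
    S.Ex (fun z _ => S.T l f z) = S.Ex f := by
  rw [gc_Ex_T0 hS (fun _ => hS.eg_T hl hf), gc_Ex_T0 hS hf]
  simp only [hS.T_T (Nat.zero_le _) hl hf]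

lemma RegG.Ex_mul_T (hS : RegG S) {l : ℕ} (hl : l ≤ S.K) {φ : (ι → ℝ) → ℝ} (hφ : Dep S.lev l φ)
    (hφe : EG φ) {f : (ι → ℝ) → X → ℝ} (hf : Nh f) :
    S.Ex (fun z _ => φ z * S.T l f z) = S.Ex (fun z x => φ z * f z x) := by
  rw [← hS.Ex_T hl (f := fun z x => φ z * f z x) (fun x => hφe.mul (hf x))]
  congr 1
  funext z _
  rw [T_mul_left S hφ]

end Vale.Agent.P166.H
end
end

section

section

/-!
Derivatives of the log-weights and of the tilted averages (energies of linear growth, derivatives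
of exponential growth). The proofs are the ones of `LvIBP`.
-/

open MeasureTheory ProbabilityTheory Filter Topology
open Vale.Agent.P157.Lv Vale.Agent.P157.Lv.Sy

namespace Vale.Agent.P166.H

set_option linter.unusedSectionVars false

variable {ι X : Type} [Fintype ι] [DecidableEq ι] [Fintype X]

/-- Regularity of a system with the partial derivative `D` of the energy in the coordinate `e`,
of exponential growth. -/
structure RegE (S : Sy ι X) (e : ι) (D : (ι → ℝ) → X → ℝ) : Prop extends RegG S where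
  pd : ∀ x, PD e (fun z => S.H z x) (fun z => D z x)
  eg : Nh D

variable [Nonempty X] {S : Sy ι X} {e : ι} {D : (ι → ℝ) → X → ℝ}

lemma RegE.nh (hS : RegE S e D) : Nh D := hS.eg

/-- The derivative of the log-partition function. -/
lemma RegE.pd_top (hS : RegE S e D) : PD e S.top (S.av D) := by
  have h1 : PD e (fun z => ∑ x, Real.exp (S.H z x)) (fun z => ∑ x, Real.exp (S.H z x) * D z x) :=
    PD.sum Finset.univ fun x _ => (hS.pd x).exp
  refine (h1.log fun z => (sum_exp_pos z).ne').congr fun z => ?_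
  simp only [av, gb, Finset.sum_div]
  exact Finset.sum_congr rfl fun x _ => by ring

/-- One step of the tilted conditional averages. -/
lemma RegG.T_step (hS : RegG S) {l : ℕ} (hl : l < S.K) {h : (ι → ℝ) → X → ℝ} (hh : Nh h)
    (z : ι → ℝ) : S.T l h z =
      J S.lev l (fun z => Real.exp (S.m (l + 1) * (S.lg (l + 1) z - S.lg l z)) *
        S.T (l + 1) h z) z := by
  have hEG : EG (fun z => S.dn l z * S.av h z) := (hS.eg_dn hl.le).mul (hS.eg_av hh)
  have hdep : Dep S.lev (l + 1) (fun z => Real.exp (S.m (l + 1) * (S.lg (l + 1) z - S.lg l z))) := by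
    intro z w
    have h1 := hS.dep_lg (l := l + 1) hl z w
    have h2 := (hS.dep_lg (l := l) hl.le).mono (Nat.le_succ l) z w
    simp only [h1, h2]
  have key : J S.lev (l + 1) (fun z => S.dn l z * S.av h z) =
      fun z => Real.exp (S.m (l + 1) * (S.lg (l + 1) z - S.lg l z)) * S.T (l + 1) h z := by
    funext z
    have := hdep.J_mul (fun z => S.dn (l + 1) z * S.av h z) z
    rw [T, ← this]
    congr 1
    funext z
    rw [dn_step S hl z]
    ring
  rw [← key]
  exact (J_J (Nat.le_succ l) hEG z).symm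

/-- `∂_e X_l = T_l(∂_e H)`, for the coordinates of level at most `l`. -/
theorem RegE.pd_lg (hS : RegE S e D) {l : ℕ} (hl : l ≤ S.K) (he : S.lev e ≤ l) :
    PD e (S.lg l) (S.T l D) := by
  revert he
  refine down_ind (P := fun l => S.lev e ≤ l → PD e (S.lg l) (S.T l D)) ?_ ?_ l hl
  · intro _
    rw [lg_top]
    exact (hS.pd_top).congr fun z => (hS.toRegG.T_top D z).symm
  · intro l hl ih he
    have h1 := ih (he.trans (Nat.le_succ l))
    have hm : 0 < S.m (l + 1) := hS.toRegG.m_pos (Nat.succ_le_succ (Nat.zero_le l)) (by omega)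
    have hLip := hS.toRegG.gr_lg (l := l + 1) hl
    have hEGe : EG (fun z => Real.exp (S.m (l + 1) * S.lg (l + 1) z)) := hLip.exp_eg _
    have hEGT : EG (S.T (l + 1) D) := hS.toRegG.eg_T hl (hS.nh)
    have h2 : PD e (J S.lev l (fun z => Real.exp (S.m (l + 1) * S.lg (l + 1) z)))
        (J S.lev l (fun z => Real.exp (S.m (l + 1) * S.lg (l + 1) z) *
          (S.m (l + 1) * S.T (l + 1) D z))) :=
      PD.J (h1.const_mul (S.m (l + 1))).exp hEGe (hEGe.mul (hEGT.const_mul _)) he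
    have hne : ∀ z, J S.lev l (fun z => Real.exp (S.m (l + 1) * S.lg (l + 1) z)) z ≠ 0 :=
      fun z => by rw [hS.toRegG.J_exp_lg hl z]; exact (Real.exp_pos _).ne'
    have h3 := (h2.log hne).const_mul (1 / S.m (l + 1))
    rw [lg_step S hl]
    refine PD.congr (H := S.stp l (S.lg (l + 1))) h3 fun z => ?_
    rw [hS.toRegG.J_exp_lg hl z, hS.toRegG.T_step hl (hS.nh) z]
    have hdep : Dep S.lev l (fun z => Real.exp (-(S.m (l + 1) * S.lg l z))) := by
      intro z w
      have h2 := (hS.toRegG.dep_lg (l := l) hl.le) z w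
      simp only [h2]
    have h4 := hdep.J_mul (fun z => Real.exp (S.m (l + 1) * S.lg (l + 1) z) *
      (S.m (l + 1) * S.T (l + 1) D z)) z
    have h5 : J S.lev l (fun z => Real.exp (-(S.m (l + 1) * S.lg l z)) *
        (Real.exp (S.m (l + 1) * S.lg (l + 1) z) * (S.m (l + 1) * S.T (l + 1) D z))) z =
        S.m (l + 1) * J S.lev l (fun z => Real.exp (S.m (l + 1) * (S.lg (l + 1) z - S.lg l z)) *
        S.T (l + 1) D z) z := by
      rw [← J_const_mul]
      congr 1
      funext z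
      have : Real.exp (S.m (l + 1) * (S.lg (l + 1) z - S.lg l z)) =
          Real.exp (-(S.m (l + 1) * S.lg l z)) * Real.exp (S.m (l + 1) * S.lg (l + 1) z) := by
        rw [← Real.exp_add]; congr 1; ring
      rw [this]; ring
    have h6 := h4.symm.trans h5
    rw [Real.exp_neg] at h6
    rw [div_mul_eq_mul_div, one_mul, div_div, div_eq_iff (by positivity)]
    rw [inv_mul_eq_div, div_eq_iff (Real.exp_pos _).ne'] at h6
    rw [h6]; ring

/-- Derivative of the Gibbs weights. -/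
theorem RegE.pd_gb (hS : RegE S e D) (x : X) :
    PD e (fun z => S.gb z x) (fun z => S.gb z x * (D z x - S.T S.K D z)) := by
  have h1 : PD e (fun z => ∑ x, Real.exp (S.H z x)) (fun z => ∑ x, Real.exp (S.H z x) * D z x) :=
    PD.sum Finset.univ fun x _ => (hS.pd x).exp
  refine ((hS.pd x).exp.div h1 fun z => (sum_exp_pos z).ne').congr fun z => ?_
  rw [hS.toRegG.T_top]
  have h0 := (sum_exp_pos (S := S) z).ne'
  have h2 : S.av D z = (∑ x, Real.exp (S.H z x) * D z x) / ∑ x, Real.exp (S.H z x) := by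
    simp only [av, gb, Finset.sum_div]
    exact Finset.sum_congr rfl fun x _ => by ring
  rw [h2, gb]
  field_simp

/-- The derivative of the full density `dn l * gb`, for coordinates of level at most `l`. -/
theorem RegE.pd_dn (hS : RegE S e D) {l : ℕ} (hl : l ≤ S.K) (he : S.lev e ≤ l) :
    PD e (S.dn l) (fun z => S.dn l z * (S.T S.K D z -
      ∑ i ∈ Finset.Ico (l + 1) (S.K + 1), S.p i * S.T i D z - S.m (l + 1) * S.T l D z)) := by
  have h1 : PD e (fun z => ∑ i ∈ Finset.Ico l S.K, S.m (i + 1) * (S.lg (i + 1) z - S.lg i z))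
      (fun z => ∑ i ∈ Finset.Ico l S.K, S.m (i + 1) * (S.T (i + 1) D z - S.T i D z)) := by
    refine PD.sum _ fun i hi => ?_
    obtain ⟨hi1, hi2⟩ := Finset.mem_Ico.1 hi
    exact ((hS.pd_lg (l := i + 1) hi2 (by omega)).sub
      (hS.pd_lg (l := i) hi2.le (by omega))).const_mul _
  refine h1.exp.congr fun z => ?_
  rw [abel S.m (fun i => S.T i D z) hl, hS.mK, one_mul]
  rfl

/-- The derivative of the density for a coordinate of any level. -/
lemma RegE.pd_dn_zero (hS : RegE S e D) :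
    PD e (S.dn 0) (fun z => S.dn 0 z * (S.T S.K D z -
      ∑ i ∈ Finset.Ico (S.lev e) (S.K + 1), S.p i * S.T i D z)) := by
  have hlg : ∀ i ≤ S.K, PD e (S.lg i) (fun z => if S.lev e ≤ i then S.T i D z else 0) := by
    intro i hi
    by_cases he : S.lev e ≤ i
    · simp only [he, if_true]
      exact hS.pd_lg hi he
    · simp only [he, if_false]
      exact (hS.toRegG.dep_lg hi).pd (not_le.1 he)
  have h1 : PD e (fun z => ∑ i ∈ Finset.Ico 0 S.K, S.m (i + 1) * (S.lg (i + 1) z - S.lg i z))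
      (fun z => ∑ i ∈ Finset.Ico 0 S.K, S.m (i + 1) *
        ((if S.lev e ≤ i + 1 then S.T (i + 1) D z else 0) -
          (if S.lev e ≤ i then S.T i D z else 0))) := by
    refine PD.sum _ fun i hi => ?_
    obtain ⟨_, hi2⟩ := Finset.mem_Ico.1 hi
    exact ((hlg (i + 1) hi2).sub (hlg i hi2.le)).const_mul _
  refine h1.exp.congr fun z => ?_
  rw [abel S.m (fun i => if S.lev e ≤ i then S.T i D z else 0) (Nat.zero_le S.K), hS.mK,
    one_mul, if_pos (hS.lev e)]
  have h2 : ∑ i ∈ Finset.Ico (S.lev e) (S.K + 1), S.p i * S.T i D z =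
      ∑ i ∈ Finset.Ico 0 (S.K + 1), S.p i * (if S.lev e ≤ i then S.T i D z else 0) := by
    have : Finset.Ico (S.lev e) (S.K + 1) =
        (Finset.Ico 0 (S.K + 1)).filter fun i => S.lev e ≤ i := by
      ext i; simp only [Finset.mem_Ico, Finset.mem_filter]; omega
    rw [this, Finset.sum_filter]
    exact Finset.sum_congr rfl fun i _ => by split_ifs <;> simp
  have h3 := Finset.sum_eq_sum_Ico_succ_bot (Nat.succ_pos S.K)
    (fun i => S.p i * (if S.lev e ≤ i then S.T i D z else 0))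
  rw [h2]
  have h4 : S.p 0 = S.m (0 + 1) := by simp [p, hS.m0]
  rw [h3, h4]
  simp only [p, dn]
  ring

/-- The derivative of a Gibbs average multiplied by a function. -/
lemma RegE.pd_mul_av (hS : RegE S e D) {Y A : (ι → ℝ) → ℝ}
    (hY : PD e Y (fun z => Y z * (S.T S.K D z - A z)))
    {h h' : (ι → ℝ) → X → ℝ} (hd : ∀ x, PD e (fun z => h z x) (fun z => h' z x)) :
    PD e (fun z => Y z * S.av h z)
      (fun z => Y z * S.av (fun z x => h' z x + h z x * (D z x - A z)) z) := by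
  have h1 : PD e (S.av h) (fun z => ∑ x, (S.gb z x * (D z x - S.T S.K D z) * h z x +
      S.gb z x * h' z x)) :=
    PD.sum Finset.univ fun x _ => (hS.pd_gb x).mul (hd x)
  refine (hY.mul h1).congr fun z => ?_
  simp only [av, Finset.mul_sum]
  rw [← Finset.sum_add_distrib]
  exact Finset.sum_congr rfl fun x _ => by ring

/-- Derivative of a tilted average. -/
theorem RegE.pd_T (hS : RegE S e D) {l : ℕ} (hl : l ≤ S.K) (he : S.lev e ≤ l)
    {h h' : (ι → ℝ) → X → ℝ} (hd : ∀ x, PD e (fun z => h z x) (fun z => h' z x)) (hh : Nh h)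
    (hh' : Nh h') :
    PD e (S.T l h) (S.T l (fun z x => h' z x + h z x * (D z x -
      ∑ i ∈ Finset.Ico (l + 1) (S.K + 1), S.p i * S.T i D z - S.m (l + 1) * S.T l D z))) := by
  have hT : ∀ i ≤ S.K, EG (S.T i D) := fun i hi => hS.toRegG.eg_T hi (hS.nh)
  have hA : EG (fun z => ∑ i ∈ Finset.Ico (l + 1) (S.K + 1), S.p i * S.T i D z) :=
    EG.sum _ fun i hi => (hT i (by have := Finset.mem_Ico.1 hi; omega)).const_mul _
  have hB : EG (fun z => S.m (l + 1) * S.T l D z) := (hT l hl).const_mul _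
  have hN : Nh (fun z x => h' z x + h z x * (D z x -
      ∑ i ∈ Finset.Ico (l + 1) (S.K + 1), S.p i * S.T i D z - S.m (l + 1) * S.T l D z)) :=
    Nh.add hh' (Nh.mul hh (Nh.sub (Nh.sub (hS.nh) (Nh.fst hA)) (Nh.fst hB)))
  have h1 : PD e (fun z => S.dn l z * S.av h z) (fun z => S.dn l z * S.av (fun z x =>
      h' z x + h z x * (D z x - ∑ i ∈ Finset.Ico (l + 1) (S.K + 1), S.p i * S.T i D z -
        S.m (l + 1) * S.T l D z)) z) := by
    have h2 := hS.pd_mul_av (A := fun z => ∑ i ∈ Finset.Ico (l + 1) (S.K + 1),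
      S.p i * S.T i D z + S.m (l + 1) * S.T l D z)
      ((hS.pd_dn hl he).congr fun z => by rw [sub_sub]) hd
    refine h2.congr fun z => ?_
    simp only [sub_sub]
  exact PD.J h1 ((hS.toRegG.eg_dn hl).mul (hS.toRegG.eg_av hh))
    ((hS.toRegG.eg_dn hl).mul (hS.toRegG.eg_av hN)) he

/-- **Integration by parts.** -/
theorem RegE.ibp (hS : RegE S e D) {h h' : (ι → ℝ) → X → ℝ}
    (hd : ∀ x, PD e (fun z => h z x) (fun z => h' z x)) (hh : Nh h) (hh' : Nh h') :
    S.Ex (fun z x => z e * h z x) = S.Ex (fun z x => h' z x + h z x * (D z x -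
      ∑ l ∈ Finset.Ico (S.lev e) (S.K + 1), S.p l * S.T l D z)) := by
  have hT : ∀ i ≤ S.K, EG (S.T i D) := fun i hi => hS.toRegG.eg_T hi (hS.nh)
  have hA : EG (fun z => ∑ i ∈ Finset.Ico (S.lev e) (S.K + 1), S.p i * S.T i D z) :=
    EG.sum _ fun i hi => (hT i (by have := Finset.mem_Ico.1 hi; omega)).const_mul _
  have hN : Nh (fun z x => h' z x + h z x * (D z x -
      ∑ i ∈ Finset.Ico (S.lev e) (S.K + 1), S.p i * S.T i D z)) :=
    Nh.add hh' (Nh.mul hh (Nh.sub (hS.nh) (Nh.fst hA)))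
  have h1 := hS.pd_mul_av (hS.pd_dn_zero) hd
  have h2 := PD.stein h1 ((hS.toRegG.eg_dn (Nat.zero_le _)).mul (hS.toRegG.eg_av hh))
    ((hS.toRegG.eg_dn (Nat.zero_le _)).mul (hS.toRegG.eg_av hN))
  rw [Ex, Ex, ← h2]
  congr 1
  funext z
  rw [av_mul_left S (fun z => z e) h z]
  ring

end Vale.Agent.P166.H
end
end

section

section

/-!
Families of systems depending on a real parameter: the parameter is an extra coordinate of level
zero. Derivative of the tilted averages with respect to the parameter.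
-/

open MeasureTheory ProbabilityTheory Filter Topology
open Vale.Agent.P157.Lv Vale.Agent.P157.Lv.Sy

namespace Vale.Agent.P166.H

set_option linter.unusedSectionVars false

variable {ι X : Type} [Fintype ι]

/-- The coordinates without the parameter. -/
def rs (y : Option ι → ℝ) : ι → ℝ := fun e => y (some e)

/-- The point with parameter `θ` and coordinates `z`. -/
def cn (θ : ℝ) (z : ι → ℝ) : Option ι → ℝ := fun o => o.elim θ z

@[simp] lemma cn_none (θ : ℝ) (z : ι → ℝ) : cn θ z none = θ := rfl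
@[simp] lemma cn_some (θ : ℝ) (z : ι → ℝ) (e : ι) : cn θ z (some e) = z e := rfl
@[simp] lemma rs_cn (θ : ℝ) (z : ι → ℝ) : rs (cn θ z) = z := rfl
@[simp] lemma cn_rs (y : Option ι → ℝ) : cn (y none) (rs y) = y := by
  funext o; cases o <;> rfl

lemma measurable_rs : Measurable (rs : (Option ι → ℝ) → (ι → ℝ)) :=
  measurable_pi_lambda _ fun e => measurable_pi_apply (some e)

lemma measurable_cn (θ : ℝ) : Measurable (cn θ : (ι → ℝ) → (Option ι → ℝ)) :=
  measurable_pi_lambda _ fun o => by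
    cases o with
    | none => exact measurable_const
    | some e => exact measurable_pi_apply e

lemma map_rs : (gI (Option ι)).map rs = gI ι := by
  symm
  refine Measure.pi_eq fun s hs => ?_
  rw [Measure.map_apply measurable_rs (MeasurableSet.univ_pi hs)]
  have h : (rs ⁻¹' (Set.univ.pi s) : Set (Option ι → ℝ)) =
      Set.univ.pi (fun o : Option ι => o.elim Set.univ s) := by
    ext y
    simp only [Set.mem_preimage, Set.mem_pi, Set.mem_univ, true_implies, rs]
    constructor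
    · intro hy o
      cases o with
      | none => trivial
      | some e => exact hy e
    · intro hy e
      exact hy (some e)
  rw [h, Measure.pi_pi, Fintype.prod_option]
  simp

lemma norm_cn_le (θ : ℝ) (z : ι → ℝ) : ‖cn θ z‖ ≤ |θ| + ‖z‖ := by
  rw [pi_norm_le_iff_of_nonneg (by positivity)]
  intro o
  cases o with
  | none => simp [norm_nonneg]
  | some e =>
    have := norm_le_pi_norm z e
    simp only [cn_some]
    linarith [abs_nonneg θ]

lemma EG.cn {g : (Option ι → ℝ) → ℝ} (hg : EG g) (θ : ℝ) : EG fun z => g (cn θ z) := by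
  refine ⟨hg.meas.comp (measurable_cn θ), ?_⟩
  obtain ⟨C, a, hC, ha, h⟩ := hg.bdd
  refine ⟨C * Real.exp (a * |θ|), a, by positivity, ha, fun z => (h _).trans ?_⟩
  rw [mul_assoc, ← Real.exp_add]
  refine mul_le_mul_of_nonneg_left (Real.exp_le_exp.2 ?_) hC
  have := mul_le_mul_of_nonneg_left (norm_cn_le θ z) ha
  linarith

lemma LGr.cn {g : (Option ι → ℝ) → ℝ} (hg : LGr g) (θ : ℝ) : LGr fun z => g (H.cn θ z) := by
  refine ⟨hg.meas.comp (measurable_cn θ), ?_⟩
  obtain ⟨C, hC, h⟩ := hg.bdd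
  refine ⟨C * (1 + |θ|), by positivity, fun z => (h _).trans ?_⟩
  have h1 := norm_cn_le θ z
  have h2 := norm_nonneg z
  have h3 := abs_nonneg θ
  have h4 : 1 + ‖H.cn θ z‖ ≤ (1 + |θ|) * (1 + ‖z‖) := by nlinarith
  calc C * (1 + ‖H.cn θ z‖) ≤ C * ((1 + |θ|) * (1 + ‖z‖)) := mul_le_mul_of_nonneg_left h4 hC
    _ = _ := by ring

/-- The system with the parameter. -/
def fam (S : Sy ι X) (H : ℝ → (ι → ℝ) → X → ℝ) : Sy (Option ι) X where
  lev := fun o => o.elim 0 S.lev
  K := S.K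
  m := S.m
  H := fun y x => H (y none) (rs y) x

lemma mix_fam (lev : ι → ℕ) (l : ℕ) (y w : Option ι → ℝ) :
    mix (fun o : Option ι => o.elim 0 lev) l y w = cn (y none) (mix lev l (rs y) (rs w)) := by
  funext o
  cases o with
  | none => simp [mix]
  | some e => rfl

lemma J_fam (lev : ι → ℕ) (l : ℕ) {g : (Option ι → ℝ) → ℝ} (hg : Measurable g)
    (y : Option ι → ℝ) : J (fun o : Option ι => o.elim 0 lev) l g y =
      J lev l (fun z => g (cn (y none) z)) (rs y) := by
  unfold J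
  simp only [mix_fam]
  rw [← map_rs (ι := ι), integral_map measurable_rs.aemeasurable]
  exact (hg.comp ((measurable_cn _).comp (measurable_mix_right lev l (rs y)))).aestronglyMeasurable

variable [Fintype X] [Nonempty X] {S : Sy ι X} {H : ℝ → (ι → ℝ) → X → ℝ}

lemma RegG.sec (hF : RegG (fam S H)) (θ : ℝ) : RegG (S.wH (H θ)) :=
  ⟨hF.m0, hF.mK, hF.mono, hF.pos, fun e => hF.lev (some e), fun x => LGr.cn (hF.gr x) θ⟩

lemma lg_fam (hF : RegG (fam S H)) {l : ℕ} (hl : l ≤ S.K) (y : Option ι → ℝ) :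
    (fam S H).lg l y = (S.wH (H (y none))).lg l (rs y) := by
  revert y
  refine down_ind (K := S.K) (P := fun l => ∀ y : Option ι → ℝ,
    (fam S H).lg l y = (S.wH (H (y none))).lg l (rs y)) ?_ ?_ l hl
  · intro y
    have h1 := congrFun (lg_top (fam S H)) y
    have h2 := congrFun (lg_top (S.wH (H (y none)))) (rs y)
    have e1 : (fam S H).K = S.K := rfl
    have e2 : (S.wH (H (y none))).K = S.K := rfl
    rw [e1] at h1
    rw [e2] at h2
    rw [h1, h2]
    rfl
  · intro l hl ih y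
    have h1 := congrFun (lg_step (fam S H) (l := l) hl) y
    have h2 := congrFun (lg_step (S.wH (H (y none))) (l := l) hl) (rs y)
    rw [h1, h2]
    unfold stp
    have hmeas : Measurable fun z => Real.exp ((fam S H).m (l + 1) * (fam S H).lg (l + 1) z) :=
      ((hF.gr_lg (l := l + 1) hl).meas.const_mul _).exp
    have h3 := J_fam S.lev l hmeas y
    have e3 : (fun z => Real.exp ((fam S H).m (l + 1) * (fam S H).lg (l + 1) (cn (y none) z))) =
        fun z => Real.exp (S.m (l + 1) * (S.wH (H (y none))).lg (l + 1) z) := by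
      funext z
      rw [ih (cn (y none) z)]
      rfl
    rw [e3] at h3
    show 1 / S.m (l + 1) * Real.log (J (fun o : Option ι => o.elim 0 S.lev) l _ y) = _
    rw [h3]
    rfl

lemma dn_fam (hF : RegG (fam S H)) (l : ℕ) (y : Option ι → ℝ) :
    (fam S H).dn l y = (S.wH (H (y none))).dn l (rs y) := by
  unfold dn
  congr 1
  refine Finset.sum_congr rfl fun i hi => ?_
  have hi2 : i < S.K := (Finset.mem_Ico.1 hi).2
  rw [lg_fam hF (l := i + 1) hi2, lg_fam hF (l := i) hi2.le]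
  rfl

lemma av_fam (h : (Option ι → ℝ) → X → ℝ) (y : Option ι → ℝ) :
    (fam S H).av h y = (S.wH (H (y none))).av (fun z x => h (cn (y none) z) x) (rs y) := by
  unfold av
  simp only [cn_rs]
  rfl

lemma T_fam (hF : RegG (fam S H)) {l : ℕ} (hl : l ≤ S.K) {h : (Option ι → ℝ) → X → ℝ} (hh : Nh h)
    (y : Option ι → ℝ) :
    (fam S H).T l h y = (S.wH (H (y none))).T l (fun z x => h (cn (y none) z) x) (rs y) := by
  unfold T
  have hmeas : Measurable fun z => (fam S H).dn l z * (fam S H).av h z :=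
    ((hF.eg_dn (l := l) hl).mul (hF.eg_av hh)).meas
  have h3 := J_fam S.lev l hmeas y
  show J (fun o : Option ι => o.elim 0 S.lev) l _ y = _
  rw [h3]
  show J S.lev l _ _ = J S.lev l _ _
  congr 1
  funext z
  rw [dn_fam hF l (cn (y none) z), av_fam h (cn (y none) z)]
  simp

/-- The derivative of the energy with respect to the parameter is `D`. -/
theorem hasDerivAt_Ex [DecidableEq ι] {D : (Option ι → ℝ) → X → ℝ}
    (hF : RegE (fam S H) none D) {G G' : (Option ι → ℝ) → X → ℝ}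
    (hd : ∀ x, PD none (fun y => G y x) (fun y => G' y x)) (hG : Nh G) (hG' : Nh G') (θ : ℝ) :
    HasDerivAt (fun θ => (S.wH (H θ)).Ex (fun z x => G (cn θ z) x))
      ((S.wH (H θ)).Ex (fun z x => G' (cn θ z) x + G (cn θ z) x * (D (cn θ z) x -
        ∑ i ∈ Finset.Ico 0 (S.K + 1), S.p i *
          (S.wH (H θ)).T i (fun z x => D (cn θ z) x) z))) θ := by
  have hR := hF.toRegG
  -- the tilted average as an integral of `T 0`
  have hT := hF.pd_T (l := 0) (Nat.zero_le _) (le_refl _) hd hG hG'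
  have hEG1 : EG ((fam S H).T 0 G) := hR.eg_T (Nat.zero_le _) hG
  set Q : (Option ι → ℝ) → X → ℝ := fun z x => G' z x + G z x * (D z x -
      ∑ i ∈ Finset.Ico (0 + 1) ((fam S H).K + 1), (fam S H).p i * (fam S H).T i D z -
        (fam S H).m (0 + 1) * (fam S H).T 0 D z) with hQdef
  have hTi : ∀ i ≤ S.K, EG ((fam S H).T i D) := fun i hi => hR.eg_T hi (hF.nh)
  have hA : EG (fun z => ∑ i ∈ Finset.Ico (0 + 1) ((fam S H).K + 1),
      (fam S H).p i * (fam S H).T i D z) :=
    EG.sum _ fun i hi => (hTi i (by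
      have := (Finset.mem_Ico.1 hi).2
      have e : (fam S H).K = S.K := rfl
      omega)).const_mul _
  have hQ : Nh Q := Nh.add hG' (Nh.mul hG (Nh.sub (Nh.sub (hF.nh) (Nh.fst hA))
    (Nh.fst ((hTi 0 (Nat.zero_le _)).const_mul _))))
  have hEG2 : EG ((fam S H).T 0 Q) := hR.eg_T (Nat.zero_le _) hQ
  -- integrate over all the coordinates but the parameter
  have hJ := PD.J hT hEG1 hEG2 (lev := fun o : Option ι => o.elim 0 fun _ => 1) (l := 0)
    (e := none) (le_refl _)
  have key : ∀ {g : (Option ι → ℝ) → ℝ} (_ : Measurable g) (y : Option ι → ℝ),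
      J (fun o : Option ι => o.elim 0 fun _ => 1) 0 g y = ∫ z, g (cn (y none) z) ∂(gI ι) := by
    intro g hg y
    rw [J_fam (fun _ => 1) 0 hg y]
    unfold J
    congr 1
  have h0 : ∀ (θ : ℝ) {h : (Option ι → ℝ) → X → ℝ}, Nh h →
      ∫ z, (fam S H).T 0 h (cn θ z) ∂(gI ι) = (S.wH (H θ)).Ex (fun z x => h (cn θ z) x) := by
    intro θ h hh
    have hsec := RegG.sec hR θ
    rw [gc_Ex_T0 hsec (f := fun z x => h (cn θ z) x) (fun x => EG.cn (hh x) θ)]
    congr 1
    funext z
    rw [T_fam hR (Nat.zero_le _) hh]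
    rfl
  have h1 := hJ (cn θ (0 : ι → ℝ)) θ
  have hupd : ∀ t : ℝ, Function.update (cn θ (0 : ι → ℝ)) none t = cn t 0 := by
    intro t
    funext o
    cases o with
    | none => simp
    | some e => simp
  simp only [hupd] at h1
  simp only [key hEG1.meas, key hEG2.meas, cn_none, h0 _ hG, h0 _ hQ] at h1
  convert h1 using 1
  congr 1
  funext z x
  rw [hQdef]
  simp only
  congr 2
  have e0 : S.p 0 = S.m (0 + 1) := by
    have : (fam S H).m 0 = 0 := hR.m0
    have e : (fam S H).m 0 = S.m 0 := rfl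
    simp only [p]
    rw [← e, this]; ring
  rw [Finset.sum_eq_sum_Ico_succ_bot (Nat.succ_pos S.K)]
  have eT : ∀ i ≤ S.K, (fam S H).T i D (cn θ z) =
      (S.wH (H θ)).T i (fun z x => D (cn θ z) x) z := by
    intro i hi
    rw [T_fam hR hi (hF.nh)]
    rfl
  rw [eT 0 (Nat.zero_le _), e0]
  have e2 : ∑ i ∈ Finset.Ico (0 + 1) ((fam S H).K + 1), (fam S H).p i * (fam S H).T i D (cn θ z) =
      ∑ i ∈ Finset.Ico (0 + 1) (S.K + 1), S.p i *
        (S.wH (H θ)).T i (fun z x => D (cn θ z) x) z := by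
    refine Finset.sum_congr rfl fun i hi => ?_
    rw [eT i (by have := (Finset.mem_Ico.1 hi).2; omega)]
    rfl
  rw [e2]
  have e3 : (fam S H).m (0 + 1) = S.m (0 + 1) := rfl
  rw [e3, Nat.succ_eq_add_one]
  ring

end Vale.Agent.P166.H
end
end

section

section

/-!
Covariance of the systems under level preserving isometries of the Gaussian coordinates.
-/

open MeasureTheory ProbabilityTheory Filter Topology
open Vale.Agent.P157.Lv Vale.Agent.P157.Lv.Sy

namespace Vale.Agent.P166.H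

open Vale.Agent

set_option linter.unusedSectionVars false

variable {ι X : Type} [Fintype ι]

/-- The standard Gaussian measure is invariant under linear isometries. -/
lemma gauss_iso (ρ : (ι → ℝ) →ₗ[ℝ] (ι → ℝ)) (h : ∀ z, ∑ e, ρ z e ^ 2 = ∑ e, z e ^ 2) :
    (gI ι).map ρ = gI ι := by
  classical
  let L : EuclideanSpace ℝ ι →ₗ[ℝ] EuclideanSpace ℝ ι :=
    (WithLp.linearEquiv 2 ℝ (ι → ℝ)).symm.toLinearMap ∘ₗ ρ ∘ₗ
      (WithLp.linearEquiv 2 ℝ (ι → ℝ)).toLinearMap
  have hL : ∀ x, ‖L x‖ = ‖x‖ := by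
    intro x
    rw [EuclideanSpace.norm_eq, EuclideanSpace.norm_eq]
    congr 1
    have := h x.ofLp
    simpa [L] using this
  let I : EuclideanSpace ℝ ι →ₗᵢ[ℝ] EuclideanSpace ℝ ι := ⟨L, hL⟩
  let E : EuclideanSpace ℝ ι ≃ₗᵢ[ℝ] EuclideanSpace ℝ ι := I.toLinearIsometryEquiv rfl
  have h1 : (gI ι).map (WithLp.toLp 2) = stdGaussian (EuclideanSpace ℝ ι) :=
    map_pi_eq_stdGaussian
  have h2 := stdGaussian_map (E := EuclideanSpace ℝ ι) E
  have hm : Measurable (WithLp.ofLp : EuclideanSpace ℝ ι → (ι → ℝ)) := by fun_prop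
  have hm2 : Measurable (WithLp.toLp 2 : (ι → ℝ) → EuclideanSpace ℝ ι) := by fun_prop
  have h3 : (ρ : (ι → ℝ) → (ι → ℝ)) =
      (WithLp.ofLp : EuclideanSpace ℝ ι → (ι → ℝ)) ∘ E ∘ (WithLp.toLp 2) := by
    funext x
    rfl
  have h4 : gI ι = (stdGaussian (EuclideanSpace ℝ ι)).map WithLp.ofLp := by
    rw [← h1, Measure.map_map hm hm2]
    exact Measure.map_id.symm
  rw [h3, ← Measure.map_map hm (by fun_prop), ← Measure.map_map (by fun_prop) hm2, h1, h2, ← h4]

/-- Level preserving transformations of the Gaussian coordinates which preserve the law. -/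
structure Rho (lev : ι → ℕ) (ρ : (ι → ℝ) → (ι → ℝ)) : Prop where
  meas : Measurable ρ
  map : (gI ι).map ρ = gI ι
  mix : ∀ l z w, mix lev l (ρ z) (ρ w) = ρ (P157.Lv.mix lev l z w)

variable {lev : ι → ℕ} {ρ : (ι → ℝ) → (ι → ℝ)}

lemma Rho.J (hρ : Rho lev ρ) (l : ℕ) {g : (ι → ℝ) → ℝ} (hg : Measurable g) (z : ι → ℝ) :
    P157.Lv.J lev l (fun z => g (ρ z)) z = P157.Lv.J lev l g (ρ z) := by
  unfold P157.Lv.J
  simp only [← hρ.mix]
  have h1 : ∫ w, g (P157.Lv.mix lev l (ρ z) w) ∂(gI ι) =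
      ∫ w, g (P157.Lv.mix lev l (ρ z) w) ∂((gI ι).map ρ) := by rw [hρ.map]
  have h2 : Measurable fun w => g (P157.Lv.mix lev l (ρ z) w) :=
    hg.comp (measurable_mix_right lev l (ρ z))
  rw [h1, integral_map hρ.meas.aemeasurable h2.aestronglyMeasurable]

lemma Rho.integral (hρ : Rho lev ρ) {g : (ι → ℝ) → ℝ} (hg : Measurable g) :
    ∫ z, g (ρ z) ∂(gI ι) = ∫ z, g z ∂(gI ι) := by
  have h1 : ∫ w, g w ∂(gI ι) = ∫ w, g w ∂((gI ι).map ρ) := by rw [hρ.map]
  rw [h1, integral_map hρ.meas.aemeasurable hg.aestronglyMeasurable]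

variable [Fintype X] [Nonempty X] {S : Sy ι X}

/-- The system seen through the transformation `ρ`. -/
def pb (S : Sy ι X) (ρ : (ι → ℝ) → (ι → ℝ)) : Sy ι X := S.wH fun z x => S.H (ρ z) x

lemma Rho.lg (hS : RegG S) (hρ : Rho S.lev ρ) {l : ℕ} (hl : l ≤ S.K) (z : ι → ℝ) :
    (pb S ρ).lg l z = S.lg l (ρ z) := by
  revert z
  refine down_ind (K := S.K) (P := fun l => ∀ z : ι → ℝ, (pb S ρ).lg l z = S.lg l (ρ z)) ?_ ?_ l hl
  · intro z
    have h1 := congrFun (lg_top (pb S ρ)) z
    have e1 : (pb S ρ).K = S.K := rfl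
    rw [e1] at h1
    rw [h1, lg_top S]
    rfl
  · intro l hl ih z
    have h1 := congrFun (lg_step (pb S ρ) (l := l) hl) z
    rw [h1, lg_step S hl]
    unfold stp
    have hmeas : Measurable fun z => Real.exp (S.m (l + 1) * S.lg (l + 1) z) :=
      ((hS.gr_lg (l := l + 1) hl).meas.const_mul _).exp
    have e3 : (fun z => Real.exp ((pb S ρ).m (l + 1) * (pb S ρ).lg (l + 1) z)) =
        fun z => (fun z => Real.exp (S.m (l + 1) * S.lg (l + 1) z)) (ρ z) := by
      funext z
      rw [ih z]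
      rfl
    rw [e3]
    show 1 / S.m (l + 1) * Real.log (P157.Lv.J S.lev l _ z) = _
    rw [hρ.J l hmeas]

lemma Rho.dn (hS : RegG S) (hρ : Rho S.lev ρ) (l : ℕ) (z : ι → ℝ) :
    (pb S ρ).dn l z = S.dn l (ρ z) := by
  unfold Sy.dn
  congr 1
  refine Finset.sum_congr rfl fun i hi => ?_
  have hi2 : i < S.K := (Finset.mem_Ico.1 hi).2
  rw [hρ.lg hS (l := i + 1) hi2, hρ.lg hS (l := i) hi2.le]
  rfl

lemma pb_av (h : (ι → ℝ) → X → ℝ) (z : ι → ℝ) :
    (pb S ρ).av (fun z x => h (ρ z) x) z = S.av h (ρ z) := rfl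

lemma Rho.T (hS : RegG S) (hρ : Rho S.lev ρ) {l : ℕ} (hl : l ≤ S.K) {h : (ι → ℝ) → X → ℝ}
    (hh : Nh h) (z : ι → ℝ) :
    (pb S ρ).T l (fun z x => h (ρ z) x) z = S.T l h (ρ z) := by
  unfold Sy.T
  have hmeas : Measurable fun z => S.dn l z * S.av h z := ((hS.eg_dn hl).mul (hS.eg_av hh)).meas
  rw [← hρ.J l hmeas]
  show P157.Lv.J S.lev l _ z = _
  congr 1
  funext z
  rw [hρ.dn hS l z, pb_av]

lemma Rho.Ex (hS : RegG S) (hρ : Rho S.lev ρ) {h : (ι → ℝ) → X → ℝ} (hh : Nh h) :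
    (pb S ρ).Ex (fun z x => h (ρ z) x) = S.Ex h := by
  unfold Sy.Ex
  have hmeas : Measurable fun z => S.dn 0 z * S.av h z :=
    ((hS.eg_dn (Nat.zero_le _)).mul (hS.eg_av hh)).meas
  rw [← hρ.integral hmeas]
  congr 1
  funext z
  rw [hρ.dn hS 0 z, pb_av]

end Vale.Agent.P166.H
end
end

section

section

/-!
The system with patterns `P`: energy
`(1/2) ∑ b_p y_p² + ∑_{l,p} s_{p,l} z_{l,p} y_p`, and its rotations.
-/

open MeasureTheory ProbabilityTheory Filter Topology
open Vale.Agent.P157.Lv Vale.Agent.P157.Lv.Sy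

namespace Vale.Agent.P166.H

open Vale.Agent

set_option linter.unusedSectionVars false

variable {P X : Type} [Fintype P] [DecidableEq P]

/-- Admissible exponents. -/
structure Exps (K : ℕ) (m : ℕ → ℝ) : Prop where
  m0 : m 0 = 0
  mK : m (K + 1) = 1
  mono : ∀ l ≤ K, m l ≤ m (l + 1)
  pos : 0 < m 1

variable [Fintype X]

/-! ### Rotations -/

/-- The rotation of the coordinates `p` and `q`. -/
noncomputable def rot (p q : P) (θ : ℝ) (v : P → ℝ) : P → ℝ := fun r =>
  if r = p then Real.cos θ * v p + Real.sin θ * v q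
  else if r = q then Real.cos θ * v q - Real.sin θ * v p else v r

lemma rot_sum {p q : P} (hpq : p ≠ q) (θ : ℝ) (v : P → ℝ) (f : P → ℝ → ℝ) :
    ∑ r, f r (rot p q θ v r) = (∑ r, f r (v r)) +
      (f p (Real.cos θ * v p + Real.sin θ * v q) - f p (v p)) +
      (f q (Real.cos θ * v q - Real.sin θ * v p) - f q (v q)) := by
  classical
  have h : ∀ r, f r (rot p q θ v r) = f r (v r) +
      (if r = p then f p (Real.cos θ * v p + Real.sin θ * v q) - f p (v p) else 0) +
      (if r = q then f q (Real.cos θ * v q - Real.sin θ * v p) - f q (v q) else 0) := by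
    intro r
    unfold rot
    by_cases h1 : r = p
    · subst h1
      simp [hpq]
    · by_cases h2 : r = q
      · subst h2
        simp only [h1, ↓reduceIte, add_zero, add_sub_cancel]
      · simp [h1, h2]
  simp only [h, Finset.sum_add_distrib, Finset.sum_ite_eq', Finset.mem_univ, if_true]

lemma rot_norm {p q : P} (hpq : p ≠ q) (θ : ℝ) (v : P → ℝ) :
    ∑ r, rot p q θ v r ^ 2 = ∑ r, v r ^ 2 := by
  rw [rot_sum hpq θ v fun _ t => t ^ 2]
  have := Real.sin_sq_add_cos_sq θ
  linear_combination (v p ^ 2 + v q ^ 2) * this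

end Vale.Agent.P166.H
end
end

section

section

/-!
Derivatives of the averages of one and of two replicas along a family of systems.
-/

open MeasureTheory ProbabilityTheory Filter Topology
open Vale.Agent.P157.Lv Vale.Agent.P157.Lv.Sy

namespace Vale.Agent.P166.H

set_option linter.unusedSectionVars false

variable {ι X : Type} [Fintype ι] [Fintype X]

/-- The kernel of the derivative of the average of one replica. -/
noncomputable def W0 (S : Sy ι X) (f : (ι → ℝ) → X → ℝ) : (ι → ℝ) → X → ℝ := fun z x =>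
  f z x - ∑ i ∈ Finset.range (S.K + 1), S.p i * S.T i f z

/-- The kernel of the derivative of the average of two replicas which split at the level `l`. -/
noncomputable def W (S : Sy ι X) (l : ℕ) (f g : (ι → ℝ) → X → ℝ) : (ι → ℝ) → X → ℝ := fun z x =>
  f z x * S.T l g z + S.T l f z * g z x -
    ∑ i ∈ Finset.Ico (l + 1) (S.K + 1), S.p i * (S.T i f z * S.T l g z + S.T l f z * S.T i g z) +
    (S.m l - 2 * S.m (l + 1)) * (S.T l f z * S.T l g z) -
    ∑ i ∈ Finset.range l, S.p i * S.T i (fun z _ => S.T l f z * S.T l g z) z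

variable [Nonempty X] {S : Sy ι X}

/-- Self-adjointness of `T_l`. -/
lemma RegG.Ex_T_T (hS : RegG S) {l : ℕ} (hl : l ≤ S.K) {f g : (ι → ℝ) → X → ℝ} (hf : Nh f)
    (hg : Nh g) : S.Ex (fun z x => S.T l g z * f z x) = S.Ex (fun z x => g z x * S.T l f z) := by
  have h1 := hS.Ex_mul_T hl (dep_T S l g) (hS.eg_T hl hg) hf
  have h2 := hS.Ex_mul_T hl (dep_T S l f) (hS.eg_T hl hf) hg
  rw [← h1]
  have e : (fun z x => g z x * S.T l f z) = fun z x => S.T l f z * g z x := by
    funext z x; ring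
  rw [e, ← h2]
  congr 1
  funext z x
  ring

/-- Self-adjointness of `T_l`, with a factor which depends only on the levels at most `l`. -/
lemma RegG.Ex_T_T' (hS : RegG S) {l : ℕ} (hl : l ≤ S.K) {φ : (ι → ℝ) → ℝ} (hφ : Dep S.lev l φ)
    (hφe : EG φ) {f g : (ι → ℝ) → X → ℝ} (hf : Nh f) (hg : Nh g) :
    S.Ex (fun z x => φ z * (S.T l g z * f z x)) = S.Ex (fun z x => φ z * (S.T l f z * g z x)) := by
  have hd1 : Dep S.lev l fun z => φ z * S.T l g z := lc_dep_mul hφ (dep_T S l g)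
  have hd2 : Dep S.lev l fun z => φ z * S.T l f z := lc_dep_mul hφ (dep_T S l f)
  have h1 := hS.Ex_mul_T hl hd1 (hφe.mul (hS.eg_T hl hg)) hf
  have h2 := hS.Ex_mul_T hl hd2 (hφe.mul (hS.eg_T hl hf)) hg
  simp only [mul_assoc] at h1 h2
  rw [← h1, ← h2]
  congr 1
  funext z x
  ring

lemma sum_p (S : Sy ι X) (h0 : S.m 0 = 0) (l : ℕ) : ∑ i ∈ Finset.range l, S.p i = S.m l := by
  have := Finset.sum_range_sub S.m l
  rw [h0, sub_zero] at this
  exact this

lemma sum_p_Ico (S : Sy ι X) {l K : ℕ} (h : l ≤ K) :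
    ∑ i ∈ Finset.Ico l K, S.p i = S.m K - S.m l := by
  unfold p
  exact Finset.sum_Ico_sub S.m h

/-- The canonical form of the derivative: one replica. -/
lemma RegG.canon0 (hS : RegG S) {f D : (ι → ℝ) → X → ℝ} (hf : Nh f) (hD : Nh D) :
    S.Ex (fun z x => f z x * (D z x - ∑ i ∈ Finset.Ico 0 (S.K + 1), S.p i * S.T i D z)) =
      S.Ex (fun z x => D z x * W0 S f z x) := by
  have hTD : ∀ i ∈ Finset.Ico 0 (S.K + 1), Nh (X := X) fun z _ => S.T i D z := fun i hi =>
    Nh.fst (hS.eg_T (Nat.lt_succ_iff.1 (Finset.mem_Ico.1 hi).2) hD)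
  have hTf : ∀ i ∈ Finset.range (S.K + 1), Nh (X := X) fun z _ => S.T i f z := fun i hi =>
    Nh.fst (hS.eg_T (Nat.lt_succ_iff.1 (Finset.mem_range.1 hi)) hf)
  have e1 : (fun z x => f z x * (D z x - ∑ i ∈ Finset.Ico 0 (S.K + 1), S.p i * S.T i D z)) =
      fun z x => f z x * D z x - ∑ i ∈ Finset.Ico 0 (S.K + 1), S.p i * (S.T i D z * f z x) := by
    funext z x
    rw [mul_sub, Finset.mul_sum]
    congr 1
    exact Finset.sum_congr rfl fun i _ => by ring
  have e2 : (fun z x => D z x * W0 S f z x) =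
      fun z x => f z x * D z x - ∑ i ∈ Finset.Ico 0 (S.K + 1), S.p i * (D z x * S.T i f z) := by
    funext z x
    unfold W0
    rw [mul_sub, Finset.mul_sum, Nat.Ico_zero_eq_range]
    rw [mul_comm (D z x) (f z x)]
    congr 1
    exact Finset.sum_congr rfl fun i _ => by ring
  have n1 : ∀ i ∈ Finset.Ico 0 (S.K + 1), Nh fun z x => S.p i * (S.T i D z * f z x) :=
    fun i hi => Nh.const_mul _ (Nh.mul (hTD i hi) hf)
  have n2 : ∀ i ∈ Finset.Ico 0 (S.K + 1), Nh fun z x => S.p i * (D z x * S.T i f z) :=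
    fun i hi => Nh.const_mul _ (Nh.mul hD (hTf i (by rwa [Nat.Ico_zero_eq_range] at hi)))
  rw [e1, e2, hS.Ex_sub (Nh.mul hf hD) (Nh.sum _ n1), hS.Ex_sub (Nh.mul hf hD) (Nh.sum _ n2),
    hS.Ex_sum _ n1, hS.Ex_sum _ n2]
  congr 1
  refine Finset.sum_congr rfl fun i hi => ?_
  rw [Ex_const_mul, Ex_const_mul, hS.Ex_T_T (Nat.lt_succ_iff.1 (Finset.mem_Ico.1 hi).2) hf hD]

/-- A part of the derivative of `T_l f`. -/
lemma RegG.canonA (hS : RegG S) {l : ℕ} (hl : l ≤ S.K) {f f' g D : (ι → ℝ) → X → ℝ} (hf : Nh f)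
    (hf' : Nh f') (hg : Nh g) (hD : Nh D) :
    S.Ex (fun z _ => S.T l g z * S.T l (fun z x => f' z x + f z x * (D z x -
      ∑ i ∈ Finset.Ico (l + 1) (S.K + 1), S.p i * S.T i D z - S.m (l + 1) * S.T l D z)) z) =
    S.Ex (fun z x => S.T l g z * f' z x + D z x * (S.T l g z * f z x -
      ∑ i ∈ Finset.Ico (l + 1) (S.K + 1), S.p i * (S.T i f z * S.T l g z) -
      S.m (l + 1) * (S.T l f z * S.T l g z))) := by
  have hgl : EG (S.T l g) := hS.eg_T hl hg
  have hTD : ∀ i ∈ Finset.Ico (l + 1) (S.K + 1), Nh (X := X) fun z _ => S.T i D z := fun i hi =>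
    Nh.fst (hS.eg_T (Nat.lt_succ_iff.1 (Finset.mem_Ico.1 hi).2) hD)
  have hTf : ∀ i ∈ Finset.Ico (l + 1) (S.K + 1), Nh (X := X) fun z _ => S.T i f z := fun i hi =>
    Nh.fst (hS.eg_T (Nat.lt_succ_iff.1 (Finset.mem_Ico.1 hi).2) hf)
  have hlD : Nh (X := X) fun z _ => S.T l D z := Nh.fst (hS.eg_T hl hD)
  have hlf : Nh (X := X) fun z _ => S.T l f z := Nh.fst (hS.eg_T hl hf)
  have hlg : Nh (X := X) fun z _ => S.T l g z := Nh.fst hgl
  have hN : Nh (fun z x => f' z x + f z x * (D z x -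
      ∑ i ∈ Finset.Ico (l + 1) (S.K + 1), S.p i * S.T i D z - S.m (l + 1) * S.T l D z)) :=
    Nh.add hf' (Nh.mul hf (Nh.sub (Nh.sub hD (Nh.sum _ fun i hi => Nh.const_mul _ (hTD i hi)))
      (Nh.const_mul _ hlD)))
  rw [hS.Ex_mul_T hl (dep_T S l g) hgl hN]
  have e1 : (fun z x => S.T l g z * (f' z x + f z x * (D z x -
      ∑ i ∈ Finset.Ico (l + 1) (S.K + 1), S.p i * S.T i D z - S.m (l + 1) * S.T l D z))) =
      fun z x => (S.T l g z * f' z x + S.T l g z * (f z x * D z x)) -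
        ∑ i ∈ Finset.Ico (l + 1) (S.K + 1), S.p i * (S.T l g z * (S.T i D z * f z x)) -
        S.m (l + 1) * (S.T l g z * (S.T l D z * f z x)) := by
    funext z x
    have : ∑ i ∈ Finset.Ico (l + 1) (S.K + 1), S.p i * (S.T l g z * (S.T i D z * f z x)) =
        (S.T l g z * f z x) * ∑ i ∈ Finset.Ico (l + 1) (S.K + 1), S.p i * S.T i D z := by
      rw [Finset.mul_sum]
      exact Finset.sum_congr rfl fun i _ => by ring
    rw [this]
    ring
  have e2 : (fun z x => S.T l g z * f' z x + D z x * (S.T l g z * f z x -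
      ∑ i ∈ Finset.Ico (l + 1) (S.K + 1), S.p i * (S.T i f z * S.T l g z) -
      S.m (l + 1) * (S.T l f z * S.T l g z))) =
      fun z x => (S.T l g z * f' z x + S.T l g z * (f z x * D z x)) -
        ∑ i ∈ Finset.Ico (l + 1) (S.K + 1), S.p i * (S.T l g z * (S.T i f z * D z x)) -
        S.m (l + 1) * (S.T l g z * (S.T l f z * D z x)) := by
    funext z x
    have : ∑ i ∈ Finset.Ico (l + 1) (S.K + 1), S.p i * (S.T l g z * (S.T i f z * D z x)) =
        D z x * ∑ i ∈ Finset.Ico (l + 1) (S.K + 1), S.p i * (S.T i f z * S.T l g z) := by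
      rw [Finset.mul_sum]
      exact Finset.sum_congr rfl fun i _ => by ring
    rw [this]
    ring
  have n0 : Nh fun z x => S.T l g z * f' z x + S.T l g z * (f z x * D z x) :=
    Nh.add (Nh.mul hlg hf') (Nh.mul hlg (Nh.mul hf hD))
  have n1 : ∀ i ∈ Finset.Ico (l + 1) (S.K + 1),
      Nh fun z x => S.p i * (S.T l g z * (S.T i D z * f z x)) :=
    fun i hi => Nh.const_mul _ (Nh.mul hlg (Nh.mul (hTD i hi) hf))
  have n2 : ∀ i ∈ Finset.Ico (l + 1) (S.K + 1),
      Nh fun z x => S.p i * (S.T l g z * (S.T i f z * D z x)) :=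
    fun i hi => Nh.const_mul _ (Nh.mul hlg (Nh.mul (hTf i hi) hD))
  have m1 : Nh fun z x => S.m (l + 1) * (S.T l g z * (S.T l D z * f z x)) :=
    Nh.const_mul _ (Nh.mul hlg (Nh.mul hlD hf))
  have m2 : Nh fun z x => S.m (l + 1) * (S.T l g z * (S.T l f z * D z x)) :=
    Nh.const_mul _ (Nh.mul hlg (Nh.mul hlf hD))
  rw [e1, e2, hS.Ex_sub (Nh.sub n0 (Nh.sum _ n1)) m1, hS.Ex_sub (Nh.sub n0 (Nh.sum _ n2)) m2,
    hS.Ex_sub n0 (Nh.sum _ n1), hS.Ex_sub n0 (Nh.sum _ n2), hS.Ex_sum _ n1, hS.Ex_sum _ n2]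
  congr 1
  · congr 1
    refine Finset.sum_congr rfl fun i hi => ?_
    have hi' := Finset.mem_Ico.1 hi
    rw [Ex_const_mul, Ex_const_mul, hS.Ex_T_T' (Nat.lt_succ_iff.1 hi'.2)
      ((dep_T S l g).mono (by omega)) hgl hf hD]
  · rw [Ex_const_mul, Ex_const_mul, hS.Ex_T_T' hl (dep_T S l g) hgl hf hD]

/-- The derivative of the weight. -/
lemma RegG.canonB (hS : RegG S) {l : ℕ} (hl : l ≤ S.K) {G : (ι → ℝ) → ℝ} (hG : EG G)
    (hGd : Dep S.lev l G) {D : (ι → ℝ) → X → ℝ} (hD : Nh D) :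
    S.Ex (fun z x => G z * (D z x - ∑ i ∈ Finset.Ico 0 (S.K + 1), S.p i * S.T i D z)) =
    S.Ex (fun z x => D z x * (S.m l * G z -
      ∑ i ∈ Finset.range l, S.p i * S.T i (fun z _ => G z) z)) := by
  rw [hS.canon0 (Nh.fst hG) hD]
  congr 1
  funext z x
  congr 1
  unfold W0
  have h1 : ∑ i ∈ Finset.range (S.K + 1), S.p i * S.T i (fun z _ => G z) z =
      ∑ i ∈ Finset.range l, S.p i * S.T i (fun z _ => G z) z +
      ∑ i ∈ Finset.Ico l (S.K + 1), S.p i * S.T i (fun z _ => G z) z :=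
    (Finset.sum_range_add_sum_Ico _ (by omega)).symm
  have h2 : ∑ i ∈ Finset.Ico l (S.K + 1), S.p i * S.T i (fun z _ => G z) z =
      (1 - S.m l) * G z := by
    rw [← hS.mK, ← sum_p_Ico S (show l ≤ S.K + 1 by omega), Finset.sum_mul]
    refine Finset.sum_congr rfl fun i hi => ?_
    have hi' := Finset.mem_Ico.1 hi
    rw [hS.T_fst (Nat.lt_succ_iff.1 hi'.2) (hGd.mono hi'.1) z]
  rw [h1, h2]
  ring

end Vale.Agent.P166.H
end
end

section

section

/-!
Derivatives of the averages of one and of two replicas along a family of systems.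
-/

open MeasureTheory ProbabilityTheory Filter Topology
open Vale.Agent.P157.Lv Vale.Agent.P157.Lv.Sy

namespace Vale.Agent.P166.H

set_option linter.unusedSectionVars false

variable {ι X : Type} [Fintype ι] [Fintype X] [Nonempty X] {S : Sy ι X}

/-- Test functions depending on the parameter, with their derivatives. -/
structure TF (f f' : ℝ → X → ℝ) : Prop where
  der : ∀ x θ, HasDerivAt (fun t => f t x) (f' θ x) θ
  meas' : ∀ x, Measurable fun t => f' t x
  bdd : ∃ C, ∀ t x, |f t x| ≤ C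
  bdd' : ∃ C, ∀ t x, |f' t x| ≤ C

lemma TF.meas {f f' : ℝ → X → ℝ} (h : TF f f') (x : X) : Measurable fun t => f t x :=
  (continuous_iff_continuousAt.2 fun t => (h.der x t).continuousAt).measurable

lemma TF.nh {f f' : ℝ → X → ℝ} (h : TF f f') :
    Nh (fun (y : Option ι → ℝ) x => f (y none) x) := by
  obtain ⟨C, hC⟩ := h.bdd
  exact fun x => EG.of_bdd ((h.meas x).comp (measurable_pi_apply none)) fun y => hC (y none) x

lemma TF.nh' {f f' : ℝ → X → ℝ} (h : TF f f') :
    Nh (fun (y : Option ι → ℝ) x => f' (y none) x) := by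
  obtain ⟨C, hC⟩ := h.bdd'
  exact fun x => EG.of_bdd ((h.meas' x).comp (measurable_pi_apply none)) fun y => hC (y none) x

variable [DecidableEq ι]

lemma TF.pd {f f' : ℝ → X → ℝ} (h : TF f f') (x : X) :
    PD none (fun y : Option ι → ℝ => f (y none) x) (fun y => f' (y none) x) := by
  intro y t
  simp only [Function.update_self]
  exact h.der x t

variable {H : ℝ → (ι → ℝ) → X → ℝ} {D : (Option ι → ℝ) → X → ℝ}

/-- One replica. -/
theorem hasDerivAt_one (hF : RegE (fam S H) none D) {f f' : ℝ → X → ℝ} (hf : TF f f') (θ : ℝ) :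
    HasDerivAt (fun t => (S.wH (H t)).Ex (fun _ x => f t x))
      ((S.wH (H θ)).Ex (fun z x => f' θ x + D (cn θ z) x * W0 (S.wH (H θ)) (fun _ => f θ) z x))
      θ := by
  have hR := RegG.sec hF.toRegG θ
  have h := hasDerivAt_Ex hF hf.pd hf.nh hf.nh' θ
  refine h.congr_deriv ?_
  have hD : Nh fun z x => D (cn θ z) x := fun x => EG.cn (hF.nh x) θ
  have hfs : Nh fun (_ : ι → ℝ) x => f θ x := Nh.snd _
  have hfs' : Nh fun (_ : ι → ℝ) x => f' θ x := Nh.snd _
  have hW : Nh (W0 (S.wH (H θ)) fun _ => f θ) :=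
    Nh.sub hfs (Nh.sum _ fun i hi => Nh.const_mul _ (Nh.fst (hR.eg_T
      (Nat.lt_succ_iff.1 (Finset.mem_range.1 hi)) hfs)))
  have hN2 : Nh fun z x => f θ x * (D (cn θ z) x - ∑ i ∈ Finset.Ico 0 (S.K + 1), S.p i *
      (S.wH (H θ)).T i (fun z x => D (cn θ z) x) z) :=
    Nh.mul hfs (Nh.sub hD (Nh.sum _ fun i hi => Nh.const_mul _ (Nh.fst (hR.eg_T
      (Nat.lt_succ_iff.1 (Finset.mem_Ico.1 hi).2) hD))))
  simp only [cn_none]
  rw [hR.Ex_add hfs' hN2, hR.Ex_add hfs' (Nh.mul hD hW)]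
  congr 1
  exact hR.canon0 hfs hD

/-- Two replicas which split at the level `l`. -/
theorem hasDerivAt_pair (hF : RegE (fam S H) none D) {l : ℕ} (hl : l ≤ S.K)
    {f f' g g' : ℝ → X → ℝ} (hf : TF f f') (hg : TF g g') (θ : ℝ) :
    HasDerivAt (fun t => (S.wH (H t)).Ex (fun z _ => (S.wH (H t)).T l (fun _ x => f t x) z *
      (S.wH (H t)).T l (fun _ x => g t x) z))
      ((S.wH (H θ)).Ex (fun z x => ((S.wH (H θ)).T l (fun _ x => g θ x) z * f' θ x +
        (S.wH (H θ)).T l (fun _ x => f θ x) z * g' θ x) +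
        D (cn θ z) x * W (S.wH (H θ)) l (fun _ => f θ) (fun _ => g θ) z x)) θ := by
  have hG := hF.toRegG
  have hR := RegG.sec hG θ
  set F := fam S H with hFdef
  set R := S.wH (H θ) with hRdef
  set fF : (Option ι → ℝ) → X → ℝ := fun y x => f (y none) x with hfF
  set gF : (Option ι → ℝ) → X → ℝ := fun y x => g (y none) x with hgF
  have hKF : F.K = S.K := rfl
  have hlF : l ≤ F.K := hl
  set Q : (ℝ → X → ℝ) → (ℝ → X → ℝ) → (Option ι → ℝ) → X → ℝ := fun f f' y x =>
    f' (y none) x + f (y none) x * (D y x -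
      ∑ i ∈ Finset.Ico (l + 1) (F.K + 1), F.p i * F.T i D y - F.m (l + 1) * F.T l D y) with hQ
  have hTF : ∀ i ≤ F.K, Nh (X := X) fun y _ => F.T i D y := fun i hi => Nh.fst (hG.eg_T hi hF.nh)
  have hQn : ∀ {f f' : ℝ → X → ℝ}, TF f f' → Nh (Q f f') := fun {f f'} h =>
    Nh.add h.nh' (Nh.mul h.nh (Nh.sub (Nh.sub hF.nh (Nh.sum _ fun i hi =>
      Nh.const_mul _ (hTF i (Nat.lt_succ_iff.1 (Finset.mem_Ico.1 hi).2))))
      (Nh.const_mul _ (hTF l hlF))))
  have pf := hF.pd_T hlF (Nat.zero_le _) hf.pd hf.nh hf.nh'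
  have pg := hF.pd_T hlF (Nat.zero_le _) hg.pd hg.nh hg.nh'
  have pG : ∀ _x : X, PD none (fun y => F.T l fF y * F.T l gF y)
      (fun y => F.T l (Q f f') y * F.T l gF y + F.T l fF y * F.T l (Q g g') y) :=
    fun _ => pf.mul pg
  have e1 := hG.eg_T hlF (hf.nh (ι := ι))
  have e2 := hG.eg_T hlF (hg.nh (ι := ι))
  have e3 := hG.eg_T hlF (hQn hf)
  have e4 := hG.eg_T hlF (hQn hg)
  have h := hasDerivAt_Ex hF (G := fun y _ => F.T l fF y * F.T l gF y)
    (G' := fun y _ => F.T l (Q f f') y * F.T l gF y + F.T l fF y * F.T l (Q g g') y)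
    pG (Nh.fst (e1.mul e2)) (Nh.fst ((e3.mul e2).add (e1.mul e4))) θ
  have t1 : ∀ (t : ℝ) (z : ι → ℝ), F.T l fF (cn t z) = (S.wH (H t)).T l (fun _ x => f t x) z :=
    fun t z => T_fam hG hl hf.nh (cn t z)
  have t2 : ∀ (t : ℝ) (z : ι → ℝ), F.T l gF (cn t z) = (S.wH (H t)).T l (fun _ x => g t x) z :=
    fun t z => T_fam hG hl hg.nh (cn t z)
  have efun : (fun t => (S.wH (H t)).Ex (fun z _ => (S.wH (H t)).T l (fun _ x => f t x) z *
      (S.wH (H t)).T l (fun _ x => g t x) z)) =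
      fun t => (S.wH (H t)).Ex (fun z _ => F.T l fF (cn t z) * F.T l gF (cn t z)) := by
    funext t
    congr 1
    funext z _
    rw [t1, t2]
  rw [efun]
  refine h.congr_deriv ?_
  -- the value
  set Dθ : (ι → ℝ) → X → ℝ := fun z x => D (cn θ z) x with hDθ
  have hD : Nh Dθ := fun x => EG.cn (hF.nh x) θ
  have tD : ∀ i ≤ S.K, ∀ z, F.T i D (cn θ z) = R.T i Dθ z := fun i hi z =>
    T_fam hG hi hF.nh (cn θ z)
  have tQ : ∀ {f f' : ℝ → X → ℝ} (_ : TF f f') (z : ι → ℝ), F.T l (Q f f') (cn θ z) =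
      R.T l (fun z x => f' θ x + f θ x * (Dθ z x -
        ∑ i ∈ Finset.Ico (l + 1) (R.K + 1), R.p i * R.T i Dθ z - R.m (l + 1) * R.T l Dθ z)) z := by
    intro f f' h z
    have h1 := T_fam hG hl (hQn h) (cn θ z)
    rw [h1]
    simp only [cn_none, rs_cn]
    congr 1
    funext z x
    simp only [hQ, cn_none]
    rw [tD l hl z]
    have : ∑ i ∈ Finset.Ico (l + 1) (F.K + 1), F.p i * F.T i D (cn θ z) =
        ∑ i ∈ Finset.Ico (l + 1) (R.K + 1), R.p i * R.T i Dθ z :=
      Finset.sum_congr rfl fun i hi => by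
        rw [tD i (Nat.lt_succ_iff.1 (Finset.mem_Ico.1 hi).2) z]; rfl
    rw [this]
    rfl
  have hfs : Nh fun (_ : ι → ℝ) x => f θ x := Nh.snd _
  have hfs' : Nh fun (_ : ι → ℝ) x => f' θ x := Nh.snd _
  have hgs : Nh fun (_ : ι → ℝ) x => g θ x := Nh.snd _
  have hgs' : Nh fun (_ : ι → ℝ) x => g' θ x := Nh.snd _
  have hTR : ∀ {h : (ι → ℝ) → X → ℝ} (_ : Nh h), ∀ i ≤ S.K, Nh (X := X) fun z _ => R.T i h z :=
    fun {h} hh i hi => Nh.fst (hR.eg_T hi hh)
  have nQ : ∀ {f f' : (ι → ℝ) → X → ℝ}, Nh f → Nh f' → Nh (fun z x => f' z x + f z x * (Dθ z x -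
        ∑ i ∈ Finset.Ico (l + 1) (R.K + 1), R.p i * R.T i Dθ z - R.m (l + 1) * R.T l Dθ z)) :=
    fun {f f'} h h' => Nh.add h' (Nh.mul h (Nh.sub (Nh.sub hD (Nh.sum _ fun i hi =>
      Nh.const_mul _ (hTR hD i (Nat.lt_succ_iff.1 (Finset.mem_Ico.1 hi).2))))
      (Nh.const_mul _ (hTR hD l hl))))
  have nf := hTR hfs l hl
  have ng := hTR hgs l hl
  have nQf := hTR (nQ hfs hfs') l hl
  have nQg := hTR (nQ hgs hgs') l hl
  have hGeg : EG fun z => R.T l (fun _ x => f θ x) z * R.T l (fun _ x => g θ x) z :=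
    (hR.eg_T hl hfs).mul (hR.eg_T hl hgs)
  have hGd : Dep R.lev l fun z => R.T l (fun _ x => f θ x) z * R.T l (fun _ x => g θ x) z :=
    lc_dep_mul (dep_T R l _) (dep_T R l _)
  have cA1 := hR.canonA hl hfs hfs' hgs hD
  have cA2 := hR.canonA hl hgs hgs' hfs hD
  have cB := hR.canonB hl hGeg hGd hD
  have estart : (fun (z : ι → ℝ) (x : X) =>
      F.T l (Q f f') (cn θ z) * F.T l gF (cn θ z) + F.T l fF (cn θ z) * F.T l (Q g g') (cn θ z) +
      F.T l fF (cn θ z) * F.T l gF (cn θ z) * (D (cn θ z) x -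
        ∑ i ∈ Finset.Ico 0 (S.K + 1), S.p i * (S.wH (H θ)).T i (fun z x => D (cn θ z) x) z)) =
      fun z x => (R.T l (fun _ x => g θ x) z * R.T l (fun z x => f' θ x + f θ x * (Dθ z x -
        ∑ i ∈ Finset.Ico (l + 1) (R.K + 1), R.p i * R.T i Dθ z - R.m (l + 1) * R.T l Dθ z)) z +
        R.T l (fun _ x => f θ x) z * R.T l (fun z x => g' θ x + g θ x * (Dθ z x -
        ∑ i ∈ Finset.Ico (l + 1) (R.K + 1), R.p i * R.T i Dθ z - R.m (l + 1) * R.T l Dθ z)) z) +
        (R.T l (fun _ x => f θ x) z * R.T l (fun _ x => g θ x) z) * (Dθ z x -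
          ∑ i ∈ Finset.Ico 0 (R.K + 1), R.p i * R.T i Dθ z) := by
    funext z x
    rw [tQ hf z, tQ hg z, t1 θ z, t2 θ z]
    have : ∑ i ∈ Finset.Ico 0 (S.K + 1), S.p i * (S.wH (H θ)).T i (fun z x => D (cn θ z) x) z =
        ∑ i ∈ Finset.Ico 0 (R.K + 1), R.p i * R.T i Dθ z := rfl
    rw [this]
    simp only [hDθ]
    ring
  rw [estart]
  have nB1 : Nh fun z x => (R.T l (fun _ x => f θ x) z * R.T l (fun _ x => g θ x) z) * (Dθ z x -
          ∑ i ∈ Finset.Ico 0 (R.K + 1), R.p i * R.T i Dθ z) :=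
    Nh.mul (Nh.mul nf ng) (Nh.sub hD (Nh.sum _ fun i hi => Nh.const_mul _
      (hTR hD i (Nat.lt_succ_iff.1 (Finset.mem_Ico.1 hi).2))))
  rw [hR.Ex_add (Nh.add (Nh.mul ng nQf) (Nh.mul nf nQg)) nB1,
    hR.Ex_add (Nh.mul ng nQf) (Nh.mul nf nQg)]
  refine (congrArg₂ (· + ·) (congrArg₂ (· + ·) cA1 cA2) cB).trans ?_
  have nC : ∀ {f f' g : (ι → ℝ) → X → ℝ}, Nh f → Nh f' → Nh g → Nh (fun z x =>
      R.T l g z * f' z x + Dθ z x * (R.T l g z * f z x -
      ∑ i ∈ Finset.Ico (l + 1) (R.K + 1), R.p i * (R.T i f z * R.T l g z) -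
      R.m (l + 1) * (R.T l f z * R.T l g z))) := fun {f f' g} h h' hg => by
    have a := hTR hg l hl
    have b := hTR h l hl
    exact Nh.add (Nh.mul a h') (Nh.mul hD (Nh.sub (Nh.sub (Nh.mul a h) (Nh.sum _ fun i hi =>
      Nh.const_mul _ (Nh.mul (hTR h i (Nat.lt_succ_iff.1 (Finset.mem_Ico.1 hi).2)) a)))
      (Nh.const_mul _ (Nh.mul b a))))
  have nTG : ∀ i ≤ S.K, Nh (X := X) fun z _ => R.T i (fun z _ =>
      R.T l (fun _ x => f θ x) z * R.T l (fun _ x => g θ x) z) z := hTR (Nh.mul nf ng)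
  have nB2 : Nh fun z x => Dθ z x * (R.m l * (R.T l (fun _ x => f θ x) z *
      R.T l (fun _ x => g θ x) z) - ∑ i ∈ Finset.range l, R.p i * R.T i (fun z _ =>
        R.T l (fun _ x => f θ x) z * R.T l (fun _ x => g θ x) z) z) :=
    Nh.mul hD (Nh.sub (Nh.const_mul _ (Nh.mul nf ng)) (Nh.sum _ fun i hi => Nh.const_mul _
      (nTG i ((Finset.mem_range.1 hi).le.trans hl))))
  rw [← hR.Ex_add (nC hfs hfs' hgs) (nC hgs hgs' hfs),
    ← hR.Ex_add (Nh.add (nC hfs hfs' hgs) (nC hgs hgs' hfs)) nB2]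
  congr 1
  funext z x
  unfold W
  have hs : ∑ i ∈ Finset.Ico (l + 1) (R.K + 1), R.p i *
      (R.T i (fun _ => f θ) z * R.T l (fun _ => g θ) z +
        R.T l (fun _ => f θ) z * R.T i (fun _ => g θ) z) =
      ∑ i ∈ Finset.Ico (l + 1) (R.K + 1), R.p i * (R.T i (fun _ => f θ) z * R.T l (fun _ => g θ) z)
      + ∑ i ∈ Finset.Ico (l + 1) (R.K + 1), R.p i *
        (R.T i (fun _ => g θ) z * R.T l (fun _ => f θ) z) := by
    rw [← Finset.sum_add_distrib]
    exact Finset.sum_congr rfl fun i _ => by ring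
  rw [hs]
  ring

end Vale.Agent.P166.H
end
end

section

section

/-!
Sums over patterns of the kernels of the loop equations: the averages `Av` over a second replica.
-/

open MeasureTheory ProbabilityTheory Filter Topology Matrix
open Vale.Agent.P157.Lv Vale.Agent.P157.Lv.Sy

namespace Vale.Agent.P166.H

open Vale.Agent

set_option linter.unusedSectionVars false

variable {N : ℕ} {ι X : Type} [Fintype ι] [Fintype X]

/-- The average over a second replica which splits from the first one at the level `i`. -/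
noncomputable def Av (S : Sy ι X) (i : ℕ) (ψ : X → X → ℝ) : (ι → ℝ) → X → ℝ := fun z x =>
  S.T i (fun _ x' => ψ x x') z

/-- The overlap in the set `B` of coordinates. -/
noncomputable def RR (N : ℕ) (φ : X → Fin N → ℝ) (B : Finset (Fin N)) (x x' : X) : ℝ :=
  1 / N * ∑ r ∈ B, φ x r * φ x' r

variable [Nonempty X] {S : Sy ι X}

lemma nh_Av (hS : RegG S) {i : ℕ} (hi : i ≤ S.K) (ψ : X → X → ℝ) : Nh (Av S i ψ) := fun x =>
  hS.eg_T hi (Nh.snd (ψ x))

lemma nh_Av_fst (hS : RegG S) {i : ℕ} (hi : i ≤ S.K) (ψ : X → X → ℝ) (x : X) :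
    Nh (X := X) fun z _ => Av S i ψ z x := Nh.fst (hS.eg_T hi (Nh.snd (ψ x)))

lemma Av_mono (hS : RegG S) {i : ℕ} (hi : i ≤ S.K) {ψ ψ' : X → X → ℝ}
    (h : ∀ x x', ψ x x' ≤ ψ' x x') (z : ι → ℝ) (x : X) : Av S i ψ z x ≤ Av S i ψ' z x :=
  hS.T_mono hi (Nh.snd _) (Nh.snd _) (fun _ x' => h x x') z

lemma Av_nonneg (hS : RegG S) {i : ℕ} (hi : i ≤ S.K) {ψ : X → X → ℝ} (h : ∀ x x', 0 ≤ ψ x x')
    (z : ι → ℝ) (x : X) : 0 ≤ Av S i ψ z x := by
  have := hS.T_mono hi (f := fun _ _ => 0) (Nh.snd _) (Nh.snd (ψ x)) (fun _ x' => h x x') z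
  rwa [hS.T_const hi] at this

/-- `|Av ψ - c| ≤ Av |ψ - c|`. -/
lemma abs_Av_sub_le (hS : RegG S) {i : ℕ} (hi : i ≤ S.K) (ψ : X → X → ℝ) (c : ℝ) (z : ι → ℝ)
    (x : X) : |Av S i ψ z x - c| ≤ Av S i (fun x x' => |ψ x x' - c|) z x := by
  have h1 : Av S i ψ z x - c = S.T i (fun _ x' => ψ x x' - c) z := by
    have h := hS.T_sub hi (f := fun _ x' => ψ x x') (g := fun _ _ => c) (Nh.snd _)
      (fun _ => EG.const c) z
    rw [hS.T_const hi] at h
    exact h.symm
  rw [h1, abs_le]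
  constructor
  · have h := hS.T_mono hi (f := fun _ x' => -1 * |ψ x x' - c|) (g := fun _ x' => ψ x x' - c)
      (Nh.snd _) (Nh.snd _) (fun _ x' => by
        have := neg_abs_le (ψ x x' - c)
        linarith only [this]) z
    rw [T_const_mul] at h
    unfold Av
    linarith only [h]
  · exact hS.T_mono hi (Nh.snd _) (Nh.snd _) (fun _ x' => le_abs_self _) z

lemma abs_Av_le (hS : RegG S) {i : ℕ} (hi : i ≤ S.K) {ψ : X → X → ℝ} {C : ℝ}
    (h : ∀ x x', |ψ x x'| ≤ C) (z : ι → ℝ) (x : X) : |Av S i ψ z x| ≤ C :=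
  hS.abs_T_le hi (Nh.snd _) (fun _ x' => h x x') z

/-- The tower property. -/
lemma T_Av (hS : RegG S) {i l : ℕ} (hil : i ≤ l) (hl : l ≤ S.K) (ψ : X → X → ℝ) (z : ι → ℝ)
    (x : X) : S.T i (fun z _ => Av S l ψ z x) z = Av S i ψ z x :=
  hS.T_T hil hl (f := fun _ x' => ψ x x') (Nh.snd _) z

lemma Av_RR (hS : RegG S) {i : ℕ} (hi : i ≤ S.K) (φ : X → Fin N → ℝ) (B : Finset (Fin N))
    (z : ι → ℝ) (x : X) : Av S i (RR N φ B) z x =
      1 / N * ∑ r ∈ B, φ x r * S.T i (fun _ x' => φ x' r) z := by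
  unfold Av RR
  rw [T_const_mul, hS.T_sum hi B (f := fun r _ x' => φ x r * φ x' r) fun r _ => Nh.snd _]
  congr 1
  refine Finset.sum_congr rfl fun r _ => ?_
  rw [T_const_mul]

/-- A pointwise approximation of `T_i (Av_l ψ · Av_l ψ')`, `i ≤ l`. -/
lemma abs_T_mul_Av_le (hS : RegG S) {i l : ℕ} (hil : i ≤ l) (hl : l ≤ S.K) {ψ ψ' : X → X → ℝ}
    (h : ∀ x x', |ψ x x'| ≤ 1) {r r' : ℝ} (hr' : |r'| ≤ 1) (z : ι → ℝ) (x : X) :
    |S.T i (fun z _ => Av S l ψ z x * Av S l ψ' z x) z - r * r'| ≤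
      Av S i (fun x x' => |ψ x x' - r|) z x + Av S i (fun x x' => |ψ' x x' - r'|) z x := by
  have hi := hil.trans hl
  have n1 := nh_Av_fst hS hl ψ x
  have n2 := nh_Av_fst hS hl ψ' x
  have e1 : S.T i (fun z _ => Av S l ψ z x * Av S l ψ' z x) z - r * r' =
      S.T i (fun z _ => Av S l ψ z x * Av S l ψ' z x - r * r') z := by
    have h := hS.T_sub hi (Nh.mul n1 n2) (g := fun _ _ => r * r') (fun _ => EG.const _) z
    rw [hS.T_const hi] at h
    exact h.symm
  have nA1 := nh_Av_fst hS hl (fun x x' => |ψ x x' - r|) x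
  have nA2 := nh_Av_fst hS hl (fun x x' => |ψ' x x' - r'|) x
  have hpt : ∀ z, |Av S l ψ z x * Av S l ψ' z x - r * r'| ≤
      Av S l (fun x x' => |ψ x x' - r|) z x + Av S l (fun x x' => |ψ' x x' - r'|) z x := by
    intro z
    have a1 := abs_Av_sub_le hS hl ψ r z x
    have a2 := abs_Av_sub_le hS hl ψ' r' z x
    have a3 := abs_Av_le hS hl h z x
    have e : Av S l ψ z x * Av S l ψ' z x - r * r' =
        Av S l ψ z x * (Av S l ψ' z x - r') + r' * (Av S l ψ z x - r) := by ring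
    rw [e]
    refine (abs_add_le _ _).trans ?_
    rw [abs_mul, abs_mul]
    have b1 : |Av S l ψ z x| * |Av S l ψ' z x - r'| ≤ 1 * |Av S l ψ' z x - r'| :=
      mul_le_mul_of_nonneg_right a3 (abs_nonneg _)
    have b2 : |r'| * |Av S l ψ z x - r| ≤ 1 * |Av S l ψ z x - r| :=
      mul_le_mul_of_nonneg_right hr' (abs_nonneg _)
    linarith only [a1, a2, b1, b2]
  have hsum : S.T i (fun z _ => Av S l (fun x x' => |ψ x x' - r|) z x +
      Av S l (fun x x' => |ψ' x x' - r'|) z x) z = Av S i (fun x x' => |ψ x x' - r|) z x +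
      Av S i (fun x x' => |ψ' x x' - r'|) z x := by
    rw [hS.T_add hi nA1 nA2, T_Av hS hil hl, T_Av hS hil hl]
  have nm : Nh (X := X) fun z _ => Av S l ψ z x * Av S l ψ' z x - r * r' :=
    Nh.sub (Nh.mul n1 n2) (fun _ => EG.const _)
  rw [e1, ← hsum, abs_le]
  constructor
  · have h := hS.T_mono hi (f := fun z _ => -1 * (Av S l (fun x x' => |ψ x x' - r|) z x +
      Av S l (fun x x' => |ψ' x x' - r'|) z x)) (Nh.const_mul _ (Nh.add nA1 nA2)) nm
      (fun z _ => by
        have := (abs_le.1 (hpt z)).1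
        linarith only [this]) z
    rw [T_const_mul] at h
    linarith only [h]
  · exact hS.T_mono hi nm (Nh.add nA1 nA2) (fun z _ => (abs_le.1 (hpt z)).2) z

/-! ### The sum of the kernels -/

/-- The kernel as a function of the averages. -/
lemma sum_W (S : Sy ι X) (hS : RegG S) {l : ℕ} (hl : l ≤ S.K) (f g : Fin N → X → ℝ)
    (B B' : Finset (Fin N)) (c : Fin N → Fin N → ℝ) (z : ι → ℝ) (x : X) :
    ∑ p ∈ B, ∑ q ∈ B', c p q * W S l (fun _ => f p) (fun _ => g q) z x =
      ∑ p ∈ B, ∑ q ∈ B', c p q * (f p x * S.T l (fun _ => g q) z) +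
      ∑ p ∈ B, ∑ q ∈ B', c p q * (S.T l (fun _ => f p) z * g q x) -
      ∑ i ∈ Finset.Ico (l + 1) (S.K + 1), S.p i *
        (∑ p ∈ B, ∑ q ∈ B', c p q * (S.T i (fun _ => f p) z * S.T l (fun _ => g q) z) +
         ∑ p ∈ B, ∑ q ∈ B', c p q * (S.T l (fun _ => f p) z * S.T i (fun _ => g q) z)) +
      (S.m l - 2 * S.m (l + 1)) *
        (∑ p ∈ B, ∑ q ∈ B', c p q * (S.T l (fun _ => f p) z * S.T l (fun _ => g q) z)) -
      ∑ i ∈ Finset.range l, S.p i * S.T i (fun z _ => ∑ p ∈ B, ∑ q ∈ B',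
        c p q * (S.T l (fun _ => f p) z * S.T l (fun _ => g q) z)) z := by
  have hT : ∀ i ∈ Finset.range l, S.T i (fun z _ => ∑ p ∈ B, ∑ q ∈ B',
        c p q * (S.T l (fun _ => f p) z * S.T l (fun _ => g q) z)) z =
      ∑ p ∈ B, ∑ q ∈ B', c p q * S.T i (fun z _ => S.T l (fun _ => f p) z *
        S.T l (fun _ => g q) z) z := by
    intro i hi
    have hi' : i ≤ S.K := (Finset.mem_range.1 hi).le.trans hl
    have n1 : ∀ p q, Nh (X := X) fun z _ => c p q * (S.T l (fun _ => f p) z *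
        S.T l (fun _ => g q) z) := fun p q => Nh.const_mul _ (Nh.fst
          ((hS.eg_T hl (Nh.snd _)).mul (hS.eg_T hl (Nh.snd _))))
    rw [hS.T_sum hi' B (f := fun p z _ => ∑ q ∈ B', c p q * (S.T l (fun _ => f p) z *
        S.T l (fun _ => g q) z)) fun p _ => Nh.sum _ fun q _ => n1 p q]
    refine Finset.sum_congr rfl fun p _ => ?_
    rw [hS.T_sum hi' B' (f := fun q z _ => c p q * (S.T l (fun _ => f p) z *
        S.T l (fun _ => g q) z)) fun q _ => n1 p q]
    refine Finset.sum_congr rfl fun q _ => ?_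
    rw [T_const_mul]
  have hT' : ∑ i ∈ Finset.range l, S.p i * S.T i (fun z _ => ∑ p ∈ B, ∑ q ∈ B',
        c p q * (S.T l (fun _ => f p) z * S.T l (fun _ => g q) z)) z =
      ∑ i ∈ Finset.range l, S.p i * ∑ p ∈ B, ∑ q ∈ B', c p q * S.T i (fun z _ =>
        S.T l (fun _ => f p) z * S.T l (fun _ => g q) z) z :=
    Finset.sum_congr rfl fun i hi => by rw [hT i hi]
  rw [hT']
  have e : ∀ p q, c p q * W S l (fun _ => f p) (fun _ => g q) z x =
      c p q * (f p x * S.T l (fun _ => g q) z) + c p q * (S.T l (fun _ => f p) z * g q x) -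
      ∑ i ∈ Finset.Ico (l + 1) (S.K + 1), S.p i * (c p q * (S.T i (fun _ => f p) z *
        S.T l (fun _ => g q) z) + c p q * (S.T l (fun _ => f p) z * S.T i (fun _ => g q) z)) +
      (S.m l - 2 * S.m (l + 1)) * (c p q * (S.T l (fun _ => f p) z * S.T l (fun _ => g q) z)) -
      ∑ i ∈ Finset.range l, S.p i * (c p q * S.T i (fun z _ => S.T l (fun _ => f p) z *
        S.T l (fun _ => g q) z) z) := by
    intro p q
    unfold W
    have e1 : ∑ i ∈ Finset.Ico (l + 1) (S.K + 1), S.p i * (c p q * (S.T i (fun _ => f p) z *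
        S.T l (fun _ => g q) z) + c p q * (S.T l (fun _ => f p) z * S.T i (fun _ => g q) z)) =
        c p q * ∑ i ∈ Finset.Ico (l + 1) (S.K + 1), S.p i * (S.T i (fun _ => f p) z *
          S.T l (fun _ => g q) z + S.T l (fun _ => f p) z * S.T i (fun _ => g q) z) := by
      rw [Finset.mul_sum]
      exact Finset.sum_congr rfl fun i _ => by ring
    have e2 : ∑ i ∈ Finset.range l, S.p i * (c p q * S.T i (fun z _ => S.T l (fun _ => f p) z *
        S.T l (fun _ => g q) z) z) = c p q * ∑ i ∈ Finset.range l, S.p i *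
          S.T i (fun z _ => S.T l (fun _ => f p) z * S.T l (fun _ => g q) z) z := by
      rw [Finset.mul_sum]
      exact Finset.sum_congr rfl fun i _ => by ring
    rw [e1, e2]
    ring
  simp only [e, Finset.sum_add_distrib, Finset.sum_sub_distrib]
  have s1 : ∀ (s : Finset ℕ) (F : ℕ → Fin N → Fin N → ℝ), ∑ p ∈ B, ∑ q ∈ B', ∑ i ∈ s,
      S.p i * F i p q = ∑ i ∈ s, S.p i * ∑ p ∈ B, ∑ q ∈ B', F i p q := by
    intro s F
    rw [Finset.sum_congr rfl fun p _ => Finset.sum_comm, Finset.sum_comm]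
    refine Finset.sum_congr rfl fun i _ => ?_
    rw [Finset.mul_sum]
    exact Finset.sum_congr rfl fun p _ => (Finset.mul_sum _ _ _).symm
  rw [s1, s1]
  simp only [Finset.sum_add_distrib, ← Finset.mul_sum]

end Vale.Agent.P166.H
end
end

section

section

open MeasureTheory ProbabilityTheory Filter Topology Finset

namespace Vale.Agent.P157.Par

set_option linter.unusedSectionVars false

namespace Arr

variable {k : ℕ} {w : Fin (k + 1) → ℝ} {δ : Type} [Fintype δ] [DecidableEq δ]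

end Arr

end Vale.Agent.P157.Par
end
end

section

section

open MeasureTheory ProbabilityTheory

namespace Vale.Agent.P157

end Vale.Agent.P157
end
end

section

section

open MeasureTheory ProbabilityTheory Complex

namespace Vale.Agent.P157

end Vale.Agent.P157
end
end

section

section

open MeasureTheory ProbabilityTheory

namespace Vale.Agent.P157

section
variable {E : Type*} [MeasurableSpace E] (μ : Measure E) [IsProbabilityMeasure μ]

end

end Vale.Agent.P157
end
end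

section

section

/-!
The systems seen through a transformation of the coordinates (possibly with more coordinates) and a
bijection of the configurations; product systems.
-/

open MeasureTheory ProbabilityTheory Filter Topology

namespace Vale.Agent.P166.L

open Vale.Agent.P157.Lv Vale.Agent.P157.Lv.Sy H

set_option linter.unusedSectionVars false

variable {ι ι' X X' : Type} [Fintype ι] [Fintype ι'] [Fintype X] [Fintype X'] [Nonempty X]
  [Nonempty X'] [DecidableEq X] [DecidableEq X']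

/-- `S'` is the system `S` seen through `ψ` and `e`. -/
structure PB (S : Sy ι X) (S' : Sy ι' X') (ψ : (ι' → ℝ) → ι → ℝ) (e : X' ≃ X) : Prop where
  meas : Measurable ψ
  map : (gI ι').map ψ = gI ι
  mix : ∀ l z w, mix S.lev l (ψ z) (ψ w) = ψ (mix S'.lev l z w)
  K : S'.K = S.K
  m : ∀ l ≤ S.K + 1, S'.m l = S.m l
  H : ∀ z x, S'.H z x = S.H (ψ z) (e x)

/-- Restriction of the coordinates along an injection. -/
theorem gI_restrict {f : ι → ι'} (hf : Function.Injective f) :
    (gI ι').map (fun z e => z (f e)) = gI ι := by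
  classical
  symm
  refine Measure.pi_eq fun s hs => ?_
  have hm : Measurable fun (z : ι' → ℝ) (e : ι) => z (f e) := by fun_prop
  rw [Measure.map_apply hm (MeasurableSet.univ_pi hs)]
  have h1 : (fun (z : ι' → ℝ) (e : ι) => z (f e)) ⁻¹' (Set.univ.pi s) =
      Set.univ.pi (fun e' => {x : ℝ | ∀ e, f e = e' → x ∈ s e}) := by
    ext z
    simp only [Set.mem_preimage, Set.mem_univ_pi, Set.mem_ofPred_eq]
    constructor
    · intro h e' e he
      rw [← he]
      exact h e
    · intro h e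
      exact h (f e) e rfl
  rw [h1, Measure.pi_pi]
  symm
  refine Fintype.prod_of_injective f hf _ _ (fun e' he' => ?_) (fun e => ?_)
  · have h2 : {x : ℝ | ∀ e, f e = e' → x ∈ s e} = Set.univ := by
      ext x
      simp only [Set.mem_ofPred_eq, Set.mem_univ, iff_true]
      intro e he
      exact absurd ⟨e, he⟩ he'
    rw [h2]
    exact measure_univ
  · congr 1
    ext x
    simp only [Set.mem_ofPred_eq]
    constructor
    · intro h e2 he2
      rw [hf he2]
      exact h
    · intro h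
      exact h e rfl

namespace PB

variable {S : Sy ι X} {S' : Sy ι' X'} {ψ : (ι' → ℝ) → ι → ℝ} {e : X' ≃ X}

omit [Fintype X] [Fintype X'] [Nonempty X] [Nonempty X'] [DecidableEq X] [DecidableEq X'] in
theorem pl_J (h : PB S S' ψ e) (l : ℕ) {g : (ι → ℝ) → ℝ} (hg : Measurable g) (z : ι' → ℝ) :
    P157.Lv.J S'.lev l (fun z => g (ψ z)) z = P157.Lv.J S.lev l g (ψ z) := by
  unfold P157.Lv.J
  simp only [← h.mix]
  have h1 : ∫ w, g (P157.Lv.mix S.lev l (ψ z) w) ∂(gI ι) =
      ∫ w, g (P157.Lv.mix S.lev l (ψ z) w) ∂((gI ι').map ψ) := by rw [h.map]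
  have h2 : Measurable fun w => g (P157.Lv.mix S.lev l (ψ z) w) :=
    hg.comp (measurable_mix_right S.lev l (ψ z))
  rw [h1, integral_map h.meas.aemeasurable h2.aestronglyMeasurable]

omit [Fintype X] [Fintype X'] [Nonempty X] [Nonempty X'] [DecidableEq X] [DecidableEq X'] in
theorem pl_integral (h : PB S S' ψ e) {g : (ι → ℝ) → ℝ} (hg : Measurable g) :
    ∫ z, g (ψ z) ∂(gI ι') = ∫ z, g z ∂(gI ι) := by
  have h1 : ∫ w, g w ∂(gI ι) = ∫ w, g w ∂((gI ι').map ψ) := by rw [h.map]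
  rw [h1, integral_map h.meas.aemeasurable hg.aestronglyMeasurable]

theorem lg (hS : RegG S) (h : PB S S' ψ e) {l : ℕ} (hl : l ≤ S.K) (z : ι' → ℝ) :
    S'.lg l z = S.lg l (ψ z) := by
  revert z
  refine down_ind (K := S.K) (P := fun l => ∀ z : ι' → ℝ, S'.lg l z = S.lg l (ψ z)) ?_ ?_ l hl
  · intro z
    have h1 := congrFun (lg_top S') z
    rw [h.K] at h1
    rw [h1, lg_top S]
    unfold Sy.top
    congr 1
    rw [← Equiv.sum_comp e]
    exact Finset.sum_congr rfl fun x _ => by rw [h.H]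
  · intro l hl ih z
    have hl' : l < S'.K := by rw [h.K]; exact hl
    have h1 := congrFun (lg_step S' (l := l) hl') z
    rw [h1, lg_step S hl]
    unfold stp
    have hmeas : Measurable fun z => Real.exp (S.m (l + 1) * S.lg (l + 1) z) :=
      ((hS.gr_lg (l := l + 1) hl).meas.const_mul _).exp
    have e3 : (fun z => Real.exp (S'.m (l + 1) * S'.lg (l + 1) z)) =
        fun z => (fun z => Real.exp (S.m (l + 1) * S.lg (l + 1) z)) (ψ z) := by
      funext z
      rw [ih z, h.m (l + 1) (by omega)]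
    rw [e3, h.pl_J l hmeas, h.m (l + 1) (by omega)]

theorem fe (hS : RegG S) (h : PB S S' ψ e) : S'.fe = S.fe := by
  unfold Sy.fe
  rw [← h.pl_integral (hS.gr_lg (Nat.zero_le _)).meas]
  congr 1
  funext z
  exact h.lg hS (Nat.zero_le _) z

theorem pl_dn (hS : RegG S) (h : PB S S' ψ e) (l : ℕ) (z : ι' → ℝ) :
    S'.dn l z = S.dn l (ψ z) := by
  unfold Sy.dn
  rw [h.K]
  congr 1
  refine Finset.sum_congr rfl fun i hi => ?_
  have hi2 : i < S.K := (Finset.mem_Ico.1 hi).2
  rw [h.lg hS (l := i + 1) hi2, h.lg hS (l := i) hi2.le, h.m (i + 1) (by omega)]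

omit [Fintype ι] [Fintype ι'] [Nonempty X] [Nonempty X'] [DecidableEq X] [DecidableEq X'] in
theorem pl_av_aux {S : Sy ι X} {S' : Sy ι' X'}
    (hH : ∀ z x, S'.H z x = S.H (ψ z) (e x)) (f : (ι → ℝ) → X → ℝ) (z : ι' → ℝ) :
    S'.av (fun z x => f (ψ z) (e x)) z = S.av f (ψ z) := by
  unfold Sy.av Sy.gb
  have h1 : ∑ x', Real.exp (S'.H z x') = ∑ x, Real.exp (S.H (ψ z) x) := by
    rw [← Equiv.sum_comp e]
    exact Finset.sum_congr rfl fun x _ => by rw [hH]
  rw [h1, ← Equiv.sum_comp e (fun x => Real.exp (S.H (ψ z) x) /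
    (∑ x, Real.exp (S.H (ψ z) x)) * f (ψ z) x)]
  exact Finset.sum_congr rfl fun x _ => by rw [hH]

theorem T (hS : RegG S) (h : PB S S' ψ e) {l : ℕ} (hl : l ≤ S.K) {f : (ι → ℝ) → X → ℝ}
    (hf : Nh f) (z : ι' → ℝ) : S'.T l (fun z x => f (ψ z) (e x)) z = S.T l f (ψ z) := by
  unfold Sy.T
  have hmeas : Measurable fun z => S.dn l z * S.av f z := ((hS.eg_dn hl).mul (hS.eg_av hf)).meas
  rw [← h.pl_J l hmeas]
  congr 1
  funext z
  rw [h.pl_dn hS l z, pl_av_aux h.H]

theorem Ex (hS : RegG S) (h : PB S S' ψ e) {f : (ι → ℝ) → X → ℝ} (hf : Nh f) :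
    S'.Ex (fun z x => f (ψ z) (e x)) = S.Ex f := by
  unfold Sy.Ex
  have hmeas : Measurable fun z => S.dn 0 z * S.av f z :=
    ((hS.eg_dn (Nat.zero_le _)).mul (hS.eg_av hf)).meas
  rw [← h.pl_integral hmeas]
  congr 1
  funext z
  rw [h.pl_dn hS 0 z, pl_av_aux h.H]

end PB

/-- The product of two systems (with the same exponents). -/
def pr2 (S : Sy ι X) (S' : Sy ι' X') : Sy (ι ⊕ ι') (X × X') where
  lev := Sum.elim S.lev S'.lev
  K := S.K
  m := S.m
  H := fun z x => S.H (fun e => z (Sum.inl e)) x.1 + S'.H (fun e => z (Sum.inr e)) x.2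

section Prod

variable {S : Sy ι X} {S' : Sy ι' X'}

/-- Integrals of products. -/
theorem pl_int_prod (f : (ι → ℝ) → ℝ) (g : (ι' → ℝ) → ℝ) :
    ∫ w, f (fun e => w (Sum.inl e)) * g (fun e => w (Sum.inr e)) ∂(gI (ι ⊕ ι')) =
      (∫ w, f w ∂(gI ι)) * ∫ w, g w ∂(gI ι') := by
  rw [← integral_prod_mul]
  have h1 := measurePreserving_sumPiEquivProdPi (X := fun _ : ι ⊕ ι' => ℝ)
    (fun _ => gaussianReal 0 1)
  exact h1.integral_comp (MeasurableEquiv.measurableEmbedding _)
    (fun p : (ι → ℝ) × (ι' → ℝ) => f p.1 * g p.2)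

theorem pl_J_prod (lev : ι → ℕ) (lev' : ι' → ℕ) (l : ℕ) (f : (ι → ℝ) → ℝ) (g : (ι' → ℝ) → ℝ)
    (z : ι ⊕ ι' → ℝ) :
    J (Sum.elim lev lev') l (fun w => f (fun e => w (Sum.inl e)) * g (fun e => w (Sum.inr e))) z =
      J lev l f (fun e => z (Sum.inl e)) * J lev' l g (fun e => z (Sum.inr e)) := by
  unfold J
  rw [← pl_int_prod]
  rfl

theorem pr2_lg (hS : RegG S) (hS' : RegG S') (hK : S'.K = S.K) (hm : S'.m = S.m) {l : ℕ}
    (hl : l ≤ S.K) (z : ι ⊕ ι' → ℝ) :
    (pr2 S S').lg l z = S.lg l (fun e => z (Sum.inl e)) + S'.lg l (fun e => z (Sum.inr e)) := by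
  revert z
  refine down_ind (K := S.K) (P := fun l => ∀ z : ι ⊕ ι' → ℝ, (pr2 S S').lg l z =
    S.lg l (fun e => z (Sum.inl e)) + S'.lg l (fun e => z (Sum.inr e))) ?_ ?_ l hl
  · intro z
    have h1 := congrFun (lg_top (pr2 S S')) z
    have h2 := congrFun (lg_top S') (fun e => z (Sum.inr e))
    have h3 : (pr2 S S').K = S.K := rfl
    rw [h3] at h1
    rw [hK] at h2
    rw [h1, h2, lg_top S]
    unfold Sy.top
    rw [← Real.log_mul (sum_exp_pos _).ne' (sum_exp_pos _).ne', Finset.sum_mul_sum,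
      Fintype.sum_prod_type]
    congr 1
    refine Finset.sum_congr rfl fun x _ => Finset.sum_congr rfl fun x' _ => ?_
    rw [← Real.exp_add]
    rfl
  · intro l hl ih z
    have h1 := congrFun (lg_step (pr2 S S') (l := l) hl) z
    rw [h1]
    unfold stp
    have hm0 : 0 < S.m (l + 1) := hS.m_pos (by omega) (by omega)
    have e3 : (fun z => Real.exp ((pr2 S S').m (l + 1) * (pr2 S S').lg (l + 1) z)) =
        fun z => (fun z => Real.exp (S.m (l + 1) * S.lg (l + 1) z)) (fun e => z (Sum.inl e)) *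
          (fun z => Real.exp (S'.m (l + 1) * S'.lg (l + 1) z)) (fun e => z (Sum.inr e)) := by
      funext z
      have e4 : (pr2 S S').m = S.m := rfl
      simp only
      rw [ih z, e4, hm, ← Real.exp_add, mul_add]
    rw [e3]
    show 1 / S.m (l + 1) * Real.log (J (Sum.elim S.lev S'.lev) l _ z) = _
    have e5 := pl_J_prod S.lev S'.lev l (fun z => Real.exp (S.m (l + 1) * S.lg (l + 1) z))
      (fun z => Real.exp (S'.m (l + 1) * S'.lg (l + 1) z)) z
    rw [hS.J_exp_lg hl, hS'.J_exp_lg (by omega), ← Real.exp_add] at e5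
    rw [e5, Real.log_exp, hm]
    field_simp

theorem pr2_fe (hS : RegG S) (hS' : RegG S') (hK : S'.K = S.K) (hm : S'.m = S.m) :
    (pr2 S S').fe = S.fe + S'.fe := by
  unfold Sy.fe
  have h1 : ∀ z, (pr2 S S').lg 0 z =
      S.lg 0 (fun e => z (Sum.inl e)) + S'.lg 0 (fun e => z (Sum.inr e)) :=
    fun z => pr2_lg hS hS' hK hm (Nat.zero_le _) z
  have m1 : Measurable fun (z : ι ⊕ ι' → ℝ) (e : ι) => z (Sum.inl e) := by fun_prop
  have m2 : Measurable fun (z : ι ⊕ ι' → ℝ) (e : ι') => z (Sum.inr e) := by fun_prop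
  have r1 := gI_restrict (ι := ι) (ι' := ι ⊕ ι') Sum.inl_injective
  have r2 := gI_restrict (ι := ι') (ι' := ι ⊕ ι') Sum.inr_injective
  have g1 := (hS.gr_lg (Nat.zero_le _)).meas
  have g2 := (hS'.gr_lg (Nat.zero_le _)).meas
  have i1 : Integrable (fun z : ι ⊕ ι' → ℝ => S.lg 0 (fun e => z (Sum.inl e))) (gI (ι ⊕ ι')) := by
    have := hS.integrable_lg (Nat.zero_le _)
    rw [← r1] at this
    exact this.comp_measurable m1
  have i2 : Integrable (fun z : ι ⊕ ι' → ℝ => S'.lg 0 (fun e => z (Sum.inr e))) (gI (ι ⊕ ι')) := by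
    have := hS'.integrable_lg (Nat.zero_le _)
    rw [← r2] at this
    exact this.comp_measurable m2
  simp only [h1]
  rw [integral_add i1 i2]
  congr 1
  · conv_rhs => rw [← r1]
    rw [integral_map m1.aemeasurable g1.aestronglyMeasurable]
  · conv_rhs => rw [← r2]
    rw [integral_map m2.aemeasurable g2.aestronglyMeasurable]

theorem pl_dn2 (hS : RegG S) (hS' : RegG S') (hK : S'.K = S.K) (hm : S'.m = S.m) (l : ℕ)
    (z : ι ⊕ ι' → ℝ) :
    (pr2 S S').dn l z = S.dn l (fun e => z (Sum.inl e)) * S'.dn l (fun e => z (Sum.inr e)) := by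
  unfold Sy.dn
  rw [← Real.exp_add, hK, hm]
  show Real.exp (∑ i ∈ Finset.Ico l S.K, S.m (i + 1) * _) = _
  congr 1
  rw [← Finset.sum_add_distrib]
  refine Finset.sum_congr rfl fun i hi => ?_
  have hi2 : i < S.K := (Finset.mem_Ico.1 hi).2
  rw [pr2_lg hS hS' hK hm (l := i + 1) hi2, pr2_lg hS hS' hK hm (l := i) hi2.le]
  ring

theorem pl_av2 (f : (ι → ℝ) → X → ℝ) (f' : (ι' → ℝ) → X' → ℝ) (z : ι ⊕ ι' → ℝ) :
    (pr2 S S').av (fun z x => f (fun e => z (Sum.inl e)) x.1 * f' (fun e => z (Sum.inr e)) x.2) z =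
      S.av f (fun e => z (Sum.inl e)) * S'.av f' (fun e => z (Sum.inr e)) := by
  unfold Sy.av
  rw [Finset.sum_mul_sum, Fintype.sum_prod_type]
  refine Finset.sum_congr rfl fun x _ => Finset.sum_congr rfl fun x' _ => ?_
  have h1 : (pr2 S S').gb z (x, x') =
      S.gb (fun e => z (Sum.inl e)) x * S'.gb (fun e => z (Sum.inr e)) x' := by
    unfold Sy.gb
    rw [div_mul_div_comm, ← Real.exp_add, Finset.sum_mul_sum, Fintype.sum_prod_type]
    congr 1
    refine Finset.sum_congr rfl fun x _ => Finset.sum_congr rfl fun x' _ => ?_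
    rw [← Real.exp_add]
    rfl
  rw [h1]
  ring

theorem pr2_Ex (hS : RegG S) (hS' : RegG S') (hK : S'.K = S.K) (hm : S'.m = S.m)
    {f : (ι → ℝ) → X → ℝ} (hf : Nh f) {f' : (ι' → ℝ) → X' → ℝ} (hf' : Nh f') :
    (pr2 S S').Ex (fun z x => f (fun e => z (Sum.inl e)) x.1 * f' (fun e => z (Sum.inr e)) x.2) =
      S.Ex f * S'.Ex f' := by
  unfold Sy.Ex
  rw [← pl_int_prod]
  congr 1
  funext z
  rw [pl_dn2 hS hS' hK hm, pl_av2]
  ring

end Prod

end Vale.Agent.P166.L
end
end

section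

section

/-!
Basic facts about the cascades and the tilted chain in dimension `N`: functions of exponential
growth, integrability, linearity, monotonicity, Lipschitz estimates.
-/

open MeasureTheory ProbabilityTheory Filter Topology

namespace Vale.Agent.P157.Par

variable {N : ℕ}

namespace EG

end EG

section chain

variable {m r : ℕ → ℝ}

end chain

section lw

variable {X : Type} [Fintype X] [Nonempty X]

end lw

section meas

variable {X : Type} [Fintype X] [Nonempty X] {m r : ℕ → ℝ}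

end meas

end Vale.Agent.P157.Par
end
end

section

section

namespace Vale.Agent.P166.Conc

open Matrix MeasureTheory ProbabilityTheory

variable {n : ℕ}

lemma Fx_full {h : OG n} (hh : h ∈ Fx n n) : h = 1 := by
  apply Subtype.ext
  ext i j
  have := congrFun (hh j j.2) i
  simp only [Matrix.mulVec_single_one, Matrix.col_apply] at this
  rw [this]
  simp [Matrix.one_apply, Pi.single_apply]

variable [MeasurableSpace (OG n)] [BorelSpace (OG n)]
variable (ν : Measure (OG n)) [IsProbabilityMeasure ν] [ν.IsMulRightInvariant]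

lemma chain {B : ℝ} {f : OG n → ℝ} (hf : BM B f) (d : ℕ) (hd : d ≤ n) :
    ∃ g : OG n → ℝ, BM B g ∧ (∀ U : OG n, ∀ h ∈ Fx n (n - d), g (U * h) = g U) ∧
      ∫ U, g U ∂ν = ∫ U, f U ∂ν ∧
      ∫ U, f U ^ 2 ∂ν - ∫ U, g U ^ 2 ∂ν ≤
        ∑ k : Fin n, (if n - d ≤ (k : ℕ) then D ν k f else 0) ∧
      ∀ i : Fin n, (i : ℕ) < n - d → D ν i g ≤ D ν i f := by
  induction d with
  | zero =>
    refine ⟨f, hf, ?_, rfl, ?_, fun i _ => le_rfl⟩
    · intro U h hh
      have hh' : h ∈ Fx n n := by simpa using hh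
      rw [Fx_full hh', mul_one]
    · simp only [sub_self]
      apply Finset.sum_nonneg
      intro k _
      split_ifs with hk
      · have := k.2; simp at hk; omega
      · exact le_rfl
  | succ d ih =>
    obtain ⟨g, hg, hinv, hint, hvar, hD⟩ := ih (by omega)
    have hkn : n - (d + 1) < n := by omega
    set k : Fin n := ⟨n - (d + 1), hkn⟩ with hk
    have hks : n - (d + 1) + 1 = n - d := by omega
    refine ⟨T k g, hg.T k, ?_, ?_, ?_, ?_⟩
    · exact T_inv k rfl hg.meas (by rw [hks]; exact hinv)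
    · rw [integral_T ν hg, hint]
    · have h1 := var_drop ν hg k
      have h2 : D ν k g ≤ D ν k f := hD k (by show n - (d + 1) < n - d; omega)
      have h3 : ∑ j : Fin n, (if n - (d + 1) ≤ (j : ℕ) then D ν j f else 0) =
          D ν k f + ∑ j : Fin n, (if n - d ≤ (j : ℕ) then D ν j f else 0) := by
        rw [← Finset.add_sum_erase _ _ (Finset.mem_univ k),
          ← Finset.add_sum_erase (a := k) (f := fun j : Fin n => if n - d ≤ (j : ℕ) then D ν j f else 0)
            _ (Finset.mem_univ k)]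
        have e1 : (if n - (d + 1) ≤ (k : ℕ) then D ν k f else 0) = D ν k f := if_pos le_rfl
        have e2 : (if n - d ≤ (k : ℕ) then D ν k f else 0) = 0 :=
          if_neg (by show ¬ (n - d ≤ n - (d + 1)); omega)
        rw [e1, e2, zero_add]
        congr 1
        refine Finset.sum_congr rfl fun j hj => ?_
        have hjk : (j : ℕ) ≠ n - (d + 1) := fun h => (Finset.ne_of_mem_erase hj) (Fin.ext h)
        have : (n - (d + 1) ≤ (j : ℕ)) ↔ (n - d ≤ (j : ℕ)) := by omega
        simp only [this]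
      rw [h3]
      linarith
    · intro i hi
      exact (D_T ν hg i k hi).trans (hD i (by omega))

/-- An Efron-Stein inequality on the orthogonal group. -/
theorem efron_stein {B : ℝ} {f : OG n → ℝ} (hf : BM B f) :
    ∫ U, (f U - ∫ V, f V ∂ν) ^ 2 ∂ν ≤ ∑ k : Fin n, D ν k f := by
  obtain ⟨g, hg, hinv, hint, hvar, -⟩ := chain ν hf n le_rfl
  have hconst : ∀ U : OG n, g U = g 1 := by
    intro U
    have := hinv 1 U (by
      intro j hj
      simp at hj)
    simpa using this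
  have hg1 : ∫ U, g U ∂ν = g 1 := by simp_rw [hconst]; simp
  have hg2 : ∫ U, g U ^ 2 ∂ν = g 1 ^ 2 := by simp_rw [hconst]; simp
  have h1 : Integrable f ν := intg ν hf.meas B hf.bd
  have h2 : Integrable (fun U => f U ^ 2) ν := intg ν hf.sq.meas _ hf.sq.bd
  rw [integral_sq_sub ν h1 h2]
  have h3 : ∫ U, f U ∂ν = g 1 := by rw [← hint, hg1]
  rw [h3]
  rw [hg2] at hvar
  have h4 : ∑ k : Fin n, (if n - n ≤ (k : ℕ) then D ν k f else 0) = ∑ k : Fin n, D ν k f := by
    refine Finset.sum_congr rfl fun k _ => ?_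
    rw [if_pos (by omega)]
  rw [h4] at hvar
  nlinarith

end Vale.Agent.P166.Conc
end
end

section

section

/-!
The tilted chain on the line and its overlaps, for the spin part of the Parisi functional.
-/

open MeasureTheory ProbabilityTheory

namespace Vale.Agent.P157.Par

end Vale.Agent.P157.Par
end
end

section

section

/-!
Calculus for the tilted chain: Gaussian integration by parts and differentiation under the
integral for functions of exponential growth on `ℝ^N`.
-/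

open MeasureTheory ProbabilityTheory

namespace Vale.Agent.P157.Par

variable {N : ℕ}

/-! ### Partial derivatives -/

/-! ### The data of a level of the tilted chain -/

namespace Lvl

variable {c : ℝ} {G : (Fin N → ℝ) → ℝ} {B d : (Fin N → ℝ) → Fin N → ℝ}

end Lvl

end Vale.Agent.P157.Par
end
end

section

section

/-!
Exact law identity `O(N+1) → O(N)`: the Haar integral of `F` is the average of
`∫ F (S(U) ι(V)) dV`, where `S(U)` is any orthogonal matrix with the same first column as `U`.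
-/

open MeasureTheory Matrix

namespace Vale.Agent.P166.L

open Conc

variable {N : ℕ}

/-- The embedding of the `N × N` matrices, fixing the basis vector `0`. -/
def one (V : Matrix (Fin N) (Fin N) ℝ) : Matrix (Fin (N + 1)) (Fin (N + 1)) ℝ :=
  Matrix.of (Fin.cons (Fin.cons 1 0) fun i => Fin.cons 0 (V i))

@[simp] lemma one_zero_zero (V : Matrix (Fin N) (Fin N) ℝ) : one V 0 0 = 1 := rfl
@[simp] lemma one_zero_succ (V : Matrix (Fin N) (Fin N) ℝ) (j : Fin N) : one V 0 j.succ = 0 := rfl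
@[simp] lemma one_succ_zero (V : Matrix (Fin N) (Fin N) ℝ) (i : Fin N) : one V i.succ 0 = 0 := rfl
@[simp] lemma one_succ_succ (V : Matrix (Fin N) (Fin N) ℝ) (i j : Fin N) :
    one V i.succ j.succ = V i j := rfl

lemma one_mulL (V W : Matrix (Fin N) (Fin N) ℝ) : one (V * W) = one V * one W := by
  ext i j
  rw [Matrix.mul_apply, Fin.sum_univ_succ]
  refine Fin.cases ?_ (fun i => ?_) i <;> refine Fin.cases ?_ (fun j => ?_) j
  · simp only [one_zero_zero, mul_one, one_zero_succ, one_succ_zero, mul_zero, Finset.sum_const_zero, add_zero]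
  · simp only [one_zero_succ, one_zero_zero, mul_zero, one_succ_succ, zero_mul, Finset.sum_const_zero, add_zero]
  · simp
  · simp only [one_succ_succ, Matrix.mul_apply, one_succ_zero, one_zero_succ, mul_zero, zero_add]

lemma one_transpose (V : Matrix (Fin N) (Fin N) ℝ) : (one V)ᵀ = one Vᵀ := by
  ext i j
  rw [Matrix.transpose_apply]
  refine Fin.cases ?_ (fun i => ?_) i <;> refine Fin.cases ?_ (fun j => ?_) j <;> simp

lemma one_one : one (1 : Matrix (Fin N) (Fin N) ℝ) = 1 := by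
  ext i j
  refine Fin.cases ?_ (fun i => ?_) i <;> refine Fin.cases ?_ (fun j => ?_) j
  · simp
  · simp only [one_zero_succ, ne_eq, (Fin.succ_ne_zero j).symm, not_false_eq_true, one_apply_ne]
  · simp [Fin.succ_ne_zero i]
  · simp [Matrix.one_apply, Fin.succ_inj]

lemma one_memL (V : OG N) : one V.1 ∈ Matrix.orthogonalGroup (Fin (N + 1)) ℝ := by
  rw [Matrix.mem_orthogonalGroup_iff', one_transpose, ← one_mulL, OG.transpose_mul, one_one]

/-- The embedding of `O(N)` in `O(N+1)`. -/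
def oneO (V : OG N) : OG (N + 1) := ⟨one V.1, one_memL V⟩

lemma oneO_mul (V W : OG N) : oneO (V * W) = oneO V * oneO W := by
  apply Subtype.ext
  exact one_mulL V.1 W.1

lemma one_mulVec (V : Matrix (Fin N) (Fin N) ℝ) (a : ℝ) (x : Fin N → ℝ) :
    one V *ᵥ (Fin.cons a x : Fin (N + 1) → ℝ) = Fin.cons a (V *ᵥ x) := by
  funext i
  rw [Matrix.mulVec, dotProduct, Fin.sum_univ_succ]
  refine Fin.cases ?_ (fun i => ?_) i
  · simp only [one_zero_zero, Fin.cons_zero, _root_.one_mul, one_zero_succ, Fin.cons_succ, zero_mul, Finset.sum_const_zero, add_zero]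
  · simp only [one_succ_zero, Fin.cons_zero, zero_mul, one_succ_succ, Fin.cons_succ, zero_add, mulVec, dotProduct]

lemma mulVec_e0 (U : Matrix (Fin (N + 1)) (Fin (N + 1)) ℝ) :
    U *ᵥ (Pi.single 0 1 : Fin (N + 1) → ℝ) = fun i => U i 0 := by
  funext i
  simp [Matrix.mulVec_single]

/-- An orthogonal matrix fixing the basis vector `0` is an embedded one. -/
lemma exists_one (W : OG (N + 1)) (hW : W.1 *ᵥ (Pi.single 0 1 : Fin (N + 1) → ℝ) =
    Pi.single 0 1) : ∃ M : OG N, W = oneO M := by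
  have hcol : ∀ i, W.1 i 0 = (Pi.single 0 1 : Fin (N + 1) → ℝ) i := by
    intro i
    rw [mulVec_e0] at hW
    exact congrFun hW i
  have h00 : W.1 0 0 = 1 := by rw [hcol]; simp
  have hi0 : ∀ i : Fin N, W.1 i.succ 0 = 0 := by
    intro i; rw [hcol]; simp
  have hrow : W.1 * W.1ᵀ = 1 := OG.mul_transpose W
  have h0j : ∀ j : Fin N, W.1 0 j.succ = 0 := by
    have h1 := congrFun (congrFun hrow 0) 0
    rw [Matrix.mul_apply, Fin.sum_univ_succ, Matrix.one_apply_eq] at h1
    simp only [Matrix.transpose_apply, h00] at h1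
    have h2 : ∑ j : Fin N, W.1 0 j.succ * W.1 0 j.succ = 0 := by linarith only [h1]
    intro j
    have h3 := (Finset.sum_eq_zero_iff_of_nonneg (fun j _ => mul_self_nonneg _)).1 h2 j
      (Finset.mem_univ j)
    exact mul_self_eq_zero.1 h3
  have hM : one (Matrix.of fun i j : Fin N => W.1 i.succ j.succ) = W.1 := by
    ext i j
    refine Fin.cases ?_ (fun i => ?_) i <;> refine Fin.cases ?_ (fun j => ?_) j
    · rw [one_zero_zero, h00]
    · rw [one_zero_succ, h0j]
    · rw [one_succ_zero, hi0]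
    · rw [one_succ_succ]; rfl
  have hmem : (Matrix.of fun i j : Fin N => W.1 i.succ j.succ) ∈
      Matrix.orthogonalGroup (Fin N) ℝ := by
    rw [Matrix.mem_orthogonalGroup_iff']
    have h1 : (W.1)ᵀ * W.1 = 1 := OG.transpose_mul W
    rw [← hM, one_transpose, ← one_mulL] at h1
    ext i j
    have h2 := congrFun (congrFun h1 i.succ) j.succ
    rw [one_succ_succ] at h2
    rw [h2]
    simp only [Matrix.one_apply, Fin.succ_inj]
  exact ⟨⟨_, hmem⟩, Subtype.ext hM.symm⟩

section Law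

variable [MeasurableSpace (OG N)] [BorelSpace (OG N)]
  [MeasurableSpace (OG (N + 1))] [BorelSpace (OG (N + 1))]

lemma measurable_oneO : Measurable (oneO : OG N → OG (N + 1)) := by
  refine measurable_OG fun i j => ?_
  refine Fin.cases ?_ (fun i => ?_) i <;> refine Fin.cases ?_ (fun j => ?_) j
  · exact measurable_const
  · exact measurable_const
  · exact measurable_const
  · exact measurable_coe_OG i j

variable (ν : Measure (OG N)) (ν' : Measure (OG (N + 1))) [IsProbabilityMeasure ν]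
  [IsProbabilityMeasure ν'] [ν.IsMulLeftInvariant] [ν'.IsMulLeftInvariant]

omit [MeasurableSpace (OG (N + 1))] [BorelSpace (OG (N + 1))] [IsProbabilityMeasure ν] in
/-- The inner average only depends on the first column. -/
theorem inner_eq (F : OG (N + 1) → ℝ) {U S : OG (N + 1)}
    (h : S.1 *ᵥ (Pi.single 0 1 : Fin (N + 1) → ℝ) = U.1 *ᵥ Pi.single 0 1) :
    ∫ V, F (U * oneO V) ∂ν = ∫ V, F (S * oneO V) ∂ν := by
  have h1 : (S⁻¹ * U).1 *ᵥ (Pi.single 0 1 : Fin (N + 1) → ℝ) = Pi.single 0 1 := by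
    rw [OG.coe_mul, OG.coe_inv, ← Matrix.mulVec_mulVec, ← h, Matrix.mulVec_mulVec,
      OG.transpose_mul, Matrix.one_mulVec]
  obtain ⟨M, hM⟩ := exists_one _ h1
  have hU : U = S * oneO M := by rw [← hM]; group
  have h2 : ∀ V, U * oneO V = S * oneO (M * V) := by
    intro V
    rw [hU, mul_assoc, oneO_mul]
  simp_rw [h2]
  exact integral_mul_left_eq_self (μ := ν) (fun V => F (S * oneO V)) M

/-- **The law identity**, abstract form. -/
theorem law_abs {F : OG (N + 1) → ℝ} (hF : Measurable F) {C : ℝ} (hC : ∀ U, |F U| ≤ C)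
    (S : OG (N + 1) → OG (N + 1))
    (hS : ∀ U, (S U).1 *ᵥ (Pi.single 0 1 : Fin (N + 1) → ℝ) = U.1 *ᵥ Pi.single 0 1) :
    ∫ U, F U ∂ν' = ∫ U, ∫ V, F (S U * oneO V) ∂ν ∂ν' := by
  have : ν'.IsMulRightInvariant := haar_right_inv ν'
  have h1 : ∀ V : OG N, ∫ U, F (U * oneO V) ∂ν' = ∫ U, F U ∂ν' := fun V =>
    integral_mul_right_eq_self (μ := ν') F (oneO V)
  have hm : Measurable fun p : OG N × OG (N + 1) => F (p.2 * oneO p.1) :=
    hF.comp (measurable_snd.mul (measurable_oneO.comp measurable_fst))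
  have h2 : ∫ V, ∫ U, F (U * oneO V) ∂ν' ∂ν = ∫ U, ∫ V, F (U * oneO V) ∂ν ∂ν' := by
    refine integral_integral_swap (f := fun V U => F (U * oneO V)) ?_
    exact (integrable_const C).mono' hm.aestronglyMeasurable
      (Filter.Eventually.of_forall fun p => by rw [Real.norm_eq_abs]; exact hC _)
  simp_rw [h1] at h2
  rw [integral_const, probReal_univ, one_smul] at h2
  rw [h2]
  exact integral_congr_ae (Filter.Eventually.of_forall fun U => inner_eq ν F (hS U))

end Law

/-- The matrix `A` on the range of `ρ`, the identity elsewhere. -/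
noncomputable def emb {n κ : ℕ} (ρ : Fin κ → Fin n) (A : Matrix (Fin κ) (Fin κ) ℝ) :
    Matrix (Fin n) (Fin n) ℝ :=
  1 + (Matrix.of fun (i : Fin n) (k : Fin κ) => if ρ k = i then (1 : ℝ) else 0) * (A - 1) *
    (Matrix.of fun (i : Fin n) (k : Fin κ) => if ρ k = i then (1 : ℝ) else 0)ᵀ

section Emb

variable {n κ : ℕ} {ρ : Fin κ → Fin n} {A : Matrix (Fin κ) (Fin κ) ℝ}

lemma emb_mulVec (y : Fin n → ℝ) (i : Fin n) :
    (emb ρ A *ᵥ y) i = y i + ∑ k, if ρ k = i then ((A - 1) *ᵥ fun k' => y (ρ k')) k else 0 := by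
  unfold emb
  rw [Matrix.add_mulVec, Matrix.one_mulVec, Pi.add_apply, ← Matrix.mulVec_mulVec,
    ← Matrix.mulVec_mulVec]
  congr 1
  have h1 : ((Matrix.of fun (i : Fin n) (k : Fin κ) => if ρ k = i then (1 : ℝ) else 0)ᵀ *ᵥ y) =
      fun k => y (ρ k) := by
    funext k
    simp only [mulVec, dotProduct, transpose_apply, of_apply, ite_mul, _root_.one_mul, zero_mul, Finset.sum_ite_eq, Finset.mem_univ, ↓reduceIte]
  rw [h1]
  simp only [mulVec, dotProduct, of_apply, Matrix.sub_apply, ite_mul, _root_.one_mul, zero_mul]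

lemma emb_range (hρ : Function.Injective ρ) (y : Fin n → ℝ) (k : Fin κ) :
    (emb ρ A *ᵥ y) (ρ k) = ∑ k', A k k' * y (ρ k') := by
  rw [emb_mulVec]
  have h1 : (∑ k', if ρ k' = ρ k then ((A - 1) *ᵥ fun k' => y (ρ k')) k' else 0) =
      ((A - 1) *ᵥ fun k' => y (ρ k')) k := by
    rw [Finset.sum_eq_single k]
    · simp
    · intro b _ hb
      rw [if_neg fun e => hb (hρ e)]
    · intro h
      exact absurd (Finset.mem_univ k) h
  rw [h1, Matrix.sub_mulVec, Matrix.one_mulVec, Pi.sub_apply, Matrix.mulVec, dotProduct]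
  ring

lemma emb_not_range (y : Fin n → ℝ) {i : Fin n} (hi : ∀ k, ρ k ≠ i) :
    (emb ρ A *ᵥ y) i = y i := by
  rw [emb_mulVec]
  simp only [hi, ↓reduceIte, Finset.sum_const_zero, add_zero]

lemma emb_mem (hρ : Function.Injective ρ) (hA : A ∈ Matrix.orthogonalGroup (Fin κ) ℝ) :
    emb ρ A ∈ Matrix.orthogonalGroup (Fin n) ℝ := by
  rw [Matrix.mem_orthogonalGroup_iff'] at hA ⊢
  set P : Matrix (Fin n) (Fin κ) ℝ :=
    Matrix.of fun (i : Fin n) (k : Fin κ) => if ρ k = i then (1 : ℝ) else 0 with hP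
  have hPP : Pᵀ * P = 1 := by
    ext k k'
    rw [Matrix.mul_apply, hP]
    simp only [Matrix.transpose_apply, Matrix.of_apply, ite_mul, zero_mul]
    rw [Finset.sum_ite_eq]
    simp only [Finset.mem_univ, if_true, Matrix.one_apply]
    by_cases h : k = k'
    · simp only [h, ↓reduceIte, mul_one]
    · have h' : ρ k' ≠ ρ k := fun e => h (hρ e.symm)
      simp [h, h']
  have h1 : (emb ρ A)ᵀ = 1 + P * (Aᵀ - 1) * Pᵀ := by
    unfold emb
    rw [← hP, Matrix.transpose_add, Matrix.transpose_one, Matrix.transpose_mul,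
      Matrix.transpose_mul, Matrix.transpose_transpose, Matrix.transpose_sub,
      Matrix.transpose_one, Matrix.mul_assoc]
  have h2 : emb ρ A = 1 + P * (A - 1) * Pᵀ := by
    unfold emb
    rw [← hP]
  rw [h1, h2]
  have h3 : P * (Aᵀ - 1) * Pᵀ * (P * (A - 1) * Pᵀ) = P * ((Aᵀ - 1) * (A - 1)) * Pᵀ := by
    calc P * (Aᵀ - 1) * Pᵀ * (P * (A - 1) * Pᵀ)
        = P * (Aᵀ - 1) * (Pᵀ * P) * (A - 1) * Pᵀ := by
          simp only [Matrix.mul_assoc]
      _ = _ := by rw [hPP, Matrix.mul_one, Matrix.mul_assoc P]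
  rw [Matrix.mul_add, Matrix.add_mul, Matrix.add_mul, Matrix.one_mul, Matrix.mul_one,
    Matrix.one_mul, h3]
  have h4 : (1 : Matrix (Fin n) (Fin n) ℝ) + P * (Aᵀ - 1) * Pᵀ +
      (P * (A - 1) * Pᵀ + P * ((Aᵀ - 1) * (A - 1)) * Pᵀ) =
      1 + P * ((Aᵀ - 1) + (A - 1) + (Aᵀ - 1) * (A - 1)) * Pᵀ := by
    rw [Matrix.mul_add, Matrix.mul_add, Matrix.add_mul, Matrix.add_mul]
    abel
  have h5 : (Aᵀ - 1) + (A - 1) + (Aᵀ - 1) * (A - 1) = 0 := by
    rw [Matrix.sub_mul, Matrix.mul_sub, Matrix.mul_one, Matrix.one_mul, hA]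
    abel
  rw [h5, Matrix.mul_zero, Matrix.zero_mul, add_zero] at h4
  refine Eq.trans ?_ h4
  abel

end Emb

section Law2

variable [MeasurableSpace (OG N)] [BorelSpace (OG N)]
  [MeasurableSpace (OG (N + 1))] [BorelSpace (OG (N + 1))]
  (ν : Measure (OG N)) (ν' : Measure (OG (N + 1))) [IsProbabilityMeasure ν]
  [IsProbabilityMeasure ν'] [ν.IsMulLeftInvariant] [ν'.IsMulLeftInvariant]

end Law2

section Perm

variable {n : ℕ}

/-- The permutation matrix with the rows `σ i`. -/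
def pm (σ : Equiv.Perm (Fin n)) : Matrix (Fin n) (Fin n) ℝ :=
  Matrix.of fun i j => if σ i = j then 1 else 0

lemma pm_mul (σ : Equiv.Perm (Fin n)) (U : Matrix (Fin n) (Fin n) ℝ) :
    pm σ * U = U.submatrix σ id := by
  ext i j
  simp only [pm, Matrix.mul_apply, of_apply, ite_mul, _root_.one_mul, zero_mul, Finset.sum_ite_eq, Finset.mem_univ, ↓reduceIte, submatrix_apply, id_eq]

lemma mul_pm (σ : Equiv.Perm (Fin n)) (U : Matrix (Fin n) (Fin n) ℝ) :
    U * pm σ = U.submatrix id σ.symm := by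
  ext i j
  rw [Matrix.mul_apply, Matrix.submatrix_apply, Finset.sum_eq_single (σ.symm j)]
  · simp [pm]
  · intro b _ hb
    have : σ b ≠ j := fun e => hb (by rw [← e, Equiv.symm_apply_apply])
    simp [pm, this]
  · intro h
    exact absurd (Finset.mem_univ _) h

lemma pm_mem (σ : Equiv.Perm (Fin n)) : pm σ ∈ Matrix.orthogonalGroup (Fin n) ℝ := by
  rw [Matrix.mem_orthogonalGroup_iff, pm_mul]
  ext i j
  rw [Matrix.submatrix_apply, Matrix.transpose_apply, id, Matrix.one_apply]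
  by_cases h : i = j
  · simp [h, pm]
  · have h' : σ j ≠ σ i := fun e => h (σ.injective e).symm
    simp only [pm, of_apply, h', ↓reduceIte, h]

variable [MeasurableSpace (OG n)] [BorelSpace (OG n)] (ν : Measure (OG n))
  [IsProbabilityMeasure ν] [ν.IsMulLeftInvariant]

/-- Exchangeability of the sites. -/
theorem int_cols (σ : Equiv.Perm (Fin n)) (F : Matrix (Fin n) (Fin n) ℝ → ℝ) :
    ∫ U : OG n, F (U.1.submatrix id σ) ∂ν = ∫ U : OG n, F U.1 ∂ν := by
  have : ν.IsMulRightInvariant := haar_right_inv ν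
  have h := integral_mul_right_eq_self (μ := ν) (fun U : OG n => F U.1)
    ⟨pm σ.symm, pm_mem σ.symm⟩
  rw [← h]
  refine integral_congr_ae (Filter.Eventually.of_forall fun U => ?_)
  change F _ = F (U.1 * pm σ.symm)
  rw [mul_pm, Equiv.symm_symm]

end Perm

end Vale.Agent.P166.L
end
end

section

section

open MeasureTheory ProbabilityTheory

namespace Vale.Agent.P157

end Vale.Agent.P157
end
end

section

section

open MeasureTheory ProbabilityTheory

namespace Vale.Agent.P157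

end Vale.Agent.P157
end
end

section

section

open MeasureTheory ProbabilityTheory

namespace Vale.Agent.P157

end Vale.Agent.P157
end
end

section

section

/-!
Telescoping and assembly of the Guerra upper bound (module U of the Parisi plan).
-/

open MeasureTheory ProbabilityTheory Filter Topology

namespace Vale.Agent.P157.Par

variable {N : ℕ}

/-! ### Bounds on the pattern part -/

/-! ### The interpolation -/

section

variable {k : ℕ} {m r : ℕ → ℝ} {f : ℝ → ℝ} {K : ℝ}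

end

/-! ### Sums -/

/-! ### The upper bound -/

end Vale.Agent.P157.Par
end
end
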