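import Mathlib
import Vale.Agent.P146.R3.X.B1
import Vale.Agent.P157.ParDefs

set_option linter.all false

section

section

namespace Vale.Agent.P166.Conc

open Matrix MeasureTheory ProbabilityTheory

variable {n : ℕ}

/-- `Uᵀ Λ U`. -/
noncomputable def JU (lam : Fin n → ℝ) (U : OG n) : Matrix (Fin n) (Fin n) ℝ :=
  (U : Matrix (Fin n) (Fin n) ℝ)ᵀ * Matrix.diagonal lam * (U : Matrix (Fin n) (Fin n) ℝ)

lemma JU_mulVec (lam : Fin n → ℝ) (U : OG n) (s : Fin n → ℝ) :
    JU lam U *ᵥ s = (U : Matrix (Fin n) (Fin n) ℝ)ᵀ *ᵥ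
      (fun i => lam i * ((U : Matrix (Fin n) (Fin n) ℝ) *ᵥ s) i) := by
  unfold JU
  rw [← Matrix.mulVec_mulVec, ← Matrix.mulVec_mulVec]
  congr 1
  funext i
  rw [Matrix.mulVec_diagonal]

lemma dot_JU (lam : Fin n → ℝ) (U : OG n) (s t : Fin n → ℝ) :
    t ⬝ᵥ (JU lam U *ᵥ s) = ∑ i, lam i * (((U : Matrix (Fin n) (Fin n) ℝ) *ᵥ t) i *
      ((U : Matrix (Fin n) (Fin n) ℝ) *ᵥ s) i) := by
  rw [JU_mulVec, ← OG.dot_left]
  unfold dotProduct
  refine Finset.sum_congr rfl fun i _ => by ring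

lemma JU_symm (lam : Fin n → ℝ) (U : OG n) : (JU lam U)ᵀ = JU lam U := by
  unfold JU
  rw [Matrix.transpose_mul, Matrix.transpose_mul, Matrix.transpose_transpose,
    Matrix.diagonal_transpose, mul_assoc]

lemma JU_nice {lam : Fin n → ℝ} {K : ℝ} (hK : 0 ≤ K) (hlam : ∀ i, |lam i| ≤ K) (U : OG n) :
    Nice K (JU lam U) where
  symm := JU_symm lam U
  form := by
    intro w
    rw [dot_JU]
    have h1 : w ⬝ᵥ w = ∑ i, ((U : Matrix (Fin n) (Fin n) ℝ) *ᵥ w) i *
        ((U : Matrix (Fin n) (Fin n) ℝ) *ᵥ w) i := (OG.dot U w w).symm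
    rw [h1, Finset.mul_sum]
    refine (Finset.abs_sum_le_sum_abs _ _).trans (Finset.sum_le_sum fun i _ => ?_)
    rw [abs_mul, abs_mul_self]
    exact mul_le_mul_of_nonneg_right (hlam i) (mul_self_nonneg _)
  norm := by
    intro w
    have h1 : w ⬝ᵥ w = ∑ i, ((U : Matrix (Fin n) (Fin n) ℝ) *ᵥ w) i *
        ((U : Matrix (Fin n) (Fin n) ℝ) *ᵥ w) i := (OG.dot U w w).symm
    have h2 : (JU lam U *ᵥ w) ⬝ᵥ (JU lam U *ᵥ w) =
        ∑ i, (lam i * ((U : Matrix (Fin n) (Fin n) ℝ) *ᵥ w) i) *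
          (lam i * ((U : Matrix (Fin n) (Fin n) ℝ) *ᵥ w) i) := by
      rw [JU_mulVec]
      have h3 := OG.dot U⁻¹ (fun i => lam i * ((U : Matrix (Fin n) (Fin n) ℝ) *ᵥ w) i)
        (fun i => lam i * ((U : Matrix (Fin n) (Fin n) ℝ) *ᵥ w) i)
      rw [OG.coe_inv] at h3
      rw [h3]; rfl
    rw [h1, h2, Finset.mul_sum]
    refine Finset.sum_le_sum fun i _ => ?_
    have h4 : lam i ^ 2 ≤ K ^ 2 := by rw [← sq_abs]; exact pow_le_pow_left₀ (abs_nonneg _) (hlam i) 2
    nlinarith only [h4]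
  nonneg := hK

lemma JU_rfl (lam : Fin n → ℝ) (U : OG n) (w : Fin n → ℝ) :
    JU lam (U * rflG w) = rfl' w * JU lam U * rfl' w := by
  unfold JU
  rw [OG.coe_mul]
  show ((U : Matrix (Fin n) (Fin n) ℝ) * rfl' w)ᵀ * _ * ((U : Matrix (Fin n) (Fin n) ℝ) * rfl' w) = _
  rw [Matrix.transpose_mul, rfl'_transpose]
  simp only [mul_assoc]

lemma cube_dot {s : Fin n → ℝ} (hs : s ∈ cube n) : s ⬝ᵥ s = n := by
  unfold dotProduct
  have : ∀ i : Fin n, s i * s i = 1 := fun i => by rw [← sq]; exact cube_sq hs i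
  simp only [this, Finset.sum_const, Finset.card_univ, Fintype.card_fin, nsmul_eq_mul, mul_one]

lemma en_abs_le {K : ℝ} {J : Matrix (Fin n) (Fin n) ℝ} (hJ : Nice K J) {s : Fin n → ℝ}
    (hs : s ∈ cube n) : |en J s| ≤ K * n := by
  have := hJ.form s
  rwa [cube_dot hs] at this

lemma log_Zf_bd (β : ℝ) {K : ℝ} {J : Matrix (Fin n) (Fin n) ℝ} (hJ : Nice K J) :
    |Real.log (Zf β J)| ≤ n * Real.log 2 + |β| / 2 * (K * n) := by
  have h1 : ∀ s ∈ cube n, |β / 2 * en J s| ≤ |β| / 2 * (K * n) := by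
    intro s hs
    rw [abs_mul, abs_div, abs_two]
    exact mul_le_mul_of_nonneg_left (en_abs_le hJ hs) (by (clear * -; positivity))
  have hub : Zf β J ≤ 2 ^ n * Real.exp (|β| / 2 * (K * n)) := by
    unfold Zf
    calc ∑ s ∈ cube n, Real.exp (β / 2 * en J s) ≤
          ∑ s ∈ cube n, Real.exp (|β| / 2 * (K * n)) :=
          Finset.sum_le_sum fun s hs => Real.exp_le_exp.2 ((le_abs_self _).trans (h1 s hs))
      _ = _ := by rw [Finset.sum_const, nsmul_eq_mul, card_cube]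
  have hlb : 2 ^ n * Real.exp (-(|β| / 2 * (K * n))) ≤ Zf β J := by
    unfold Zf
    calc 2 ^ n * Real.exp (-(|β| / 2 * (K * n))) = ∑ s ∈ cube n, Real.exp (-(|β| / 2 * (K * n))) := by
          rw [Finset.sum_const, nsmul_eq_mul, card_cube]
      _ ≤ _ := Finset.sum_le_sum fun s hs => Real.exp_le_exp.2 (neg_le_of_abs_le (h1 s hs))
  have h2 := Real.log_le_log (Zf_pos β J) hub
  have h3 := Real.log_le_log (by positivity) hlb
  rw [Real.log_mul (by positivity) (Real.exp_pos _).ne', Real.log_exp, Real.log_pow] at h2 h3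
  have h4 : 0 ≤ Real.log 2 := Real.log_nonneg (by norm_num)
  have h5 : 0 ≤ (n : ℝ) * Real.log 2 := by (clear * -; positivity)
  rw [abs_le]
  constructor
  · linarith only [h3, h5]
  · linarith only [h2]

lemma continuous_JU (lam : Fin n → ℝ) : Continuous fun U : OG n => JU lam U := by
  unfold JU
  have h : Continuous fun U : OG n => (U : Matrix (Fin n) (Fin n) ℝ) := continuous_subtype_val
  exact (h.matrix_transpose.matrix_mul continuous_const).matrix_mul h

lemma continuous_en {α : Type*} [TopologicalSpace α] {J : α → Matrix (Fin n) (Fin n) ℝ}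
    (hJ : Continuous J) (s : Fin n → ℝ) : Continuous fun a => en (J a) s := by
  unfold en
  exact Continuous.dotProduct continuous_const (hJ.matrix_mulVec continuous_const)

lemma continuous_Zf (β : ℝ) {α : Type*} [TopologicalSpace α] {J : α → Matrix (Fin n) (Fin n) ℝ}
    (hJ : Continuous J) : Continuous fun a => Zf β (J a) := by
  unfold Zf
  exact continuous_finsetSum _ fun s _ =>
    Real.continuous_exp.comp (continuous_const.mul (continuous_en hJ s))

lemma continuous_gw (β : ℝ) {α : Type*} [TopologicalSpace α] {J : α → Matrix (Fin n) (Fin n) ℝ}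
    (hJ : Continuous J) (s : Fin n → ℝ) : Continuous fun a => gw β (J a) s := by
  unfold gw
  exact (Real.continuous_exp.comp (continuous_const.mul (continuous_en hJ s))).div
    (continuous_Zf β hJ) fun a => (Zf_pos β (J a)).ne'

/-- the log-partition function as a function on `O(n)` -/
noncomputable def fU (β : ℝ) (lam : Fin n → ℝ) (U : OG n) : ℝ := Real.log (Zf β (JU lam U))

lemma continuous_fU (β : ℝ) (lam : Fin n → ℝ) : Continuous (fU β lam) := by
  unfold fU
  exact (continuous_Zf β (continuous_JU lam)).log fun U => (Zf_pos β _).ne'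

/-- Gibbs average of the squared energy change -/
noncomputable def Qf (β : ℝ) (J : Matrix (Fin n) (Fin n) ℝ) (w : Fin n → ℝ) : ℝ :=
  ∑ s ∈ cube n, gw β J s * Xf β J w s ^ 2

lemma Qf_nonneg (β : ℝ) (J : Matrix (Fin n) (Fin n) ℝ) (w : Fin n → ℝ) : 0 ≤ Qf β J w :=
  Finset.sum_nonneg fun s _ => mul_nonneg (gw_nonneg _ _ _) (sq_nonneg _)

lemma mean_sq_le (β : ℝ) (J : Matrix (Fin n) (Fin n) ℝ) (X : (Fin n → ℝ) → ℝ) :
    (∑ s ∈ cube n, gw β J s * X s) ^ 2 ≤ ∑ s ∈ cube n, gw β J s * X s ^ 2 := by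
  have h := Finset.sum_mul_sq_le_sq_mul_sq (cube n) (fun s => √(gw β J s))
    (fun s => √(gw β J s) * X s)
  have h1 : ∀ s, √(gw β J s) ^ 2 = gw β J s := fun s => Real.sq_sqrt (gw_nonneg _ _ _)
  have e1 : ∑ s ∈ cube n, √(gw β J s) * (√(gw β J s) * X s) = ∑ s ∈ cube n, gw β J s * X s := by
    refine Finset.sum_congr rfl fun s _ => ?_
    rw [← mul_assoc, ← sq, h1]
  have e2 : ∑ s ∈ cube n, √(gw β J s) ^ 2 = 1 := by simp_rw [h1]; exact gw_sum β J
  have e3 : ∑ s ∈ cube n, (√(gw β J s) * X s) ^ 2 = ∑ s ∈ cube n, gw β J s * X s ^ 2 := by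
    refine Finset.sum_congr rfl fun s _ => ?_
    rw [mul_pow, h1]
  rw [e1, e2, e3, one_mul] at h
  exact h

lemma diff_sq_le (β : ℝ) (lam : Fin n → ℝ) (U : OG n) (w : Fin n → ℝ) :
    (fU β lam (U * rflG w) - fU β lam U) ^ 2 ≤
      Qf β (JU lam U) w + Qf β (JU lam (U * rflG w)) w := by
  have h1 := lse_ge β (JU lam U) (JU lam (U * rflG w))
  have h2 := lse_ge β (JU lam (U * rflG w)) (JU lam U)
  have e1 : ∀ s, β / 2 * (en (JU lam (U * rflG w)) s - en (JU lam U) s) =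
      Xf β (JU lam U) w s := by
    intro s; rw [JU_rfl]; exact Xf_eq β _ (JU_symm lam U) w s
  have e2 : ∀ s, β / 2 * (en (JU lam U) s - en (JU lam (U * rflG w)) s) =
      Xf β (JU lam (U * rflG w)) w s := by
    intro s
    have h3 : JU lam U = rfl' w * JU lam (U * rflG w) * rfl' w := by
      rw [← JU_rfl, mul_assoc, rflG_mul_self, mul_one]
    nth_rewrite 1 [h3]
    exact Xf_eq β _ (JU_symm lam _) w s
  simp_rw [e1] at h1
  simp_rw [e2] at h2
  have m1 := mean_sq_le β (JU lam U) (fun s => Xf β (JU lam U) w s)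
  have m2 := mean_sq_le β (JU lam (U * rflG w)) (fun s => Xf β (JU lam (U * rflG w)) w s)
  unfold Qf
  unfold fU
  set d := Real.log (Zf β (JU lam (U * rflG w))) - Real.log (Zf β (JU lam U))
  set A := ∑ s ∈ cube n, gw β (JU lam U) s * Xf β (JU lam U) w s
  set B := ∑ s ∈ cube n, gw β (JU lam (U * rflG w)) s * Xf β (JU lam (U * rflG w)) w s
  have h2' : B ≤ -d := by
    have : -d = Real.log (Zf β (JU lam U)) - Real.log (Zf β (JU lam (U * rflG w))) := by
      simp only [d]; ring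
    rw [this]; exact h2
  rcases le_total 0 d with hd | hd
  · have : d ^ 2 ≤ B ^ 2 := by
      have : d ≤ -B := by linarith only [h2]
      nlinarith only [h2, hd]
    nlinarith only [m1, m2, this]
  · have : d ^ 2 ≤ A ^ 2 := by nlinarith only [h1, hd]
    nlinarith only [m1, m2, this]

lemma Xf_JU_abs (β : ℝ) {lam : Fin n → ℝ} {K : ℝ} (hK : 0 ≤ K) (hlam : ∀ i, |lam i| ≤ K)
    (U : OG n) (w : Fin n → ℝ) {s : Fin n → ℝ} (hs : s ∈ cube n) :
    |Xf β (JU lam U) w s| ≤ |β| * (K * n) := by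
  rw [← Xf_eq β _ (JU_symm lam U), ← JU_rfl, abs_mul, abs_div, abs_two]
  have h1 := en_abs_le (JU_nice hK hlam (U * rflG w)) hs
  have h2 := en_abs_le (JU_nice hK hlam U) hs
  have h3 : |en (JU lam (U * rflG w)) s - en (JU lam U) s| ≤ 2 * (K * n) :=
    (abs_sub _ _).trans (by linarith)
  calc |β| / 2 * |en (JU lam (U * rflG w)) s - en (JU lam U) s| ≤ |β| / 2 * (2 * (K * n)) :=
        mul_le_mul_of_nonneg_left h3 (by positivity)
    _ = _ := by ring

lemma Qf_bd (β : ℝ) {lam : Fin n → ℝ} {K : ℝ} (hK : 0 ≤ K) (hlam : ∀ i, |lam i| ≤ K)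
    (U : OG n) (w : Fin n → ℝ) : |Qf β (JU lam U) w| ≤ (|β| * (K * n)) ^ 2 := by
  rw [abs_of_nonneg (Qf_nonneg _ _ _)]
  unfold Qf
  calc ∑ s ∈ cube n, gw β (JU lam U) s * Xf β (JU lam U) w s ^ 2 ≤
      ∑ s ∈ cube n, gw β (JU lam U) s * (|β| * (K * n)) ^ 2 := by
        refine Finset.sum_le_sum fun s hs => mul_le_mul_of_nonneg_left ?_ (gw_nonneg _ _ _)
        rw [← sq_abs]
        exact pow_le_pow_left₀ (abs_nonneg _) (Xf_JU_abs β hK hlam U w hs) 2
    _ = _ := by rw [← Finset.sum_mul, gw_sum, one_mul]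

end Vale.Agent.P166.Conc
end
end

section

section

/-!
Rotation of two patterns `p`, `q` in a general system with Haar patterns. The pattern fields are
rotated together with the matrix.
-/

open MeasureTheory ProbabilityTheory Filter Topology Matrix
open Vale.Agent.P157.Lv Vale.Agent.P157.Lv.Sy

namespace Vale.Agent.P166.H

open Vale.Agent

set_option linter.unusedSectionVars false

variable {N : ℕ} {ι X : Type}

/-- The matrix of the rotation of the coordinates `p` and `q`. -/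
noncomputable def rotM (p q : Fin N) (θ : ℝ) : Matrix (Fin N) (Fin N) ℝ :=
  Matrix.of fun r j => rot p q θ (Pi.single j 1) r

lemma rotM_mulVec (p q : Fin N) (θ : ℝ) (v : Fin N → ℝ) : rotM p q θ *ᵥ v = rot p q θ v := by
  funext r
  simp only [rotM, Matrix.mulVec, dotProduct, Matrix.of_apply, rot]
  split_ifs with h1 h2
  · simp only [Pi.single_apply, mul_ite, mul_one, mul_zero, add_mul, ite_mul, zero_mul, Finset.sum_add_distrib, Finset.sum_ite_eq, Finset.mem_univ, ↓reduceIte]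
  · simp only [Pi.single_apply, mul_ite, mul_one, mul_zero, sub_mul, ite_mul, zero_mul, Finset.sum_sub_distrib, Finset.sum_ite_eq, Finset.mem_univ, ↓reduceIte]
  · simp only [Pi.single_apply, ite_mul, one_mul, zero_mul, Finset.sum_ite_eq, Finset.mem_univ, ↓reduceIte]

lemma rot_dot {p q : Fin N} (hpq : p ≠ q) (θ : ℝ) (v w : Fin N → ℝ) :
    ∑ r, rot p q θ v r * rot p q θ w r = ∑ r, v r * w r := by
  have h1 := rot_norm hpq θ (fun r => v r + w r)
  have h2 := rot_norm hpq θ v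
  have h3 := rot_norm hpq θ w
  have h4 : ∀ r, rot p q θ (fun r => v r + w r) r = rot p q θ v r + rot p q θ w r := by
    intro r
    unfold rot
    split_ifs <;> ring
  simp only [h4, add_sq, Finset.sum_add_distrib] at h1
  rw [h2, h3] at h1
  have h5 : ∑ r, 2 * rot p q θ v r * rot p q θ w r = 2 * ∑ r, rot p q θ v r * rot p q θ w r := by
    rw [Finset.mul_sum]; exact Finset.sum_congr rfl fun r _ => by ring
  have h6 : ∑ r, 2 * v r * w r = 2 * ∑ r, v r * w r := by
    rw [Finset.mul_sum]; exact Finset.sum_congr rfl fun r _ => by ring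
  rw [h5, h6] at h1
  linarith

lemma rotM_mem {p q : Fin N} (hpq : p ≠ q) (θ : ℝ) :
    rotM p q θ ∈ Matrix.orthogonalGroup (Fin N) ℝ := by
  rw [Matrix.mem_orthogonalGroup_iff']
  ext i j
  rw [Matrix.mul_apply]
  simp only [Matrix.transpose_apply, rotM, Matrix.of_apply]
  rw [rot_dot hpq]
  simp only [Pi.single_apply, eq_comm, mul_ite, mul_one, mul_zero, Finset.sum_ite_eq, Finset.mem_univ, ↓reduceIte, Matrix.one_apply]

/-- The derivative of the rotated vector. -/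
noncomputable def rot' (p q : Fin N) (v : Fin N → ℝ) (r : Fin N) : ℝ :=
  if r = p then v q else if r = q then -v p else 0

lemma hasDerivAt_rot {p q : Fin N} (hpq : p ≠ q) (v : Fin N → ℝ) (r : Fin N) (θ : ℝ) :
    HasDerivAt (fun t => rot p q t v r) (rot' p q (rot p q θ v) r) θ := by
  by_cases h1 : r = p
  · subst h1
    have h : HasDerivAt (fun t => Real.cos t * v r + Real.sin t * v q)
        (-Real.sin θ * v r + Real.cos θ * v q) θ :=
      ((Real.hasDerivAt_cos θ).mul_const (v r)).add ((Real.hasDerivAt_sin θ).mul_const (v q))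
    have e1 : (fun t => rot r q t v r) = fun t => Real.cos t * v r + Real.sin t * v q := by
      funext t; simp [rot]
    have e2 : rot' r q (rot r q θ v) r = -Real.sin θ * v r + Real.cos θ * v q := by
      simp only [rot', ↓reduceIte, rot, hpq.symm, neg_mul]; ring
    rw [e1, e2]
    exact h
  · by_cases h2 : r = q
    · subst h2
      have h : HasDerivAt (fun t => Real.cos t * v r - Real.sin t * v p)
          (-Real.sin θ * v r - Real.cos θ * v p) θ :=
        ((Real.hasDerivAt_cos θ).mul_const (v r)).sub ((Real.hasDerivAt_sin θ).mul_const (v p))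
      have e1 : (fun t => rot p r t v r) = fun t => Real.cos t * v r - Real.sin t * v p := by
        funext t; simp [rot, h1]
      have e2 : rot' p r (rot p r θ v) r = -Real.sin θ * v r - Real.cos θ * v p := by
        simp only [rot', h1, ↓reduceIte, rot, neg_add_rev, neg_mul]; ring
      rw [e1, e2]
      exact h
    · have e1 : (fun t => rot p q t v r) = fun _ => v r := by
        funext t; simp [rot, h1, h2]
      have e2 : rot' p q (rot p q θ v) r = 0 := by simp [rot', h1, h2]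
      rw [e1, e2]
      exact hasDerivAt_const θ (v r)

lemma sum_rot' {p q : Fin N} (hpq : p ≠ q) (a w : Fin N → ℝ) :
    ∑ i, a i * rot' p q w i = a p * w q - a q * w p := by
  have : ∀ i, a i * rot' p q w i = (if i = p then a p * w q else 0) +
      (if i = q then -(a q * w p) else 0) := by
    intro i
    unfold rot'
    by_cases g1 : i = p
    · rw [if_pos g1, if_pos g1, if_neg (g1 ▸ hpq), g1, add_zero]
    · by_cases g2 : i = q
      · rw [if_neg g1, if_neg g1, if_pos g2, if_pos g2, g2, zero_add, mul_neg]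
      · rw [if_neg g1, if_neg g1, if_neg g2, if_neg g2, mul_zero, add_zero]
  simp only [this, Finset.sum_add_distrib, Finset.sum_ite_eq', Finset.mem_univ, if_true]
  ring

/-- A bound for the rotated vector. -/
lemma abs_rot_le (p q : Fin N) (θ : ℝ) (v : Fin N → ℝ) (r : Fin N) :
    |rot p q θ v r| ≤ 2 * ∑ i, |v i| := by
  have hle : ∀ i, |v i| ≤ ∑ i, |v i| := fun i =>
    Finset.single_le_sum (f := fun i => |v i|) (fun i _ => abs_nonneg _) (Finset.mem_univ i)
  have hc := Real.abs_cos_le_one θ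
  have hs := Real.abs_sin_le_one θ
  have h0 : 0 ≤ ∑ i, |v i| := Finset.sum_nonneg fun i _ => abs_nonneg _
  have hp := hle p
  have hq := hle q
  have hr := hle r
  unfold rot
  split_ifs
  · have h1 := abs_add_le (Real.cos θ * v p) (Real.sin θ * v q)
    rw [abs_mul, abs_mul] at h1
    have h2 : |Real.cos θ| * |v p| ≤ 1 * |v p| := mul_le_mul_of_nonneg_right hc (abs_nonneg _)
    have h3 : |Real.sin θ| * |v q| ≤ 1 * |v q| := mul_le_mul_of_nonneg_right hs (abs_nonneg _)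
    linarith
  · have h1 := abs_sub (Real.cos θ * v q) (Real.sin θ * v p)
    rw [abs_mul, abs_mul] at h1
    have h2 : |Real.cos θ| * |v q| ≤ 1 * |v q| := mul_le_mul_of_nonneg_right hc (abs_nonneg _)
    have h3 : |Real.sin θ| * |v p| ≤ 1 * |v p| := mul_le_mul_of_nonneg_right hs (abs_nonneg _)
    linarith
  · linarith

lemma measurable_rot {α : Type*} [MeasurableSpace α] (p q : Fin N) (r : Fin N)
    {f : α → ℝ} (hf : Measurable f) {v : α → Fin N → ℝ} (hv : ∀ i, Measurable fun a => v a i) :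
    Measurable fun a => rot p q (f a) (v a) r := by
  unfold rot
  split_ifs
  · exact ((Real.measurable_cos.comp hf).mul (hv p)).add
      ((Real.measurable_sin.comp hf).mul (hv q))
  · exact ((Real.measurable_cos.comp hf).mul (hv q)).sub
      ((Real.measurable_sin.comp hf).mul (hv p))
  · exact hv r

/-! ### Growth -/

section growth

variable [Fintype ι]

lemma LGr.of_bdd {f : (ι → ℝ) → ℝ} (hm : Measurable f) {C : ℝ} (hb : ∀ y, |f y| ≤ C) : LGr f := by
  have hC : 0 ≤ C := (abs_nonneg _).trans (hb 0)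
  refine ⟨hm, C, hC, fun y => (hb y).trans ?_⟩
  have := norm_nonneg y
  nlinarith

lemma LGr.bmul {f G : (ι → ℝ) → ℝ} (hm : Measurable f) {C : ℝ} (hb : ∀ y, |f y| ≤ C)
    (hG : LGr G) : LGr (fun y => f y * G y) := by
  have hC : 0 ≤ C := (abs_nonneg _).trans (hb 0)
  refine ⟨hm.mul hG.meas, ?_⟩
  obtain ⟨C', hC0', hC'⟩ := hG.bdd
  refine ⟨C * C', by positivity, fun y => ?_⟩
  rw [abs_mul, mul_assoc]
  exact mul_le_mul (hb y) (hC' y) (abs_nonneg _) hC

lemma LGr.abs {G : (ι → ℝ) → ℝ} (hG : LGr G) : LGr (fun y => |G y|) := by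
  obtain ⟨C', hC0', hC'⟩ := hG.bdd
  exact ⟨hG.meas.abs, C', hC0', fun y => by rw [abs_abs]; exact hC' y⟩

lemma LGr.sub {F G : (ι → ℝ) → ℝ} (hF : LGr F) (hG : LGr G) : LGr (fun y => F y - G y) := by
  have h := hF.add (hG.const_mul (-1))
  have e : (fun y => F y + -1 * G y) = fun y => F y - G y := by funext y; ring
  rwa [e] at h

lemma LGr.coord (e : ι) : LGr (fun y : ι → ℝ => y e) := Lip.lgr (Lip.coord e)

/-- Rotated functions of linear growth. -/
lemma LGr.rotF (p q r : Fin N) {θ : (ι → ℝ) → ℝ} (hθ : Measurable θ) {f : (ι → ℝ) → Fin N → ℝ}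
    (hf : ∀ i, LGr fun y => f y i) : LGr fun y => rot p q (θ y) (f y) r := by
  unfold rot
  have hc : ∀ y, |Real.cos (θ y)| ≤ 1 := fun y => Real.abs_cos_le_one _
  have hs : ∀ y, |Real.sin (θ y)| ≤ 1 := fun y => Real.abs_sin_le_one _
  split_ifs
  · exact (LGr.bmul (Real.measurable_cos.comp hθ) hc (hf p)).add
      (LGr.bmul (Real.measurable_sin.comp hθ) hs (hf q))
  · exact (LGr.bmul (Real.measurable_cos.comp hθ) hc (hf q)).sub
      (LGr.bmul (Real.measurable_sin.comp hθ) hs (hf p))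
  · exact hf r

end growth

/-! ### The rotation of the fields -/

namespace GS

variable (A : GS N ι X)

open Classical in
/-- The rotation of the pattern fields. -/
noncomputable def zr (p q : Fin N) (θ : ℝ) (z : ι → ℝ) : ι → ℝ := fun e =>
  if e = A.bc (A.lev e) p then
    Real.cos θ * z (A.bc (A.lev e) p) + Real.sin θ * z (A.bc (A.lev e) q)
  else if e = A.bc (A.lev e) q then
    Real.cos θ * z (A.bc (A.lev e) q) - Real.sin θ * z (A.bc (A.lev e) p)
  else z e

variable {A}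
variable [Fintype ι]

lemma Ok.bc_iff (hA : A.Ok) {l : ℕ} (hl : l ≤ A.K) (i j : Fin N) :
    A.bc l i = A.bc l j ↔ i = j :=
  ⟨fun h => (hA.bcinj l hl l hl i j h).2, fun h => by rw [h]⟩

lemma Ok.zr_bc (hA : A.Ok) (p q : Fin N) (θ : ℝ) (z : ι → ℝ) {l : ℕ} (hl : l ≤ A.K) (i : Fin N) :
    A.zr p q θ z (A.bc l i) = rot p q θ (fun r => z (A.bc l r)) i := by
  unfold zr rot
  rw [hA.bclev l hl i]
  simp only [hA.bc_iff hl]

lemma Ok.zr_ne (hA : A.Ok) (p q : Fin N) (θ : ℝ) (z : ι → ℝ) {e : ι}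
    (he : ∀ l ≤ A.K, ∀ i, e ≠ A.bc l i) : A.zr p q θ z e = z e := by
  unfold zr
  rw [if_neg (he _ (hA.lev e) p), if_neg (he _ (hA.lev e) q)]

lemma Ok.E0_zr (hA : A.Ok) (p q : Fin N) (θ : ℝ) (z : ι → ℝ) (x : X) :
    A.E0 (A.zr p q θ z) x = A.E0 z x :=
  hA.e0 x _ _ fun _ he => hA.zr_ne p q θ z he

open Classical in
lemma Ok.zr_norm (hA : A.Ok) {p q : Fin N} (hpq : p ≠ q) (θ : ℝ) (z : ι → ℝ) :
    ∑ e, A.zr p q θ z e ^ 2 = ∑ e, z e ^ 2 := by
  rw [← sub_eq_zero, ← Finset.sum_sub_distrib]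
  have hl := fun e => hA.lev e
  have hpe : ∀ e, A.lev (A.bc (A.lev e) p) = A.lev e := fun e => hA.bclev _ (hl e) p
  have hqe : ∀ e, A.lev (A.bc (A.lev e) q) = A.lev e := fun e => hA.bclev _ (hl e) q
  have hne : ∀ e, A.bc (A.lev e) p ≠ A.bc (A.lev e) q := fun e h =>
    hpq ((hA.bc_iff (hl e) p q).1 h)
  refine Finset.sum_involution (fun e _ => if e = A.bc (A.lev e) p then A.bc (A.lev e) q else
    if e = A.bc (A.lev e) q then A.bc (A.lev e) p else e) ?_ ?_ (fun _ _ => Finset.mem_univ _) ?_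
  · intro e _
    by_cases h1 : e = A.bc (A.lev e) p
    · simp only [if_pos h1]
      have a1 : A.zr p q θ z e = Real.cos θ * z (A.bc (A.lev e) p) +
          Real.sin θ * z (A.bc (A.lev e) q) := by
        unfold zr; rw [if_pos h1]
      have a2 : A.zr p q θ z (A.bc (A.lev e) q) = Real.cos θ * z (A.bc (A.lev e) q) -
          Real.sin θ * z (A.bc (A.lev e) p) := by
        unfold zr; rw [hqe e, if_neg (hne e).symm, if_pos rfl]
      have a3 : z e = z (A.bc (A.lev e) p) := by rw [← h1]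
      rw [a1, a2, a3]
      have := Real.sin_sq_add_cos_sq θ
      linear_combination (z (A.bc (A.lev e) p) ^ 2 + z (A.bc (A.lev e) q) ^ 2) * this
    · by_cases h2 : e = A.bc (A.lev e) q
      · simp only [if_neg h1, if_pos h2]
        have a1 : A.zr p q θ z e = Real.cos θ * z (A.bc (A.lev e) q) -
            Real.sin θ * z (A.bc (A.lev e) p) := by
          unfold zr; rw [if_neg h1, if_pos h2]
        have a2 : A.zr p q θ z (A.bc (A.lev e) p) = Real.cos θ * z (A.bc (A.lev e) p) +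
            Real.sin θ * z (A.bc (A.lev e) q) := by
          unfold zr; rw [hpe e, if_pos rfl]
        have a3 : z e = z (A.bc (A.lev e) q) := by rw [← h2]
        rw [a1, a2, a3]
        have := Real.sin_sq_add_cos_sq θ
        linear_combination (z (A.bc (A.lev e) p) ^ 2 + z (A.bc (A.lev e) q) ^ 2) * this
      · simp only [if_neg h1, if_neg h2]
        have a1 : A.zr p q θ z e = z e := by unfold zr; rw [if_neg h1, if_neg h2]
        rw [a1]; ring
  · intro e _ hf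
    by_cases h1 : e = A.bc (A.lev e) p
    · rw [if_pos h1]
      intro h
      exact hne e (h1.symm.trans h.symm)
    · by_cases h2 : e = A.bc (A.lev e) q
      · rw [if_neg h1, if_pos h2]
        intro h
        exact h1 h.symm
      · exfalso
        apply hf
        have a1 : A.zr p q θ z e = z e := by unfold zr; rw [if_neg h1, if_neg h2]
        rw [a1]; ring
  · intro e _
    by_cases h1 : e = A.bc (A.lev e) p
    · simp only [if_pos h1, hqe e, if_neg (hne e).symm, if_true]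
      exact h1.symm
    · by_cases h2 : e = A.bc (A.lev e) q
      · simp only [if_neg h1, if_pos h2, hpe e, if_true]
        exact h2.symm
      · simp only [if_neg h1, if_neg h2]

/-- The rotation of the fields as a linear map. -/
noncomputable def zrL (A : GS N ι X) (p q : Fin N) (θ : ℝ) : (ι → ℝ) →ₗ[ℝ] (ι → ℝ) where
  toFun := A.zr p q θ
  map_add' := by
    intro z w
    funext e
    simp only [zr, Pi.add_apply]
    split_ifs <;> ring
  map_smul' := by
    intro c z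
    funext e
    simp only [zr, Pi.smul_apply, smul_eq_mul, RingHom.id_apply]
    split_ifs <;> ring

lemma Ok.rho (hA : A.Ok) {p q : Fin N} (hpq : p ≠ q) (θ : ℝ) : Rho A.lev (A.zr p q θ) := by
  refine ⟨?_, ?_, ?_⟩
  · exact (LinearMap.continuous_of_finiteDimensional (A.zrL p q θ)).measurable
  · exact gauss_iso (A.zrL p q θ) fun z => hA.zr_norm hpq θ z
  · intro l z w
    funext e
    have hl := hA.lev e
    have hpe : A.lev (A.bc (A.lev e) p) = A.lev e := hA.bclev _ hl p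
    have hqe : A.lev (A.bc (A.lev e) q) = A.lev e := hA.bclev _ hl q
    show (if A.lev e ≤ l then A.zr p q θ z e else A.zr p q θ w e) = _
    unfold zr
    simp only [P157.Lv.mix, hpe, hqe]
    split_ifs <;> rfl

end GS

end Vale.Agent.P166.H
end
end

section

section

/-!
The energy of a general system with Haar patterns along a rotation of two patterns.
-/

open MeasureTheory ProbabilityTheory Filter Topology Matrix
open Vale.Agent.P157.Lv Vale.Agent.P157.Lv.Sy

namespace Vale.Agent.P166.H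

open Vale.Agent

set_option linter.unusedSectionVars false

variable {N : ℕ} {ι X : Type}

namespace GS

variable (A : GS N ι X)

lemma y_rotM (p q : Fin N) (θ : ℝ) (U : Matrix (Fin N) (Fin N) ℝ) (x : X) :
    A.y (rotM p q θ * U) x = rot p q θ (A.y U x) := by
  unfold y
  rw [← Matrix.mulVec_mulVec, rotM_mulVec]

/-- The derivative of the energy along the rotation. -/
noncomputable def lD (p q : Fin N) (U : Matrix (Fin N) (Fin N) ℝ) : (ι → ℝ) → X → ℝ := fun z x =>
  (A.lam p - A.lam q) * (A.y U x p * A.y U x q) +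
    (A.kap p x * A.y U x q - A.kap q x * A.y U x p) +
    ∑ l ∈ Finset.range (A.K + 1), (A.u p l - A.u q l) *
      (z (A.bc l q) * A.y U x p + z (A.bc l p) * A.y U x q)

variable {A}
variable [Fintype ι]

lemma Ok.en_rot (hA : A.Ok) (p q : Fin N) (θ : ℝ) (U : Matrix (Fin N) (Fin N) ℝ) (z : ι → ℝ)
    (x : X) : A.en (rotM p q θ * U) (A.zr p q θ z) x = A.E0 z x +
      A.ev (fun l i => rot p q θ (fun r => z (A.bc l r)) i) (rot p q θ (A.y U x)) x := by
  unfold en
  rw [hA.E0_zr, y_rotM]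
  congr 1
  unfold ev
  congr 1
  refine Finset.sum_congr rfl fun l hl => Finset.sum_congr rfl fun i _ => ?_
  beta_reduce
  rw [hA.zr_bc p q θ z (Nat.lt_succ_iff.1 (Finset.mem_range.1 hl)) i]

lemma Ok.lD_rot (hA : A.Ok) (p q : Fin N) (θ : ℝ) (U : Matrix (Fin N) (Fin N) ℝ) (z : ι → ℝ)
    (x : X) : A.lD p q (rotM p q θ * U) (A.zr p q θ z) x =
      (A.lam p - A.lam q) * (rot p q θ (A.y U x) p * rot p q θ (A.y U x) q) +
      (A.kap p x * rot p q θ (A.y U x) q - A.kap q x * rot p q θ (A.y U x) p) +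
      ∑ l ∈ Finset.range (A.K + 1), (A.u p l - A.u q l) *
        (rot p q θ (fun r => z (A.bc l r)) q * rot p q θ (A.y U x) p +
          rot p q θ (fun r => z (A.bc l r)) p * rot p q θ (A.y U x) q) := by
  unfold lD
  rw [y_rotM]
  congr 1
  refine Finset.sum_congr rfl fun l hl => ?_
  rw [hA.zr_bc p q θ z (Nat.lt_succ_iff.1 (Finset.mem_range.1 hl)),
    hA.zr_bc p q θ z (Nat.lt_succ_iff.1 (Finset.mem_range.1 hl))]

theorem Ok.hasDerivAt_en (hA : A.Ok) {p q : Fin N} (hpq : p ≠ q) (U : Matrix (Fin N) (Fin N) ℝ)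
    (z : ι → ℝ) (x : X) (θ : ℝ) :
    HasDerivAt (fun t => A.en (rotM p q t * U) (A.zr p q t z) x)
      (A.lD p q (rotM p q θ * U) (A.zr p q θ z) x) θ := by
  have efun : (fun t => A.en (rotM p q t * U) (A.zr p q t z) x) = fun t => A.E0 z x +
      A.ev (fun l i => rot p q t (fun r => z (A.bc l r)) i) (rot p q t (A.y U x)) x :=
    funext fun t => hA.en_rot p q t U z x
  rw [efun, hA.lD_rot]
  set v := A.y U x with hv
  have hr := fun r => hasDerivAt_rot hpq v r θ
  have hw := fun l r => hasDerivAt_rot hpq (fun r => z (A.bc l r)) r θ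
  have h1 : HasDerivAt (fun t => ∑ i, A.lam i / 2 * rot p q t v i ^ 2)
      (∑ i, A.lam i * rot p q θ v i * rot' p q (rot p q θ v) i) θ := by
    refine HasDerivAt.fun_sum fun i _ => ?_
    refine (((hr i).pow 2).const_mul (A.lam i / 2)).congr_deriv ?_
    push_cast
    ring
  have h2 : HasDerivAt (fun t => ∑ i, A.kap i x * rot p q t v i)
      (∑ i, A.kap i x * rot' p q (rot p q θ v) i) θ :=
    HasDerivAt.fun_sum fun i _ => (hr i).const_mul (A.kap i x)
  have h3 : HasDerivAt (fun t => ∑ l ∈ Finset.range (A.K + 1), ∑ i,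
      A.u i l * (rot p q t (fun r => z (A.bc l r)) i * rot p q t v i))
      (∑ l ∈ Finset.range (A.K + 1), (∑ i, (A.u i l * rot p q θ v i) *
        rot' p q (rot p q θ (fun r => z (A.bc l r))) i +
        ∑ i, (A.u i l * rot p q θ (fun r => z (A.bc l r)) i) * rot' p q (rot p q θ v) i)) θ := by
    refine HasDerivAt.fun_sum fun l _ => ?_
    rw [← Finset.sum_add_distrib]
    refine HasDerivAt.fun_sum fun i _ => ?_
    refine (((hw l i).mul (hr i)).const_mul (A.u i l)).congr_deriv ?_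
    ring
  have h4 : HasDerivAt (fun t => A.ev (fun l i => rot p q t (fun r => z (A.bc l r)) i)
      (rot p q t v) x) _ θ := (h1.add h2).add h3
  refine (h4.const_add (A.E0 z x)).congr_deriv ?_
  simp only [sum_rot' hpq]
  refine congrArg₂ (· + ·) ?_ ?_
  · ring
  · refine Finset.sum_congr rfl fun l _ => ?_
    ring

/-- The family of the rotations. -/
noncomputable def rH (A : GS N ι X) (p q : Fin N) (U : Matrix (Fin N) (Fin N) ℝ) (θ : ℝ) :
    (ι → ℝ) → X → ℝ := fun z x => A.en (rotM p q θ * U) (A.zr p q θ z) x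

lemma lgr_E0 (hA : A.Ok) (x : X) : LGr fun y : Option ι → ℝ => A.E0 (rs y) x := by
  obtain ⟨hm, C, hC0, hC⟩ := Lip.lgr (hA.lip x)
  refine ⟨hm.comp measurable_rs, C, hC0, fun y => (hC _).trans ?_⟩
  have : ‖rs y‖ ≤ ‖y‖ := by
    rw [pi_norm_le_iff_of_nonneg (norm_nonneg _)]
    intro e
    exact norm_le_pi_norm y (some e)
  exact mul_le_mul_of_nonneg_left (by linarith) hC0

/-- Bounded measurable functions of the parameter. -/
structure BP (f : (Option ι → ℝ) → ℝ) : Prop where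
  meas : Measurable f
  bdd : ∃ C, ∀ y, |f y| ≤ C

lemma bp_rot (p q r : Fin N) (v : Fin N → ℝ) : BP fun y : Option ι → ℝ => rot p q (y none) v r :=
  ⟨measurable_rot p q r (measurable_pi_apply none) fun _ => measurable_const,
    _, fun y => abs_rot_le p q (y none) v r⟩

lemma BP.mul {f g : (Option ι → ℝ) → ℝ} (hf : BP f) (hg : BP g) : BP fun y => f y * g y := by
  obtain ⟨C, hC⟩ := hf.bdd
  obtain ⟨C', hC'⟩ := hg.bdd
  refine ⟨hf.meas.mul hg.meas, C * C', fun y => ?_⟩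
  rw [abs_mul]
  exact mul_le_mul (hC y) (hC' y) (abs_nonneg _) ((abs_nonneg _).trans (hC y))

lemma BP.const_mul {f : (Option ι → ℝ) → ℝ} (hf : BP f) (c : ℝ) : BP fun y => c * f y :=
  BP.mul ⟨measurable_const, |c|, fun _ => le_rfl⟩ hf

lemma BP.lgr {f : (Option ι → ℝ) → ℝ} (hf : BP f) : LGr f := by
  obtain ⟨C, hC⟩ := hf.bdd
  exact LGr.of_bdd hf.meas hC

lemma BP.lmul {f g : (Option ι → ℝ) → ℝ} (hf : BP f) (hg : LGr g) : LGr fun y => f y * g y := by
  obtain ⟨C, hC⟩ := hf.bdd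
  exact LGr.bmul hf.meas hC hg

lemma lgr_rotz (A : GS N ι X) (p q r : Fin N) (l : ℕ) :
    LGr fun y : Option ι → ℝ => rot p q (y none) (fun r => rs y (A.bc l r)) r :=
  LGr.rotF p q r (measurable_pi_apply none) (f := fun y r => rs y (A.bc l r))
    fun i => LGr.coord (ι := Option ι) (some (A.bc l i))

variable [Fintype X] [Nonempty X]

theorem Ok.fam_regG (hA : A.Ok) (p q : Fin N) (U : Matrix (Fin N) (Fin N) ℝ) :
    RegG (fam (A.sy U) (A.rH p q U)) := by
  refine ⟨hA.m0, hA.mK, hA.mono, hA.pos, ?_, fun x => ?_⟩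
  · intro e
    cases e with
    | none => exact Nat.zero_le _
    | some e => exact hA.lev e
  · show LGr fun y : Option ι → ℝ => A.en (rotM p q (y none) * U) (A.zr p q (y none) (rs y)) x
    have e : (fun y : Option ι → ℝ => A.en (rotM p q (y none) * U) (A.zr p q (y none) (rs y)) x) =
        fun y => A.E0 (rs y) x + A.ev (fun l i => rot p q (y none) (fun r => rs y (A.bc l r)) i)
          (rot p q (y none) (A.y U x)) x := funext fun y => hA.en_rot p q _ U _ x
    rw [e]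
    refine (lgr_E0 hA x).add ?_
    unfold ev
    have hb := fun r => bp_rot (ι := ι) p q r (A.y U x)
    refine LGr.add (LGr.add ?_ ?_) ?_
    · refine LGr.sum _ fun i _ => ?_
      have h := (((hb i).mul (hb i)).const_mul (A.lam i / 2)).lgr
      simp only [sq]
      exact h
    · exact LGr.sum _ fun i _ => ((hb i).lgr).const_mul _
    · refine LGr.sum _ fun l _ => LGr.sum _ fun i _ => LGr.const_mul ?_ _
      have h := (hb i).lmul (lgr_rotz A p q i l)
      have e : (fun y : Option ι → ℝ => rot p q (y none) (fun r => rs y (A.bc l r)) i *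
          rot p q (y none) (A.y U x) i) = fun y => rot p q (y none) (A.y U x) i *
          rot p q (y none) (fun r => rs y (A.bc l r)) i := by funext y; ring
      rw [e]
      exact h

/-- The derivative of the energy of the family. -/
noncomputable def rD (A : GS N ι X) (p q : Fin N) (U : Matrix (Fin N) (Fin N) ℝ) :
    (Option ι → ℝ) → X → ℝ := fun y x =>
  A.lD p q (rotM p q (y none) * U) (A.zr p q (y none) (rs y)) x

theorem Ok.fam_regE (hA : A.Ok) {p q : Fin N} (hpq : p ≠ q) (U : Matrix (Fin N) (Fin N) ℝ)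
    [DecidableEq ι] : RegE (fam (A.sy U) (A.rH p q U)) none (A.rD p q U) := by
  refine ⟨hA.fam_regG p q U, fun x y θ => ?_, fun x => LGr.eg ?_⟩
  · have h := hA.hasDerivAt_en hpq U (rs y) x θ
    have e : ∀ t : ℝ, rs (Function.update y none t) = rs y := by
      intro t; funext e; simp only [rs, ne_eq, reduceCtorEq, not_false_eq_true, Function.update_of_ne]
    show HasDerivAt (fun t => A.en (rotM p q ((Function.update y none t) none) * U)
      (A.zr p q ((Function.update y none t) none) (rs (Function.update y none t))) x)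
      (A.lD p q (rotM p q ((Function.update y none θ) none) * U)
        (A.zr p q ((Function.update y none θ) none) (rs (Function.update y none θ))) x) θ
    simp only [e, Function.update_self]
    exact h
  · have e : (fun y : Option ι → ℝ => A.rD p q U y x) = fun y =>
        (A.lam p - A.lam q) * (rot p q (y none) (A.y U x) p * rot p q (y none) (A.y U x) q) +
      (A.kap p x * rot p q (y none) (A.y U x) q - A.kap q x * rot p q (y none) (A.y U x) p) +
      ∑ l ∈ Finset.range (A.K + 1), (A.u p l - A.u q l) *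
        (rot p q (y none) (fun r => rs y (A.bc l r)) q * rot p q (y none) (A.y U x) p +
          rot p q (y none) (fun r => rs y (A.bc l r)) p * rot p q (y none) (A.y U x) q) :=
      funext fun y => hA.lD_rot p q _ U _ x
    rw [e]
    have hb := fun r => bp_rot (ι := ι) p q r (A.y U x)
    refine LGr.add (LGr.add (((hb p).mul (hb q)).const_mul _).lgr
      (((hb q).lgr.const_mul _).sub ((hb p).lgr.const_mul _))) (LGr.sum _ fun l _ =>
        LGr.const_mul ?_ _)
    have h1 := (hb p).lmul (lgr_rotz A p q q l)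
    have h2 := (hb q).lmul (lgr_rotz A p q p l)
    have e : (fun y : Option ι → ℝ => rot p q (y none) (fun r => rs y (A.bc l r)) q *
        rot p q (y none) (A.y U x) p + rot p q (y none) (fun r => rs y (A.bc l r)) p *
          rot p q (y none) (A.y U x) q) = fun y =>
        rot p q (y none) (A.y U x) p * rot p q (y none) (fun r => rs y (A.bc l r)) q +
        rot p q (y none) (A.y U x) q * rot p q (y none) (fun r => rs y (A.bc l r)) p := by
      funext y; ring
    rw [e]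
    exact h1.add h2

end GS

end Vale.Agent.P166.H
end
end

section

section

/-!
Derivatives of the averages of a system with Haar patterns along a rotation of two patterns.
-/

open MeasureTheory ProbabilityTheory Filter Topology Matrix
open Vale.Agent.P157.Lv Vale.Agent.P157.Lv.Sy

namespace Vale.Agent.P166.H

open Vale.Agent

set_option linter.unusedSectionVars false

variable {N : ℕ} {ι X : Type} [Fintype ι] [Fintype X] [Nonempty X]

/-- The kernels in the coordinates seen through `ρ`. -/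
lemma W0_pb {S : Sy ι X} {ρ : (ι → ℝ) → (ι → ℝ)} (hS : RegG S) (hρ : Rho S.lev ρ) (f : X → ℝ)
    (z : ι → ℝ) (x : X) : W0 (pb S ρ) (fun _ => f) z x = W0 S (fun _ => f) (ρ z) x := by
  unfold W0
  congr 1
  refine Finset.sum_congr rfl fun i hi => ?_
  have h := hρ.T hS (Nat.lt_succ_iff.1 (Finset.mem_range.1 hi)) (h := fun _ => f) (Nh.snd f) z
  exact congrArg (fun t => S.p i * t) h

lemma W_pb {S : Sy ι X} {ρ : (ι → ℝ) → (ι → ℝ)} (hS : RegG S) (hρ : Rho S.lev ρ) {l : ℕ}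
    (hl : l ≤ S.K) (f g : X → ℝ) (z : ι → ℝ) (x : X) :
    W (pb S ρ) l (fun _ => f) (fun _ => g) z x = W S l (fun _ => f) (fun _ => g) (ρ z) x := by
  have tT : ∀ (f : X → ℝ) {i : ℕ}, i ≤ S.K → ∀ z, (pb S ρ).T i (fun _ => f) z =
      S.T i (fun _ => f) (ρ z) := fun f i hi z => hρ.T hS hi (h := fun _ => f) (Nh.snd f) z
  have nT : ∀ (f : X → ℝ), Nh (X := X) fun z _ => S.T l (fun _ => f) z := fun f =>
    Nh.fst (hS.eg_T hl (Nh.snd f))
  have tTT : ∀ {i : ℕ}, i ≤ S.K → ∀ z, (pb S ρ).T i (fun z _ => (pb S ρ).T l (fun _ => f) z *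
      (pb S ρ).T l (fun _ => g) z) z = S.T i (fun z _ => S.T l (fun _ => f) z *
        S.T l (fun _ => g) z) (ρ z) := by
    intro i hi z
    have h := hρ.T hS hi (Nh.mul (nT f) (nT g)) z
    rw [← h]
    congr 1
    funext z _
    rw [tT f hl, tT g hl]
  unfold W
  rw [tT f hl, tT g hl]
  refine congrArg₂ (· - ·) (congrArg₂ (· + ·) (congrArg₂ (· - ·) rfl ?_) rfl) ?_
  · refine Finset.sum_congr rfl fun i hi => ?_
    have hi' : i ≤ S.K := Nat.lt_succ_iff.1 (Finset.mem_Ico.1 hi).2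
    rw [tT f hi', tT g hi']
    rfl
  · refine Finset.sum_congr rfl fun i hi => ?_
    have hi' : i ≤ S.K := (Finset.mem_range.1 hi).le.trans hl
    rw [tTT hi']
    rfl

/-- Test functions which depend on the matrix, with their derivatives along the rotations of
`p` and `q`. -/
structure MT (N : ℕ) (X : Type) (p q : Fin N) (f f' : Matrix (Fin N) (Fin N) ℝ → X → ℝ) :
    Prop where
  der : ∀ U x θ, HasDerivAt (fun t => f (rotM p q t * U) x) (f' (rotM p q θ * U) x) θ
  cont' : ∀ U x, Continuous fun t => f' (rotM p q t * U) x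
  bdd : ∀ U, ∃ C, ∀ t x, |f (rotM p q t * U) x| ≤ C
  bdd' : ∀ U, ∃ C, ∀ t x, |f' (rotM p q t * U) x| ≤ C

lemma MT.tf {p q : Fin N} {f f' : Matrix (Fin N) (Fin N) ℝ → X → ℝ} (h : MT N X p q f f')
    (U : Matrix (Fin N) (Fin N) ℝ) :
    TF (fun t => f (rotM p q t * U)) (fun t => f' (rotM p q t * U)) :=
  ⟨fun x θ => h.der U x θ, fun x => (h.cont' U x).measurable, h.bdd U, h.bdd' U⟩

lemma MT.const (p q : Fin N) (ε : X → ℝ) : MT N X p q (fun _ => ε) (fun _ _ => 0) := by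
  refine ⟨fun U x θ => hasDerivAt_const θ (ε x), fun _ _ => continuous_const,
    fun U => ⟨∑ x, |ε x|, fun t x => ?_⟩, fun U => ⟨0, fun t x => by simp⟩⟩
  exact Finset.single_le_sum (f := fun x => |ε x|) (fun x _ => abs_nonneg _) (Finset.mem_univ x)

lemma continuous_rot (p q r : Fin N) (v : Fin N → ℝ) : Continuous fun t => rot p q t v r := by
  unfold rot
  split_ifs
  · exact (Real.continuous_cos.mul continuous_const).add (Real.continuous_sin.mul continuous_const)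
  · exact (Real.continuous_cos.mul continuous_const).sub (Real.continuous_sin.mul continuous_const)
  · exact continuous_const

/-- The coordinate of a pattern, times a function. -/
lemma MT.coord (A : GS N ι X) {p q : Fin N} (hpq : p ≠ q) (r : Fin N) (ε : X → ℝ) :
    MT N X p q (fun U x => ε x * A.y U x r) (fun U x => ε x * rot' p q (A.y U x) r) := by
  refine ⟨fun U x θ => ?_, fun U x => ?_, fun U => ?_, fun U => ?_⟩
  · simp only [GS.y_rotM]
    exact (hasDerivAt_rot hpq (A.y U x) r θ).const_mul (ε x)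
  · simp only [GS.y_rotM]
    unfold rot'
    split_ifs
    · exact continuous_const.mul (continuous_rot p q q _)
    · exact continuous_const.mul (continuous_rot p q p _).neg
    · exact continuous_const.mul continuous_const
  · refine ⟨∑ x, |ε x| * (2 * ∑ i, |A.y U x i|), fun t x => ?_⟩
    rw [GS.y_rotM, abs_mul]
    refine (mul_le_mul_of_nonneg_left (abs_rot_le p q t (A.y U x) r) (abs_nonneg _)).trans ?_
    exact Finset.single_le_sum (f := fun x => |ε x| * (2 * ∑ i, |A.y U x i|)) (fun x _ => by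
      have : 0 ≤ ∑ i, |A.y U x i| := Finset.sum_nonneg fun i _ => abs_nonneg _
      positivity) (Finset.mem_univ x)
  · refine ⟨∑ x, |ε x| * (2 * ∑ i, |A.y U x i|), fun t x => ?_⟩
    have h1 : |rot' p q (A.y (rotM p q t * U) x) r| ≤ 2 * ∑ i, |A.y U x i| := by
      rw [GS.y_rotM]
      unfold rot'
      have h0 : 0 ≤ ∑ i, |A.y U x i| := Finset.sum_nonneg fun i _ => abs_nonneg _
      split_ifs
      · exact abs_rot_le p q t (A.y U x) q
      · rw [abs_neg]; exact abs_rot_le p q t (A.y U x) p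
      · rw [abs_zero]; positivity
    rw [abs_mul]
    refine (mul_le_mul_of_nonneg_left h1 (abs_nonneg _)).trans ?_
    exact Finset.single_le_sum (f := fun x => |ε x| * (2 * ∑ i, |A.y U x i|)) (fun x _ => by
      have : 0 ≤ ∑ i, |A.y U x i| := Finset.sum_nonneg fun i _ => abs_nonneg _
      positivity) (Finset.mem_univ x)

lemma MT.add {p q : Fin N} {f f' g g' : Matrix (Fin N) (Fin N) ℝ → X → ℝ}
    (hf : MT N X p q f f') (hg : MT N X p q g g') :
    MT N X p q (fun U x => f U x + g U x) (fun U x => f' U x + g' U x) := by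
  refine ⟨fun U x θ => (hf.der U x θ).add (hg.der U x θ),
    fun U x => (hf.cont' U x).add (hg.cont' U x), fun U => ?_, fun U => ?_⟩
  · obtain ⟨C, hC⟩ := hf.bdd U
    obtain ⟨C', hC'⟩ := hg.bdd U
    exact ⟨C + C', fun t x => (abs_add_le _ _).trans (add_le_add (hC t x) (hC' t x))⟩
  · obtain ⟨C, hC⟩ := hf.bdd' U
    obtain ⟨C', hC'⟩ := hg.bdd' U
    exact ⟨C + C', fun t x => (abs_add_le _ _).trans (add_le_add (hC t x) (hC' t x))⟩

lemma MT.mul {p q : Fin N} {f f' g g' : Matrix (Fin N) (Fin N) ℝ → X → ℝ}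
    (hf : MT N X p q f f') (hg : MT N X p q g g') :
    MT N X p q (fun U x => f U x * g U x) (fun U x => f' U x * g U x + f U x * g' U x) := by
  refine ⟨fun U x θ => (hf.der U x θ).mul (hg.der U x θ), fun U x => ?_, fun U => ?_, fun U => ?_⟩
  · have c1 : Continuous fun t => f (rotM p q t * U) x :=
      continuous_iff_continuousAt.2 fun t => (hf.der U x t).continuousAt
    have c2 : Continuous fun t => g (rotM p q t * U) x :=
      continuous_iff_continuousAt.2 fun t => (hg.der U x t).continuousAt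
    exact ((hf.cont' U x).mul c2).add (c1.mul (hg.cont' U x))
  · obtain ⟨C, hC⟩ := hf.bdd U
    obtain ⟨C', hC'⟩ := hg.bdd U
    refine ⟨C * C', fun t x => ?_⟩
    rw [abs_mul]
    exact mul_le_mul (hC t x) (hC' t x) (abs_nonneg _) ((abs_nonneg _).trans (hC t x))
  · obtain ⟨C, hC⟩ := hf.bdd U
    obtain ⟨C', hC'⟩ := hg.bdd U
    obtain ⟨D, hD⟩ := hf.bdd' U
    obtain ⟨D', hD'⟩ := hg.bdd' U
    refine ⟨D * C' + C * D', fun t x => (abs_add_le _ _).trans (add_le_add ?_ ?_)⟩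
    · rw [abs_mul]
      exact mul_le_mul (hD t x) (hC' t x) (abs_nonneg _) ((abs_nonneg _).trans (hD t x))
    · rw [abs_mul]
      exact mul_le_mul (hC t x) (hD' t x) (abs_nonneg _) ((abs_nonneg _).trans (hC t x))

namespace GS

variable (A : GS N ι X)

/-- The average of the product of two test functions of two replicas which split at `l`. -/
noncomputable def Ph (l : ℕ) (f g : Matrix (Fin N) (Fin N) ℝ → X → ℝ)
    (U : Matrix (Fin N) (Fin N) ℝ) : ℝ :=
  (A.sy U).Ex (fun z _ => (A.sy U).T l (fun _ => f U) z * (A.sy U).T l (fun _ => g U) z)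

/-- Its derivative along the rotations. -/
noncomputable def Vf (p q : Fin N) (l : ℕ) (f f' g g' : Matrix (Fin N) (Fin N) ℝ → X → ℝ)
    (U : Matrix (Fin N) (Fin N) ℝ) : ℝ :=
  (A.sy U).Ex (fun z x => ((A.sy U).T l (fun _ => g U) z * f' U x +
    (A.sy U).T l (fun _ => f U) z * g' U x) +
    A.lD p q U z x * W (A.sy U) l (fun _ => f U) (fun _ => g U) z x)

/-- The average of a test function. -/
noncomputable def P1 (f : Matrix (Fin N) (Fin N) ℝ → X → ℝ)
    (U : Matrix (Fin N) (Fin N) ℝ) : ℝ := (A.sy U).Ex (fun _ => f U)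

/-- Its derivative along the rotations. -/
noncomputable def V1 (p q : Fin N) (f f' : Matrix (Fin N) (Fin N) ℝ → X → ℝ)
    (U : Matrix (Fin N) (Fin N) ℝ) : ℝ :=
  (A.sy U).Ex (fun z x => f' U x + A.lD p q U z x * W0 (A.sy U) (fun _ => f U) z x)

variable {A}

lemma Ok.lip_en (hA : A.Ok) (U : Matrix (Fin N) (Fin N) ℝ) (x : X) :
    Lip fun z => A.en U z x := by
  unfold en ev
  refine (hA.lip x).add (((Lip.const _).add (Lip.const _)).add (Lip.sum _ fun l _ =>
    Lip.sum _ fun i _ => ?_))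
  have h := (Lip.coord (ι := ι) (A.bc l i)).const_mul (A.u i l * A.y U x i)
  have e : (fun z : ι → ℝ => A.u i l * (z (A.bc l i) * A.y U x i)) =
      fun z => A.u i l * A.y U x i * z (A.bc l i) := by funext z; ring
  rw [e]
  exact h

lemma Ok.reg (hA : A.Ok) (U : Matrix (Fin N) (Fin N) ℝ) : (A.sy U).Reg :=
  ⟨hA.m0, hA.mK, hA.mono, hA.pos, hA.lev, fun x => hA.lip_en U x⟩

lemma Ok.regG (hA : A.Ok) (U : Matrix (Fin N) (Fin N) ℝ) : RegG (A.sy U) :=
  RegG.of_reg (hA.reg U)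

lemma nh_lD (A : GS N ι X) (p q : Fin N) (U : Matrix (Fin N) (Fin N) ℝ) : Nh (A.lD p q U) := by
  intro x
  unfold lD
  refine ((EG.const _).add (EG.const _)).add (EG.sum _ fun l _ => EG.const_mul _ ?_)
  exact ((EG.coord _).mul (EG.const _)).add ((EG.coord _).mul (EG.const _))

lemma nh_W0 {S : Sy ι X} (hS : RegG S) (f : X → ℝ) : Nh (W0 S fun _ => f) :=
  Nh.sub (Nh.snd f) (Nh.sum _ fun i hi => Nh.const_mul _ (Nh.fst (hS.eg_T
    (Nat.lt_succ_iff.1 (Finset.mem_range.1 hi)) (Nh.snd f))))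

lemma nh_W {S : Sy ι X} (hS : RegG S) {l : ℕ} (hl : l ≤ S.K) (f g : X → ℝ) :
    Nh (W S l (fun _ => f) fun _ => g) := by
  have hT : ∀ (f : X → ℝ), ∀ i ≤ S.K, Nh (X := X) fun z _ => S.T i (fun _ => f) z :=
    fun f i hi => Nh.fst (hS.eg_T hi (Nh.snd f))
  refine Nh.sub (Nh.add (Nh.sub (Nh.add (Nh.mul (Nh.snd f) (hT g l hl))
    (Nh.mul (hT f l hl) (Nh.snd g))) (Nh.sum _ fun i hi => Nh.const_mul _ ?_))
    (Nh.const_mul _ (Nh.mul (hT f l hl) (hT g l hl)))) (Nh.sum _ fun i hi => Nh.const_mul _ ?_)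
  · have hi' := Nat.lt_succ_iff.1 (Finset.mem_Ico.1 hi).2
    exact Nh.add (Nh.mul (hT f i hi') (hT g l hl)) (Nh.mul (hT f l hl) (hT g i hi'))
  · exact Nh.fst (hS.eg_T ((Finset.mem_range.1 hi).le.trans hl) (Nh.mul (hT f l hl) (hT g l hl)))

variable [DecidableEq ι]

/-- One replica. -/
theorem Ok.der_one (hA : A.Ok) {p q : Fin N} (hpq : p ≠ q)
    {f f' : Matrix (Fin N) (Fin N) ℝ → X → ℝ} (hf : MT N X p q f f')
    (U : Matrix (Fin N) (Fin N) ℝ) (θ : ℝ) :
    HasDerivAt (fun t => A.P1 f (rotM p q t * U)) (A.V1 p q f f' (rotM p q θ * U)) θ := by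
  have h := hasDerivAt_one (hA.fam_regE hpq U) (hf.tf U) θ
  have e1 : ∀ t, A.P1 f (rotM p q t * U) =
      ((A.sy U).wH (A.rH p q U t)).Ex (fun _ x => f (rotM p q t * U) x) := by
    intro t
    have hR := (hA.rho hpq t).Ex (hA.regG (rotM p q t * U)) (Nh.snd (f (rotM p q t * U)))
    exact hR.symm
  have e2 : A.V1 p q f f' (rotM p q θ * U) = ((A.sy U).wH (A.rH p q U θ)).Ex (fun z x =>
      f' (rotM p q θ * U) x + A.rD p q U (cn θ z) x *
        W0 ((A.sy U).wH (A.rH p q U θ)) (fun _ => f (rotM p q θ * U)) z x) := by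
    have hS := hA.regG (rotM p q θ * U)
    have hρ := hA.rho hpq θ
    have hR := hρ.Ex hS (h := fun z x => f' (rotM p q θ * U) x +
      A.lD p q (rotM p q θ * U) z x * W0 (A.sy (rotM p q θ * U)) (fun _ => f (rotM p q θ * U)) z x)
      (Nh.add (Nh.snd _) (Nh.mul (A.nh_lD p q _) (nh_W0 hS _)))
    unfold V1
    rw [← hR]
    show (pb (A.sy (rotM p q θ * U)) (A.zr p q θ)).Ex _ =
      (pb (A.sy (rotM p q θ * U)) (A.zr p q θ)).Ex _
    congr 1
    funext z x
    rw [← W0_pb hS hρ (f (rotM p q θ * U)) z x]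
    rfl
  simp only [e1, e2]
  exact h

/-- Two replicas. -/
theorem Ok.der_pair (hA : A.Ok) {p q : Fin N} (hpq : p ≠ q) {l : ℕ} (hl : l ≤ A.K)
    {f f' g g' : Matrix (Fin N) (Fin N) ℝ → X → ℝ} (hf : MT N X p q f f') (hg : MT N X p q g g')
    (U : Matrix (Fin N) (Fin N) ℝ) (θ : ℝ) :
    HasDerivAt (fun t => A.Ph l f g (rotM p q t * U)) (A.Vf p q l f f' g g' (rotM p q θ * U))
      θ := by
  have h := hasDerivAt_pair (hA.fam_regE hpq U) (l := l) hl (hf.tf U) (hg.tf U) θ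
  have e1 : ∀ t, A.Ph l f g (rotM p q t * U) =
      ((A.sy U).wH (A.rH p q U t)).Ex (fun z _ =>
        ((A.sy U).wH (A.rH p q U t)).T l (fun _ x => f (rotM p q t * U) x) z *
        ((A.sy U).wH (A.rH p q U t)).T l (fun _ x => g (rotM p q t * U) x) z) := by
    intro t
    have hS := hA.regG (rotM p q t * U)
    have hρ := hA.rho hpq t
    have hR := hρ.Ex hS (h := fun z _ => (A.sy (rotM p q t * U)).T l
      (fun _ => f (rotM p q t * U)) z * (A.sy (rotM p q t * U)).T l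
      (fun _ => g (rotM p q t * U)) z)
      (Nh.fst ((hS.eg_T hl (Nh.snd _)).mul (hS.eg_T hl (Nh.snd _))))
    unfold Ph
    rw [← hR]
    show (pb (A.sy (rotM p q t * U)) (A.zr p q t)).Ex _ =
      (pb (A.sy (rotM p q t * U)) (A.zr p q t)).Ex _
    congr 1
    funext z x
    rw [← hρ.T hS hl (h := fun _ => f (rotM p q t * U)) (Nh.snd _) z,
      ← hρ.T hS hl (h := fun _ => g (rotM p q t * U)) (Nh.snd _) z]
    rfl
  have e2 : A.Vf p q l f f' g g' (rotM p q θ * U) = ((A.sy U).wH (A.rH p q U θ)).Ex (fun z x =>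
      (((A.sy U).wH (A.rH p q U θ)).T l (fun _ x => g (rotM p q θ * U) x) z *
        f' (rotM p q θ * U) x + ((A.sy U).wH (A.rH p q U θ)).T l
          (fun _ x => f (rotM p q θ * U) x) z * g' (rotM p q θ * U) x) +
      A.rD p q U (cn θ z) x * W ((A.sy U).wH (A.rH p q U θ)) l
        (fun _ => f (rotM p q θ * U)) (fun _ => g (rotM p q θ * U)) z x) := by
    have hS := hA.regG (rotM p q θ * U)
    have hρ := hA.rho hpq θ
    have hR := hρ.Ex hS (h := fun z x => ((A.sy (rotM p q θ * U)).T l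
        (fun _ => g (rotM p q θ * U)) z * f' (rotM p q θ * U) x +
        (A.sy (rotM p q θ * U)).T l (fun _ => f (rotM p q θ * U)) z * g' (rotM p q θ * U) x) +
      A.lD p q (rotM p q θ * U) z x * W (A.sy (rotM p q θ * U)) l
        (fun _ => f (rotM p q θ * U)) (fun _ => g (rotM p q θ * U)) z x)
      (Nh.add (Nh.add (Nh.mul (Nh.fst (hS.eg_T hl (Nh.snd _))) (Nh.snd _))
        (Nh.mul (Nh.fst (hS.eg_T hl (Nh.snd _))) (Nh.snd _)))
        (Nh.mul (A.nh_lD p q _) (nh_W hS hl _ _)))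
    unfold Vf
    rw [← hR]
    show (pb (A.sy (rotM p q θ * U)) (A.zr p q θ)).Ex _ =
      (pb (A.sy (rotM p q θ * U)) (A.zr p q θ)).Ex _
    congr 1
    funext z x
    rw [← W_pb hS hρ hl (f (rotM p q θ * U)) (g (rotM p q θ * U)) z x,
      ← hρ.T hS hl (h := fun _ => f (rotM p q θ * U)) (Nh.snd _) z,
      ← hρ.T hS hl (h := fun _ => g (rotM p q θ * U)) (Nh.snd _) z]
    rfl
  simp only [e1, e2]
  exact h

end GS

end Vale.Agent.P166.H
end
end

section

section

/-!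
Bounds for the averages of a system with Haar patterns.
-/

open MeasureTheory ProbabilityTheory Filter Topology Matrix
open Vale.Agent.P157.Lv Vale.Agent.P157.Lv.Sy

namespace Vale.Agent.P166.H

open Vale.Agent

set_option linter.unusedSectionVars false

variable {N : ℕ} {ι X : Type} [Fintype ι] [Fintype X] [Nonempty X]

section general

variable {S : Sy ι X}

lemma p_nonneg (hS : RegG S) {i : ℕ} (hi : i ≤ S.K) : 0 ≤ S.p i := sub_nonneg.2 (hS.mono i hi)

/-- A pointwise bound. -/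
lemma RegG.abs_Ex_le_of (hS : RegG S) {f g : (ι → ℝ) → X → ℝ} (hf : Nh f) (hg : Nh g)
    (h : ∀ z x, |f z x| ≤ g z x) : |S.Ex f| ≤ S.Ex g :=
  (hS.abs_Ex_le hf).trans (hS.Ex_mono (Nh.abs hf) hg h)

lemma RegG.Ex_le_const (hS : RegG S) {f : (ι → ℝ) → X → ℝ} (hf : Nh f) {C : ℝ}
    (h : ∀ z x, f z x ≤ C) : S.Ex f ≤ C := by
  have := hS.Ex_mono hf (fun _ => EG.const C) h
  rwa [hS.Ex_const] at this

lemma RegG.abs_Ex_le_const (hS : RegG S) {f : (ι → ℝ) → X → ℝ} (hf : Nh f) {C : ℝ}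
    (h : ∀ z x, |f z x| ≤ C) : |S.Ex f| ≤ C :=
  (hS.abs_Ex_le hf).trans (hS.Ex_le_const (Nh.abs hf) h)

lemma RegG.Ex_nonneg (hS : RegG S) {f : (ι → ℝ) → X → ℝ} (hf : Nh f) (h : ∀ z x, 0 ≤ f z x) :
    0 ≤ S.Ex f := by
  have := hS.Ex_mono (fun _ => EG.const 0) hf h
  rwa [hS.Ex_const] at this

lemma sum_p_le (hS : RegG S) {a b : ℕ} (hab : a ≤ b) (hb : b ≤ S.K + 1) :
    ∑ i ∈ Finset.Ico a b, S.p i ≤ 1 := by
  rw [sum_p_Ico S hab]
  have h1 := hS.m_le_one hb
  have h2 : 0 ≤ S.m a := by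
    have := hS.m_mono (Nat.zero_le a) (hab.trans hb)
    rwa [hS.m0] at this
  linarith only [h1, h2]

/-- A weighted sum of bounded functions. -/
lemma abs_sum_p_le (hS : RegG S) {a b : ℕ} (hab : a ≤ b) (hb : b ≤ S.K + 1) {f : ℕ → ℝ} {C : ℝ}
    (hC : 0 ≤ C) (hf : ∀ i ∈ Finset.Ico a b, |f i| ≤ C) :
    |∑ i ∈ Finset.Ico a b, S.p i * f i| ≤ C := by
  have h1 : |∑ i ∈ Finset.Ico a b, S.p i * f i| ≤ ∑ i ∈ Finset.Ico a b, S.p i * C := by
    refine (Finset.abs_sum_le_sum_abs _ _).trans (Finset.sum_le_sum fun i hi => ?_)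
    have hp := p_nonneg hS (i := i) (by have := (Finset.mem_Ico.1 hi).2; omega)
    rw [abs_mul, abs_of_nonneg hp]
    exact mul_le_mul_of_nonneg_left (hf i hi) hp
  rw [← Finset.sum_mul] at h1
  have h2 := sum_p_le hS hab hb
  nlinarith only [h1, hC, h2]

lemma abs_W0_le (hS : RegG S) {f : X → ℝ} {a : ℝ} (ha : ∀ x, |f x| ≤ a) (z : ι → ℝ) (x : X) :
    |W0 S (fun _ => f) z x| ≤ 2 * a := by
  have ha0 : 0 ≤ a := (abs_nonneg _).trans (ha x)
  have h1 : |∑ i ∈ Finset.Ico 0 (S.K + 1), S.p i * S.T i (fun _ => f) z| ≤ a :=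
    abs_sum_p_le hS (Nat.zero_le _) le_rfl ha0 fun i hi =>
      hS.abs_T_le (Nat.lt_succ_iff.1 (Finset.mem_Ico.1 hi).2) (Nh.snd f) (fun _ x => ha x) z
  unfold W0
  rw [← Nat.Ico_zero_eq_range]
  have h2 := abs_sub (f x) (∑ i ∈ Finset.Ico 0 (S.K + 1), S.p i * S.T i (fun _ => f) z)
  have h3 := ha x
  linarith

lemma abs_W_le (hS : RegG S) {l : ℕ} (hl : l ≤ S.K) {f g : X → ℝ} {a b : ℝ} (ha : ∀ x, |f x| ≤ a)
    (hb : ∀ x, |g x| ≤ b) (z : ι → ℝ) (x : X) :
    |W S l (fun _ => f) (fun _ => g) z x| ≤ 7 * (a * b) := by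
  have ha0 : 0 ≤ a := (abs_nonneg _).trans (ha x)
  have hb0 : 0 ≤ b := (abs_nonneg _).trans (hb x)
  have hTf : ∀ i ≤ S.K, ∀ z, |S.T i (fun _ => f) z| ≤ a := fun i hi z =>
    hS.abs_T_le hi (Nh.snd f) (fun _ x => ha x) z
  have hTg : ∀ i ≤ S.K, ∀ z, |S.T i (fun _ => g) z| ≤ b := fun i hi z =>
    hS.abs_T_le hi (Nh.snd g) (fun _ x => hb x) z
  have hmul : ∀ {s t : ℝ}, |s| ≤ a → |t| ≤ b → |s * t| ≤ a * b := fun {s t} hs ht => by
    rw [abs_mul]; exact mul_le_mul hs ht (abs_nonneg _) ha0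
  have hab : 0 ≤ a * b := mul_nonneg ha0 hb0
  have h1 : |f x * S.T l (fun _ => g) z| ≤ a * b := hmul (ha x) (hTg l hl z)
  have h2 : |S.T l (fun _ => f) z * g x| ≤ a * b := hmul (hTf l hl z) (hb x)
  have h3 : |∑ i ∈ Finset.Ico (l + 1) (S.K + 1), S.p i * (S.T i (fun _ => f) z *
      S.T l (fun _ => g) z + S.T l (fun _ => f) z * S.T i (fun _ => g) z)| ≤ 2 * (a * b) := by
    refine abs_sum_p_le hS (by omega) le_rfl (by positivity) fun i hi => ?_
    have hi' := Nat.lt_succ_iff.1 (Finset.mem_Ico.1 hi).2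
    have e1 := hmul (hTf i hi' z) (hTg l hl z)
    have e2 := hmul (hTf l hl z) (hTg i hi' z)
    have e3 := abs_add_le (S.T i (fun _ => f) z * S.T l (fun _ => g) z)
      (S.T l (fun _ => f) z * S.T i (fun _ => g) z)
    linarith
  have h4 : |(S.m l - 2 * S.m (l + 1)) * (S.T l (fun _ => f) z * S.T l (fun _ => g) z)| ≤
      2 * (a * b) := by
    rw [abs_mul]
    have e1 := hmul (hTf l hl z) (hTg l hl z)
    have m1 : 0 ≤ S.m l := by
      have := hS.m_mono (Nat.zero_le l) (by omega : l ≤ S.K + 1)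
      rwa [hS.m0] at this
    have m2 := hS.mono l hl
    have m3 := hS.m_le_one (show l + 1 ≤ S.K + 1 by omega)
    have e2 : |S.m l - 2 * S.m (l + 1)| ≤ 2 := by rw [abs_le]; constructor <;> linarith only [m1, m3, m2]
    exact mul_le_mul e2 e1 (abs_nonneg _) (by norm_num)
  have h5 : |∑ i ∈ Finset.Ico 0 l, S.p i * S.T i (fun z _ => S.T l (fun _ => f) z *
      S.T l (fun _ => g) z) z| ≤ a * b := by
    refine abs_sum_p_le hS (Nat.zero_le _) (by omega) hab fun i hi => ?_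
    refine hS.abs_T_le ((Finset.mem_Ico.1 hi).2.le.trans hl) (Nh.fst
      ((hS.eg_T hl (Nh.snd f)).mul (hS.eg_T hl (Nh.snd g)))) (fun z _ => ?_) z
    exact hmul (hTf l hl z) (hTg l hl z)
  unfold W
  rw [← Nat.Ico_zero_eq_range]
  rw [abs_le] at h1 h2 h3 h4 h5 ⊢
  constructor <;> linarith only [h1.1, h2.1, h3.2, h4.1, h5.2, h1.2, h2.2, h3.1, h4.2, h5.1]

/-- The second moment of a Gaussian coordinate. -/
lemma RegE.Ex_sq_le [DecidableEq ι] {e : ι} {D : (ι → ℝ) → X → ℝ} (hS : RegE S e D) {C : ℝ}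
    (hD : ∀ z x, |D z x| ≤ C) (hC : 0 ≤ C) :
    S.Ex (fun z _ => z e ^ 2) ≤ 2 + 4 * C ^ 2 := by
  have hG := hS.toRegG
  have hTD : ∀ i ≤ S.K, ∀ z, |S.T i D z| ≤ C := fun i hi z => hG.abs_T_le hi hS.nh hD z
  have nc : Nh fun (z : ι → ℝ) (_ : X) => z e := fun _ => EG.coord e
  have h := hS.ibp (h := fun z _ => z e) (h' := fun _ _ => 1)
    (fun x => by simpa using PD.coord (e := e) e) nc (fun _ => EG.const 1)
  have n2 : Nh fun (z : ι → ℝ) (x : X) => 1 + z e * (D z x -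
      ∑ l ∈ Finset.Ico (S.lev e) (S.K + 1), S.p l * S.T l D z) :=
    Nh.add (fun _ => EG.const 1) (Nh.mul nc (Nh.sub hS.nh (Nh.sum _ fun i hi =>
      Nh.const_mul _ (Nh.fst (hG.eg_T (Nat.lt_succ_iff.1 (Finset.mem_Ico.1 hi).2) hS.nh)))))
  have nsq : Nh fun (z : ι → ℝ) (_ : X) => z e ^ 2 := Nh.pow nc 2
  have n3 : Nh fun (z : ι → ℝ) (_ : X) => (1 + 2 * C ^ 2) + 1 / 2 * z e ^ 2 :=
    Nh.add (fun _ => EG.const _) (Nh.const_mul _ nsq)
  have hle : S.Ex (fun z x => 1 + z e * (D z x -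
      ∑ l ∈ Finset.Ico (S.lev e) (S.K + 1), S.p l * S.T l D z)) ≤
      S.Ex (fun z _ => (1 + 2 * C ^ 2) + 1 / 2 * z e ^ 2) := by
    refine hG.Ex_mono n2 n3 fun z x => ?_
    have hs : |∑ l ∈ Finset.Ico (S.lev e) (S.K + 1), S.p l * S.T l D z| ≤ C :=
      abs_sum_p_le hG (by have := hG.lev e; omega) le_rfl hC fun i hi =>
        hTD i (Nat.lt_succ_iff.1 (Finset.mem_Ico.1 hi).2) z
    set t := D z x - ∑ l ∈ Finset.Ico (S.lev e) (S.K + 1), S.p l * S.T l D z
    have ht : |t| ≤ 2 * C := by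
      have := abs_sub (D z x) (∑ l ∈ Finset.Ico (S.lev e) (S.K + 1), S.p l * S.T l D z)
      have := hD z x
      linarith
    have ht2 : t ^ 2 ≤ (2 * C) ^ 2 := by rw [← sq_abs]; exact pow_le_pow_left₀ (abs_nonneg _) ht 2
    linarith only [ht2, sq_nonneg (z e - t)]
  rw [hG.Ex_add (fun _ => EG.const _) (Nh.const_mul _ nsq), hG.Ex_const, Ex_const_mul] at hle
  have e : (fun (z : ι → ℝ) (_ : X) => z e ^ 2) = fun z _ => z e * z e := by
    funext z _; ring
  rw [← h] at hle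
  rw [e] at hle ⊢
  linarith only [hle]

end general

namespace GS

variable {A : GS N ι X}

lemma Ok.sum_y (hA : A.Ok) {U : Matrix (Fin N) (Fin N) ℝ}
    (hU : U ∈ Matrix.orthogonalGroup (Fin N) ℝ) (x : X) : ∑ i, A.y U x i ^ 2 = N := by
  have h1 : (A.y U x) ⬝ᵥ (A.y U x) = A.sg x ⬝ᵥ A.sg x := by
    unfold y
    rw [Matrix.dotProduct_mulVec, Matrix.vecMul_mulVec,
      (Matrix.mem_orthogonalGroup_iff' (Fin N) ℝ).1 hU, Matrix.vecMul_one]
  have h2 : ∑ i, A.y U x i ^ 2 = (A.y U x) ⬝ᵥ (A.y U x) := by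
    unfold dotProduct
    exact Finset.sum_congr rfl fun i _ => sq _
  have h3 : ∑ i, A.sg x i ^ 2 = A.sg x ⬝ᵥ A.sg x := by
    unfold dotProduct
    exact Finset.sum_congr rfl fun i _ => sq _
  rw [h2, h1, ← h3, hA.norm x]

lemma Ok.sq_y_le (hA : A.Ok) {U : Matrix (Fin N) (Fin N) ℝ}
    (hU : U ∈ Matrix.orthogonalGroup (Fin N) ℝ) (x : X) (i : Fin N) : A.y U x i ^ 2 ≤ N := by
  rw [← hA.sum_y hU x]
  exact Finset.single_le_sum (f := fun i => A.y U x i ^ 2) (fun i _ => sq_nonneg _)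
    (Finset.mem_univ i)

lemma Ok.abs_y_le (hA : A.Ok) {U : Matrix (Fin N) (Fin N) ℝ}
    (hU : U ∈ Matrix.orthogonalGroup (Fin N) ℝ) (x : X) (i : Fin N) :
    |A.y U x i| ≤ Real.sqrt N := Real.abs_le_sqrt (hA.sq_y_le hU x i)

/-- The derivative of the energy in the coordinate of a pattern field. -/
lemma Ok.regE [DecidableEq ι] (hA : A.Ok) (U : Matrix (Fin N) (Fin N) ℝ) {l : ℕ} (hl : l ≤ A.K)
    (i : Fin N) : RegE (A.sy U) (A.bc l i) (fun _ x => A.u i l * A.y U x i) := by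
  refine ⟨hA.regG U, fun x => ?_, Nh.snd _⟩
  show PD (A.bc l i) (fun z => A.en U z x) fun _ => A.u i l * A.y U x i
  have h1 : PD (A.bc l i) (fun z => A.E0 z x) (fun _ => 0) := by
    refine PD.of_indep fun z t => hA.e0 x _ _ fun e he => ?_
    exact Function.update_of_ne (he l hl i) t z
  have h2 : PD (A.bc l i) (fun z => ∑ l' ∈ Finset.range (A.K + 1), ∑ j,
      A.u j l' * (z (A.bc l' j) * A.y U x j)) (fun _ => ∑ l' ∈ Finset.range (A.K + 1), ∑ j,
      A.u j l' * A.y U x j * (if A.bc l' j = A.bc l i then 1 else 0)) := by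
    refine PD.sum _ fun l' _ => PD.sum _ fun j _ => ?_
    have h := (PD.coord (e := A.bc l i) (A.bc l' j)).const_mul (A.u j l' * A.y U x j)
    have e : (fun z : ι → ℝ => A.u j l' * (z (A.bc l' j) * A.y U x j)) =
        fun z => A.u j l' * A.y U x j * z (A.bc l' j) := by funext z; ring
    rw [e]
    exact h
  have h3 := h1.add ((PD.const (e := A.bc l i) (∑ i, A.lam i / 2 * A.y U x i ^ 2 +
    ∑ i, A.kap i x * A.y U x i)).add h2)
  refine h3.congr fun z => ?_
  have h4 : ∀ l' ∈ Finset.range (A.K + 1), ∑ j,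
      A.u j l' * A.y U x j * (if A.bc l' j = A.bc l i then 1 else 0) =
      if l' = l then A.u i l' * A.y U x i else 0 := by
    intro l' hl'
    have hl'' := Nat.lt_succ_iff.1 (Finset.mem_range.1 hl')
    by_cases h : l' = l
    · subst h
      simp only [hA.bc_iff hl'', if_true]
      simp only [mul_ite, mul_one, mul_zero, Finset.sum_ite_eq', Finset.mem_univ, ↓reduceIte]
    · rw [if_neg h]
      refine Finset.sum_eq_zero fun j _ => ?_
      rw [if_neg, mul_zero]
      intro h5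
      exact h (hA.bcinj l' hl'' l hl j i h5).1
  rw [Finset.sum_congr rfl h4, Finset.sum_ite_eq', if_pos (Finset.mem_range.2 (by omega))]
  ring

lemma Ok.Ex_z_sq_le [DecidableEq ι] (hA : A.Ok) {U : Matrix (Fin N) (Fin N) ℝ}
    (hU : U ∈ Matrix.orthogonalGroup (Fin N) ℝ) {l : ℕ} (hl : l ≤ A.K) (i : Fin N) :
    (A.sy U).Ex (fun z _ => z (A.bc l i) ^ 2) ≤ 2 + 4 * (A.u i l ^ 2 * N) := by
  have h := (hA.regE U hl i).Ex_sq_le (C := |A.u i l| * Real.sqrt N) (fun z x => by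
    rw [abs_mul]
    exact mul_le_mul_of_nonneg_left (hA.abs_y_le hU x i) (abs_nonneg _)) (by positivity)
  rw [mul_pow, sq_abs, Real.sq_sqrt (Nat.cast_nonneg N)] at h
  exact h

/-- A uniform bound for the derivative of the energy. -/
lemma Ok.Ex_lD_le [DecidableEq ι] (hA : A.Ok) (p q : Fin N) : ∃ C : ℝ, 0 ≤ C ∧
    ∀ U ∈ Matrix.orthogonalGroup (Fin N) ℝ, (A.sy U).Ex (fun z x => |A.lD p q U z x|) ≤ C := by
  set n := Real.sqrt N with hn
  have hn0 : 0 ≤ n := Real.sqrt_nonneg _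
  refine ⟨|A.lam p - A.lam q| * (n * n) + (∑ x, |A.kap p x| * n + ∑ x, |A.kap q x| * n) +
    ∑ l ∈ Finset.range (A.K + 1), |A.u p l - A.u q l| * ((3 + 4 * (A.u q l ^ 2 * N)) * n +
      (3 + 4 * (A.u p l ^ 2 * N)) * n), by positivity, fun U hU => ?_⟩
  have hG := hA.regG U
  have nz : ∀ l i, Nh fun (z : ι → ℝ) (_ : X) => |z (A.bc l i)| := fun l i _ => (EG.coord _).abs
  have nsq : ∀ l i, Nh fun (z : ι → ℝ) (_ : X) => z (A.bc l i) ^ 2 := fun l i _ =>
    (EG.coord _).pow 2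
  have hz : ∀ l ≤ A.K, ∀ i, (A.sy U).Ex (fun z _ => |z (A.bc l i)|) ≤
      3 + 4 * (A.u i l ^ 2 * N) := by
    intro l hl i
    have h1 := hG.Ex_mono (nz l i) (g := fun z _ => 1 + z (A.bc l i) ^ 2)
      (Nh.add (fun _ => EG.const 1) (nsq l i)) fun z _ => by
        have := sq_abs (z (A.bc l i))
        nlinarith only [this]
    rw [hG.Ex_add (fun _ => EG.const 1) (nsq l i), hG.Ex_const] at h1
    have h2 := hA.Ex_z_sq_le hU hl i
    linarith only [h1, h2]
  have hy := fun x i => hA.abs_y_le hU x i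
  have n1 : Nh fun (z : ι → ℝ) (_ : X) => ∑ l ∈ Finset.range (A.K + 1), |A.u p l - A.u q l| *
      (|z (A.bc l q)| * n + |z (A.bc l p)| * n) :=
    Nh.sum _ fun l _ => Nh.const_mul _ (Nh.add (Nh.mul (nz l q) (fun _ => EG.const n))
      (Nh.mul (nz l p) (fun _ => EG.const n)))
  have hpt : ∀ (z : ι → ℝ) x, |A.lD p q U z x| ≤ (|A.lam p - A.lam q| * (n * n) +
      (∑ x, |A.kap p x| * n + ∑ x, |A.kap q x| * n)) + ∑ l ∈ Finset.range (A.K + 1),
        |A.u p l - A.u q l| * (|z (A.bc l q)| * n + |z (A.bc l p)| * n) := by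
    intro z x
    have a1 : |(A.lam p - A.lam q) * (A.y U x p * A.y U x q)| ≤ |A.lam p - A.lam q| * (n * n) := by
      rw [abs_mul, abs_mul]
      exact mul_le_mul_of_nonneg_left (mul_le_mul (hy x p) (hy x q) (abs_nonneg _) hn0)
        (abs_nonneg _)
    have a2 : |A.kap p x * A.y U x q| ≤ ∑ x, |A.kap p x| * n := by
      rw [abs_mul]
      refine (mul_le_mul_of_nonneg_left (hy x q) (abs_nonneg _)).trans ?_
      exact Finset.single_le_sum (f := fun x => |A.kap p x| * n) (fun x _ => by positivity)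
        (Finset.mem_univ x)
    have a3 : |A.kap q x * A.y U x p| ≤ ∑ x, |A.kap q x| * n := by
      rw [abs_mul]
      refine (mul_le_mul_of_nonneg_left (hy x p) (abs_nonneg _)).trans ?_
      exact Finset.single_le_sum (f := fun x => |A.kap q x| * n) (fun x _ => by positivity)
        (Finset.mem_univ x)
    have a4 : |∑ l ∈ Finset.range (A.K + 1), (A.u p l - A.u q l) *
        (z (A.bc l q) * A.y U x p + z (A.bc l p) * A.y U x q)| ≤ ∑ l ∈ Finset.range (A.K + 1),
        |A.u p l - A.u q l| * (|z (A.bc l q)| * n + |z (A.bc l p)| * n) := by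
      refine (Finset.abs_sum_le_sum_abs _ _).trans (Finset.sum_le_sum fun l _ => ?_)
      rw [abs_mul]
      refine mul_le_mul_of_nonneg_left ?_ (abs_nonneg _)
      refine (abs_add_le _ _).trans ?_
      rw [abs_mul, abs_mul]
      exact add_le_add (mul_le_mul_of_nonneg_left (hy x p) (abs_nonneg _))
        (mul_le_mul_of_nonneg_left (hy x q) (abs_nonneg _))
    unfold lD
    rw [abs_le] at a1 a2 a3 a4 ⊢
    constructor <;> linarith only [a1.1, a2.1, a3.2, a4.1, a1.2, a2.2, a3.1, a4.2]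
  refine (hG.Ex_mono (Nh.abs (A.nh_lD p q U)) (Nh.add (fun _ => EG.const _) n1) hpt).trans ?_
  rw [hG.Ex_add (fun _ => EG.const _) n1, hG.Ex_const]
  refine add_le_add le_rfl ?_
  rw [hG.Ex_sum _ fun l _ => Nh.const_mul _ (Nh.add (Nh.mul (nz l q) (fun _ => EG.const n))
      (Nh.mul (nz l p) (fun _ => EG.const n)))]
  refine Finset.sum_le_sum fun l hl => ?_
  have hl' := Nat.lt_succ_iff.1 (Finset.mem_range.1 hl)
  rw [Ex_const_mul, hG.Ex_add (Nh.mul (nz l q) (fun _ => EG.const n))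
      (Nh.mul (nz l p) (fun _ => EG.const n))]
  refine mul_le_mul_of_nonneg_left ?_ (abs_nonneg _)
  have e : ∀ i, (A.sy U).Ex (fun (z : ι → ℝ) (_ : X) => |z (A.bc l i)| * n) =
      n * (A.sy U).Ex (fun z _ => |z (A.bc l i)|) := by
    intro i
    rw [← Ex_const_mul]
    congr 1
    funext z _
    ring
  rw [e, e]
  have h1 := mul_le_mul_of_nonneg_left (hz l hl' q) hn0
  have h2 := mul_le_mul_of_nonneg_left (hz l hl' p) hn0
  linarith only [h1, h2]

end GS

end Vale.Agent.P166.H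
end
end

section

section

/-!
The Haar average of the derivative along a rotation vanishes.
-/

open MeasureTheory ProbabilityTheory Filter Topology Matrix
open Vale.Agent.P157.Lv Vale.Agent.P157.Lv.Sy
open Vale.Agent.P166.Conc (OG)

namespace Vale.Agent.P166.H

open Vale.Agent

set_option linter.unusedSectionVars false

variable {N : ℕ} [MeasurableSpace (OG N)] [BorelSpace (OG N)]

/-- The Haar average of a derivative along the rotations vanishes. -/
theorem haar_zero (ν : Measure (OG N)) [IsProbabilityMeasure ν] [ν.IsMulLeftInvariant]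
    {p q : Fin N} (hpq : p ≠ q) {Φ V : Matrix (Fin N) (Fin N) ℝ → ℝ}
    (hΦ : Measurable fun U : OG N => Φ U.1) (hV : Measurable fun U : OG N => V U.1)
    (hb : ∃ C, ∀ U : OG N, |Φ U.1| ≤ C) (hb' : ∃ C, ∀ U : OG N, |V U.1| ≤ C)
    (hd : ∀ (U : Matrix (Fin N) (Fin N) ℝ) (θ : ℝ),
      HasDerivAt (fun t => Φ (rotM p q t * U)) (V (rotM p q θ * U)) θ) :
    ∫ U : OG N, V U.1 ∂ν = 0 := by
  obtain ⟨C, hC⟩ := hb
  obtain ⟨C', hC'⟩ := hb'
  set g : ℝ → OG N := fun t => ⟨rotM p q t, rotM_mem hpq t⟩ with hg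
  have hmul : ∀ t, Measurable fun U : OG N => g t * U := fun t => measurable_const_mul (g t)
  have hm : ∀ t, Measurable fun U : OG N => Φ (rotM p q t * U.1) := fun t => hΦ.comp (hmul t)
  have hm' : ∀ t, Measurable fun U : OG N => V (rotM p q t * U.1) := fun t => hV.comp (hmul t)
  have h := hasDerivAt_integral_of_dominated_loc_of_deriv_le (μ := ν) (s := Set.univ)
    (F := fun t (U : OG N) => Φ (rotM p q t * U.1)) (F' := fun t (U : OG N) =>
      V (rotM p q t * U.1)) (x₀ := (0 : ℝ)) (bound := fun _ => C') univ_mem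
    (Eventually.of_forall fun t => (hm t).aestronglyMeasurable)
    (Integrable.of_bound (hm 0).aestronglyMeasurable C
      (Eventually.of_forall fun U => by simpa only [Real.norm_eq_abs, Submonoid.coe_mul] using hC (g 0 * U)))
    (hm' 0).aestronglyMeasurable
    (Eventually.of_forall fun U t _ => by simpa only [Real.norm_eq_abs, Submonoid.coe_mul] using hC' (g t * U))
    (integrable_const _) (Eventually.of_forall fun U t _ => hd U.1 t)
  have h2 := h.2
  have e1 : (fun t => ∫ U : OG N, Φ (rotM p q t * U.1) ∂ν) = fun _ => ∫ U : OG N, Φ U.1 ∂ν := by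
    funext t
    exact integral_mul_left_eq_self (μ := ν) (fun U : OG N => Φ U.1) (g t)
  rw [e1] at h2
  have h3 := h2.unique (hasDerivAt_const (0 : ℝ) _)
  have e2 : ∫ U : OG N, V (rotM p q 0 * U.1) ∂ν = ∫ U : OG N, V U.1 ∂ν :=
    integral_mul_left_eq_self (μ := ν) (fun U : OG N => V U.1) (g 0)
  rw [← e2]
  exact h3

variable {ι X : Type} [Fintype ι] [Fintype X] [Nonempty X]

/-- Measurable test functions. -/
def MM (N : ℕ) [MeasurableSpace (OG N)] {X : Type} (f : Matrix (Fin N) (Fin N) ℝ → X → ℝ) : Prop :=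
  ∀ x, Measurable fun U : OG N => f U.1 x

omit [Fintype X] [Nonempty X] in
lemma MM.y (A : GS N ι X) (r : Fin N) (ε : X → ℝ) : MM N fun U x => ε x * A.y U x r := by
  intro x
  refine Measurable.const_mul ?_ _
  show Measurable fun U : OG N => (U.1 *ᵥ A.sg x) r
  unfold Matrix.mulVec dotProduct
  exact Finset.measurable_fun_sum _ fun j _ => (Conc.measurable_coe_OG r j).mul_const _

omit [Fintype X] [Nonempty X] in
lemma MM.rot' (A : GS N ι X) (p q r : Fin N) (ε : X → ℝ) :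
    MM N fun U x => ε x * rot' p q (A.y U x) r := by
  intro x
  unfold H.rot'
  split_ifs
  · exact MM.y A q ε x
  · have h := (MM.y A p ε x).neg
    have e : (fun U : OG N => ε x * -A.y U.1 x p) = fun U => -(ε x * A.y U.1 x p) := by
      funext U; ring
    rw [e]
    exact h
  · exact measurable_const

omit [Fintype X] [Nonempty X] [BorelSpace (OG N)] in
lemma MM.const (f : X → ℝ) : MM N fun _ => f := fun _ => measurable_const

omit [Fintype X] [Nonempty X] [BorelSpace (OG N)] in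
lemma MM.add {f g : Matrix (Fin N) (Fin N) ℝ → X → ℝ} (hf : MM N f) (hg : MM N g) :
    MM N fun U x => f U x + g U x := fun x => (hf x).add (hg x)

omit [Fintype X] [Nonempty X] [BorelSpace (OG N)] in
lemma MM.mul {f g : Matrix (Fin N) (Fin N) ℝ → X → ℝ} (hf : MM N f) (hg : MM N g) :
    MM N fun U x => f U x * g U x := fun x => (hf x).mul (hg x)

omit [Fintype X] [Nonempty X] [BorelSpace (OG N)] in
lemma MM.joint {f : Matrix (Fin N) (Fin N) ℝ → X → ℝ} (hf : MM N f) (x : X) :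
    Measurable fun P : OG N × (ι → ℝ) => f P.1.1 x := (hf x).comp measurable_fst

namespace GS

variable {A : GS N ι X}

lemma Ok.my (_hA : A.Ok) (x : X) (r : Fin N) :
    Measurable fun P : OG N × (ι → ℝ) => A.y P.1.1 x r := by
  have h := (MM.y A r (fun _ => 1)).joint (ι := ι) x
  simpa only [one_mul] using h

lemma Ok.men (hA : A.Ok) (x : X) :
    Measurable fun P : OG N × (ι → ℝ) => A.en P.1.1 P.2 x := by
  have hz : ∀ e : ι, Measurable fun P : OG N × (ι → ℝ) => P.2 e := fun e =>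
    (measurable_pi_apply e).comp measurable_snd
  unfold en ev
  refine ((hA.lip x).measurable.comp measurable_snd).add (((Finset.measurable_fun_sum _
    fun i _ => ((hA.my x i).pow_const 2).const_mul _).add (Finset.measurable_fun_sum _
    fun i _ => (hA.my x i).const_mul _)).add (Finset.measurable_fun_sum _ fun l _ =>
      Finset.measurable_fun_sum _ fun i _ => ((hz _).mul (hA.my x i)).const_mul _))

lemma Ok.mlD (hA : A.Ok) (p q : Fin N) (x : X) :
    Measurable fun P : OG N × (ι → ℝ) => A.lD p q P.1.1 P.2 x := by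
  have hz : ∀ e : ι, Measurable fun P : OG N × (ι → ℝ) => P.2 e := fun e =>
    (measurable_pi_apply e).comp measurable_snd
  unfold lD
  refine (Measurable.add (((hA.my x p).mul (hA.my x q)).const_mul _)
    (((hA.my x q).const_mul _).sub ((hA.my x p).const_mul _))).add (Finset.measurable_fun_sum _
      fun l _ => Measurable.const_mul (((hz _).mul (hA.my x p)).add
        ((hz _).mul (hA.my x q))) _)

/-- Measurability of the tilted averages, jointly. -/
lemma Ok.mT (hA : A.Ok) {h : OG N → (ι → ℝ) → X → ℝ}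
    (hh : ∀ x, Measurable fun P : OG N × (ι → ℝ) => h P.1 P.2 x) (l : ℕ) :
    Measurable fun P : OG N × (ι → ℝ) => (A.sy P.1.1).T l (h P.1) P.2 :=
  U.meas_T (S := A.sy 0) (H := fun U : OG N => A.en U.1) hA.men hh l

lemma Ok.mEx (hA : A.Ok) {h : OG N → (ι → ℝ) → X → ℝ}
    (hh : ∀ x, Measurable fun P : OG N × (ι → ℝ) => h P.1 P.2 x) :
    Measurable fun U : OG N => (A.sy U.1).Ex (h U) :=
  U.meas_Ex (S := A.sy 0) (H := fun U : OG N => A.en U.1) hA.men hh

lemma Ok.mPh (hA : A.Ok) (l : ℕ) {f g : Matrix (Fin N) (Fin N) ℝ → X → ℝ} (hf : MM N f)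
    (hg : MM N g) : Measurable fun U : OG N => A.Ph l f g U.1 :=
  hA.mEx (h := fun U z _ => (A.sy U.1).T l (fun _ => f U.1) z * (A.sy U.1).T l (fun _ => g U.1) z)
    fun _ => (hA.mT (h := fun U _ => f U.1) (fun x => hf.joint x) l).mul
      (hA.mT (h := fun U _ => g U.1) (fun x => hg.joint x) l)

lemma Ok.mW (hA : A.Ok) (l : ℕ) {f g : Matrix (Fin N) (Fin N) ℝ → X → ℝ} (hf : MM N f)
    (hg : MM N g) (x : X) : Measurable fun P : OG N × (ι → ℝ) =>
      W (A.sy P.1.1) l (fun _ => f P.1.1) (fun _ => g P.1.1) P.2 x := by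
  have tf : ∀ i, Measurable fun P : OG N × (ι → ℝ) => (A.sy P.1.1).T i (fun _ => f P.1.1) P.2 :=
    fun i => hA.mT (h := fun U _ => f U.1) (fun x => hf.joint x) i
  have tg : ∀ i, Measurable fun P : OG N × (ι → ℝ) => (A.sy P.1.1).T i (fun _ => g P.1.1) P.2 :=
    fun i => hA.mT (h := fun U _ => g U.1) (fun x => hg.joint x) i
  have tt : ∀ i, Measurable fun P : OG N × (ι → ℝ) => (A.sy P.1.1).T i (fun z _ =>
      (A.sy P.1.1).T l (fun _ => f P.1.1) z * (A.sy P.1.1).T l (fun _ => g P.1.1) z) P.2 :=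
    fun i => hA.mT (h := fun U z _ => (A.sy U.1).T l (fun _ => f U.1) z *
      (A.sy U.1).T l (fun _ => g U.1) z) (fun _ => (tf l).mul (tg l)) i
  have ef := hf.joint (ι := ι) x
  have eg := hg.joint (ι := ι) x
  show Measurable fun P : OG N × (ι → ℝ) =>
    f P.1.1 x * (A.sy P.1.1).T l (fun _ => g P.1.1) P.2 +
      (A.sy P.1.1).T l (fun _ => f P.1.1) P.2 * g P.1.1 x -
    ∑ i ∈ Finset.Ico (l + 1) (A.K + 1), (A.m (i + 1) - A.m i) *
      ((A.sy P.1.1).T i (fun _ => f P.1.1) P.2 * (A.sy P.1.1).T l (fun _ => g P.1.1) P.2 +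
      (A.sy P.1.1).T l (fun _ => f P.1.1) P.2 * (A.sy P.1.1).T i (fun _ => g P.1.1) P.2) +
    (A.m l - 2 * A.m (l + 1)) * ((A.sy P.1.1).T l (fun _ => f P.1.1) P.2 *
      (A.sy P.1.1).T l (fun _ => g P.1.1) P.2) -
    ∑ i ∈ Finset.range l, (A.m (i + 1) - A.m i) * (A.sy P.1.1).T i (fun z _ =>
      (A.sy P.1.1).T l (fun _ => f P.1.1) z * (A.sy P.1.1).T l (fun _ => g P.1.1) z) P.2
  exact (((ef.mul (tg l)).add ((tf l).mul eg)).sub (Finset.measurable_fun_sum _ fun i _ =>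
    (((tf i).mul (tg l)).add ((tf l).mul (tg i))).const_mul _)).add
    (((tf l).mul (tg l)).const_mul _) |>.sub
    (Finset.measurable_fun_sum _ fun i _ => (tt i).const_mul _)

lemma Ok.mW0 (hA : A.Ok) {f : Matrix (Fin N) (Fin N) ℝ → X → ℝ} (hf : MM N f) (x : X) :
    Measurable fun P : OG N × (ι → ℝ) => W0 (A.sy P.1.1) (fun _ => f P.1.1) P.2 x := by
  have tf : ∀ i, Measurable fun P : OG N × (ι → ℝ) => (A.sy P.1.1).T i (fun _ => f P.1.1) P.2 :=
    fun i => hA.mT (h := fun U _ => f U.1) (fun x => hf.joint x) i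
  show Measurable fun P : OG N × (ι → ℝ) => f P.1.1 x -
    ∑ i ∈ Finset.range (A.K + 1), (A.m (i + 1) - A.m i) *
      (A.sy P.1.1).T i (fun _ => f P.1.1) P.2
  exact (hf.joint (ι := ι) x).sub (Finset.measurable_fun_sum _ fun i _ => (tf i).const_mul _)

lemma Ok.mVf (hA : A.Ok) (p q : Fin N) (l : ℕ) {f f' g g' : Matrix (Fin N) (Fin N) ℝ → X → ℝ}
    (hf : MM N f) (hf' : MM N f') (hg : MM N g) (hg' : MM N g') :
    Measurable fun U : OG N => A.Vf p q l f f' g g' U.1 := by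
  refine hA.mEx (h := fun U z x => ((A.sy U.1).T l (fun _ => g U.1) z * f' U.1 x +
    (A.sy U.1).T l (fun _ => f U.1) z * g' U.1 x) +
    A.lD p q U.1 z x * W (A.sy U.1) l (fun _ => f U.1) (fun _ => g U.1) z x) fun x => ?_
  exact (((hA.mT (h := fun U _ => g U.1) (fun x => hg.joint x) l).mul (hf'.joint x)).add
    ((hA.mT (h := fun U _ => f U.1) (fun x => hf.joint x) l).mul (hg'.joint x))).add
    ((hA.mlD p q x).mul (hA.mW l hf hg x))

lemma Ok.mP1 (hA : A.Ok) {f : Matrix (Fin N) (Fin N) ℝ → X → ℝ} (hf : MM N f) :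
    Measurable fun U : OG N => A.P1 f U.1 := hA.mEx (h := fun U _ => f U.1) fun x => hf.joint x

lemma Ok.mV1 (hA : A.Ok) (p q : Fin N) {f f' : Matrix (Fin N) (Fin N) ℝ → X → ℝ}
    (hf : MM N f) (hf' : MM N f') : Measurable fun U : OG N => A.V1 p q f f' U.1 :=
  hA.mEx (h := fun U z x => f' U.1 x + A.lD p q U.1 z x * W0 (A.sy U.1) (fun _ => f U.1) z x)
    fun x => (hf'.joint x).add ((hA.mlD p q x).mul (hA.mW0 hf x))

/-- Uniformly bounded test functions. -/
def UB (N : ℕ) {X : Type} (f : Matrix (Fin N) (Fin N) ℝ → X → ℝ) : Prop :=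
  ∃ C, ∀ (U : OG N) x, |f U.1 x| ≤ C

lemma Ok.bPh (hA : A.Ok) {l : ℕ} (hl : l ≤ A.K) {f g : Matrix (Fin N) (Fin N) ℝ → X → ℝ}
    (hf : UB N f) (hg : UB N g) : ∃ C, ∀ U : OG N, |A.Ph l f g U.1| ≤ C := by
  obtain ⟨a, ha⟩ := hf
  obtain ⟨b, hb⟩ := hg
  refine ⟨a * b, fun U => ?_⟩
  have hG := hA.regG U.1
  have n1 : EG ((A.sy U.1).T l (fun _ => f U.1)) := hG.eg_T hl (Nh.snd _)
  have n2 : EG ((A.sy U.1).T l (fun _ => g U.1)) := hG.eg_T hl (Nh.snd _)
  refine hG.abs_Ex_le_const (Nh.fst (n1.mul n2)) fun z x => ?_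
  have h1 := hG.abs_T_le hl (Nh.snd (f U.1)) (fun _ x => ha U x) z
  have h2 := hG.abs_T_le hl (Nh.snd (g U.1)) (fun _ x => hb U x) z
  rw [abs_mul]
  exact mul_le_mul h1 h2 (abs_nonneg _) ((abs_nonneg _).trans h1)

lemma Ok.bP1 (hA : A.Ok) {f : Matrix (Fin N) (Fin N) ℝ → X → ℝ} (hf : UB N f) :
    ∃ C, ∀ U : OG N, |A.P1 f U.1| ≤ C := by
  obtain ⟨a, ha⟩ := hf
  exact ⟨a, fun U => (hA.regG U.1).abs_Ex_le_const (Nh.snd _) fun _ x => ha U x⟩

variable [DecidableEq ι]

lemma Ok.bVf (hA : A.Ok) (p q : Fin N) {l : ℕ} (hl : l ≤ A.K)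
    {f f' g g' : Matrix (Fin N) (Fin N) ℝ → X → ℝ}
    (hf : UB N f) (hf' : UB N f') (hg : UB N g) (hg' : UB N g') :
    ∃ C, ∀ U : OG N, |A.Vf p q l f f' g g' U.1| ≤ C := by
  obtain ⟨a, ha⟩ := hf
  obtain ⟨b, hb⟩ := hg
  obtain ⟨a', ha'⟩ := hf'
  obtain ⟨b', hb'⟩ := hg'
  obtain ⟨D, hD0, hD⟩ := hA.Ex_lD_le p q
  refine ⟨(b * a' + a * b') + D * (7 * (a * b)), fun U => ?_⟩
  have hG := hA.regG U.1
  have n1 : EG ((A.sy U.1).T l (fun _ => f U.1)) := hG.eg_T hl (Nh.snd _)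
  have n2 : EG ((A.sy U.1).T l (fun _ => g U.1)) := hG.eg_T hl (Nh.snd _)
  obtain ⟨x0⟩ := ‹Nonempty X›
  have a0 : 0 ≤ a := (abs_nonneg _).trans (ha U x0)
  have b0 : 0 ≤ b := (abs_nonneg _).trans (hb U x0)
  have nD : Nh fun z x => |A.lD p q U.1 z x| * (7 * (a * b)) :=
    Nh.mul (Nh.abs (A.nh_lD p q U.1)) (fun _ => EG.const _)
  have h := hG.abs_Ex_le_of (g := fun z x => (b * a' + a * b') + |A.lD p q U.1 z x| * (7 * (a * b)))
    (Nh.add (Nh.add (Nh.mul (Nh.fst n2) (Nh.snd (f' U.1))) (Nh.mul (Nh.fst n1) (Nh.snd (g' U.1))))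
      (Nh.mul (A.nh_lD p q U.1) (nh_W hG hl (f U.1) (g U.1))))
    (Nh.add (fun _ => EG.const _) nD) (fun z x => by
      have h1 := hG.abs_T_le hl (Nh.snd (f U.1)) (fun _ x => ha U x) z
      have h2 := hG.abs_T_le hl (Nh.snd (g U.1)) (fun _ x => hb U x) z
      have h3 := abs_W_le hG hl (ha U) (hb U) z x
      refine (abs_add_le _ _).trans (add_le_add ((abs_add_le _ _).trans (add_le_add ?_ ?_)) ?_)
      · rw [abs_mul]
        exact mul_le_mul h2 (ha' U x) (abs_nonneg _) b0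
      · rw [abs_mul]
        exact mul_le_mul h1 (hb' U x) (abs_nonneg _) a0
      · rw [abs_mul]
        exact mul_le_mul_of_nonneg_left h3 (abs_nonneg _))
  refine h.trans ?_
  rw [hG.Ex_add (fun _ => EG.const _) nD, hG.Ex_const]
  refine add_le_add le_rfl ?_
  have e : (fun z x => |A.lD p q U.1 z x| * (7 * (a * b))) =
      fun z x => (7 * (a * b)) * |A.lD p q U.1 z x| := by funext z x; ring
  rw [e, Ex_const_mul, mul_comm]
  exact mul_le_mul_of_nonneg_right (hD U.1 U.2) (by positivity)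

lemma Ok.bV1 (hA : A.Ok) (p q : Fin N) {f f' : Matrix (Fin N) (Fin N) ℝ → X → ℝ}
    (hf : UB N f) (hf' : UB N f') : ∃ C, ∀ U : OG N, |A.V1 p q f f' U.1| ≤ C := by
  obtain ⟨a, ha⟩ := hf
  obtain ⟨a', ha'⟩ := hf'
  obtain ⟨D, hD0, hD⟩ := hA.Ex_lD_le p q
  refine ⟨a' + D * (2 * a), fun U => ?_⟩
  have hG := hA.regG U.1
  obtain ⟨x0⟩ := ‹Nonempty X›
  have a0 : 0 ≤ a := (abs_nonneg _).trans (ha U x0)
  have nD : Nh fun z x => |A.lD p q U.1 z x| * (2 * a) :=
    Nh.mul (Nh.abs (A.nh_lD p q U.1)) (fun _ => EG.const _)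
  have h := hG.abs_Ex_le_of (g := fun z x => a' + |A.lD p q U.1 z x| * (2 * a))
    (Nh.add (Nh.snd (f' U.1)) (Nh.mul (A.nh_lD p q U.1) (nh_W0 hG (f U.1))))
    (Nh.add (fun _ => EG.const _) nD) (fun z x => by
      have h3 := abs_W0_le hG (ha U) z x
      refine (abs_add_le _ _).trans (add_le_add (ha' U x) ?_)
      rw [abs_mul]
      exact mul_le_mul_of_nonneg_left h3 (abs_nonneg _))
  refine h.trans ?_
  rw [hG.Ex_add (fun _ => EG.const _) nD, hG.Ex_const]
  refine add_le_add le_rfl ?_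
  have e : (fun z x => |A.lD p q U.1 z x| * (2 * a)) =
      fun z x => (2 * a) * |A.lD p q U.1 z x| := by funext z x; ring
  rw [e, Ex_const_mul, mul_comm]
  exact mul_le_mul_of_nonneg_right (hD U.1 U.2) (by positivity)

variable (ν : Measure (OG N)) [IsProbabilityMeasure ν] [ν.IsMulLeftInvariant]

/-- **The loop equation for two replicas and one pair of patterns.** -/
theorem Ok.loop_pair (hA : A.Ok) {p q : Fin N} (hpq : p ≠ q) {l : ℕ} (hl : l ≤ A.K)
    {f f' g g' : Matrix (Fin N) (Fin N) ℝ → X → ℝ} (hf : MT N X p q f f')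
    (hg : MT N X p q g g') (mf : MM N f) (mf' : MM N f') (mg : MM N g) (mg' : MM N g')
    (bf : UB N f) (bf' : UB N f') (bg : UB N g) (bg' : UB N g') :
    ∫ U : OG N, A.Vf p q l f f' g g' U.1 ∂ν = 0 :=
  haar_zero ν hpq (hA.mPh l mf mg) (hA.mVf p q l mf mf' mg mg') (hA.bPh hl bf bg)
    (hA.bVf p q hl bf bf' bg bg') fun U θ => hA.der_pair hpq hl hf hg U θ

/-- **The loop equation for one replica and one pair of patterns.** -/
theorem Ok.loop_one (hA : A.Ok) {p q : Fin N} (hpq : p ≠ q)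
    {f f' : Matrix (Fin N) (Fin N) ℝ → X → ℝ} (hf : MT N X p q f f') (mf : MM N f)
    (mf' : MM N f') (bf : UB N f) (bf' : UB N f') :
    ∫ U : OG N, A.V1 p q f f' U.1 ∂ν = 0 :=
  haar_zero ν hpq (hA.mP1 mf) (hA.mV1 p q mf mf') (hA.bP1 bf)
    (hA.bV1 p q bf bf') fun U θ => hA.der_one hpq hf U θ

end GS

end Vale.Agent.P166.H
end
end

section

section

/-!
Sums over patterns of the kernels of the loop equations: pointwise approximations.
-/

open MeasureTheory ProbabilityTheory Filter Topology Matrix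
open Vale.Agent.P157.Lv Vale.Agent.P157.Lv.Sy

namespace Vale.Agent.P166.H

open Vale.Agent

set_option linter.unusedSectionVars false

variable {N : ℕ} {ι X : Type} [Fintype ι] [Fintype X] [Nonempty X] {S : Sy ι X}

/-- The average of `Av ψ`. -/
theorem Ex_Av [DecidableEq ι] [DecidableEq X] (hS : S.Reg) {i : ℕ} (hi : i ≤ S.K) (ψ : X → X → ℝ) :
    S.Ex (Av S i ψ) = S.pairEx i ψ := by
  have e1 : Av S i ψ = fun z x => ∑ x', S.pr i z x' * ψ x x' := by
    funext z x
    exact hS.T_pr hi (ψ x) z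
  have np : ∀ x', EG fun z => S.pr i z x' := fun x' => hS.eg_pr hi x'
  have dp : ∀ x', Dep S.lev i fun z => S.pr i z x' := fun x' => S.dep_T i _
  rw [e1, hS.Ex_sum _ fun x' _ => Nh.mul (Nh.fst (np x')) (Nh.snd fun x => ψ x x')]
  have e2 : ∀ x', S.Ex (fun z x => S.pr i z x' * ψ x x') =
      S.Ex (fun z _ => ∑ x, S.pr i z x * S.pr i z x' * ψ x x') := by
    intro x'
    have h := hS.Ex_mul_T hi (dp x') (np x') (Nh.snd (ι := ι) fun x => ψ x x')
    rw [← h]
    congr 1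
    funext z _
    have h2 := hS.T_pr hi (fun x => ψ x x') z
    rw [h2, Finset.mul_sum]
    exact Finset.sum_congr rfl fun x _ => by ring
  rw [Finset.sum_congr rfl fun x' _ => e2 x', ← hS.Ex_sum _ fun x' _ => Nh.fst
    (EG.sum _ fun x _ => ((np x).mul (np x')).mul (EG.const _))]
  unfold pairEx
  congr 1
  funext z _
  exact Finset.sum_comm

lemma bil (B B' : Finset (Fin N)) (a b F G : Fin N → ℝ) :
    ∑ p ∈ B, ∑ q ∈ B', (a p * b q) * (F p * G q) =
      (∑ p ∈ B, a p * F p) * (∑ q ∈ B', b q * G q) := by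
  rw [Finset.sum_mul_sum]
  exact Finset.sum_congr rfl fun p _ => Finset.sum_congr rfl fun q _ => by ring

/-- The block-block sum, in terms of the averages. -/
theorem sum_W_block (hS : RegG S) {l : ℕ} (hl : l ≤ S.K) (φ : X → Fin N → ℝ)
    (B B' : Finset (Fin N)) (z : ι → ℝ) (x : X) :
    ∑ p ∈ B, ∑ q ∈ B', (1 / N * φ x p * (1 / N * φ x q)) *
        W S l (fun _ x => φ x p) (fun _ x => φ x q) z x =
      RR N φ B x x * Av S l (RR N φ B') z x + Av S l (RR N φ B) z x * RR N φ B' x x -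
      ∑ i ∈ Finset.Ico (l + 1) (S.K + 1), S.p i *
        (Av S i (RR N φ B) z x * Av S l (RR N φ B') z x +
         Av S l (RR N φ B) z x * Av S i (RR N φ B') z x) +
      (S.m l - 2 * S.m (l + 1)) * (Av S l (RR N φ B) z x * Av S l (RR N φ B') z x) -
      ∑ i ∈ Finset.range l, S.p i * S.T i (fun z _ =>
        Av S l (RR N φ B) z x * Av S l (RR N φ B') z x) z := by
  have hR : ∀ C : Finset (Fin N), RR N φ C x x = ∑ p ∈ C, 1 / N * φ x p * φ x p := by
    intro C
    unfold RR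
    rw [Finset.mul_sum]
    exact Finset.sum_congr rfl fun p _ => by ring
  have hA : ∀ (C : Finset (Fin N)) {i : ℕ} (_ : i ≤ S.K) (z : ι → ℝ), Av S i (RR N φ C) z x =
      ∑ p ∈ C, 1 / N * φ x p * S.T i (fun _ x' => φ x' p) z := by
    intro C i hi z
    rw [Av_RR hS hi, Finset.mul_sum]
    exact Finset.sum_congr rfl fun p _ => by ring
  rw [sum_W S hS hl (fun p x => φ x p) (fun q x => φ x q) B B'
    (fun p q => 1 / N * φ x p * (1 / N * φ x q)) z x]
  simp only [bil]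
  rw [hR B, hR B', hA B hl z, hA B' hl z]
  refine congrArg₂ (· - ·) (congrArg₂ (· + ·) (congrArg₂ (· - ·) rfl ?_) rfl) ?_
  · refine Finset.sum_congr rfl fun i hi => ?_
    have hi' := Nat.lt_succ_iff.1 (Finset.mem_Ico.1 hi).2
    rw [hA B hi' z, hA B' hi' z]
  · refine Finset.sum_congr rfl fun i _ => ?_
    simp only [hA B hl, hA B' hl]

/-- The deviation from `r i`. -/
noncomputable def Dd (S : Sy ι X) (ψ : X → X → ℝ) (r : ℕ → ℝ) (i : ℕ) (z : ι → ℝ) (x : X) : ℝ :=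
  Av S i (fun x x' => |ψ x x' - r i|) z x

lemma Dd_nonneg (hS : RegG S) (ψ : X → X → ℝ) (r : ℕ → ℝ) {i : ℕ} (hi : i ≤ S.K) (z : ι → ℝ)
    (x : X) : 0 ≤ Dd S ψ r i z x := Av_nonneg hS hi (fun _ _ => abs_nonneg _) z x

lemma nh_Dd (hS : RegG S) (ψ : X → X → ℝ) (r : ℕ → ℝ) {i : ℕ} (hi : i ≤ S.K) :
    Nh (Dd S ψ r i) := nh_Av hS hi _

lemma mul_sub_mul_le {a a' r r' : ℝ} (ha : |a| ≤ 1) (hr' : |r'| ≤ 1) :
    |a * a' - r * r'| ≤ |a - r| + |a' - r'| := by
  have e : a * a' - r * r' = a * (a' - r') + r' * (a - r) := by ring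
  rw [e]
  refine (abs_add_le _ _).trans ?_
  rw [abs_mul, abs_mul]
  have h1 := mul_le_mul_of_nonneg_right ha (abs_nonneg (a' - r'))
  have h2 := mul_le_mul_of_nonneg_right hr' (abs_nonneg (a - r))
  linarith

lemma abs_sum_sub_le (hS : RegG S) {s : Finset ℕ} (hs : s ⊆ Finset.range (S.K + 1))
    {F G : ℕ → ℝ} {E : ℕ → ℝ} (h : ∀ i ∈ s, |F i - G i| ≤ E i)
    (hE : ∀ i ∈ Finset.range (S.K + 1), 0 ≤ E i) :
    |∑ i ∈ s, S.p i * F i - ∑ i ∈ s, S.p i * G i| ≤
      ∑ i ∈ Finset.range (S.K + 1), S.p i * E i := by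
  have hp : ∀ i ∈ Finset.range (S.K + 1), 0 ≤ S.p i := fun i hi =>
    p_nonneg hS (Nat.lt_succ_iff.1 (Finset.mem_range.1 hi))
  rw [← Finset.sum_sub_distrib]
  refine (Finset.abs_sum_le_sum_abs _ _).trans ((Finset.sum_le_sum fun i hi => ?_).trans
    (Finset.sum_le_sum_of_subset_of_nonneg hs fun i hi _ => mul_nonneg (hp i hi) (hE i hi)))
  rw [← mul_sub, abs_mul, abs_of_nonneg (hp i (hs hi))]
  exact mul_le_mul_of_nonneg_left (h i hi) (hp i (hs hi))

/-- **The block-block sum, two replicas: pointwise approximation.** -/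
theorem approx_block (hS : RegG S) {l : ℕ} (hl : l ≤ S.K) (φ : X → Fin N → ℝ)
    (B B' : Finset (Fin N)) (hB : ∀ x x', |RR N φ B x x'| ≤ 1)
    (hB' : ∀ x x', |RR N φ B' x x'| ≤ 1) {ρ ρ' : ℝ} {r r' : ℕ → ℝ}
    (hρ' : |ρ'| ≤ 1) (hr' : ∀ i ≤ S.K, |r' i| ≤ 1)
    (z : ι → ℝ) (x : X) :
    |∑ p ∈ B, ∑ q ∈ B', (1 / N * φ x p * (1 / N * φ x q)) *
        W S l (fun _ x => φ x p) (fun _ x => φ x q) z x -
      (ρ * r' l + r l * ρ' -
      ∑ i ∈ Finset.Ico (l + 1) (S.K + 1), S.p i * (r i * r' l + r l * r' i) +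
      (S.m l - 2 * S.m (l + 1)) * (r l * r' l) -
      ∑ i ∈ Finset.range l, S.p i * (r i * r' i))| ≤
      |RR N φ B x x - ρ| + |RR N φ B' x x - ρ'| +
      4 * (Dd S (RR N φ B) r l z x + Dd S (RR N φ B') r' l z x) +
      2 * ∑ i ∈ Finset.range (S.K + 1), S.p i *
        (Dd S (RR N φ B) r i z x + Dd S (RR N φ B') r' i z x) := by
  rw [sum_W_block hS hl φ B B' z x]
  have hp : ∀ i ∈ Finset.range (S.K + 1), 0 ≤ S.p i := fun i hi =>
    p_nonneg hS (Nat.lt_succ_iff.1 (Finset.mem_range.1 hi))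
  have dB : ∀ i ≤ S.K, |Av S i (RR N φ B) z x - r i| ≤ Dd S (RR N φ B) r i z x := fun i hi =>
    abs_Av_sub_le hS hi _ _ z x
  have dB' : ∀ i ≤ S.K, |Av S i (RR N φ B') z x - r' i| ≤ Dd S (RR N φ B') r' i z x := fun i hi =>
    abs_Av_sub_le hS hi _ _ z x
  have aB : ∀ i ≤ S.K, |Av S i (RR N φ B) z x| ≤ 1 := fun i hi => abs_Av_le hS hi hB z x
  have aB' : ∀ i ≤ S.K, |Av S i (RR N φ B') z x| ≤ 1 := fun i hi => abs_Av_le hS hi hB' z x
  have e0 : ∀ i ≤ S.K, 0 ≤ Dd S (RR N φ B) r i z x := fun i hi => Dd_nonneg hS _ _ hi z x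
  have e0' : ∀ i ≤ S.K, 0 ≤ Dd S (RR N φ B') r' i z x := fun i hi => Dd_nonneg hS _ _ hi z x
  have hrg : ∀ i ∈ Finset.range (S.K + 1), i ≤ S.K := fun i hi =>
    Nat.lt_succ_iff.1 (Finset.mem_range.1 hi)
  have t1 : |RR N φ B x x * Av S l (RR N φ B') z x - ρ * r' l| ≤
      |RR N φ B x x - ρ| + Dd S (RR N φ B') r' l z x :=
    (mul_sub_mul_le (hB x x) (hr' l hl)).trans (add_le_add le_rfl (dB' l hl))
  have t2 : |Av S l (RR N φ B) z x * RR N φ B' x x - r l * ρ'| ≤
      Dd S (RR N φ B) r l z x + |RR N φ B' x x - ρ'| :=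
    (mul_sub_mul_le (aB l hl) hρ').trans (add_le_add (dB l hl) le_rfl)
  have t3 : |∑ i ∈ Finset.Ico (l + 1) (S.K + 1), S.p i *
        (Av S i (RR N φ B) z x * Av S l (RR N φ B') z x +
         Av S l (RR N φ B) z x * Av S i (RR N φ B') z x) -
      ∑ i ∈ Finset.Ico (l + 1) (S.K + 1), S.p i * (r i * r' l + r l * r' i)| ≤
      ∑ i ∈ Finset.range (S.K + 1), S.p i * ((Dd S (RR N φ B) r i z x +
        Dd S (RR N φ B') r' i z x) + (Dd S (RR N φ B) r l z x + Dd S (RR N φ B') r' l z x)) := by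
    refine abs_sum_sub_le hS (fun i hi => ?_) (fun i hi => ?_) (fun i hi => ?_)
    · rw [Finset.mem_range]; exact (Finset.mem_Ico.1 hi).2
    · have hi' := Nat.lt_succ_iff.1 (Finset.mem_Ico.1 hi).2
      have b1 := mul_sub_mul_le (r := r i) (aB i hi') (hr' l hl) (a' := Av S l (RR N φ B') z x)
      have b2 := mul_sub_mul_le (r := r l) (aB l hl) (hr' i hi') (a' := Av S i (RR N φ B') z x)
      have b3 := dB i hi'
      have b4 := dB' i hi'
      have b5 := dB l hl
      have b6 := dB' l hl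
      rw [abs_le] at b1 b2 ⊢
      constructor <;> linarith only [b3, b4, b5, b6, b1.1, b2.1, b1.2, b2.2]
    · have := e0 i (hrg i hi)
      have := e0' i (hrg i hi)
      have := e0 l hl
      have := e0' l hl
      positivity
  have t4 : |(S.m l - 2 * S.m (l + 1)) * (Av S l (RR N φ B) z x * Av S l (RR N φ B') z x) -
      (S.m l - 2 * S.m (l + 1)) * (r l * r' l)| ≤
      2 * (Dd S (RR N φ B) r l z x + Dd S (RR N φ B') r' l z x) := by
    rw [← mul_sub, abs_mul]
    have m1 : 0 ≤ S.m l := by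
      have := hS.m_mono (Nat.zero_le l) (by omega : l ≤ S.K + 1)
      rwa [hS.m0] at this
    have m2 := hS.mono l hl
    have m3 := hS.m_le_one (show l + 1 ≤ S.K + 1 by omega)
    have e2 : |S.m l - 2 * S.m (l + 1)| ≤ 2 := by rw [abs_le]; constructor <;> linarith only [m1, m3, m2]
    exact mul_le_mul e2 ((mul_sub_mul_le (aB l hl) (hr' l hl)).trans
      (add_le_add (dB l hl) (dB' l hl))) (abs_nonneg _) (by norm_num)
  have t5 : |∑ i ∈ Finset.range l, S.p i * S.T i (fun z _ =>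
        Av S l (RR N φ B) z x * Av S l (RR N φ B') z x) z -
      ∑ i ∈ Finset.range l, S.p i * (r i * r' i)| ≤
      ∑ i ∈ Finset.range (S.K + 1), S.p i * (Dd S (RR N φ B) r i z x +
        Dd S (RR N φ B') r' i z x) := by
    refine abs_sum_sub_le hS (fun i hi => ?_) (fun i hi => ?_) (fun i hi => ?_)
    · rw [Finset.mem_range] at hi ⊢; omega
    · have hi' := Finset.mem_range.1 hi
      exact abs_T_mul_Av_le hS hi'.le hl hB (hr' i (hi'.le.trans hl)) z x
    · have := e0 i (hrg i hi)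
      have := e0' i (hrg i hi)
      positivity
  have hsum : ∑ i ∈ Finset.range (S.K + 1), S.p i * ((Dd S (RR N φ B) r i z x +
        Dd S (RR N φ B') r' i z x) + (Dd S (RR N φ B) r l z x + Dd S (RR N φ B') r' l z x)) =
      ∑ i ∈ Finset.range (S.K + 1), S.p i * (Dd S (RR N φ B) r i z x +
        Dd S (RR N φ B') r' i z x) + (Dd S (RR N φ B) r l z x + Dd S (RR N φ B') r' l z x) := by
    simp only [mul_add (S.p _) (Dd S (RR N φ B) r _ z x + Dd S (RR N φ B') r' _ z x),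
      Finset.sum_add_distrib]
    rw [← Finset.sum_mul, sum_p S hS.m0, hS.mK, one_mul]
  rw [hsum] at t3
  rw [abs_le] at t1 t2 t3 t4 t5 ⊢
  constructor <;> linarith only [t1.1, t2.1, t3.2, t4.1, t5.2, t1.2, t2.2, t3.1, t4.2, t5.1]

/-- **The block-block sum, one replica.** -/
theorem approx_block0 (hS : RegG S) (φ : X → Fin N → ℝ)
    (B B' : Finset (Fin N)) (hB : ∀ x x', |RR N φ B x x'| ≤ 1)
    {ρ ρ' : ℝ} {r r' : ℕ → ℝ} (hρ' : |ρ'| ≤ 1) (hr' : ∀ i ≤ S.K, |r' i| ≤ 1)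
    (z : ι → ℝ) (x : X) :
    |∑ p ∈ B, ∑ q ∈ B', (1 / N * φ x p * (1 / N * φ x q)) *
        W0 S (fun _ x => φ x p * φ x q) z x -
      (ρ * ρ' - ∑ i ∈ Finset.range (S.K + 1), S.p i * (r i * r' i))| ≤
      |RR N φ B x x - ρ| + |RR N φ B' x x - ρ'| +
      ∑ i ∈ Finset.range (S.K + 1), S.p i *
        (Dd S (RR N φ B) r i z x + Dd S (RR N φ B') r' i z x) := by
  have hrg : ∀ i ∈ Finset.range (S.K + 1), i ≤ S.K := fun i hi =>
    Nat.lt_succ_iff.1 (Finset.mem_range.1 hi)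
  have hTs : ∀ i ≤ S.K, ∑ p ∈ B, ∑ q ∈ B', (1 / N * φ x p * (1 / N * φ x q)) *
      S.T i (fun _ x' => φ x' p * φ x' q) z =
      Av S i (fun x x' => RR N φ B x x' * RR N φ B' x x') z x := by
    intro i hi
    unfold Av
    have e : (fun (_ : ι → ℝ) (x' : X) => RR N φ B x x' * RR N φ B' x x') =
        fun (_ : ι → ℝ) (x' : X) => ∑ p ∈ B, ∑ q ∈ B', (1 / N * φ x p * (1 / N * φ x q)) *
          (φ x' p * φ x' q) := by
      funext _ x'
      rw [bil]
      unfold RR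
      rw [Finset.mul_sum, Finset.mul_sum]
      congr 1
      · exact Finset.sum_congr rfl fun p _ => by ring
      · exact Finset.sum_congr rfl fun p _ => by ring
    rw [e, hS.T_sum hi B (f := fun p _ x' => ∑ q ∈ B', (1 / N * φ x p * (1 / N * φ x q)) *
          (φ x' p * φ x' q)) fun p _ => Nh.snd _]
    refine Finset.sum_congr rfl fun p _ => ?_
    rw [hS.T_sum hi B' (f := fun q _ x' => (1 / N * φ x p * (1 / N * φ x q)) *
          (φ x' p * φ x' q)) fun q _ => Nh.snd _]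
    refine Finset.sum_congr rfl fun q _ => ?_
    rw [T_const_mul]
  have hW : ∑ p ∈ B, ∑ q ∈ B', (1 / N * φ x p * (1 / N * φ x q)) *
        W0 S (fun _ x => φ x p * φ x q) z x = RR N φ B x x * RR N φ B' x x -
      ∑ i ∈ Finset.range (S.K + 1), S.p i *
        Av S i (fun x x' => RR N φ B x x' * RR N φ B' x x') z x := by
    have hR : ∀ C : Finset (Fin N), RR N φ C x x = ∑ p ∈ C, 1 / N * φ x p * φ x p := by
      intro C
      unfold RR
      rw [Finset.mul_sum]
      exact Finset.sum_congr rfl fun p _ => by ring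
    unfold W0
    simp only [mul_sub, Finset.sum_sub_distrib]
    congr 1
    · rw [bil, hR B, hR B']
    · simp only [Finset.mul_sum]
      rw [Finset.sum_congr rfl fun p _ => Finset.sum_comm, Finset.sum_comm]
      refine Finset.sum_congr rfl fun i hi => ?_
      rw [← hTs i (hrg i hi), Finset.mul_sum]
      refine Finset.sum_congr rfl fun p _ => ?_
      rw [Finset.mul_sum]
      exact Finset.sum_congr rfl fun q _ => by ring
  rw [hW]
  have t1 := mul_sub_mul_le (r := ρ) (hB x x) hρ' (a' := RR N φ B' x x)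
  have t5 : |∑ i ∈ Finset.range (S.K + 1), S.p i *
        Av S i (fun x x' => RR N φ B x x' * RR N φ B' x x') z x -
      ∑ i ∈ Finset.range (S.K + 1), S.p i * (r i * r' i)| ≤
      ∑ i ∈ Finset.range (S.K + 1), S.p i * (Dd S (RR N φ B) r i z x +
        Dd S (RR N φ B') r' i z x) := by
    refine abs_sum_sub_le hS (fun i hi => hi) (fun i hi => ?_) (fun i hi => ?_)
    · have hi' := hrg i hi
      refine (abs_Av_sub_le hS hi' _ _ z x).trans ?_
      have h1 : Av S i (fun x x' => |RR N φ B x x' * RR N φ B' x x' - r i * r' i|) z x ≤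
          Av S i (fun x x' => |RR N φ B x x' - r i| + |RR N φ B' x x' - r' i|) z x :=
        Av_mono hS hi' (fun x x' => mul_sub_mul_le (hB x x') (hr' i hi')) z x
      refine h1.trans (le_of_eq ?_)
      exact hS.T_add hi' (Nh.snd _) (Nh.snd _) z
    · have := Dd_nonneg hS (RR N φ B) r (hrg i hi) z x
      have := Dd_nonneg hS (RR N φ B') r' (hrg i hi) z x
      positivity
  rw [abs_le] at t1 t5 ⊢
  constructor <;> linarith only [t1.1, t5.2, t1.2, t5.1]

end Vale.Agent.P166.H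
end
end

section

section

/-!
Sums over patterns of the kernels of the loop equations: the contribution of the fields.
-/

open MeasureTheory ProbabilityTheory Filter Topology Matrix
open Vale.Agent.P157.Lv Vale.Agent.P157.Lv.Sy

namespace Vale.Agent.P166.H

open Vale.Agent

set_option linter.unusedSectionVars false

variable {N : ℕ} {ι X : Type} [Fintype ι] [Fintype X] [Nonempty X] {S : Sy ι X}

/-- Cauchy-Schwarz for a double sum. -/
lemma bil_le (B B' : Finset (Fin N)) {c : Fin N → Fin N → ℝ} {b a : Fin N → ℝ} {α β : ℝ}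
    (hc : ∀ p q, |c p q| ≤ |b p| * |a q|) (hb : ∑ i, b i ^ 2 ≤ β ^ 2) (ha : ∑ i, a i ^ 2 ≤ α ^ 2)
    (hβ : 0 ≤ β) (hα : 0 ≤ α) {F G : Fin N → ℝ} (hF : ∑ i, F i ^ 2 ≤ N) (hG : ∑ i, G i ^ 2 ≤ N) :
    |∑ p ∈ B, ∑ q ∈ B', c p q * (F p * G q)| ≤ α * β * N := by
  have h1 : |∑ p ∈ B, ∑ q ∈ B', c p q * (F p * G q)| ≤
      (∑ p, |b p| * |F p|) * (∑ q, |a q| * |G q|) := by
    refine (Finset.abs_sum_le_sum_abs _ _).trans ?_
    refine (Finset.sum_le_sum fun p _ => Finset.abs_sum_le_sum_abs _ _).trans ?_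
    refine (Finset.sum_le_sum fun p _ => Finset.sum_le_sum (g := fun q =>
      (|b p| * |F p|) * (|a q| * |G q|)) fun q _ => ?_).trans ?_
    · rw [abs_mul, abs_mul]
      have := mul_le_mul_of_nonneg_right (hc p q)
        (mul_nonneg (abs_nonneg (F p)) (abs_nonneg (G q)))
      calc |c p q| * (|F p| * |G q|) ≤ |b p| * |a q| * (|F p| * |G q|) := this
        _ = _ := by ring
    · rw [Finset.sum_mul_sum]
      have h2 : ∀ p, 0 ≤ ∑ q, (|b p| * |F p|) * (|a q| * |G q|) := fun p =>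
        Finset.sum_nonneg fun q _ => by positivity
      refine (Finset.sum_le_sum fun p _ => Finset.sum_le_sum_of_subset_of_nonneg
        (Finset.subset_univ B') fun q _ _ => by positivity).trans ?_
      exact Finset.sum_le_sum_of_subset_of_nonneg (Finset.subset_univ B) fun p _ _ => h2 p
  have cs : ∀ {u v : Fin N → ℝ} {γ : ℝ}, 0 ≤ γ → ∑ i, u i ^ 2 ≤ γ ^ 2 → ∑ i, v i ^ 2 ≤ N →
      ∑ i, |u i| * |v i| ≤ γ * Real.sqrt N := by
    intro u v γ hγ hu hv
    have h := Real.sum_mul_le_sqrt_mul_sqrt Finset.univ (fun i => |u i|) (fun i => |v i|)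
    simp only [sq_abs] at h
    refine h.trans (mul_le_mul ?_ (Real.sqrt_le_sqrt hv) (Real.sqrt_nonneg _) hγ)
    rw [← Real.sqrt_sq hγ]
    exact Real.sqrt_le_sqrt hu
  have hN : Real.sqrt N * Real.sqrt N = N := Real.mul_self_sqrt (Nat.cast_nonneg N)
  refine h1.trans ((mul_le_mul (cs hβ hb hF) (cs hα ha hG) (Finset.sum_nonneg fun i _ => by
    positivity) (by positivity)).trans (le_of_eq ?_))
  calc β * Real.sqrt N * (α * Real.sqrt N) = α * β * (Real.sqrt N * Real.sqrt N) := by ring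
    _ = _ := by rw [hN]

/-- The averages of a vector of norm at most `√N`. -/
lemma sum_T_sq_le (hS : RegG S) {i : ℕ} (hi : i ≤ S.K) {φ : X → Fin N → ℝ}
    (hφ : ∀ x, ∑ r, φ x r ^ 2 ≤ N) (z : ι → ℝ) :
    ∑ r, S.T i (fun _ x => φ x r) z ^ 2 ≤ N := by
  have h1 : ∑ r, S.T i (fun _ x => φ x r) z ^ 2 ≤ ∑ r, S.T i (fun _ x => φ x r ^ 2) z :=
    Finset.sum_le_sum fun r _ => hS.sq_T_le hi (Nh.snd _) z
  have h2 := hS.T_sum hi Finset.univ (f := fun r (_ : ι → ℝ) (x : X) => φ x r ^ 2)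
    (fun r _ => Nh.snd _) z
  have h3 := hS.T_mono hi (f := fun _ x => ∑ r, φ x r ^ 2) (g := fun _ _ => (N : ℝ)) (Nh.snd _)
    (fun _ => EG.const _) (fun _ x => hφ x) z
  rw [hS.T_const hi] at h3
  linarith

/-- The contribution of the fields, two replicas. -/
theorem field_W (hS : RegG S) {l : ℕ} (hl : l ≤ S.K) {φ : X → Fin N → ℝ}
    (hφ : ∀ x, ∑ r, φ x r ^ 2 ≤ N) (B B' : Finset (Fin N)) {c : Fin N → Fin N → ℝ}
    {b a : Fin N → ℝ} {α β : ℝ} (hc : ∀ p q, |c p q| ≤ |b p| * |a q|)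
    (hb : ∑ i, b i ^ 2 ≤ β ^ 2) (ha : ∑ i, a i ^ 2 ≤ α ^ 2) (hβ : 0 ≤ β) (hα : 0 ≤ α)
    (z : ι → ℝ) (x : X) :
    |∑ p ∈ B, ∑ q ∈ B', c p q * W S l (fun _ x => φ x p) (fun _ x => φ x q) z x| ≤
      7 * (α * β * N) := by
  rw [sum_W S hS hl (fun p x => φ x p) (fun q x => φ x q) B B' c z x]
  have hE : 0 ≤ α * β * N := by positivity
  have key : ∀ {F G : Fin N → ℝ}, ∑ i, F i ^ 2 ≤ N → ∑ i, G i ^ 2 ≤ N →
      |∑ p ∈ B, ∑ q ∈ B', c p q * (F p * G q)| ≤ α * β * N := fun hF hG =>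
    bil_le B B' hc hb ha hβ hα hF hG
  have hT : ∀ {i : ℕ}, i ≤ S.K → ∀ z, ∑ r, S.T i (fun _ x => φ x r) z ^ 2 ≤ N := fun hi z =>
    sum_T_sq_le hS hi hφ z
  have t1 := key (F := fun p => φ x p) (G := fun q => S.T l (fun _ x => φ x q) z) (hφ x) (hT hl z)
  have t2 := key (F := fun p => S.T l (fun _ x => φ x p) z) (G := fun q => φ x q) (hT hl z) (hφ x)
  have t3 : |∑ i ∈ Finset.Ico (l + 1) (S.K + 1), S.p i *
        (∑ p ∈ B, ∑ q ∈ B', c p q * (S.T i (fun _ x => φ x p) z * S.T l (fun _ x => φ x q) z) +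
         ∑ p ∈ B, ∑ q ∈ B', c p q * (S.T l (fun _ x => φ x p) z * S.T i (fun _ x => φ x q) z))|
      ≤ 2 * (α * β * N) := by
    refine abs_sum_p_le hS (by omega) le_rfl (by positivity) fun i hi => ?_
    have hi' := Nat.lt_succ_iff.1 (Finset.mem_Ico.1 hi).2
    have e1 := key (F := fun p => S.T i (fun _ x => φ x p) z)
      (G := fun q => S.T l (fun _ x => φ x q) z) (hT hi' z) (hT hl z)
    have e2 := key (F := fun p => S.T l (fun _ x => φ x p) z)
      (G := fun q => S.T i (fun _ x => φ x q) z) (hT hl z) (hT hi' z)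
    refine (abs_add_le _ _).trans ?_
    linarith
  have t4 : |(S.m l - 2 * S.m (l + 1)) * (∑ p ∈ B, ∑ q ∈ B', c p q *
      (S.T l (fun _ x => φ x p) z * S.T l (fun _ x => φ x q) z))| ≤ 2 * (α * β * N) := by
    rw [abs_mul]
    have m1 : 0 ≤ S.m l := by
      have := hS.m_mono (Nat.zero_le l) (by omega : l ≤ S.K + 1)
      rwa [hS.m0] at this
    have m2 := hS.mono l hl
    have m3 := hS.m_le_one (show l + 1 ≤ S.K + 1 by omega)
    have e2 : |S.m l - 2 * S.m (l + 1)| ≤ 2 := by rw [abs_le]; constructor <;> linarith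
    exact mul_le_mul e2 (key (F := fun p => S.T l (fun _ x => φ x p) z)
      (G := fun q => S.T l (fun _ x => φ x q) z) (hT hl z) (hT hl z)) (abs_nonneg _) (by norm_num)
  have t5 : |∑ i ∈ Finset.range l, S.p i * S.T i (fun z _ => ∑ p ∈ B, ∑ q ∈ B',
        c p q * (S.T l (fun _ x => φ x p) z * S.T l (fun _ x => φ x q) z)) z| ≤ α * β * N := by
    rw [← Nat.Ico_zero_eq_range]
    refine abs_sum_p_le hS (Nat.zero_le _) (by omega) hE fun i hi => ?_
    have hi' := (Finset.mem_Ico.1 hi).2.le.trans hl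
    refine hS.abs_T_le hi' (Nh.sum _ fun p _ => Nh.sum _ fun q _ => Nh.const_mul _ (Nh.fst
      ((hS.eg_T hl (Nh.snd _)).mul (hS.eg_T hl (Nh.snd _))))) (fun z _ => ?_) z
    exact key (F := fun p => S.T l (fun _ x => φ x p) z)
      (G := fun q => S.T l (fun _ x => φ x q) z) (hT hl z) (hT hl z)
  rw [abs_le] at t1 t2 t3 t4 t5 ⊢
  constructor <;> linarith [t1.1, t1.2, t2.1, t2.2, t3.1, t3.2, t4.1, t4.2, t5.1, t5.2]

/-- The contribution of the fields, one replica. -/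
theorem field_W0 (hS : RegG S) {φ : X → Fin N → ℝ}
    (hφ : ∀ x, ∑ r, φ x r ^ 2 ≤ N) (B B' : Finset (Fin N)) {c : Fin N → Fin N → ℝ}
    {b a : Fin N → ℝ} {α β : ℝ} (hc : ∀ p q, |c p q| ≤ |b p| * |a q|)
    (hb : ∑ i, b i ^ 2 ≤ β ^ 2) (ha : ∑ i, a i ^ 2 ≤ α ^ 2) (hβ : 0 ≤ β) (hα : 0 ≤ α)
    (z : ι → ℝ) (x : X) :
    |∑ p ∈ B, ∑ q ∈ B', c p q * W0 S (fun _ x => φ x p * φ x q) z x| ≤ 2 * (α * β * N) := by
  have hE : 0 ≤ α * β * N := by positivity
  have key : ∀ x, |∑ p ∈ B, ∑ q ∈ B', c p q * (φ x p * φ x q)| ≤ α * β * N := fun x =>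
    bil_le B B' hc hb ha hβ hα (hφ x) (hφ x)
  have hW : ∑ p ∈ B, ∑ q ∈ B', c p q * W0 S (fun _ x => φ x p * φ x q) z x =
      ∑ p ∈ B, ∑ q ∈ B', c p q * (φ x p * φ x q) - ∑ i ∈ Finset.range (S.K + 1), S.p i *
        S.T i (fun _ x => ∑ p ∈ B, ∑ q ∈ B', c p q * (φ x p * φ x q)) z := by
    unfold W0
    simp only [mul_sub, Finset.sum_sub_distrib]
    congr 1
    simp only [Finset.mul_sum]
    rw [Finset.sum_congr rfl fun p _ => Finset.sum_comm, Finset.sum_comm]
    refine Finset.sum_congr rfl fun i hi => ?_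
    have hi' := Nat.lt_succ_iff.1 (Finset.mem_range.1 hi)
    rw [hS.T_sum hi' B (f := fun p _ x => ∑ q ∈ B', c p q * (φ x p * φ x q))
      fun p _ => Nh.snd _, Finset.mul_sum]
    refine Finset.sum_congr rfl fun p _ => ?_
    rw [hS.T_sum hi' B' (f := fun q _ x => c p q * (φ x p * φ x q))
      fun q _ => Nh.snd _, Finset.mul_sum]
    refine Finset.sum_congr rfl fun q _ => ?_
    rw [T_const_mul]
    ring
  have t1 := key x
  have t2 : |∑ i ∈ Finset.range (S.K + 1), S.p i *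
        S.T i (fun _ x => ∑ p ∈ B, ∑ q ∈ B', c p q * (φ x p * φ x q)) z| ≤ α * β * N := by
    rw [← Nat.Ico_zero_eq_range]
    refine abs_sum_p_le hS (Nat.zero_le _) le_rfl hE fun i hi => ?_
    exact hS.abs_T_le (Nat.lt_succ_iff.1 (Finset.mem_Ico.1 hi).2) (Nh.snd _)
      (fun _ x => key x) z
  rw [hW]
  rw [abs_le] at t1 t2 ⊢
  constructor <;> linarith [t1.1, t1.2, t2.1, t2.2]

end Vale.Agent.P166.H
end
end

section

section

/-!
The norm of the pattern fields of one level.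
-/

open MeasureTheory ProbabilityTheory Filter Topology Matrix
open Vale.Agent.P157.Lv Vale.Agent.P157.Lv.Sy

namespace Vale.Agent.P166.H

open Vale.Agent

set_option linter.unusedSectionVars false

variable {N : ℕ} {ι X : Type} [Fintype ι] [Fintype X] [Nonempty X]

namespace GS

variable {A : GS N ι X}

/-- The norm of the pattern fields of the level `l`. -/
noncomputable def zn (A : GS N ι X) (l : ℕ) (z : ι → ℝ) : ℝ :=
  Real.sqrt (∑ i, z (A.bc l i) ^ 2)

lemma sum_z_eg (A : GS N ι X) (l : ℕ) : EG fun z : ι → ℝ => ∑ i, z (A.bc l i) ^ 2 :=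
  EG.sum _ fun i _ => (EG.coord (A.bc l i)).pow 2

lemma nh_zn (A : GS N ι X) (l : ℕ) : Nh (X := X) fun z _ => A.zn l z := by
  refine Nh.fst (EG.mono (g := fun z : ι → ℝ => 1 + ∑ i, z (A.bc l i) ^ 2)
    ((EG.const 1).add (A.sum_z_eg l)) (A.sum_z_eg l).meas.sqrt fun z => ?_)
  have h0 : 0 ≤ ∑ i, z (A.bc l i) ^ 2 := Finset.sum_nonneg fun i _ => sq_nonneg _
  have h1 := Real.sq_sqrt h0
  have h2 := Real.sqrt_nonneg (∑ i, z (A.bc l i) ^ 2)
  unfold zn
  rw [abs_of_nonneg h2, abs_of_nonneg (by linarith only [h0])]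
  linarith only [h0, h1, sq_nonneg (Real.sqrt (∑ i, z (A.bc l i) ^ 2) - 1)]

variable [DecidableEq ι]

/-- The second moment of the norm. -/
lemma Ok.Ex_zn_sq (hA : A.Ok) {U : Matrix (Fin N) (Fin N) ℝ}
    (hU : U ∈ Matrix.orthogonalGroup (Fin N) ℝ) {l : ℕ} (hl : l ≤ A.K) {η : ℝ}
    (hη : ∀ i, |A.u i l| ≤ η) (hη0 : 0 ≤ η) :
    (A.sy U).Ex (fun z _ => ∑ i, z (A.bc l i) ^ 2) ≤ (2 + 4 * η ^ 2) * N := by
  have hG := hA.regG U
  have hφ : ∀ x, ∑ r, A.y U x r ^ 2 ≤ N := fun x => (hA.sum_y hU x).le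
  have nc : ∀ i, Nh fun (z : ι → ℝ) (_ : X) => z (A.bc l i) := fun i _ => EG.coord _
  -- the correction
  set t : Fin N → (ι → ℝ) → X → ℝ := fun i z x => A.u i l * A.y U x i -
    ∑ j ∈ Finset.Ico l (A.K + 1), (A.sy U).p j * (A.sy U).T j (fun _ x => A.u i l * A.y U x i) z
    with ht
  have nt : ∀ i, Nh (t i) := fun i => Nh.sub (Nh.snd _) (Nh.sum _ fun j hj => Nh.const_mul _
    (Nh.fst (hG.eg_T (Nat.lt_succ_iff.1 (Finset.mem_Ico.1 hj).2) (Nh.snd _))))
  have h1 : ∀ i, (A.sy U).Ex (fun z _ => z (A.bc l i) ^ 2) =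
      (A.sy U).Ex (fun z x => 1 + z (A.bc l i) * t i z x) := by
    intro i
    have h := (hA.regE U hl i).ibp (h := fun z _ => z (A.bc l i)) (h' := fun _ _ => 1)
      (fun x => by simpa using PD.coord (e := A.bc l i) (A.bc l i)) (nc i) (fun _ => EG.const 1)
    have e1 : (A.sy U).lev (A.bc l i) = l := hA.bclev l hl i
    rw [e1] at h
    rw [show (fun (z : ι → ℝ) (_ : X) => z (A.bc l i) ^ 2) = fun z _ => z (A.bc l i) *
      z (A.bc l i) by funext z _; ring]
    exact h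
  have h2 : (A.sy U).Ex (fun z _ => ∑ i, z (A.bc l i) ^ 2) =
      (A.sy U).Ex (fun z x => ∑ i, (1 + z (A.bc l i) * t i z x)) := by
    rw [hG.Ex_sum _ fun i _ => (Nh.pow (nc i) 2), hG.Ex_sum _ fun i _ =>
      Nh.add (fun _ => EG.const 1) (Nh.mul (nc i) (nt i))]
    exact Finset.sum_congr rfl fun i _ => h1 i
  have nS : Nh (X := X) fun z _ => ∑ i, z (A.bc l i) ^ 2 := Nh.fst (A.sum_z_eg l)
  have hpt : ∀ (z : ι → ℝ) x, ∑ i, (1 + z (A.bc l i) * t i z x) ≤
      (1 + 2 * η ^ 2) * N + 1 / 2 * ∑ i, z (A.bc l i) ^ 2 := by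
    intro z x
    -- the norm of the correction
    have hTn : ∀ j ≤ A.K, ∑ r, (A.sy U).T j (fun _ x => A.y U x r) z ^ 2 ≤ N := fun j hj =>
      sum_T_sq_le hG hj hφ z
    have ha : ∑ i, t i z x ^ 2 ≤ (2 * η) ^ 2 * N := by
      -- `t i = u i (y i - ∑ p_j T_j y_i)`
      have e1 : ∀ i, t i z x = A.u i l * (A.y U x i - ∑ j ∈ Finset.Ico l (A.K + 1),
          (A.sy U).p j * (A.sy U).T j (fun _ x => A.y U x i) z) := by
        intro i
        simp only [ht]
        rw [mul_sub, Finset.mul_sum]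
        congr 1
        refine Finset.sum_congr rfl fun j _ => ?_
        rw [T_const_mul]
        ring
      have e2 : ∀ i, t i z x ^ 2 ≤ η ^ 2 * (2 * A.y U x i ^ 2 + 2 *
          ∑ j ∈ Finset.Ico l (A.K + 1), (A.sy U).p j *
            (A.sy U).T j (fun _ x => A.y U x i) z ^ 2) := by
        intro i
        rw [e1 i, mul_pow]
        have c1 : A.u i l ^ 2 ≤ η ^ 2 := by
          rw [← sq_abs]; exact pow_le_pow_left₀ (abs_nonneg _) (hη i) 2
        have c2 : (∑ j ∈ Finset.Ico l (A.K + 1), (A.sy U).p j *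
            (A.sy U).T j (fun _ x => A.y U x i) z) ^ 2 ≤ ∑ j ∈ Finset.Ico l (A.K + 1),
            (A.sy U).p j * (A.sy U).T j (fun _ x => A.y U x i) z ^ 2 := by
          have hp : ∀ j ∈ Finset.Ico l (A.K + 1), 0 ≤ (A.sy U).p j := fun j hj =>
            p_nonneg hG (Nat.lt_succ_iff.1 (Finset.mem_Ico.1 hj).2)
          have hcs := Finset.sum_mul_sq_le_sq_mul_sq (Finset.Ico l (A.K + 1))
            (fun j => Real.sqrt ((A.sy U).p j)) (fun j => Real.sqrt ((A.sy U).p j) *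
              (A.sy U).T j (fun _ x => A.y U x i) z)
          have s1 : ∑ j ∈ Finset.Ico l (A.K + 1), Real.sqrt ((A.sy U).p j) *
              (Real.sqrt ((A.sy U).p j) * (A.sy U).T j (fun _ x => A.y U x i) z) =
              ∑ j ∈ Finset.Ico l (A.K + 1), (A.sy U).p j *
                (A.sy U).T j (fun _ x => A.y U x i) z :=
            Finset.sum_congr rfl fun j hj => by
              rw [← mul_assoc, Real.mul_self_sqrt (hp j hj)]
          have s2 : ∑ j ∈ Finset.Ico l (A.K + 1), Real.sqrt ((A.sy U).p j) ^ 2 ≤ 1 := by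
            rw [Finset.sum_congr rfl fun j hj => Real.sq_sqrt (hp j hj)]
            exact sum_p_le hG (by omega) le_rfl
          have s3 : ∑ j ∈ Finset.Ico l (A.K + 1), (Real.sqrt ((A.sy U).p j) *
              (A.sy U).T j (fun _ x => A.y U x i) z) ^ 2 = ∑ j ∈ Finset.Ico l (A.K + 1),
              (A.sy U).p j * (A.sy U).T j (fun _ x => A.y U x i) z ^ 2 :=
            Finset.sum_congr rfl fun j hj => by rw [mul_pow, Real.sq_sqrt (hp j hj)]
          have s4 : 0 ≤ ∑ j ∈ Finset.Ico l (A.K + 1),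
              (A.sy U).p j * (A.sy U).T j (fun _ x => A.y U x i) z ^ 2 :=
            Finset.sum_nonneg fun j hj => mul_nonneg (hp j hj) (sq_nonneg _)
          rw [s1, s3] at hcs
          calc _ ≤ _ := hcs
            _ ≤ 1 * _ := mul_le_mul_of_nonneg_right s2 s4
            _ = _ := one_mul _
        have c3 : (A.y U x i - ∑ j ∈ Finset.Ico l (A.K + 1), (A.sy U).p j *
            (A.sy U).T j (fun _ x => A.y U x i) z) ^ 2 ≤ 2 * A.y U x i ^ 2 + 2 *
            ∑ j ∈ Finset.Ico l (A.K + 1), (A.sy U).p j *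
              (A.sy U).T j (fun _ x => A.y U x i) z ^ 2 := by
          linarith only [c2, sq_nonneg (A.y U x i + ∑ j ∈ Finset.Ico l (A.K + 1), (A.sy U).p j *
            (A.sy U).T j (fun _ x => A.y U x i) z)]
        exact mul_le_mul c1 c3 (sq_nonneg _) (sq_nonneg _)
      refine (Finset.sum_le_sum fun i _ => e2 i).trans ?_
      rw [← Finset.mul_sum, Finset.sum_add_distrib, ← Finset.mul_sum, ← Finset.mul_sum,
        Finset.sum_comm]
      have e3 : ∑ j ∈ Finset.Ico l (A.K + 1), ∑ i, (A.sy U).p j *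
          (A.sy U).T j (fun _ x => A.y U x i) z ^ 2 ≤ N := by
        have e4 : ∀ j ∈ Finset.Ico l (A.K + 1), ∑ i, (A.sy U).p j *
            (A.sy U).T j (fun _ x => A.y U x i) z ^ 2 ≤ (A.sy U).p j * N := by
          intro j hj
          have hj' := Nat.lt_succ_iff.1 (Finset.mem_Ico.1 hj).2
          rw [← Finset.mul_sum]
          exact mul_le_mul_of_nonneg_left (hTn j hj') (p_nonneg hG hj')
        refine (Finset.sum_le_sum e4).trans ?_
        rw [← Finset.sum_mul]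
        have := sum_p_le hG (a := l) (b := A.K + 1) (by omega) le_rfl
        have hN : (0 : ℝ) ≤ N := Nat.cast_nonneg N
        nlinarith only [this]
      have hN : (0 : ℝ) ≤ N := Nat.cast_nonneg N
      have e5 := hφ x
      have : 2 * ∑ i, A.y U x i ^ 2 + 2 * ∑ j ∈ Finset.Ico l (A.K + 1), ∑ i, (A.sy U).p j *
          (A.sy U).T j (fun _ x => A.y U x i) z ^ 2 ≤ 4 * N := by linarith only [e3, e5]
      calc _ ≤ η ^ 2 * (4 * N) := mul_le_mul_of_nonneg_left this (sq_nonneg _)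
        _ = _ := by ring
    have e6 : ∀ i, 1 + z (A.bc l i) * t i z x ≤
        1 + (1 / 2 * z (A.bc l i) ^ 2 + 1 / 2 * t i z x ^ 2) := fun i => by
      linarith only [sq_nonneg (z (A.bc l i) - t i z x)]
    refine (Finset.sum_le_sum fun i _ => e6 i).trans ?_
    rw [Finset.sum_add_distrib, Finset.sum_add_distrib, ← Finset.mul_sum, ← Finset.mul_sum]
    simp only [Finset.sum_const, Finset.card_univ, Fintype.card_fin, nsmul_eq_mul, mul_one]
    linarith only [ha]
  have hle := hG.Ex_mono (Nh.sum _ fun i _ => Nh.add (fun _ => EG.const 1)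
    (Nh.mul (nc i) (nt i))) (Nh.add (fun _ => EG.const _) (Nh.const_mul _ nS)) hpt
  rw [hG.Ex_add (fun _ => EG.const _) (Nh.const_mul _ nS), hG.Ex_const, Ex_const_mul, ← h2] at hle
  linarith only [hle]

/-- The mean norm. -/
lemma Ok.Ex_zn (hA : A.Ok) {U : Matrix (Fin N) (Fin N) ℝ}
    (hU : U ∈ Matrix.orthogonalGroup (Fin N) ℝ) {l : ℕ} (hl : l ≤ A.K) {η : ℝ}
    (hη : ∀ i, |A.u i l| ≤ η) (hη0 : 0 ≤ η) (hη1 : η ≤ 1) (hN : 0 < N) :
    (A.sy U).Ex (fun z _ => A.zn l z) ≤ 4 * Real.sqrt N := by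
  have hG := hA.regG U
  have hN' : (0 : ℝ) < N := by exact_mod_cast hN
  have hs : 0 < Real.sqrt N := Real.sqrt_pos.2 hN'
  have hss : Real.sqrt N * Real.sqrt N = N := Real.mul_self_sqrt hN'.le
  have nS : Nh (X := X) fun z _ => ∑ i, z (A.bc l i) ^ 2 := Nh.fst (A.sum_z_eg l)
  have hle := hG.Ex_mono (A.nh_zn l) (g := fun z _ => Real.sqrt N / 2 +
    1 / (2 * Real.sqrt N) * ∑ i, z (A.bc l i) ^ 2) (Nh.add (fun _ => EG.const _)
    (Nh.const_mul _ nS)) (fun z _ => by
      have h0 : 0 ≤ ∑ i, z (A.bc l i) ^ 2 := Finset.sum_nonneg fun i _ => sq_nonneg _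
      have h1 := Real.sq_sqrt h0
      have e : 1 / (2 * Real.sqrt N) * ∑ i, z (A.bc l i) ^ 2 =
          A.zn l z ^ 2 / (2 * Real.sqrt N) := by
        unfold zn; rw [h1]; ring
      rw [e, ← sub_nonneg]
      have e2 : Real.sqrt N / 2 + A.zn l z ^ 2 / (2 * Real.sqrt N) - A.zn l z =
          (Real.sqrt N - A.zn l z) ^ 2 / (2 * Real.sqrt N) := by
        field_simp
        ring
      rw [e2]
      positivity)
  rw [hG.Ex_add (fun _ => EG.const _) (Nh.const_mul _ nS), hG.Ex_const, Ex_const_mul] at hle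
  have h2 := hA.Ex_zn_sq hU hl hη hη0
  have h3 : 1 / (2 * Real.sqrt N) * (A.sy U).Ex (fun z _ => ∑ i, z (A.bc l i) ^ 2) ≤
      1 / (2 * Real.sqrt N) * (6 * (Real.sqrt N * Real.sqrt N)) := by
    refine mul_le_mul_of_nonneg_left (h2.trans ?_) (by positivity)
    rw [hss]
    have : η ^ 2 ≤ 1 := by nlinarith only [hη1, hη0]
    nlinarith only [this]
  have h4 : 1 / (2 * Real.sqrt N) * (6 * (Real.sqrt N * Real.sqrt N)) = 3 * Real.sqrt N := by
    field_simp
    norm_num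
  rw [h4] at h3
  linarith only [hs, hle, h3]

end GS

end Vale.Agent.P166.H
end
end

section

section

/-!
The loop equations of two blocks of patterns, for a fixed matrix.
-/

open MeasureTheory ProbabilityTheory Filter Topology Matrix
open Vale.Agent.P157.Lv Vale.Agent.P157.Lv.Sy

namespace Vale.Agent.P166.H

open Vale.Agent

set_option linter.unusedSectionVars false

variable {N : ℕ} {ι X : Type} [Fintype ι] [Fintype X] [Nonempty X]

lemma coef_le {n d η s t : ℝ} (hn : 0 ≤ n) (h : |d| ≤ 2 * η) :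
    |n * d * (s * t)| ≤ |n * (2 * η) * s| * |t| := by
  have h0 : 0 ≤ 2 * η := (abs_nonneg _).trans h
  rw [abs_mul, abs_mul, abs_mul s t, abs_mul, abs_mul n, abs_of_nonneg hn, abs_of_nonneg h0]
  have h1 : 0 ≤ n * (|s| * |t|) := by positivity
  have h2 := mul_le_mul_of_nonneg_right h h1
  calc n * |d| * (|s| * |t|) = |d| * (n * (|s| * |t|)) := by ring
    _ ≤ 2 * η * (n * (|s| * |t|)) := h2
    _ = _ := by ring

namespace GS

variable {A : GS N ι X}

lemma Ok.RR_le (hA : A.Ok) (hN : 0 < N) {U : Matrix (Fin N) (Fin N) ℝ}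
    (hU : U ∈ Matrix.orthogonalGroup (Fin N) ℝ) (B : Finset (Fin N)) (x x' : X) :
    |RR N (A.y U) B x x'| ≤ 1 := by
  have hN' : (0 : ℝ) < N := by exact_mod_cast hN
  have h1 := Finset.sum_mul_sq_le_sq_mul_sq B (fun i => A.y U x i) (fun i => A.y U x' i)
  have h2 : ∀ x, ∑ i ∈ B, A.y U x i ^ 2 ≤ N := fun x => by
    rw [← hA.sum_y hU x]
    exact Finset.sum_le_sum_of_subset_of_nonneg (Finset.subset_univ B) fun i _ _ => sq_nonneg _
  have h3 : (∑ i ∈ B, A.y U x i * A.y U x' i) ^ 2 ≤ N ^ 2 := by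
    refine h1.trans ?_
    rw [sq]
    exact mul_le_mul (h2 x) (h2 x') (Finset.sum_nonneg fun i _ => sq_nonneg _) hN'.le
  have h4 := abs_le_of_sq_le_sq h3 hN'.le
  unfold RR
  rw [abs_mul, abs_of_pos (by positivity : (0 : ℝ) < 1 / N), one_div, inv_mul_le_iff₀ hN', mul_one]
  exact h4

/-- The derivative of the energy along the rotation of patterns of two blocks, as a double
sequence. -/
lemma lD_block (A : GS N ι X) {p q : Fin N} {b b' : ℝ} (hp : A.lam p = b) (hq : A.lam q = b')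
    (kp : ∀ x, A.kap p x = 0) (kq : ∀ x, A.kap q x = 0) (U : Matrix (Fin N) (Fin N) ℝ)
    (z : ι → ℝ) (x : X) : 1 / N * (1 / N) * A.lD p q U z x =
      (b - b') * (1 / N * A.y U x p * (1 / N * A.y U x q)) + ∑ l ∈ Finset.range (A.K + 1),
        (1 / N * (1 / N) * (A.u p l - A.u q l) * (A.y U x p * z (A.bc l q)) +
         1 / N * (1 / N) * (A.u p l - A.u q l) * (z (A.bc l p) * A.y U x q)) := by
  unfold lD
  rw [hp, hq, kp, kq, mul_add, Finset.mul_sum]
  congr 1
  · ring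
  · exact Finset.sum_congr rfl fun l _ => by ring

/-- Hypotheses on two blocks. -/
structure Blk (A : GS N ι X) (B B' : Finset (Fin N)) (b b' η : ℝ) : Prop where
  disj : ∀ p ∈ B, ∀ q ∈ B', p ≠ q
  lam : ∀ p ∈ B, A.lam p = b
  lam' : ∀ q ∈ B', A.lam q = b'
  kap : ∀ p ∈ B, ∀ x, A.kap p x = 0
  kap' : ∀ q ∈ B', ∀ x, A.kap q x = 0
  u : ∀ i, ∀ l ≤ A.K, |A.u i l| ≤ η
  η0 : 0 ≤ η
  η1 : η ≤ 1

/-- The contribution of the fields, pointwise. -/
lemma Ok.field_block (hA : A.Ok) {U : Matrix (Fin N) (Fin N) ℝ}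
    (hU : U ∈ Matrix.orthogonalGroup (Fin N) ℝ) (hN : 0 < N) {B B' : Finset (Fin N)}
    {b b' η : ℝ} (hB : A.Blk B B' b b' η) (C : ℝ) (w : Fin N → Fin N → ℝ) (z : ι → ℝ) (x : X)
    (hw : ∀ {c : Fin N → Fin N → ℝ} {b a : Fin N → ℝ} {α β : ℝ},
      (∀ p q, |c p q| ≤ |b p| * |a q|) → (∑ i, b i ^ 2 ≤ β ^ 2) → (∑ i, a i ^ 2 ≤ α ^ 2) →
      0 ≤ β → 0 ≤ α → |∑ p ∈ B, ∑ q ∈ B', c p q * w p q| ≤ C * (α * β * N)) :
    |∑ p ∈ B, ∑ q ∈ B', (∑ l ∈ Finset.range (A.K + 1),
        (1 / N * (1 / N) * (A.u p l - A.u q l) * (A.y U x p * z (A.bc l q)) +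
         1 / N * (1 / N) * (A.u p l - A.u q l) * (z (A.bc l p) * A.y U x q))) * w p q| ≤
      ∑ l ∈ Finset.range (A.K + 1), 4 * C * η / Real.sqrt N * A.zn l z := by
  have hN' : (0 : ℝ) < N := by exact_mod_cast hN
  have hs : 0 < Real.sqrt N := Real.sqrt_pos.2 hN'
  have hss : Real.sqrt N * Real.sqrt N = N := Real.mul_self_sqrt hN'.le
  have e1 : ∑ p ∈ B, ∑ q ∈ B', (∑ l ∈ Finset.range (A.K + 1),
        (1 / N * (1 / N) * (A.u p l - A.u q l) * (A.y U x p * z (A.bc l q)) +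
         1 / N * (1 / N) * (A.u p l - A.u q l) * (z (A.bc l p) * A.y U x q))) * w p q =
      ∑ l ∈ Finset.range (A.K + 1), (∑ p ∈ B, ∑ q ∈ B',
        (1 / N * (1 / N) * (A.u p l - A.u q l) * (A.y U x p * z (A.bc l q))) * w p q +
        ∑ p ∈ B, ∑ q ∈ B', (1 / N * (1 / N) * (A.u p l - A.u q l) *
          (z (A.bc l p) * A.y U x q)) * w p q) := by
    simp only [Finset.sum_mul, add_mul]
    rw [Finset.sum_congr rfl fun p _ => Finset.sum_comm, Finset.sum_comm]
    refine Finset.sum_congr rfl fun l _ => ?_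
    simp only [Finset.sum_add_distrib]
  rw [e1]
  refine (Finset.abs_sum_le_sum_abs _ _).trans (Finset.sum_le_sum fun l hl => ?_)
  have hl' := Nat.lt_succ_iff.1 (Finset.mem_range.1 hl)
  have hu : ∀ p q, |A.u p l - A.u q l| ≤ 2 * η := fun p q => by
    have h1 := abs_sub (A.u p l) (A.u q l)
    have h2 := hB.u p l hl'
    have h3 := hB.u q l hl'
    linarith
  have hη := hB.η0
  have hz0 : 0 ≤ ∑ i, z (A.bc l i) ^ 2 := Finset.sum_nonneg fun i _ => sq_nonneg _
  have hzn : 0 ≤ A.zn l z := Real.sqrt_nonneg _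
  have hz2 : ∑ i, z (A.bc l i) ^ 2 ≤ A.zn l z ^ 2 := by
    unfold zn; rw [Real.sq_sqrt hz0]
  have hy2 : ∑ i, (1 / N * (1 / N) * (2 * η) * A.y U x i) ^ 2 ≤
      (1 / N * (1 / N) * (2 * η) * Real.sqrt N) ^ 2 := by
    simp only [mul_pow _ (A.y U x _)]
    rw [← Finset.mul_sum, hA.sum_y hU x, mul_pow _ (Real.sqrt N), sq (Real.sqrt N), hss]
  have hy2' : ∑ i, (1 / N * (1 / N) * (2 * η) * z (A.bc l i)) ^ 2 ≤
      (1 / N * (1 / N) * (2 * η) * A.zn l z) ^ 2 := by
    simp only [mul_pow _ (z _)]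
    rw [← Finset.mul_sum, mul_pow _ (A.zn l z)]
    exact mul_le_mul_of_nonneg_left hz2 (sq_nonneg _)
  have hys : ∑ i, A.y U x i ^ 2 ≤ Real.sqrt N ^ 2 := by
    rw [hA.sum_y hU x, sq, hss]
  have h1 := hw (c := fun p q => 1 / N * (1 / N) * (A.u p l - A.u q l) *
      (A.y U x p * z (A.bc l q))) (b := fun p => 1 / N * (1 / N) * (2 * η) * A.y U x p)
      (a := fun q => z (A.bc l q)) (fun p q => coef_le (by positivity) (hu p q)) hy2 hz2 (by positivity) hzn
  have h2 := hw (c := fun p q => 1 / N * (1 / N) * (A.u p l - A.u q l) *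
      (z (A.bc l p) * A.y U x q)) (b := fun p => 1 / N * (1 / N) * (2 * η) * z (A.bc l p))
      (a := fun q => A.y U x q) (fun p q => coef_le (by positivity) (hu p q)) hy2' hys (by positivity) (Real.sqrt_nonneg _)
  refine (abs_add_le _ _).trans ((add_le_add h1 h2).trans (le_of_eq ?_))
  have e2 : (N : ℝ) = Real.sqrt N * Real.sqrt N := hss.symm
  have e3 : 1 / (N : ℝ) * (1 / N) * (2 * η) * Real.sqrt N * N = 2 * η / Real.sqrt N := by
    rw [show (1 : ℝ) / N * (1 / N) * (2 * η) * Real.sqrt N * N = (1 / N) * (2 * η) * Real.sqrt N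
      by field_simp]
    nth_rewrite 1 [e2]
    field_simp
  calc C * (A.zn l z * (1 / N * (1 / N) * (2 * η) * Real.sqrt N) * N) +
      C * (Real.sqrt N * (1 / N * (1 / N) * (2 * η) * A.zn l z) * N) =
      2 * C * A.zn l z * (1 / N * (1 / N) * (2 * η) * Real.sqrt N * N) := by ring
    _ = _ := by rw [e3]; ring

end GS

end Vale.Agent.P166.H
end
end

section

section

/-!
The variance bound: definitions, the change of the energy under a reflection.
-/

open MeasureTheory ProbabilityTheory Filter Topology Matrix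
open Vale.Agent.P157.Lv Vale.Agent.P157.Lv.Sy
open Vale.Agent.P166.Conc (OG rfl')

namespace Vale.Agent.P166.H

open Vale.Agent

set_option linter.unusedSectionVars false

variable {N : ℕ} {ι X : Type} [Fintype ι] [Fintype X] [Nonempty X]

namespace GS

variable (A : GS N ι X)

/-- The linear coefficients of the pattern coordinates. -/
noncomputable def lc (z : ι → ℝ) (x : X) (i : Fin N) : ℝ :=
  A.kap i x + ∑ l ∈ Finset.range (A.K + 1), A.u i l * z (A.bc l i)

/-- The local field. -/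
noncomputable def gv (U : Matrix (Fin N) (Fin N) ℝ) (z : ι → ℝ) (x : X) : Fin N → ℝ :=
  Uᵀ *ᵥ fun i => A.lam i * A.y U x i + A.lc z x i

/-- The change of the energy under a reflection. -/
noncomputable def dX (U : Matrix (Fin N) (Fin N) ℝ) (w : Fin N → ℝ) (z : ι → ℝ) (x : X) : ℝ :=
  A.en (U * rfl' w) z x - A.en U z x

/-- The average of the square of the change of the energy. -/
noncomputable def Qv (U : Matrix (Fin N) (Fin N) ℝ) (w : Fin N → ℝ) : ℝ :=
  (A.sy U).Ex fun z x => A.dX U w z x ^ 2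

/-- Bounds of the coefficients. -/
structure Bd (A : GS N ι X) (b : ℝ) : Prop where
  one : 1 ≤ b
  lam : ∀ i, |A.lam i| ≤ b
  u : ∀ i, ∑ l ∈ Finset.range (A.K + 1), A.u i l ^ 2 ≤ b
  kap : ∀ x, ∑ i, A.kap i x ^ 2 ≤ b * N

variable {A}

lemma ev_eq (w : ℕ → Fin N → ℝ) (v : Fin N → ℝ) (x : X) : A.ev w v x =
    ∑ i, (A.lam i / 2 * v i ^ 2 + (A.kap i x +
      ∑ l ∈ Finset.range (A.K + 1), A.u i l * w l i) * v i) := by
  unfold ev
  rw [Finset.sum_comm, ← Finset.sum_add_distrib, ← Finset.sum_add_distrib]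
  refine Finset.sum_congr rfl fun i _ => ?_
  rw [add_mul, Finset.sum_mul, add_assoc]
  congr 2
  exact Finset.sum_congr rfl fun l _ => by ring

/-- The change of the energy under a reflection. -/
theorem dX_eq (U : OG N) (w : Fin N → ℝ) (z : ι → ℝ) (x : X) : A.dX U.1 w z x =
    -(2 / (w ⬝ᵥ w) * (w ⬝ᵥ A.sg x)) * (w ⬝ᵥ A.gv U.1 z x) +
      (2 / (w ⬝ᵥ w) * (w ⬝ᵥ A.sg x)) ^ 2 / 2 * (w ⬝ᵥ (Conc.JU A.lam U *ᵥ w)) := by
  have h1 : A.y (U.1 * rfl' w) x =
      fun i => A.y U.1 x i - (2 / (w ⬝ᵥ w) * (w ⬝ᵥ A.sg x)) * (U.1 *ᵥ w) i := by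
    unfold y
    rw [← Matrix.mulVec_mulVec, Conc.rfl'_mulVec, Matrix.mulVec_sub, Matrix.mulVec_smul]
    rfl
  have h2 : w ⬝ᵥ A.gv U.1 z x = ∑ i, (U.1 *ᵥ w) i * (A.lam i * A.y U.1 x i + A.lc z x i) := by
    unfold gv
    rw [← Conc.OG.dot_left]
    rfl
  rw [Conc.dot_JU, h2]
  unfold dX en
  rw [h1]
  rw [ev_eq, ev_eq]
  rw [Finset.mul_sum, Finset.mul_sum, ← Finset.sum_add_distrib]
  rw [add_sub_add_left_eq_sub, ← Finset.sum_sub_distrib]
  refine Finset.sum_congr rfl fun i _ => ?_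
  unfold lc
  ring

end GS

end Vale.Agent.P166.H
end
end

section

section

/-!
Sums over one block of patterns of the kernels of the loop equations with a test function which
does not depend on the patterns.
-/

open MeasureTheory ProbabilityTheory Filter Topology Matrix
open Vale.Agent.P157.Lv Vale.Agent.P157.Lv.Sy

namespace Vale.Agent.P166.H

open Vale.Agent

set_option linter.unusedSectionVars false

variable {N : ℕ} {ι X : Type} [Fintype ι] [Fintype X] [Nonempty X] {S : Sy ι X}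

/-- A pointwise approximation of `T_i (T_l ε · Av_l ψ)`, `i ≤ l`. -/
lemma abs_T_mul_Av_one (hS : RegG S) {i l : ℕ} (hil : i ≤ l) (hl : l ≤ S.K) {ψ : X → X → ℝ}
    {ε : X → ℝ} (hε : ∀ x, |ε x| ≤ 1) {r : ℝ} (z : ι → ℝ) (x : X) :
    |S.T i (fun z _ => S.T l (fun _ => ε) z * Av S l ψ z x) z - r * S.T i (fun _ => ε) z| ≤
      Av S i (fun x x' => |ψ x x' - r|) z x := by
  have hi := hil.trans hl
  have n0 : Nh (X := X) fun z _ => S.T l (fun _ => ε) z := Nh.fst (hS.eg_T hl (Nh.snd ε))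
  have n1 := nh_Av_fst hS hl ψ x
  have e1 : S.T i (fun z _ => S.T l (fun _ => ε) z * Av S l ψ z x) z - r * S.T i (fun _ => ε) z =
      S.T i (fun z _ => S.T l (fun _ => ε) z * (Av S l ψ z x - r)) z := by
    have h1 : (fun (z : ι → ℝ) (_ : X) => S.T l (fun _ => ε) z * (Av S l ψ z x - r)) =
        fun z _ => S.T l (fun _ => ε) z * Av S l ψ z x - r * S.T l (fun _ => ε) z := by
      funext z _; ring
    rw [h1, hS.T_sub hi (Nh.mul n0 n1) (Nh.const_mul r n0), T_const_mul,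
      hS.T_T hil hl (Nh.snd ε)]
  have nA1 := nh_Av_fst hS hl (fun x x' => |ψ x x' - r|) x
  have hpt : ∀ z, |S.T l (fun _ => ε) z * (Av S l ψ z x - r)| ≤
      Av S l (fun x x' => |ψ x x' - r|) z x := by
    intro z
    have a1 := abs_Av_sub_le hS hl ψ r z x
    have a2 := hS.abs_T_le hl (Nh.snd ε) (fun _ x => hε x) z
    rw [abs_mul]
    have b1 := mul_le_mul_of_nonneg_right a2 (abs_nonneg (Av S l ψ z x - r))
    linarith
  have nm : Nh (X := X) fun z _ => S.T l (fun _ => ε) z * (Av S l ψ z x - r) :=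
    Nh.mul n0 (Nh.sub n1 (fun _ => EG.const _))
  rw [e1, ← T_Av hS hil hl, abs_le]
  constructor
  · have h := hS.T_mono hi (f := fun z _ => -1 * Av S l (fun x x' => |ψ x x' - r|) z x)
      (Nh.const_mul _ nA1) nm (fun z _ => by
        have := (abs_le.1 (hpt z)).1
        linarith) z
    rw [T_const_mul] at h
    linarith
  · exact hS.T_mono hi nm nA1 (fun z _ => (abs_le.1 (hpt z)).2) z

/-- **One block and a test function: pointwise approximation, two replicas.** -/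
theorem approx_one (hS : RegG S) {l : ℕ} (hl : l ≤ S.K) (φ : X → Fin N → ℝ) (j : Fin N)
    (B : Finset (Fin N)) {ε : X → ℝ} (hε : ∀ x, |ε x| ≤ 1)
    {ρ : ℝ} {r : ℕ → ℝ} (z : ι → ℝ) (x : X) :
    |∑ p ∈ {j}, ∑ q ∈ B, (1 / N * φ x q) * W S l (fun _ => (fun _ : Fin N => ε) p)
        (fun _ x => φ x q) z x -
      (ρ * S.T l (fun _ => ε) z + r l * ε x -
      ∑ i ∈ Finset.Ico (l + 1) (S.K + 1), S.p i *
        (r i * S.T l (fun _ => ε) z + r l * S.T i (fun _ => ε) z) +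
      (S.m l - 2 * S.m (l + 1)) * (r l * S.T l (fun _ => ε) z) -
      ∑ i ∈ Finset.range l, S.p i * (r i * S.T i (fun _ => ε) z))| ≤
      |RR N φ B x x - ρ| + 4 * Dd S (RR N φ B) r l z x +
      2 * ∑ i ∈ Finset.range (S.K + 1), S.p i * Dd S (RR N φ B) r i z x := by
  rw [sum_W S hS hl (fun _ => ε) (fun q x => φ x q) {j} B (fun _ q => 1 / N * φ x q) z x]
  simp only [Finset.sum_singleton]
  have hR : RR N φ B x x = ∑ q ∈ B, 1 / N * φ x q * φ x q := by
    unfold RR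
    rw [Finset.mul_sum]
    exact Finset.sum_congr rfl fun p _ => by ring
  have hA : ∀ {i : ℕ} (_ : i ≤ S.K) (z : ι → ℝ), Av S i (RR N φ B) z x =
      ∑ q ∈ B, 1 / N * φ x q * S.T i (fun _ x' => φ x' q) z := by
    intro i hi z
    rw [Av_RR hS hi, Finset.mul_sum]
    exact Finset.sum_congr rfl fun p _ => by ring
  have hf : ∀ (a : ℝ) (G : Fin N → ℝ), ∑ q ∈ B, 1 / (N : ℝ) * φ x q * (a * G q) =
      a * ∑ q ∈ B, 1 / (N : ℝ) * φ x q * G q := by
    intro a G
    rw [Finset.mul_sum]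
    exact Finset.sum_congr rfl fun p _ => by ring
  simp only [hf]
  rw [← hR, ← hA hl z]
  have e3 : ∀ i ∈ Finset.Ico (l + 1) (S.K + 1), S.p i * (S.T i (fun _ => ε) z *
      Av S l (RR N φ B) z x + S.T l (fun _ => ε) z * ∑ q ∈ B, 1 / (N : ℝ) * φ x q *
        S.T i (fun _ x => φ x q) z) = S.p i * (S.T i (fun _ => ε) z *
      Av S l (RR N φ B) z x + S.T l (fun _ => ε) z * Av S i (RR N φ B) z x) := by
    intro i hi
    rw [hA (Nat.lt_succ_iff.1 (Finset.mem_Ico.1 hi).2) z]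
  have e5 : ∀ i ∈ Finset.range l, S.p i * S.T i (fun z _ => S.T l (fun _ => ε) z *
      ∑ q ∈ B, 1 / (N : ℝ) * φ x q * S.T l (fun _ x => φ x q) z) z =
      S.p i * S.T i (fun z _ => S.T l (fun _ => ε) z * Av S l (RR N φ B) z x) z := by
    intro i _
    simp only [hA hl]
  rw [Finset.sum_congr rfl e3, Finset.sum_congr rfl e5]
  have hp : ∀ i ∈ Finset.range (S.K + 1), 0 ≤ S.p i := fun i hi =>
    p_nonneg hS (Nat.lt_succ_iff.1 (Finset.mem_range.1 hi))
  have dB : ∀ i ≤ S.K, |Av S i (RR N φ B) z x - r i| ≤ Dd S (RR N φ B) r i z x := fun i hi =>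
    abs_Av_sub_le hS hi _ _ z x
  have tε : ∀ i ≤ S.K, |S.T i (fun _ => ε) z| ≤ 1 := fun i hi =>
    hS.abs_T_le hi (Nh.snd ε) (fun _ x => hε x) z
  have e0 : ∀ i ≤ S.K, 0 ≤ Dd S (RR N φ B) r i z x := fun i hi => Dd_nonneg hS _ _ hi z x
  have hrg : ∀ i ∈ Finset.range (S.K + 1), i ≤ S.K := fun i hi =>
    Nat.lt_succ_iff.1 (Finset.mem_range.1 hi)
  have hmul : ∀ {a b c d : ℝ}, |a| ≤ 1 → |b - c| ≤ d → |a * b - c * a| ≤ d := by
    intro a b c d ha hb
    have e : a * b - c * a = a * (b - c) := by ring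
    rw [e, abs_mul]
    have := mul_le_mul_of_nonneg_right ha (abs_nonneg (b - c))
    linarith
  have t1 : |ε x * Av S l (RR N φ B) z x - r l * ε x| ≤ Dd S (RR N φ B) r l z x :=
    hmul (hε x) (dB l hl)
  have t2 : |S.T l (fun _ => ε) z * RR N φ B x x - ρ * S.T l (fun _ => ε) z| ≤
      |RR N φ B x x - ρ| := hmul (tε l hl) le_rfl
  have t3 : |∑ i ∈ Finset.Ico (l + 1) (S.K + 1), S.p i *
        (S.T i (fun _ => ε) z * Av S l (RR N φ B) z x +
         S.T l (fun _ => ε) z * Av S i (RR N φ B) z x) -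
      ∑ i ∈ Finset.Ico (l + 1) (S.K + 1), S.p i *
        (r i * S.T l (fun _ => ε) z + r l * S.T i (fun _ => ε) z)| ≤
      ∑ i ∈ Finset.range (S.K + 1), S.p i * (Dd S (RR N φ B) r i z x +
        Dd S (RR N φ B) r l z x) := by
    refine abs_sum_sub_le hS (fun i hi => ?_) (fun i hi => ?_) (fun i hi => ?_)
    · rw [Finset.mem_range]; exact (Finset.mem_Ico.1 hi).2
    · have hi' := Nat.lt_succ_iff.1 (Finset.mem_Ico.1 hi).2
      have b1 := hmul (tε i hi') (dB l hl)
      have b2 := hmul (tε l hl) (dB i hi')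
      rw [abs_le] at b1 b2 ⊢
      constructor <;> linarith [b1.1, b1.2, b2.1, b2.2]
    · have := e0 i (hrg i hi)
      have := e0 l hl
      positivity
  have t4 : |(S.m l - 2 * S.m (l + 1)) * (S.T l (fun _ => ε) z * Av S l (RR N φ B) z x) -
      (S.m l - 2 * S.m (l + 1)) * (r l * S.T l (fun _ => ε) z)| ≤
      2 * Dd S (RR N φ B) r l z x := by
    rw [← mul_sub, abs_mul]
    have m1 : 0 ≤ S.m l := by
      have := hS.m_mono (Nat.zero_le l) (by omega : l ≤ S.K + 1)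
      rwa [hS.m0] at this
    have m2 := hS.mono l hl
    have m3 := hS.m_le_one (show l + 1 ≤ S.K + 1 by omega)
    have e2 : |S.m l - 2 * S.m (l + 1)| ≤ 2 := by rw [abs_le]; constructor <;> linarith
    exact mul_le_mul e2 (hmul (tε l hl) (dB l hl)) (abs_nonneg _) (by norm_num)
  have t5 : |∑ i ∈ Finset.range l, S.p i * S.T i (fun z _ =>
        S.T l (fun _ => ε) z * Av S l (RR N φ B) z x) z -
      ∑ i ∈ Finset.range l, S.p i * (r i * S.T i (fun _ => ε) z)| ≤
      ∑ i ∈ Finset.range (S.K + 1), S.p i * Dd S (RR N φ B) r i z x := by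
    refine abs_sum_sub_le hS (fun i hi => ?_) (fun i hi => ?_) (fun i hi => ?_)
    · rw [Finset.mem_range] at hi ⊢; omega
    · exact abs_T_mul_Av_one hS (Finset.mem_range.1 hi).le hl hε z x
    · exact e0 i (hrg i hi)
  have hsum : ∑ i ∈ Finset.range (S.K + 1), S.p i * (Dd S (RR N φ B) r i z x +
        Dd S (RR N φ B) r l z x) =
      ∑ i ∈ Finset.range (S.K + 1), S.p i * Dd S (RR N φ B) r i z x +
        Dd S (RR N φ B) r l z x := by
    simp only [mul_add, Finset.sum_add_distrib]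
    rw [← Finset.sum_mul, sum_p S hS.m0, hS.mK, one_mul]
  rw [hsum] at t3
  rw [abs_le] at t1 t2 t3 t4 t5 ⊢
  constructor <;> linarith [t1.1, t1.2, t2.1, t2.2, t3.1, t3.2, t4.1, t4.2, t5.1, t5.2]

/-- **One block and a test function: pointwise approximation, one replica.** -/
theorem approx_one0 (hS : RegG S) (φ : X → Fin N → ℝ)
    (B : Finset (Fin N)) {ε : X → ℝ} (hε : ∀ x, |ε x| ≤ 1)
    {ρ : ℝ} {r : ℕ → ℝ} (z : ι → ℝ) (x : X) :
    |∑ q ∈ B, (1 / N * φ x q) * W0 S (fun _ x => ε x * φ x q) z x -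
      (ρ * ε x - ∑ i ∈ Finset.range (S.K + 1), S.p i * (r i * S.T i (fun _ => ε) z))| ≤
      |RR N φ B x x - ρ| +
      ∑ i ∈ Finset.range (S.K + 1), S.p i * Dd S (RR N φ B) r i z x := by
  have hrg : ∀ i ∈ Finset.range (S.K + 1), i ≤ S.K := fun i hi =>
    Nat.lt_succ_iff.1 (Finset.mem_range.1 hi)
  have hR : ∀ x x', RR N φ B x x' = ∑ q ∈ B, 1 / N * φ x q * φ x' q := by
    intro x x'
    unfold RR
    rw [Finset.mul_sum]
    exact Finset.sum_congr rfl fun p _ => by ring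
  have hTs : ∀ i ≤ S.K, ∑ q ∈ B, (1 / N * φ x q) * S.T i (fun _ x' => ε x' * φ x' q) z =
      S.T i (fun _ x' => ε x' * RR N φ B x x') z := by
    intro i hi
    have e : (fun (_ : ι → ℝ) (x' : X) => ε x' * RR N φ B x x') =
        fun (_ : ι → ℝ) (x' : X) => ∑ q ∈ B, (1 / N * φ x q) * (ε x' * φ x' q) := by
      funext _ x'
      rw [hR, Finset.mul_sum]
      exact Finset.sum_congr rfl fun p _ => by ring
    rw [e, hS.T_sum hi B (f := fun q _ x' => (1 / N * φ x q) * (ε x' * φ x' q))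
      fun p _ => Nh.snd _]
    refine Finset.sum_congr rfl fun p _ => ?_
    rw [T_const_mul]
  have hW : ∑ q ∈ B, (1 / N * φ x q) * W0 S (fun _ x => ε x * φ x q) z x =
      ε x * RR N φ B x x - ∑ i ∈ Finset.range (S.K + 1), S.p i *
        S.T i (fun _ x' => ε x' * RR N φ B x x') z := by
    unfold W0
    simp only [mul_sub, Finset.sum_sub_distrib]
    congr 1
    · rw [hR, Finset.mul_sum]
      exact Finset.sum_congr rfl fun p _ => by ring
    · simp only [Finset.mul_sum]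
      rw [Finset.sum_comm]
      refine Finset.sum_congr rfl fun i hi => ?_
      rw [← hTs i (hrg i hi), Finset.mul_sum]
      exact Finset.sum_congr rfl fun q _ => by ring
  rw [hW]
  have t1 : |ε x * RR N φ B x x - ρ * ε x| ≤ |RR N φ B x x - ρ| := by
    have e : ε x * RR N φ B x x - ρ * ε x = ε x * (RR N φ B x x - ρ) := by ring
    rw [e, abs_mul]
    have := mul_le_mul_of_nonneg_right (hε x) (abs_nonneg (RR N φ B x x - ρ))
    linarith
  have t5 : |∑ i ∈ Finset.range (S.K + 1), S.p i *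
        S.T i (fun _ x' => ε x' * RR N φ B x x') z -
      ∑ i ∈ Finset.range (S.K + 1), S.p i * (r i * S.T i (fun _ => ε) z)| ≤
      ∑ i ∈ Finset.range (S.K + 1), S.p i * Dd S (RR N φ B) r i z x := by
    refine abs_sum_sub_le hS (fun i hi => hi) (fun i hi => ?_) (fun i hi => ?_)
    · have hi' := hrg i hi
      have e1 : S.T i (fun _ x' => ε x' * RR N φ B x x') z - r i * S.T i (fun _ => ε) z =
          S.T i (fun _ x' => ε x' * (RR N φ B x x' - r i)) z := by
        have h1 : (fun (_ : ι → ℝ) (x' : X) => ε x' * (RR N φ B x x' - r i)) =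
            fun (_ : ι → ℝ) (x' : X) => ε x' * RR N φ B x x' - r i * ε x' := by
          funext _ x'; ring
        rw [h1, hS.T_sub hi' (Nh.snd fun x' => ε x' * RR N φ B x x')
          (Nh.snd fun x' => r i * ε x'), T_const_mul]
      have hpt : ∀ x', |ε x' * (RR N φ B x x' - r i)| ≤ |RR N φ B x x' - r i| := by
        intro x'
        rw [abs_mul]
        have := mul_le_mul_of_nonneg_right (hε x') (abs_nonneg (RR N φ B x x' - r i))
        linarith
      rw [e1, abs_le]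
      constructor
      · have h := hS.T_mono hi' (f := fun _ x' => -1 * |RR N φ B x x' - r i|)
          (g := fun _ x' => ε x' * (RR N φ B x x' - r i)) (Nh.snd _) (Nh.snd _)
          (fun _ x' => by
            have := (abs_le.1 (hpt x')).1
            linarith) z
        rw [T_const_mul] at h
        unfold Dd Av
        linarith
      · exact hS.T_mono hi' (Nh.snd _) (Nh.snd _) (fun _ x' => (abs_le.1 (hpt x')).2) z
    · exact Dd_nonneg hS (RR N φ B) r (hrg i hi) z x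
  rw [abs_le] at t1 t5 ⊢
  constructor <;> linarith [t1.1, t1.2, t5.1, t5.2]

end Vale.Agent.P166.H
end
end

section

section

/-!
The loop equations of one pattern and one block of patterns, for a fixed matrix.
-/

open MeasureTheory ProbabilityTheory Filter Topology Matrix
open Vale.Agent.P157.Lv Vale.Agent.P157.Lv.Sy

namespace Vale.Agent.P166.H

open Vale.Agent

set_option linter.unusedSectionVars false

variable {N : ℕ} {ι X : Type} [Fintype ι] [Fintype X] [Nonempty X] [DecidableEq ι] [DecidableEq X]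

/-- The second moment of a Gaussian coordinate, in terms of the derivative. -/
lemma RegE.Ex_sq_le' {S : Sy ι X} {e : ι} {D : (ι → ℝ) → X → ℝ} (hS : RegE S e D) :
    S.Ex (fun z _ => z e ^ 2) ≤ 2 + 4 * S.Ex (fun z x => D z x ^ 2) := by
  have hG := hS.toRegG
  have nc : Nh fun (z : ι → ℝ) (_ : X) => z e := fun _ => EG.coord e
  have nT : ∀ l ∈ Finset.Ico (S.lev e) (S.K + 1), Nh (X := X) fun z _ => S.T l D z :=
    fun i hi => Nh.fst (hG.eg_T (Nat.lt_succ_iff.1 (Finset.mem_Ico.1 hi).2) hS.nh)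
  have h := hS.ibp (h := fun z _ => z e) (h' := fun _ _ => 1)
    (fun x => by simpa using PD.coord (e := e) e) nc (fun _ => EG.const 1)
  have nsum : Nh (X := X) fun z _ => ∑ l ∈ Finset.Ico (S.lev e) (S.K + 1), S.p l * S.T l D z :=
    Nh.sum _ fun i hi => Nh.const_mul _ (nT i hi)
  have nsum2 : Nh (X := X) fun z _ => ∑ l ∈ Finset.Ico (S.lev e) (S.K + 1),
      S.p l * S.T l D z ^ 2 := Nh.sum _ fun i hi => Nh.const_mul _ (Nh.pow (nT i hi) 2)
  have nsq : Nh fun (z : ι → ℝ) (_ : X) => z e ^ 2 := Nh.pow nc 2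
  have nD2 : Nh fun z x => D z x ^ 2 := Nh.pow hS.nh 2
  have hp : ∀ j ∈ Finset.Ico (S.lev e) (S.K + 1), 0 ≤ S.p j := fun j hj =>
    p_nonneg hG (Nat.lt_succ_iff.1 (Finset.mem_Ico.1 hj).2)
  have hle : S.Ex (fun z x => 1 + z e * (D z x -
      ∑ l ∈ Finset.Ico (S.lev e) (S.K + 1), S.p l * S.T l D z)) ≤
      S.Ex (fun z x => 1 + (1 / 2 * z e ^ 2 + (D z x ^ 2 +
        ∑ l ∈ Finset.Ico (S.lev e) (S.K + 1), S.p l * S.T l D z ^ 2))) := by
    refine hG.Ex_mono (Nh.add (fun _ => EG.const 1) (Nh.mul nc (Nh.sub hS.nh nsum)))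
      (Nh.add (fun _ => EG.const 1) (Nh.add (Nh.const_mul _ nsq) (Nh.add nD2 nsum2))) fun z x => ?_
    have c2 : (∑ j ∈ Finset.Ico (S.lev e) (S.K + 1), S.p j * S.T j D z) ^ 2 ≤
        ∑ j ∈ Finset.Ico (S.lev e) (S.K + 1), S.p j * S.T j D z ^ 2 := by
      have hcs := Finset.sum_mul_sq_le_sq_mul_sq (Finset.Ico (S.lev e) (S.K + 1))
        (fun j => Real.sqrt (S.p j)) (fun j => Real.sqrt (S.p j) * S.T j D z)
      have s1 : ∑ j ∈ Finset.Ico (S.lev e) (S.K + 1), Real.sqrt (S.p j) *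
          (Real.sqrt (S.p j) * S.T j D z) = ∑ j ∈ Finset.Ico (S.lev e) (S.K + 1),
            S.p j * S.T j D z :=
        Finset.sum_congr rfl fun j hj => by rw [← mul_assoc, Real.mul_self_sqrt (hp j hj)]
      have s2 : ∑ j ∈ Finset.Ico (S.lev e) (S.K + 1), Real.sqrt (S.p j) ^ 2 ≤ 1 := by
        rw [Finset.sum_congr rfl fun j hj => Real.sq_sqrt (hp j hj)]
        exact sum_p_le hG (by have := hG.lev e; omega) le_rfl
      have s3 : ∑ j ∈ Finset.Ico (S.lev e) (S.K + 1), (Real.sqrt (S.p j) * S.T j D z) ^ 2 =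
          ∑ j ∈ Finset.Ico (S.lev e) (S.K + 1), S.p j * S.T j D z ^ 2 :=
        Finset.sum_congr rfl fun j hj => by rw [mul_pow, Real.sq_sqrt (hp j hj)]
      have s4 : 0 ≤ ∑ j ∈ Finset.Ico (S.lev e) (S.K + 1), S.p j * S.T j D z ^ 2 :=
        Finset.sum_nonneg fun j hj => mul_nonneg (hp j hj) (sq_nonneg _)
      rw [s1, s3] at hcs
      calc _ ≤ _ := hcs
        _ ≤ 1 * _ := mul_le_mul_of_nonneg_right s2 s4
        _ = _ := one_mul _
    set q := ∑ j ∈ Finset.Ico (S.lev e) (S.K + 1), S.p j * S.T j D z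
    linarith only [c2, sq_nonneg (z e - (D z x - q)), sq_nonneg (D z x + q)]
  rw [hG.Ex_add (fun _ => EG.const _) (Nh.add (Nh.const_mul _ nsq) (Nh.add nD2 nsum2)),
    hG.Ex_const, hG.Ex_add (Nh.const_mul _ nsq) (Nh.add nD2 nsum2), Ex_const_mul,
    hG.Ex_add nD2 nsum2] at hle
  have h5 : S.Ex (fun z _ => ∑ l ∈ Finset.Ico (S.lev e) (S.K + 1), S.p l * S.T l D z ^ 2) ≤
      S.Ex (fun z x => D z x ^ 2) := by
    rw [hG.Ex_sum _ fun i hi => Nh.const_mul _ (Nh.pow (nT i hi) 2)]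
    have h6 : ∀ i ∈ Finset.Ico (S.lev e) (S.K + 1), S.Ex (fun z _ => S.p i * S.T i D z ^ 2) ≤
        S.p i * S.Ex (fun z x => D z x ^ 2) := by
      intro i hi
      have hi' := Nat.lt_succ_iff.1 (Finset.mem_Ico.1 hi).2
      rw [Ex_const_mul]
      refine mul_le_mul_of_nonneg_left ?_ (hp i hi)
      rw [← hG.Ex_T hi' nD2]
      exact hG.Ex_mono (Nh.pow (nT i hi) 2) (Nh.fst (hG.eg_T hi' nD2)) fun z _ =>
        hG.sq_T_le hi' hS.nh z
    refine (Finset.sum_le_sum h6).trans ?_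
    rw [← Finset.sum_mul]
    have h7 := sum_p_le hG (a := S.lev e) (b := S.K + 1) (by have := hG.lev e; omega) le_rfl
    have h8 := hG.Ex_nonneg nD2 fun z x => sq_nonneg _
    nlinarith only [h7, h8]
  have e : (fun (z : ι → ℝ) (_ : X) => z e ^ 2) = fun z _ => z e * z e := by
    funext z _; ring
  rw [← h] at hle
  rw [e] at hle ⊢
  linarith only [hle, h5]

/-- The weighted mean inequality for a bounded deviation. -/
lemma abs_mul_le_t {Y x t : ℝ} (hx0 : 0 ≤ x) (hx : x ≤ 2) (ht : 0 < t) :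
    |Y| * x ≤ 1 / 2 * (t * Y ^ 2) + x / t := by
  have h1 : |Y| * x = (1 / 2) * (2 * (|Y| * x)) := by ring
  have h2 : 2 * (|Y| * x) ≤ t * Y ^ 2 + x ^ 2 / t := by
    rw [← sub_nonneg, ← sq_abs Y]
    have e : t * |Y| ^ 2 + x ^ 2 / t - 2 * (|Y| * x) = (t * |Y| - x) ^ 2 / t := by
      field_simp
      ring
    rw [e]
    positivity
  have h3 : x ^ 2 / t ≤ 2 * x / t := by
    apply div_le_div_of_nonneg_right _ ht.le
    nlinarith only [hx0, hx]
  have h4 : 2 * x / t = 2 * (x / t) := by ring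
  linarith

namespace GS

variable {A : GS N ι X}

/-- Hypotheses on a pattern and a block. -/
structure One (A : GS N ι X) (j : Fin N) (B : Finset (Fin N)) (b η : ℝ) : Prop where
  disj : ∀ q ∈ B, j ≠ q
  lam : ∀ q ∈ B, A.lam q = b
  kap : ∀ q ∈ B, ∀ x, A.kap q x = 0
  u : ∀ i, ∀ l ≤ A.K, |A.u i l| ≤ η
  η0 : 0 ≤ η
  η1 : η ≤ 1

/-- The local field of the pattern `j`, up to the coupling `b`. -/
def YY (A : GS N ι X) (j : Fin N) (b : ℝ) (U : Matrix (Fin N) (Fin N) ℝ) (x : X) : ℝ :=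
  (A.lam j - b) * A.y U x j + A.kap j x

/-- The average of `f ε` for two replicas which split at the level `l`. -/
noncomputable def Fl (A : GS N ι X) (ε : X → ℝ) (l : ℕ) (f : Matrix (Fin N) (Fin N) ℝ → X → ℝ)
    (U : Matrix (Fin N) (Fin N) ℝ) : ℝ :=
  (A.sy U).Ex (fun z x => f U x * (A.sy U).T l (fun _ => ε) z)

/-- The average of `f ε` for one replica. -/
noncomputable def Fs (A : GS N ι X) (ε : X → ℝ) (f : Matrix (Fin N) (Fin N) ℝ → X → ℝ)
    (U : Matrix (Fin N) (Fin N) ℝ) : ℝ := (A.sy U).Ex (fun _ x => f U x * ε x)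

/-- The second moment. -/
noncomputable def E2 (A : GS N ι X) (f : Matrix (Fin N) (Fin N) ℝ → X → ℝ)
    (U : Matrix (Fin N) (Fin N) ℝ) : ℝ := (A.sy U).Ex (fun _ x => f U x ^ 2)

lemma lD_one (A : GS N ι X) {j q : Fin N} {b : ℝ} (hq : A.lam q = b)
    (kq : ∀ x, A.kap q x = 0) (U : Matrix (Fin N) (Fin N) ℝ)
    (z : ι → ℝ) (x : X) : 1 / N * A.lD j q U z x =
      A.YY j b U x * (1 / N * A.y U x q) + ∑ l ∈ Finset.range (A.K + 1),
        (1 / N * (A.u j l - A.u q l) * (A.y U x j * z (A.bc l q)) +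
         1 / N * (A.u j l - A.u q l) * (z (A.bc l j) * A.y U x q)) := by
  unfold lD YY
  rw [hq, kq, mul_add, Finset.mul_sum]
  congr 1
  · ring
  · exact Finset.sum_congr rfl fun l _ => by ring

/-- The contribution of the fields, pointwise. -/
lemma Ok.field_pat (hA : A.Ok) {U : Matrix (Fin N) (Fin N) ℝ}
    (hU : U ∈ Matrix.orthogonalGroup (Fin N) ℝ) (hN : 0 < N) {j : Fin N} {B : Finset (Fin N)}
    {b η : ℝ} (hB : A.One j B b η) (C : ℝ) (w : Fin N → ℝ) (z : ι → ℝ) (x : X)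
    (hw : ∀ {c a : Fin N → ℝ} {γ α : ℝ}, (∀ q, |c q| ≤ γ * |a q|) → 0 ≤ γ →
      (∑ i, a i ^ 2 ≤ α ^ 2) → 0 ≤ α → |∑ q ∈ B, c q * w q| ≤ C * (γ * α * Real.sqrt N)) :
    |∑ q ∈ B, (∑ l ∈ Finset.range (A.K + 1),
        (1 / N * (A.u j l - A.u q l) * (A.y U x j * z (A.bc l q)) +
         1 / N * (A.u j l - A.u q l) * (z (A.bc l j) * A.y U x q))) * w q| ≤
      ∑ l ∈ Finset.range (A.K + 1), (2 * C * η / Real.sqrt N * (|A.y U x j| * A.zn l z) +
        2 * C * η * |z (A.bc l j)|) := by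
  have hN' : (0 : ℝ) < N := by exact_mod_cast hN
  have hs : 0 < Real.sqrt N := Real.sqrt_pos.2 hN'
  have hss : Real.sqrt N * Real.sqrt N = N := Real.mul_self_sqrt hN'.le
  have e1 : ∑ q ∈ B, (∑ l ∈ Finset.range (A.K + 1),
        (1 / N * (A.u j l - A.u q l) * (A.y U x j * z (A.bc l q)) +
         1 / N * (A.u j l - A.u q l) * (z (A.bc l j) * A.y U x q))) * w q =
      ∑ l ∈ Finset.range (A.K + 1), (∑ q ∈ B,
        (1 / N * (A.u j l - A.u q l) * (A.y U x j * z (A.bc l q))) * w q +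
        ∑ q ∈ B, (1 / N * (A.u j l - A.u q l) *
          (z (A.bc l j) * A.y U x q)) * w q) := by
    simp only [Finset.sum_mul, add_mul]
    rw [Finset.sum_comm]
    refine Finset.sum_congr rfl fun l _ => ?_
    simp only [Finset.sum_add_distrib]
  rw [e1]
  refine (Finset.abs_sum_le_sum_abs _ _).trans (Finset.sum_le_sum fun l hl => ?_)
  have hl' := Nat.lt_succ_iff.1 (Finset.mem_range.1 hl)
  have hu : ∀ q, |A.u j l - A.u q l| ≤ 2 * η := fun q => by
    have h1 := abs_sub (A.u j l) (A.u q l)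
    have h2 := hB.u j l hl'
    have h3 := hB.u q l hl'
    linarith only [h1, h2, h3]
  have hη := hB.η0
  have hz0 : 0 ≤ ∑ i, z (A.bc l i) ^ 2 := Finset.sum_nonneg fun i _ => sq_nonneg _
  have hzn : 0 ≤ A.zn l z := Real.sqrt_nonneg _
  have hz2 : ∑ i, z (A.bc l i) ^ 2 ≤ A.zn l z ^ 2 := by
    unfold zn; rw [Real.sq_sqrt hz0]
  have hys : ∑ i, A.y U x i ^ 2 ≤ Real.sqrt N ^ 2 := by
    rw [hA.sum_y hU x, sq, hss]
  have hc : ∀ (d s t : ℝ), |d| ≤ 2 * η → |1 / (N : ℝ) * d * (s * t)| ≤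
      (1 / (N : ℝ) * (2 * η) * |s|) * |t| := fun d s t hd => by
    have h := coef_le (s := s) (t := t) (by positivity : 0 ≤ 1 / (N : ℝ)) hd
    rwa [abs_mul (1 / (N : ℝ) * (2 * η)) s, abs_of_nonneg (by positivity : 0 ≤ 1 / (N : ℝ) *
      (2 * η))] at h
  have h1 := hw (c := fun q => 1 / N * (A.u j l - A.u q l) * (A.y U x j * z (A.bc l q)))
      (a := fun q => z (A.bc l q)) (fun q => hc _ _ _ (hu q)) (by positivity) hz2 hzn
  have h2 := hw (c := fun q => 1 / N * (A.u j l - A.u q l) * (z (A.bc l j) * A.y U x q))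
      (a := fun q => A.y U x q) (fun q => hc _ _ _ (hu q)) (by positivity) hys
      (Real.sqrt_nonneg _)
  refine (abs_add_le _ _).trans ((add_le_add h1 h2).trans (le_of_eq ?_))
  have e3 : 1 / (N : ℝ) * Real.sqrt N = 1 / Real.sqrt N := by
    nth_rewrite 1 [← hss]
    field_simp
  have e4 : 1 / (N : ℝ) * (Real.sqrt N * Real.sqrt N) = 1 := by
    rw [hss]; field_simp
  calc C * (1 / (N : ℝ) * (2 * η) * |A.y U x j| * A.zn l z * Real.sqrt N) +
      C * (1 / (N : ℝ) * (2 * η) * |z (A.bc l j)| * Real.sqrt N * Real.sqrt N) =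
      2 * C * η * (|A.y U x j| * A.zn l z) * (1 / (N : ℝ) * Real.sqrt N) +
      2 * C * η * |z (A.bc l j)| * (1 / (N : ℝ) * (Real.sqrt N * Real.sqrt N)) := by ring
    _ = _ := by rw [e3, e4]; ring

/-- The average of the contribution of the fields. -/
lemma Ok.Ex_field_pat (hA : A.Ok) {U : Matrix (Fin N) (Fin N) ℝ}
    (hU : U ∈ Matrix.orthogonalGroup (Fin N) ℝ) (hN : 0 < N) {j : Fin N} {B : Finset (Fin N)}
    {b η : ℝ} (hB : A.One j B b η) {C : ℝ} (hC : 0 ≤ C) :
    (A.sy U).Ex (fun z x => ∑ l ∈ Finset.range (A.K + 1),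
      (2 * C * η / Real.sqrt N * (|A.y U x j| * A.zn l z) + 2 * C * η * |z (A.bc l j)|)) ≤
      10 * C * (A.K + 1) * η * (1 + A.E2 (fun U x => A.y U x j) U) := by
  have hG := hA.regG U
  have hN' : (0 : ℝ) < N := by exact_mod_cast hN
  have hs : 0 < Real.sqrt N := Real.sqrt_pos.2 hN'
  have hss : Real.sqrt N * Real.sqrt N = N := Real.mul_self_sqrt hN'.le
  have hη := hB.η0
  have hη1 := hB.η1
  have ny : Nh (fun (_ : ι → ℝ) x => |A.y U x j|) := Nh.snd fun x => |A.y U x j|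
  have ny2 : Nh (fun (_ : ι → ℝ) x => A.y U x j ^ 2) := Nh.snd fun x => A.y U x j ^ 2
  have nz : ∀ l, Nh (fun (z : ι → ℝ) (_ : X) => |z (A.bc l j)|) := fun l _ => (EG.coord _).abs
  have nz2 : ∀ l, Nh (fun (z : ι → ℝ) (_ : X) => z (A.bc l j) ^ 2) := fun l _ =>
    (EG.coord _).pow 2
  have nS : ∀ l, Nh (X := X) fun z _ => ∑ i, z (A.bc l i) ^ 2 := fun l => Nh.fst (A.sum_z_eg l)
  set e2 := A.E2 (fun U x => A.y U x j) U with he2
  have he0 : 0 ≤ e2 := hG.Ex_nonneg ny2 fun _ _ => sq_nonneg _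
  have hl : ∀ l ∈ Finset.range (A.K + 1), (A.sy U).Ex (fun z x =>
      2 * C * η / Real.sqrt N * (|A.y U x j| * A.zn l z) + 2 * C * η * |z (A.bc l j)|) ≤
      10 * C * η * (1 + e2) := by
    intro l hl
    have hl' := Nat.lt_succ_iff.1 (Finset.mem_range.1 hl)
    rw [hG.Ex_add (Nh.const_mul _ (Nh.mul ny (A.nh_zn l))) (Nh.const_mul _ (nz l)),
      Ex_const_mul, Ex_const_mul]
    -- the norm
    have a1 : (A.sy U).Ex (fun z x => |A.y U x j| * A.zn l z) ≤
        Real.sqrt N * (1 / 2 * (e2 + 6)) := by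
      have h1 := hG.Ex_mono (Nh.mul ny (A.nh_zn l)) (g := fun z x =>
        Real.sqrt N / 2 * A.y U x j ^ 2 + 1 / (2 * Real.sqrt N) * ∑ i, z (A.bc l i) ^ 2)
        (Nh.add (Nh.const_mul _ ny2) (Nh.const_mul _ (nS l))) (fun z x => by
          have h0 : 0 ≤ ∑ i, z (A.bc l i) ^ 2 := Finset.sum_nonneg fun i _ => sq_nonneg _
          have hz : A.zn l z ^ 2 = ∑ i, z (A.bc l i) ^ 2 := by unfold zn; rw [Real.sq_sqrt h0]
          rw [← hz, ← sub_nonneg, ← sq_abs (A.y U x j)]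
          have e : Real.sqrt N / 2 * |A.y U x j| ^ 2 + 1 / (2 * Real.sqrt N) * A.zn l z ^ 2 -
              |A.y U x j| * A.zn l z = (Real.sqrt N * |A.y U x j| - A.zn l z) ^ 2 /
                (2 * Real.sqrt N) := by
            field_simp
            ring
          rw [e]
          positivity)
      rw [hG.Ex_add (Nh.const_mul _ ny2) (Nh.const_mul _ (nS l)), Ex_const_mul,
        Ex_const_mul] at h1
      have h2 := hA.Ex_zn_sq hU hl' (fun i => hB.u i l hl') hη
      have h3 : 1 / (2 * Real.sqrt N) * (A.sy U).Ex (fun z _ => ∑ i, z (A.bc l i) ^ 2) ≤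
          1 / (2 * Real.sqrt N) * (6 * (Real.sqrt N * Real.sqrt N)) := by
        refine mul_le_mul_of_nonneg_left (h2.trans ?_) (by positivity)
        rw [hss]
        have : η ^ 2 ≤ 1 := by nlinarith only [hη1, hη]
        nlinarith only [this]
      have h4 : 1 / (2 * Real.sqrt N) * (6 * (Real.sqrt N * Real.sqrt N)) =
          Real.sqrt N * 3 := by
        field_simp
        norm_num
      rw [h4] at h3
      have h5 : (A.sy U).Ex (fun _ x => A.y U x j ^ 2) = e2 := rfl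
      rw [h5] at h1
      linarith only [h1, h3]
    have a2 : (A.sy U).Ex (fun z _ => |z (A.bc l j)|) ≤ 3 / 2 + 2 * e2 := by
      have h1 := hG.Ex_mono (nz l) (g := fun z _ => 1 / 2 + 1 / 2 * z (A.bc l j) ^ 2)
        (Nh.add (fun _ => EG.const _) (Nh.const_mul _ (nz2 l))) (fun z _ => by
          have := sq_abs (z (A.bc l j))
          linarith only [this, sq_nonneg (|z (A.bc l j)| - 1)])
      rw [hG.Ex_add (fun _ => EG.const _) (Nh.const_mul _ (nz2 l)), hG.Ex_const,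
        Ex_const_mul] at h1
      have h2 := (hA.regE U hl' j).Ex_sq_le'
      have h3 : (A.sy U).Ex (fun (_ : ι → ℝ) x => (A.u j l * A.y U x j) ^ 2) ≤ e2 := by
        refine hG.Ex_mono (Nh.snd fun x => (A.u j l * A.y U x j) ^ 2) ny2 fun _ x => ?_
        rw [mul_pow]
        have h4 : A.u j l ^ 2 ≤ 1 := by
          rw [← sq_abs]
          have h5 := hB.u j l hl'
          have h6 := abs_nonneg (A.u j l)
          nlinarith only [hη1, h5, h6]
        have := sq_nonneg (A.y U x j)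
        nlinarith only [h4]
      linarith only [h1, h2, h3]
    have b1 := mul_le_mul_of_nonneg_left a1 (by positivity : 0 ≤ 2 * C * η / Real.sqrt N)
    have b2 := mul_le_mul_of_nonneg_left a2 (by positivity : 0 ≤ 2 * C * η)
    have b3 : 2 * C * η / Real.sqrt N * (Real.sqrt N * (1 / 2 * (e2 + 6))) =
        2 * C * η * (1 / 2 * (e2 + 6)) := by field_simp
    rw [b3] at b1
    have b4 : 0 ≤ C * η := by positivity
    nlinarith only [b1, b2, b4, he0]
  rw [hG.Ex_sum _ fun l _ => Nh.add (Nh.const_mul _ (Nh.mul ny (A.nh_zn l)))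
    (Nh.const_mul _ (nz l))]
  refine (Finset.sum_le_sum hl).trans (le_of_eq ?_)
  rw [Finset.sum_const, Finset.card_range, nsmul_eq_mul]
  push_cast
  ring

end GS

end Vale.Agent.P166.H
end
end

section

section

/-! One step of the tilted chain on the line. -/

open MeasureTheory ProbabilityTheory Filter Topology Set

namespace Vale.Agent.P157.Par

end Vale.Agent.P157.Par
end
end

section

section

/-!
The loop equations of two blocks of patterns, for a fixed matrix.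
-/

open MeasureTheory ProbabilityTheory Filter Topology Matrix
open Vale.Agent.P157.Lv Vale.Agent.P157.Lv.Sy

namespace Vale.Agent.P166.H

open Vale.Agent

set_option linter.unusedSectionVars false

variable {N : ℕ} {ι X : Type} [Fintype ι] [Fintype X] [Nonempty X] [DecidableEq ι] [DecidableEq X]

namespace GS

variable {A : GS N ι X}

/-- The mean deviation of the self-overlap. -/
noncomputable def eS (A : GS N ι X) (B : Finset (Fin N)) (ρ : ℝ)
    (U : Matrix (Fin N) (Fin N) ℝ) : ℝ := (A.sy U).Ex (fun _ x => |A.R B U x x - ρ|)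

/-- The mean deviation of the overlap of the level `i`. -/
noncomputable def eP (A : GS N ι X) (B : Finset (Fin N)) (r : ℕ → ℝ) (i : ℕ)
    (U : Matrix (Fin N) (Fin N) ℝ) : ℝ := (A.sy U).pairEx i (fun x x' => |A.R B U x x' - r i|)

lemma Ok.Ex_Dd (hA : A.Ok) (U : Matrix (Fin N) (Fin N) ℝ) (B : Finset (Fin N)) (r : ℕ → ℝ)
    {i : ℕ} (hi : i ≤ A.K) : (A.sy U).Ex (Dd (A.sy U) (RR N (A.y U) B) r i) = A.eP B r i U :=
  Ex_Av (hA.reg U) (i := i) hi _

/-- The proportion of the patterns in the set `B`. -/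
noncomputable def al (N : ℕ) (B : Finset (Fin N)) : ℝ := (B.card : ℝ) / N

lemma al_nonneg (B : Finset (Fin N)) : 0 ≤ al N B := by unfold al; positivity

lemma al_le_one (hN : 0 < N) (B : Finset (Fin N)) : al N B ≤ 1 := by
  unfold al
  rw [div_le_one (by exact_mod_cast hN)]
  have := B.card_le_univ
  simp only [Fintype.card_fin] at this
  exact_mod_cast this

/-- The entry of level `l` of the product of the hierarchical matrices. -/
noncomputable def me (S : Sy ι X) (ρ ρ' : ℝ) (r r' : ℕ → ℝ) (l : ℕ) : ℝ :=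
  ρ * r' l + r l * ρ' -
      ∑ i ∈ Finset.Ico (l + 1) (S.K + 1), S.p i * (r i * r' l + r l * r' i) +
      (S.m l - 2 * S.m (l + 1)) * (r l * r' l) -
      ∑ i ∈ Finset.range l, S.p i * (r i * r' i)

/-- The total deviation used in the error terms. -/
noncomputable def tot (A : GS N ι X) (B B' : Finset (Fin N)) (ρ ρ' : ℝ) (r r' : ℕ → ℝ)
    (U : Matrix (Fin N) (Fin N) ℝ) : ℝ :=
  A.eS B ρ U + A.eS B' ρ' U +
    2 * ∑ i ∈ Finset.range (A.K + 1), (A.sy U).p i * (A.eP B r i U + A.eP B' r' i U)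

lemma sum_const_q (B B' : Finset (Fin N)) (F : Fin N → ℝ) :
    ∑ _p ∈ B, ∑ q ∈ B', 1 / (N : ℝ) * (1 / N) * F q = al N B * (1 / N * ∑ q ∈ B', F q) := by
  rw [Finset.sum_const, nsmul_eq_mul, ← Finset.mul_sum]
  unfold al
  ring

lemma sum_const_p (B B' : Finset (Fin N)) (F : Fin N → ℝ) :
    ∑ p ∈ B, ∑ _q ∈ B', 1 / (N : ℝ) * (1 / N) * F p = al N B' * (1 / N * ∑ p ∈ B, F p) := by
  rw [Finset.sum_comm]
  exact sum_const_q B' B F

/-- **Two replicas, fixed matrix.** -/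
theorem Ok.fix_pair (hA : A.Ok) (hN : 0 < N) {U : Matrix (Fin N) (Fin N) ℝ}
    (hU : U ∈ Matrix.orthogonalGroup (Fin N) ℝ) {B B' : Finset (Fin N)}
    {b b' η : ℝ} (hB : A.Blk B B' b b' η) {l : ℕ} (hl : l ≤ A.K) {ρ ρ' : ℝ} {r r' : ℕ → ℝ}
    (hρ' : |ρ'| ≤ 1) (hr' : ∀ i ≤ A.K, |r' i| ≤ 1) :
    |∑ p ∈ B, ∑ q ∈ B', 1 / N * (1 / N) * A.Vf p q l (fun U x => A.y U x p)
        (fun U x => rot' p q (A.y U x) p) (fun U x => A.y U x q)
        (fun U x => rot' p q (A.y U x) q) U -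
      (al N B * r' l - al N B' * r l + (b - b') * me (A.sy U) ρ ρ' r r' l)| ≤
      (A.eP B r l U + A.eP B' r' l U) + |b - b'| * (A.tot B B' ρ ρ' r r' U +
        4 * (A.eP B r l U + A.eP B' r' l U)) + 112 * (A.K + 1) * η := by
  have hG := hA.regG U
  have hlS : l ≤ (A.sy U).K := hl
  have hφ : ∀ x, ∑ i, A.y U x i ^ 2 ≤ N := fun x => (hA.sum_y hU x).le
  have hN' : (0 : ℝ) < N := by exact_mod_cast hN
  have hs : 0 < Real.sqrt N := Real.sqrt_pos.2 hN'
  set φ := A.y U with hφd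
  set RB := RR N φ B with hRB
  set RB' := RR N φ B' with hRB'
  -- the summands
  set Fpq : Fin N → Fin N → (ι → ℝ) → X → ℝ := fun p q z x =>
    ((A.sy U).T l (fun _ x => φ x q) z * rot' p q (φ x) p +
    (A.sy U).T l (fun _ x => φ x p) z * rot' p q (φ x) q) +
    A.lD p q U z x * W (A.sy U) l (fun _ x => φ x p) (fun _ x => φ x q) z x with hF
  have nF : ∀ p q, Nh (Fpq p q) := fun p q => Nh.add (Nh.add
    (Nh.mul (Nh.fst (hG.eg_T hlS (Nh.snd _))) (Nh.snd _))
    (Nh.mul (Nh.fst (hG.eg_T hlS (Nh.snd _))) (Nh.snd _)))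
    (Nh.mul (A.nh_lD p q U) (nh_W hG hlS _ _))
  have e0 : ∑ p ∈ B, ∑ q ∈ B', 1 / N * (1 / N) * A.Vf p q l (fun U x => A.y U x p)
        (fun U x => rot' p q (A.y U x) p) (fun U x => A.y U x q)
        (fun U x => rot' p q (A.y U x) q) U =
      (A.sy U).Ex (fun z x => ∑ p ∈ B, ∑ q ∈ B', 1 / (N : ℝ) * (1 / N) * Fpq p q z x) := by
    rw [hG.Ex_sum _ fun p _ => Nh.sum _ fun q _ => Nh.const_mul _ (nF p q)]
    refine Finset.sum_congr rfl fun p _ => ?_
    rw [hG.Ex_sum _ fun q _ => Nh.const_mul _ (nF p q)]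
    refine Finset.sum_congr rfl fun q _ => ?_
    rw [Ex_const_mul]
    rfl
  -- the decomposition
  have e1 : ∀ (z : ι → ℝ) x, ∑ p ∈ B, ∑ q ∈ B', 1 / (N : ℝ) * (1 / N) * Fpq p q z x =
      al N B * Av (A.sy U) l RB' z x - al N B' * Av (A.sy U) l RB z x +
      (b - b') * ∑ p ∈ B, ∑ q ∈ B', (1 / N * φ x p * (1 / N * φ x q)) *
        W (A.sy U) l (fun _ x => φ x p) (fun _ x => φ x q) z x +
      ∑ p ∈ B, ∑ q ∈ B', (∑ l ∈ Finset.range (A.K + 1),
        (1 / N * (1 / N) * (A.u p l - A.u q l) * (A.y U x p * z (A.bc l q)) +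
         1 / N * (1 / N) * (A.u p l - A.u q l) * (z (A.bc l p) * A.y U x q))) *
        W (A.sy U) l (fun _ x => φ x p) (fun _ x => φ x q) z x := by
    intro z x
    have a1 : al N B * Av (A.sy U) l RB' z x = ∑ _p ∈ B, ∑ q ∈ B', 1 / (N : ℝ) * (1 / N) *
        (φ x q * (A.sy U).T l (fun _ x => φ x q) z) := by
      rw [sum_const_q, hRB', Av_RR hG hlS]
    have a2 : al N B' * Av (A.sy U) l RB z x = ∑ p ∈ B, ∑ _q ∈ B', 1 / (N : ℝ) * (1 / N) *
        (φ x p * (A.sy U).T l (fun _ x => φ x p) z) := by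
      rw [sum_const_p, hRB, Av_RR hG hlS]
    rw [a1, a2, ← Finset.sum_sub_distrib, Finset.mul_sum, ← Finset.sum_add_distrib,
      ← Finset.sum_add_distrib]
    refine Finset.sum_congr rfl fun p hp => ?_
    rw [← Finset.sum_sub_distrib, Finset.mul_sum, ← Finset.sum_add_distrib,
      ← Finset.sum_add_distrib]
    refine Finset.sum_congr rfl fun q hq => ?_
    have hpq := hB.disj p hp q hq
    have r1 : rot' p q (φ x) p = φ x q := by simp [rot']
    have r2 : rot' p q (φ x) q = -φ x p := by simp [rot', hpq.symm]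
    have a3 := lD_block A (hB.lam p hp) (hB.lam' q hq) (hB.kap p hp) (hB.kap' q hq) U z x
    have a4 : 1 / (N : ℝ) * (1 / N) * Fpq p q z x = 1 / (N : ℝ) * (1 / N) *
        ((A.sy U).T l (fun _ x => φ x q) z * rot' p q (φ x) p +
        (A.sy U).T l (fun _ x => φ x p) z * rot' p q (φ x) q) +
        (1 / (N : ℝ) * (1 / N) * A.lD p q U z x) *
          W (A.sy U) l (fun _ x => φ x p) (fun _ x => φ x q) z x := by
      simp only [hF]; ring
    rw [a4, a3, r1, r2]
    ring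
  -- the pointwise bound
  have e2 : ∀ (z : ι → ℝ) x, |∑ p ∈ B, ∑ q ∈ B', 1 / (N : ℝ) * (1 / N) * Fpq p q z x -
      (al N B * r' l - al N B' * r l + (b - b') * me (A.sy U) ρ ρ' r r' l)| ≤
      (Dd (A.sy U) RB r l z x + Dd (A.sy U) RB' r' l z x) + |b - b'| *
        ((|RB x x - ρ| + |RB' x x - ρ'|) +
        2 * ∑ i ∈ Finset.range (A.K + 1), (A.sy U).p i *
          (Dd (A.sy U) RB r i z x + Dd (A.sy U) RB' r' i z x) +
        4 * (Dd (A.sy U) RB r l z x + Dd (A.sy U) RB' r' l z x)) +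
      ∑ l ∈ Finset.range (A.K + 1), 28 * η / Real.sqrt N * A.zn l z := by
    intro z x
    rw [e1 z x]
    have b1 := abs_Av_sub_le hG hlS RB (r l) z x
    have b2 := abs_Av_sub_le hG hlS RB' (r' l) z x
    have b3 := approx_block hG hlS φ B B' (hA.RR_le hN hU B) (hA.RR_le hN hU B') (ρ := ρ)
      (r := r) hρ' hr' z x
    have b4 := hA.field_block hU hN hB 7
      (fun p q => W (A.sy U) l (fun _ x => φ x p) (fun _ x => φ x q) z x) z x
      (fun {c b a α β} h1 h2 h3 h4 h5 => field_W hG hlS hφ B B' h1 h2 h3 h4 h5 z x)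
    have c1 : |al N B * Av (A.sy U) l RB' z x - al N B * r' l| ≤
        Dd (A.sy U) RB' r' l z x := by
      rw [← mul_sub, abs_mul, abs_of_nonneg (al_nonneg B)]
      calc al N B * |Av (A.sy U) l RB' z x - r' l| ≤ 1 * |Av (A.sy U) l RB' z x - r' l| :=
            mul_le_mul_of_nonneg_right (al_le_one hN B) (abs_nonneg _)
        _ ≤ _ := by rw [one_mul]; exact b2
    have c2 : |al N B' * Av (A.sy U) l RB z x - al N B' * r l| ≤
        Dd (A.sy U) RB r l z x := by
      rw [← mul_sub, abs_mul, abs_of_nonneg (al_nonneg B')]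
      calc al N B' * |Av (A.sy U) l RB z x - r l| ≤ 1 * |Av (A.sy U) l RB z x - r l| :=
            mul_le_mul_of_nonneg_right (al_le_one hN B') (abs_nonneg _)
        _ ≤ _ := by rw [one_mul]; exact b1
    have c3 : |(b - b') * ∑ p ∈ B, ∑ q ∈ B', (1 / N * φ x p * (1 / N * φ x q)) *
        W (A.sy U) l (fun _ x => φ x p) (fun _ x => φ x q) z x -
        (b - b') * me (A.sy U) ρ ρ' r r' l| ≤ |b - b'| * ((|RB x x - ρ| + |RB' x x - ρ'|) +
        2 * ∑ i ∈ Finset.range (A.K + 1), (A.sy U).p i *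
          (Dd (A.sy U) RB r i z x + Dd (A.sy U) RB' r' i z x) +
        4 * (Dd (A.sy U) RB r l z x + Dd (A.sy U) RB' r' l z x)) := by
      rw [← mul_sub, abs_mul]
      refine mul_le_mul_of_nonneg_left (b3.trans (le_of_eq ?_)) (abs_nonneg _)
      have : (A.sy U).K = A.K := rfl
      rw [this]
      ring
    have c4 : ∑ l ∈ Finset.range (A.K + 1), 4 * 7 * η / Real.sqrt N * A.zn l z =
        ∑ l ∈ Finset.range (A.K + 1), 28 * η / Real.sqrt N * A.zn l z := by norm_num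
    rw [c4] at b4
    rw [abs_le] at c1 c2 c3 b4 ⊢
    constructor <;> linarith only [c1.1, c2.2, c3.1, b4.1, c1.2, c2.1, c3.2, b4.2]
  -- the average
  have nG : Nh (fun z x => ∑ p ∈ B, ∑ q ∈ B', 1 / (N : ℝ) * (1 / N) * Fpq p q z x) :=
    Nh.sum _ fun p _ => Nh.sum _ fun q _ => Nh.const_mul _ (nF p q)
  set t := al N B * r' l - al N B' * r l + (b - b') * me (A.sy U) ρ ρ' r r' l with ht
  have nE : ∀ i ≤ A.K, Nh (fun z x => Dd (A.sy U) RB r i z x + Dd (A.sy U) RB' r' i z x) :=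
    fun i hi => Nh.add (nh_Dd hG RB r (i := i) hi) (nh_Dd hG RB' r' (i := i) hi)
  have nR : Nh (fun (_ : ι → ℝ) x => |RB x x - ρ| + |RB' x x - ρ'|) :=
    Nh.snd fun x => |RB x x - ρ| + |RB' x x - ρ'|
  have nS : Nh (fun z x => ∑ i ∈ Finset.range (A.K + 1), (A.sy U).p i *
          (Dd (A.sy U) RB r i z x + Dd (A.sy U) RB' r' i z x)) :=
    Nh.sum _ fun i hi => Nh.const_mul _ (nE i (Nat.lt_succ_iff.1 (Finset.mem_range.1 hi)))
  have nz : Nh (X := X) (fun z _ => ∑ l ∈ Finset.range (A.K + 1),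
      28 * η / Real.sqrt N * A.zn l z) := Nh.sum _ fun l _ => Nh.const_mul _ (A.nh_zn l)
  have e3 : (A.sy U).Ex (fun z x => ∑ p ∈ B, ∑ q ∈ B', 1 / (N : ℝ) * (1 / N) * Fpq p q z x) - t =
      (A.sy U).Ex (fun z x => ∑ p ∈ B, ∑ q ∈ B', 1 / (N : ℝ) * (1 / N) * Fpq p q z x - t) := by
    rw [hG.Ex_sub nG (fun _ => EG.const _), hG.Ex_const]
  have nE3 := Nh.add (nh_Dd hG RB r (i := l) hl) (nh_Dd hG RB' r' (i := l) hl)
  have hbd := hG.abs_Ex_le_of (Nh.sub nG (fun _ => EG.const t)) (Nh.add (Nh.add nE3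
    (Nh.const_mul |b - b'| (Nh.add (Nh.add nR (Nh.const_mul 2 nS)) (Nh.const_mul 4 nE3)))) nz) e2
  rw [e0, e3]
  refine hbd.trans ?_
  rw [hG.Ex_add (Nh.add nE3
    (Nh.const_mul |b - b'| (Nh.add (Nh.add nR (Nh.const_mul 2 nS)) (Nh.const_mul 4 nE3)))) nz,
    hG.Ex_add nE3 (Nh.const_mul |b - b'| (Nh.add (Nh.add nR (Nh.const_mul 2 nS))
      (Nh.const_mul 4 nE3))), Ex_const_mul,
    hG.Ex_add (Nh.add nR (Nh.const_mul 2 nS)) (Nh.const_mul 4 nE3),
    hG.Ex_add nR (Nh.const_mul 2 nS), Ex_const_mul, Ex_const_mul]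
  have x1 : ∀ i ≤ A.K, (A.sy U).Ex (fun z x => Dd (A.sy U) RB r i z x +
      Dd (A.sy U) RB' r' i z x) = A.eP B r i U + A.eP B' r' i U := by
    intro i hi
    rw [hG.Ex_add (nh_Dd hG RB r (i := i) hi) (nh_Dd hG RB' r' (i := i) hi)]
    exact congrArg₂ (· + ·) (hA.Ex_Dd U B r hi) (hA.Ex_Dd U B' r' hi)
  have x2 : (A.sy U).Ex (fun z x => ∑ i ∈ Finset.range (A.K + 1), (A.sy U).p i *
      (Dd (A.sy U) RB r i z x + Dd (A.sy U) RB' r' i z x)) = ∑ i ∈ Finset.range (A.K + 1),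
      (A.sy U).p i * (A.eP B r i U + A.eP B' r' i U) := by
    rw [hG.Ex_sum _ fun i hi => Nh.const_mul _ (nE i (Nat.lt_succ_iff.1
      (Finset.mem_range.1 hi)))]
    refine Finset.sum_congr rfl fun i hi => ?_
    rw [Ex_const_mul, x1 i (Nat.lt_succ_iff.1 (Finset.mem_range.1 hi))]
  have x3 : (A.sy U).Ex (fun (_ : ι → ℝ) x => |RB x x - ρ| + |RB' x x - ρ'|) =
      A.eS B ρ U + A.eS B' ρ' U :=
    hG.Ex_add (Nh.snd fun x => |RB x x - ρ|) (Nh.snd fun x => |RB' x x - ρ'|)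
  have x4 : (A.sy U).Ex (fun z _ => ∑ l ∈ Finset.range (A.K + 1),
      28 * η / Real.sqrt N * A.zn l z) ≤ 112 * (A.K + 1) * η := by
    rw [hG.Ex_sum _ fun l _ => Nh.const_mul _ (A.nh_zn l)]
    have y1 : ∀ l ∈ Finset.range (A.K + 1), (A.sy U).Ex (fun z _ =>
        28 * η / Real.sqrt N * A.zn l z) ≤ 112 * η := by
      intro l hl
      rw [Ex_const_mul]
      have hl' := Nat.lt_succ_iff.1 (Finset.mem_range.1 hl)
      have h1 := hA.Ex_zn hU hl' (fun i => hB.u i l hl') hB.η0 hB.η1 hN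
      have h0 := hB.η0
      calc 28 * η / Real.sqrt N * (A.sy U).Ex (fun z _ => A.zn l z) ≤
          28 * η / Real.sqrt N * (4 * Real.sqrt N) := mul_le_mul_of_nonneg_left h1 (by positivity)
        _ = _ := by field_simp; ring
    refine (Finset.sum_le_sum y1).trans (le_of_eq ?_)
    rw [Finset.sum_const, Finset.card_range, nsmul_eq_mul]
    push_cast
    ring
  rw [x1 l hl, x2, x3]
  unfold tot
  linarith only [x4]

end GS

end Vale.Agent.P166.H
end
end

section

section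

/-!
The loop equations of two blocks of patterns: one replica, fixed matrix.
-/

open MeasureTheory ProbabilityTheory Filter Topology Matrix
open Vale.Agent.P157.Lv Vale.Agent.P157.Lv.Sy

namespace Vale.Agent.P166.H

open Vale.Agent

set_option linter.unusedSectionVars false

variable {N : ℕ} {ι X : Type} [Fintype ι] [Fintype X] [Nonempty X] [DecidableEq ι] [DecidableEq X]

namespace GS

variable {A : GS N ι X}

/-- The diagonal entry of the product of the hierarchical matrices. -/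
noncomputable def md (S : Sy ι X) (ρ ρ' : ℝ) (r r' : ℕ → ℝ) : ℝ :=
  ρ * ρ' - ∑ i ∈ Finset.range (S.K + 1), S.p i * (r i * r' i)

/-- **One replica, fixed matrix.** -/
theorem Ok.fix_one (hA : A.Ok) (hN : 0 < N) {U : Matrix (Fin N) (Fin N) ℝ}
    (hU : U ∈ Matrix.orthogonalGroup (Fin N) ℝ) {B B' : Finset (Fin N)}
    {b b' η : ℝ} (hB : A.Blk B B' b b' η) {ρ ρ' : ℝ} {r r' : ℕ → ℝ}
    (hρ' : |ρ'| ≤ 1) (hr' : ∀ i ≤ A.K, |r' i| ≤ 1) :
    |∑ p ∈ B, ∑ q ∈ B', 1 / N * (1 / N) * A.V1 p q (fun U x => A.y U x p * A.y U x q)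
        (fun U x => rot' p q (A.y U x) p * A.y U x q + A.y U x p * rot' p q (A.y U x) q) U -
      (al N B * ρ' - al N B' * ρ + (b - b') * md (A.sy U) ρ ρ' r r')| ≤
      (A.eS B ρ U + A.eS B' ρ' U) + |b - b'| * A.tot B B' ρ ρ' r r' U +
        32 * (A.K + 1) * η := by
  have hG := hA.regG U
  have hφ : ∀ x, ∑ i, A.y U x i ^ 2 ≤ N := fun x => (hA.sum_y hU x).le
  have hN' : (0 : ℝ) < N := by exact_mod_cast hN
  have hs : 0 < Real.sqrt N := Real.sqrt_pos.2 hN'
  set φ := A.y U with hφd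
  set RB := RR N φ B with hRB
  set RB' := RR N φ B' with hRB'
  set Fpq : Fin N → Fin N → (ι → ℝ) → X → ℝ := fun p q z x =>
    (rot' p q (φ x) p * φ x q + φ x p * rot' p q (φ x) q) +
    A.lD p q U z x * W0 (A.sy U) (fun _ x => φ x p * φ x q) z x with hF
  have nF : ∀ p q, Nh (Fpq p q) := fun p q => Nh.add (Nh.snd fun x =>
    rot' p q (φ x) p * φ x q + φ x p * rot' p q (φ x) q)
    (Nh.mul (A.nh_lD p q U) (nh_W0 hG fun x => φ x p * φ x q))
  have e0 : ∑ p ∈ B, ∑ q ∈ B', 1 / N * (1 / N) * A.V1 p q (fun U x => A.y U x p * A.y U x q)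
        (fun U x => rot' p q (A.y U x) p * A.y U x q + A.y U x p * rot' p q (A.y U x) q) U =
      (A.sy U).Ex (fun z x => ∑ p ∈ B, ∑ q ∈ B', 1 / (N : ℝ) * (1 / N) * Fpq p q z x) := by
    rw [hG.Ex_sum _ fun p _ => Nh.sum _ fun q _ => Nh.const_mul _ (nF p q)]
    refine Finset.sum_congr rfl fun p _ => ?_
    rw [hG.Ex_sum _ fun q _ => Nh.const_mul _ (nF p q)]
    refine Finset.sum_congr rfl fun q _ => ?_
    rw [Ex_const_mul]
    rfl
  have e1 : ∀ (z : ι → ℝ) x, ∑ p ∈ B, ∑ q ∈ B', 1 / (N : ℝ) * (1 / N) * Fpq p q z x =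
      al N B * RB' x x - al N B' * RB x x +
      (b - b') * ∑ p ∈ B, ∑ q ∈ B', (1 / N * φ x p * (1 / N * φ x q)) *
        W0 (A.sy U) (fun _ x => φ x p * φ x q) z x +
      ∑ p ∈ B, ∑ q ∈ B', (∑ l ∈ Finset.range (A.K + 1),
        (1 / N * (1 / N) * (A.u p l - A.u q l) * (A.y U x p * z (A.bc l q)) +
         1 / N * (1 / N) * (A.u p l - A.u q l) * (z (A.bc l p) * A.y U x q))) *
        W0 (A.sy U) (fun _ x => φ x p * φ x q) z x := by
    intro z x
    have a1 : al N B * RB' x x = ∑ _p ∈ B, ∑ q ∈ B', 1 / (N : ℝ) * (1 / N) *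
        (φ x q * φ x q) := by
      rw [sum_const_q, hRB', RR]
    have a2 : al N B' * RB x x = ∑ p ∈ B, ∑ _q ∈ B', 1 / (N : ℝ) * (1 / N) *
        (φ x p * φ x p) := by
      rw [sum_const_p, hRB, RR]
    rw [a1, a2, ← Finset.sum_sub_distrib, Finset.mul_sum, ← Finset.sum_add_distrib,
      ← Finset.sum_add_distrib]
    refine Finset.sum_congr rfl fun p hp => ?_
    rw [← Finset.sum_sub_distrib, Finset.mul_sum, ← Finset.sum_add_distrib,
      ← Finset.sum_add_distrib]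
    refine Finset.sum_congr rfl fun q hq => ?_
    have hpq := hB.disj p hp q hq
    have r1 : rot' p q (φ x) p = φ x q := by simp [rot']
    have r2 : rot' p q (φ x) q = -φ x p := by simp [rot', hpq.symm]
    have a3 := lD_block A (hB.lam p hp) (hB.lam' q hq) (hB.kap p hp) (hB.kap' q hq) U z x
    have a4 : 1 / (N : ℝ) * (1 / N) * Fpq p q z x = 1 / (N : ℝ) * (1 / N) *
        (rot' p q (φ x) p * φ x q + φ x p * rot' p q (φ x) q) +
        (1 / (N : ℝ) * (1 / N) * A.lD p q U z x) *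
          W0 (A.sy U) (fun _ x => φ x p * φ x q) z x := by
      simp only [hF]; ring
    rw [a4, a3, r1, r2]
    ring
  have e2 : ∀ (z : ι → ℝ) x, |∑ p ∈ B, ∑ q ∈ B', 1 / (N : ℝ) * (1 / N) * Fpq p q z x -
      (al N B * ρ' - al N B' * ρ + (b - b') * md (A.sy U) ρ ρ' r r')| ≤
      (|RB x x - ρ| + |RB' x x - ρ'|) + |b - b'| *
        ((|RB x x - ρ| + |RB' x x - ρ'|) +
        2 * ∑ i ∈ Finset.range (A.K + 1), (A.sy U).p i *
          (Dd (A.sy U) RB r i z x + Dd (A.sy U) RB' r' i z x)) +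
      ∑ l ∈ Finset.range (A.K + 1), 8 * η / Real.sqrt N * A.zn l z := by
    intro z x
    rw [e1 z x]
    have b3 := approx_block0 hG φ B B' (hA.RR_le hN hU B) (ρ := ρ)
      (r := r) hρ' hr' z x
    have b4 := hA.field_block hU hN hB 2
      (fun p q => W0 (A.sy U) (fun _ x => φ x p * φ x q) z x) z x
      (fun {c b a α β} h1 h2 h3 h4 h5 => field_W0 hG hφ B B' h1 h2 h3 h4 h5 z x)
    have c1 : |al N B * RB' x x - al N B * ρ'| ≤ |RB' x x - ρ'| := by
      rw [← mul_sub, abs_mul, abs_of_nonneg (al_nonneg B)]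
      calc al N B * |RB' x x - ρ'| ≤ 1 * |RB' x x - ρ'| :=
            mul_le_mul_of_nonneg_right (al_le_one hN B) (abs_nonneg _)
        _ = _ := one_mul _
    have c2 : |al N B' * RB x x - al N B' * ρ| ≤ |RB x x - ρ| := by
      rw [← mul_sub, abs_mul, abs_of_nonneg (al_nonneg B')]
      calc al N B' * |RB x x - ρ| ≤ 1 * |RB x x - ρ| :=
            mul_le_mul_of_nonneg_right (al_le_one hN B') (abs_nonneg _)
        _ = _ := one_mul _
    have hnn : 0 ≤ ∑ i ∈ Finset.range (A.K + 1), (A.sy U).p i *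
          (Dd (A.sy U) RB r i z x + Dd (A.sy U) RB' r' i z x) := by
      refine Finset.sum_nonneg fun i hi => ?_
      have hi' : i ≤ (A.sy U).K := Nat.lt_succ_iff.1 (Finset.mem_range.1 hi)
      have d0 := p_nonneg hG hi'
      have d1 := Dd_nonneg hG RB r hi' z x
      have d2 := Dd_nonneg hG RB' r' hi' z x
      exact mul_nonneg d0 (add_nonneg d1 d2)
    have c3 : |(b - b') * ∑ p ∈ B, ∑ q ∈ B', (1 / N * φ x p * (1 / N * φ x q)) *
        W0 (A.sy U) (fun _ x => φ x p * φ x q) z x -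
        (b - b') * md (A.sy U) ρ ρ' r r'| ≤ |b - b'| * ((|RB x x - ρ| + |RB' x x - ρ'|) +
        2 * ∑ i ∈ Finset.range (A.K + 1), (A.sy U).p i *
          (Dd (A.sy U) RB r i z x + Dd (A.sy U) RB' r' i z x)) := by
      rw [← mul_sub, abs_mul]
      refine mul_le_mul_of_nonneg_left (b3.trans ?_) (abs_nonneg _)
      have : (A.sy U).K = A.K := rfl
      rw [this]
      linarith only [hnn]
    have c4 : ∑ l ∈ Finset.range (A.K + 1), 4 * 2 * η / Real.sqrt N * A.zn l z =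
        ∑ l ∈ Finset.range (A.K + 1), 8 * η / Real.sqrt N * A.zn l z := by norm_num
    rw [c4] at b4
    rw [abs_le] at c1 c2 c3 b4 ⊢
    constructor <;> linarith only [c1.1, c2.2, c3.1, b4.1, c1.2, c2.1, c3.2, b4.2]
  have nG : Nh (fun z x => ∑ p ∈ B, ∑ q ∈ B', 1 / (N : ℝ) * (1 / N) * Fpq p q z x) :=
    Nh.sum _ fun p _ => Nh.sum _ fun q _ => Nh.const_mul _ (nF p q)
  set t := al N B * ρ' - al N B' * ρ + (b - b') * md (A.sy U) ρ ρ' r r' with ht
  have nE : ∀ i ≤ A.K, Nh (fun z x => Dd (A.sy U) RB r i z x + Dd (A.sy U) RB' r' i z x) :=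
    fun i hi => Nh.add (nh_Dd hG RB r (i := i) hi) (nh_Dd hG RB' r' (i := i) hi)
  have nR : Nh (fun (_ : ι → ℝ) x => |RB x x - ρ| + |RB' x x - ρ'|) :=
    Nh.snd fun x => |RB x x - ρ| + |RB' x x - ρ'|
  have nS : Nh (fun z x => ∑ i ∈ Finset.range (A.K + 1), (A.sy U).p i *
          (Dd (A.sy U) RB r i z x + Dd (A.sy U) RB' r' i z x)) :=
    Nh.sum _ fun i hi => Nh.const_mul _ (nE i (Nat.lt_succ_iff.1 (Finset.mem_range.1 hi)))
  have nz : Nh (X := X) (fun z _ => ∑ l ∈ Finset.range (A.K + 1),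
      8 * η / Real.sqrt N * A.zn l z) := Nh.sum _ fun l _ => Nh.const_mul _ (A.nh_zn l)
  have e3 : (A.sy U).Ex (fun z x => ∑ p ∈ B, ∑ q ∈ B', 1 / (N : ℝ) * (1 / N) * Fpq p q z x) - t =
      (A.sy U).Ex (fun z x => ∑ p ∈ B, ∑ q ∈ B', 1 / (N : ℝ) * (1 / N) * Fpq p q z x - t) := by
    rw [hG.Ex_sub nG (fun _ => EG.const _), hG.Ex_const]
  have hbd := hG.abs_Ex_le_of (Nh.sub nG (fun _ => EG.const t)) (Nh.add (Nh.add nR
    (Nh.const_mul |b - b'| (Nh.add nR (Nh.const_mul 2 nS)))) nz) e2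
  rw [e0, e3]
  refine hbd.trans ?_
  rw [hG.Ex_add (Nh.add nR
    (Nh.const_mul |b - b'| (Nh.add nR (Nh.const_mul 2 nS)))) nz,
    hG.Ex_add nR (Nh.const_mul |b - b'| (Nh.add nR (Nh.const_mul 2 nS))), Ex_const_mul,
    hG.Ex_add nR (Nh.const_mul 2 nS), Ex_const_mul]
  have x1 : ∀ i ≤ A.K, (A.sy U).Ex (fun z x => Dd (A.sy U) RB r i z x +
      Dd (A.sy U) RB' r' i z x) = A.eP B r i U + A.eP B' r' i U := by
    intro i hi
    rw [hG.Ex_add (nh_Dd hG RB r (i := i) hi) (nh_Dd hG RB' r' (i := i) hi)]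
    exact congrArg₂ (· + ·) (hA.Ex_Dd U B r hi) (hA.Ex_Dd U B' r' hi)
  have x2 : (A.sy U).Ex (fun z x => ∑ i ∈ Finset.range (A.K + 1), (A.sy U).p i *
      (Dd (A.sy U) RB r i z x + Dd (A.sy U) RB' r' i z x)) = ∑ i ∈ Finset.range (A.K + 1),
      (A.sy U).p i * (A.eP B r i U + A.eP B' r' i U) := by
    rw [hG.Ex_sum _ fun i hi => Nh.const_mul _ (nE i (Nat.lt_succ_iff.1
      (Finset.mem_range.1 hi)))]
    refine Finset.sum_congr rfl fun i hi => ?_
    rw [Ex_const_mul, x1 i (Nat.lt_succ_iff.1 (Finset.mem_range.1 hi))]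
  have x3 : (A.sy U).Ex (fun (_ : ι → ℝ) x => |RB x x - ρ| + |RB' x x - ρ'|) =
      A.eS B ρ U + A.eS B' ρ' U :=
    hG.Ex_add (Nh.snd fun x => |RB x x - ρ|) (Nh.snd fun x => |RB' x x - ρ'|)
  have x4 : (A.sy U).Ex (fun z _ => ∑ l ∈ Finset.range (A.K + 1),
      8 * η / Real.sqrt N * A.zn l z) ≤ 32 * (A.K + 1) * η := by
    rw [hG.Ex_sum _ fun l _ => Nh.const_mul _ (A.nh_zn l)]
    have y1 : ∀ l ∈ Finset.range (A.K + 1), (A.sy U).Ex (fun z _ =>
        8 * η / Real.sqrt N * A.zn l z) ≤ 32 * η := by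
      intro l hl
      rw [Ex_const_mul]
      have hl' := Nat.lt_succ_iff.1 (Finset.mem_range.1 hl)
      have h1 := hA.Ex_zn hU hl' (fun i => hB.u i l hl') hB.η0 hB.η1 hN
      have h0 := hB.η0
      calc 8 * η / Real.sqrt N * (A.sy U).Ex (fun z _ => A.zn l z) ≤
          8 * η / Real.sqrt N * (4 * Real.sqrt N) := mul_le_mul_of_nonneg_left h1 (by positivity)
        _ = _ := by field_simp; ring
    refine (Finset.sum_le_sum y1).trans (le_of_eq ?_)
    rw [Finset.sum_const, Finset.card_range, nsmul_eq_mul]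
    push_cast
    ring
  rw [x2, x3]
  unfold tot
  linarith only [x4]

end GS

end Vale.Agent.P166.H
end
end

section

section

/-!
The loop equations of two blocks of patterns.
-/

open MeasureTheory ProbabilityTheory Filter Topology Matrix
open Vale.Agent.P157.Lv Vale.Agent.P157.Lv.Sy
open Vale.Agent.P166.Conc (OG)

namespace Vale.Agent.P166.H

open Vale.Agent

set_option linter.unusedSectionVars false

variable {N : ℕ} [MeasurableSpace (OG N)] [BorelSpace (OG N)]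
variable {ι X : Type} [Fintype ι] [Fintype X] [Nonempty X] [DecidableEq ι] [DecidableEq X]

namespace GS

variable {A : GS N ι X}

/-! ### Test functions -/

omit [MeasurableSpace (OG N)] [BorelSpace (OG N)] [DecidableEq ι] [DecidableEq X] in
lemma mt_y (A : GS N ι X) {p q : Fin N} (hpq : p ≠ q) (r : Fin N) :
    MT N X p q (fun U x => A.y U x r) (fun U x => rot' p q (A.y U x) r) := by
  have h := MT.coord A hpq r (fun _ => 1)
  simpa only [one_mul] using h

omit [Fintype X] [Nonempty X] [DecidableEq ι] [DecidableEq X] in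
lemma mm_y (A : GS N ι X) (r : Fin N) : MM N (fun U x => A.y U x r) := by
  have h := MM.y A r (fun _ => 1)
  simpa only [one_mul] using h

omit [Fintype X] [Nonempty X] [DecidableEq ι] [DecidableEq X] in
lemma mm_y' (A : GS N ι X) (p q r : Fin N) : MM N (fun U x => rot' p q (A.y U x) r) := by
  have h := MM.rot' A p q r (fun _ => 1)
  simpa only [one_mul] using h

omit [MeasurableSpace (OG N)] [BorelSpace (OG N)] [DecidableEq ι] [DecidableEq X] in
lemma Ok.ub_y (hA : A.Ok) (r : Fin N) : UB N (fun U x => A.y U x r) :=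
  ⟨Real.sqrt N, fun U x => hA.abs_y_le U.2 x r⟩

omit [MeasurableSpace (OG N)] [BorelSpace (OG N)] [DecidableEq ι] [DecidableEq X] in
lemma Ok.ub_y' (hA : A.Ok) (p q r : Fin N) : UB N (fun U x => rot' p q (A.y U x) r) := by
  refine ⟨Real.sqrt N, fun U x => ?_⟩
  unfold rot'
  split_ifs
  · exact hA.abs_y_le U.2 x q
  · rw [abs_neg]; exact hA.abs_y_le U.2 x p
  · rw [abs_zero]; exact Real.sqrt_nonneg _

omit [MeasurableSpace (OG N)] [BorelSpace (OG N)] [Fintype ι] [Fintype X] [Nonempty X]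
  [DecidableEq ι] [DecidableEq X] in
lemma UB.mul {f g : Matrix (Fin N) (Fin N) ℝ → X → ℝ} (hf : UB N f) (hg : UB N g) :
    UB N (fun U x => f U x * g U x) := by
  obtain ⟨a, ha⟩ := hf
  obtain ⟨b, hb⟩ := hg
  refine ⟨a * b, fun U x => ?_⟩
  rw [abs_mul]
  exact mul_le_mul (ha U x) (hb U x) (abs_nonneg _) ((abs_nonneg _).trans (ha U x))

omit [MeasurableSpace (OG N)] [BorelSpace (OG N)] [Fintype ι] [Fintype X] [Nonempty X]
  [DecidableEq ι] [DecidableEq X] in
lemma UB.add {f g : Matrix (Fin N) (Fin N) ℝ → X → ℝ} (hf : UB N f) (hg : UB N g) :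
    UB N (fun U x => f U x + g U x) := by
  obtain ⟨a, ha⟩ := hf
  obtain ⟨b, hb⟩ := hg
  exact ⟨a + b, fun U x => (abs_add_le _ _).trans (add_le_add (ha U x) (hb U x))⟩

/-! ### Measurability and integrability of the deviations -/

variable (ν : Measure (OG N)) [IsProbabilityMeasure ν]

omit [MeasurableSpace (OG N)] [BorelSpace (OG N)] [DecidableEq ι] [DecidableEq X] in
lemma Ok.R_le (hA : A.Ok) (hN : 0 < N) (B : Finset (Fin N)) (U : OG N) (x x' : X) :
    |A.R B U.1 x x'| ≤ 1 := hA.RR_le hN U.2 B x x'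

omit [Fintype X] [Nonempty X] [DecidableEq ι] [DecidableEq X] in
lemma mR (A : GS N ι X) (B : Finset (Fin N)) (x x' : X) :
    Measurable fun U : OG N => A.R B U.1 x x' := by
  unfold R
  exact (Finset.measurable_fun_sum _ fun i _ => (mm_y A i x).mul (mm_y A i x')).const_mul _

omit [DecidableEq ι] [DecidableEq X] in
lemma Ok.m_eS (hA : A.Ok) (B : Finset (Fin N)) (ρ : ℝ) :
    Measurable fun U : OG N => A.eS B ρ U.1 :=
  hA.mEx (h := fun U _ x => |A.R B U.1 x x - ρ|) fun x =>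
    (((A.mR B x x).comp measurable_fst).sub_const ρ).abs

omit [DecidableEq ι] in
lemma Ok.m_eP (hA : A.Ok) (B : Finset (Fin N)) (r : ℕ → ℝ) (i : ℕ) :
    Measurable fun U : OG N => A.eP B r i U.1 :=
  U.meas_pairEx (S := A.sy 0) (H := fun U : OG N => A.en U.1)
    (ψ := fun U x x' => |A.R B U.1 x x' - r i|) hA.men
    (fun x x' => ((A.mR B x x').sub_const (r i)).abs) i

omit [MeasurableSpace (OG N)] [BorelSpace (OG N)] [DecidableEq ι] [DecidableEq X] in
lemma Ok.b_eS (hA : A.Ok) (hN : 0 < N) (B : Finset (Fin N)) (ρ : ℝ) (U : OG N) :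
    |A.eS B ρ U.1| ≤ 1 + |ρ| :=
  (hA.regG U.1).abs_Ex_le_const (Nh.snd fun x => |A.R B U.1 x x - ρ|) fun _ x => by
    rw [abs_abs]
    exact (abs_sub _ _).trans (add_le_add (hA.R_le hN B U x x) le_rfl)

omit [MeasurableSpace (OG N)] [BorelSpace (OG N)] in
lemma Ok.eP_nonneg (hA : A.Ok) (B : Finset (Fin N)) (r : ℕ → ℝ) {i : ℕ} (hi : i ≤ A.K)
    (U : Matrix (Fin N) (Fin N) ℝ) : 0 ≤ A.eP B r i U :=
  (hA.reg U).pairEx_nonneg (l := i) hi fun _ _ => abs_nonneg _

omit [MeasurableSpace (OG N)] [BorelSpace (OG N)] in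
lemma Ok.b_eP (hA : A.Ok) (hN : 0 < N) (B : Finset (Fin N)) (r : ℕ → ℝ) {i : ℕ} (hi : i ≤ A.K)
    (U : OG N) : |A.eP B r i U.1| ≤ 1 + |r i| := by
  rw [abs_of_nonneg (hA.eP_nonneg B r hi U.1)]
  refine ((hA.reg U.1).pairEx_mono (l := i) hi (ψ' := fun _ _ => 1 + |r i|) fun x x' =>
    (abs_sub _ _).trans (add_le_add (hA.R_le hN B U x x') le_rfl)).trans (le_of_eq ?_)
  exact (hA.reg U.1).pairEx_const (l := i) hi _

omit [DecidableEq ι] [DecidableEq X] in
lemma Ok.int_eS (hA : A.Ok) (hN : 0 < N) (B : Finset (Fin N)) (ρ : ℝ) :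
    Integrable (fun U : OG N => A.eS B ρ U.1) ν :=
  Integrable.of_bound (hA.m_eS B ρ).aestronglyMeasurable (1 + |ρ|)
    (Eventually.of_forall fun U => hA.b_eS hN B ρ U)

lemma Ok.int_eP (hA : A.Ok) (hN : 0 < N) (B : Finset (Fin N)) (r : ℕ → ℝ) {i : ℕ}
    (hi : i ≤ A.K) : Integrable (fun U : OG N => A.eP B r i U.1) ν :=
  Integrable.of_bound (hA.m_eP B r i).aestronglyMeasurable (1 + |r i|)
    (Eventually.of_forall fun U => hA.b_eP hN B r hi U)

lemma Ok.int_tot (hA : A.Ok) (hN : 0 < N) (B B' : Finset (Fin N)) (ρ ρ' : ℝ) (r r' : ℕ → ℝ) :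
    Integrable (fun U : OG N => A.tot B B' ρ ρ' r r' U.1) ν := by
  have hi : ∀ i ∈ Finset.range (A.K + 1), Integrable (fun U : OG N => (A.m (i + 1) - A.m i) *
      (A.eP B r i U.1 + A.eP B' r' i U.1)) ν := fun i hi => by
    have hi' := Nat.lt_succ_iff.1 (Finset.mem_range.1 hi)
    exact ((hA.int_eP ν hN B r hi').add (hA.int_eP ν hN B' r' hi')).const_mul _
  exact ((hA.int_eS ν hN B ρ).add (hA.int_eS ν hN B' ρ')).add (Integrable.const_mul
    (integrable_finsetSum _ hi) 2)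

/-- The averages over the matrix. -/
noncomputable def dS (A : GS N ι X) (B : Finset (Fin N)) (ρ : ℝ) : ℝ :=
  ∫ U : OG N, A.eS B ρ U.1 ∂ν

noncomputable def dP (A : GS N ι X) (B : Finset (Fin N)) (r : ℕ → ℝ) (i : ℕ) : ℝ :=
  ∫ U : OG N, A.eP B r i U.1 ∂ν

/-- The total deviation. -/
noncomputable def dT (A : GS N ι X) (B B' : Finset (Fin N)) (ρ ρ' : ℝ) (r r' : ℕ → ℝ) : ℝ :=
  dS ν A B ρ + dS ν A B' ρ' + 2 * ∑ i ∈ Finset.range (A.K + 1), (A.m (i + 1) - A.m i) *
    (dP ν A B r i + dP ν A B' r' i)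

lemma Ok.integral_tot (hA : A.Ok) (hN : 0 < N) (B B' : Finset (Fin N)) (ρ ρ' : ℝ)
    (r r' : ℕ → ℝ) : ∫ U : OG N, A.tot B B' ρ ρ' r r' U.1 ∂ν = dT ν A B B' ρ ρ' r r' := by
  have hi : ∀ i ∈ Finset.range (A.K + 1), Integrable (fun U : OG N => (A.m (i + 1) - A.m i) *
      (A.eP B r i U.1 + A.eP B' r' i U.1)) ν := fun i hi => by
    have hi' := Nat.lt_succ_iff.1 (Finset.mem_range.1 hi)
    exact ((hA.int_eP ν hN B r hi').add (hA.int_eP ν hN B' r' hi')).const_mul _
  have e : (fun U : OG N => A.tot B B' ρ ρ' r r' U.1) = fun U : OG N =>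
      (A.eS B ρ U.1 + A.eS B' ρ' U.1) + 2 * ∑ i ∈ Finset.range (A.K + 1),
        (A.m (i + 1) - A.m i) * (A.eP B r i U.1 + A.eP B' r' i U.1) := rfl
  have i1 : Integrable (fun U : OG N => A.eS B ρ U.1 + A.eS B' ρ' U.1) ν :=
    (hA.int_eS ν hN B ρ).add (hA.int_eS ν hN B' ρ')
  have i2 : Integrable (fun U : OG N => 2 * ∑ i ∈ Finset.range (A.K + 1),
        (A.m (i + 1) - A.m i) * (A.eP B r i U.1 + A.eP B' r' i U.1)) ν :=
    Integrable.const_mul (integrable_finsetSum _ hi) 2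
  rw [e, integral_add i1 i2,
    integral_add (hA.int_eS ν hN B ρ) (hA.int_eS ν hN B' ρ'), integral_const_mul,
    integral_finsetSum _ hi]
  unfold dT dS dP
  congr 2
  refine Finset.sum_congr rfl fun i hi => ?_
  have hi' := Nat.lt_succ_iff.1 (Finset.mem_range.1 hi)
  rw [integral_const_mul, integral_add (hA.int_eP ν hN B r hi') (hA.int_eP ν hN B' r' hi')]

variable [ν.IsMulLeftInvariant]

/-- **The loop equation of two blocks, two replicas.** -/
theorem Ok.loop_pair_block (hA : A.Ok) (hN : 0 < N) {B B' : Finset (Fin N)}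
    {b b' η : ℝ} (hB : A.Blk B B' b b' η) {l : ℕ} (hl : l ≤ A.K) {ρ ρ' : ℝ} {r r' : ℕ → ℝ}
    (hρ' : |ρ'| ≤ 1) (hr' : ∀ i ≤ A.K, |r' i| ≤ 1) :
    |al N B * r' l - al N B' * r l + (b - b') * me (A.sy 0) ρ ρ' r r' l| ≤
      (dP ν A B r l + dP ν A B' r' l) + |b - b'| * (dT ν A B B' ρ ρ' r r' +
        4 * (dP ν A B r l + dP ν A B' r' l)) + 112 * (A.K + 1) * η := by
  set V : Fin N → Fin N → OG N → ℝ := fun p q U => A.Vf p q l (fun U x => A.y U x p)
        (fun U x => rot' p q (A.y U x) p) (fun U x => A.y U x q)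
        (fun U x => rot' p q (A.y U x) q) U.1 with hV
  have hVi : ∀ p q, Integrable (V p q) ν := fun p q => by
    obtain ⟨C, hC⟩ := hA.bVf p q hl (hA.ub_y p) (hA.ub_y' p q p) (hA.ub_y q) (hA.ub_y' p q q)
    exact Integrable.of_bound (hA.mVf p q l (mm_y A p) (mm_y' A p q p) (mm_y A q)
      (mm_y' A p q q)).aestronglyMeasurable C (Eventually.of_forall hC)
  have hV0 : ∀ p ∈ B, ∀ q ∈ B', ∫ U, V p q U ∂ν = 0 := fun p hp q hq =>
    hA.loop_pair ν (hB.disj p hp q hq) hl (A.mt_y (hB.disj p hp q hq) p)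
      (A.mt_y (hB.disj p hp q hq) q) (mm_y A p) (mm_y' A p q p) (mm_y A q) (mm_y' A p q q)
      (hA.ub_y p) (hA.ub_y' p q p) (hA.ub_y q) (hA.ub_y' p q q)
  set t := al N B * r' l - al N B' * r l + (b - b') * me (A.sy 0) ρ ρ' r r' l with ht
  have hsi : Integrable (fun U => ∑ p ∈ B, ∑ q ∈ B', 1 / (N : ℝ) * (1 / N) * V p q U) ν :=
    integrable_finsetSum _ fun p _ => integrable_finsetSum _ fun q _ => (hVi p q).const_mul _
  have hs0 : ∫ U, ∑ p ∈ B, ∑ q ∈ B', 1 / (N : ℝ) * (1 / N) * V p q U ∂ν = 0 := by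
    rw [integral_finsetSum _ fun p _ => integrable_finsetSum _ fun q _ =>
      (hVi p q).const_mul _]
    refine Finset.sum_eq_zero fun p hp => ?_
    rw [integral_finsetSum _ fun q _ => (hVi p q).const_mul _]
    refine Finset.sum_eq_zero fun q hq => ?_
    rw [integral_const_mul, hV0 p hp q hq, mul_zero]
  have h1 : |∫ U, (∑ p ∈ B, ∑ q ∈ B', 1 / (N : ℝ) * (1 / N) * V p q U - t) ∂ν| = |t| := by
    rw [integral_sub hsi (integrable_const _), hs0, integral_const]
    simp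
  rw [← h1]
  have iP : Integrable (fun U : OG N => A.eP B r l U.1 + A.eP B' r' l U.1) ν :=
    (hA.int_eP ν hN B r hl).add (hA.int_eP ν hN B' r' hl)
  have iT := hA.int_tot ν hN B B' ρ ρ' r r'
  have i4 : Integrable (fun U : OG N => 4 * (A.eP B r l U.1 + A.eP B' r' l U.1)) ν :=
    iP.const_mul 4
  have i5 : Integrable (fun U : OG N => A.tot B B' ρ ρ' r r' U.1 +
      4 * (A.eP B r l U.1 + A.eP B' r' l U.1)) ν := iT.add i4
  have i6 : Integrable (fun U : OG N => |b - b'| * (A.tot B B' ρ ρ' r r' U.1 +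
      4 * (A.eP B r l U.1 + A.eP B' r' l U.1))) ν := i5.const_mul _
  have i7 : Integrable (fun U : OG N => (A.eP B r l U.1 + A.eP B' r' l U.1) + |b - b'| *
      (A.tot B B' ρ ρ' r r' U.1 + 4 * (A.eP B r l U.1 + A.eP B' r' l U.1))) ν := iP.add i6
  have hbi : Integrable (fun U : OG N => (A.eP B r l U.1 + A.eP B' r' l U.1) + |b - b'| *
      (A.tot B B' ρ ρ' r r' U.1 + 4 * (A.eP B r l U.1 + A.eP B' r' l U.1)) +
      112 * (A.K + 1) * η) ν :=
    i7.add (integrable_const _)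
  have h2 : ‖∫ U, (∑ p ∈ B, ∑ q ∈ B', 1 / (N : ℝ) * (1 / N) * V p q U - t) ∂ν‖ ≤ _ :=
    norm_integral_le_of_norm_le hbi (Eventually.of_forall fun U =>
      hA.fix_pair hN U.2 hB hl hρ' hr')
  rw [Real.norm_eq_abs] at h2
  refine h2.trans ?_
  · rw [integral_add i7 (integrable_const _),
      integral_add iP i6, integral_const_mul,
      integral_add iT i4, integral_const_mul, hA.integral_tot ν hN,
      integral_add (hA.int_eP ν hN B r hl) (hA.int_eP ν hN B' r' hl), integral_const]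
    simp [dP]

/-- **The loop equation of two blocks, one replica.** -/
theorem Ok.loop_one_block (hA : A.Ok) (hN : 0 < N) {B B' : Finset (Fin N)}
    {b b' η : ℝ} (hB : A.Blk B B' b b' η) {ρ ρ' : ℝ} {r r' : ℕ → ℝ}
    (hρ' : |ρ'| ≤ 1) (hr' : ∀ i ≤ A.K, |r' i| ≤ 1) :
    |al N B * ρ' - al N B' * ρ + (b - b') * md (A.sy 0) ρ ρ' r r'| ≤
      (dS ν A B ρ + dS ν A B' ρ') + |b - b'| * dT ν A B B' ρ ρ' r r' +
        32 * (A.K + 1) * η := by
  set V : Fin N → Fin N → OG N → ℝ := fun p q U => A.V1 p q (fun U x => A.y U x p * A.y U x q)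
        (fun U x => rot' p q (A.y U x) p * A.y U x q + A.y U x p * rot' p q (A.y U x) q) U.1
    with hV
  have m1 : ∀ p q, MM N (fun U x => A.y U x p * A.y U x q) := fun p q =>
    (mm_y A p).mul (mm_y A q)
  have m2 : ∀ p q, MM N (fun U x => rot' p q (A.y U x) p * A.y U x q + A.y U x p *
      rot' p q (A.y U x) q) := fun p q =>
    ((mm_y' A p q p).mul (mm_y A q)).add ((mm_y A p).mul (mm_y' A p q q))
  have u1 : ∀ p q, UB N (fun U x => A.y U x p * A.y U x q) := fun p q =>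
    (hA.ub_y p).mul (hA.ub_y q)
  have u2 : ∀ p q, UB N (fun U x => rot' p q (A.y U x) p * A.y U x q + A.y U x p *
      rot' p q (A.y U x) q) := fun p q =>
    ((hA.ub_y' p q p).mul (hA.ub_y q)).add ((hA.ub_y p).mul (hA.ub_y' p q q))
  have hVi : ∀ p q, Integrable (V p q) ν := fun p q => by
    obtain ⟨C, hC⟩ := hA.bV1 p q (u1 p q) (u2 p q)
    exact Integrable.of_bound (hA.mV1 p q (m1 p q) (m2 p q)).aestronglyMeasurable C
      (Eventually.of_forall hC)
  have hV0 : ∀ p ∈ B, ∀ q ∈ B', ∫ U, V p q U ∂ν = 0 := fun p hp q hq =>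
    hA.loop_one ν (hB.disj p hp q hq) ((A.mt_y (hB.disj p hp q hq) p).mul
      (A.mt_y (hB.disj p hp q hq) q)) (m1 p q) (m2 p q) (u1 p q) (u2 p q)
  set t := al N B * ρ' - al N B' * ρ + (b - b') * md (A.sy 0) ρ ρ' r r' with ht
  have hsi : Integrable (fun U => ∑ p ∈ B, ∑ q ∈ B', 1 / (N : ℝ) * (1 / N) * V p q U) ν :=
    integrable_finsetSum _ fun p _ => integrable_finsetSum _ fun q _ => (hVi p q).const_mul _
  have hs0 : ∫ U, ∑ p ∈ B, ∑ q ∈ B', 1 / (N : ℝ) * (1 / N) * V p q U ∂ν = 0 := by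
    rw [integral_finsetSum _ fun p _ => integrable_finsetSum _ fun q _ =>
      (hVi p q).const_mul _]
    refine Finset.sum_eq_zero fun p hp => ?_
    rw [integral_finsetSum _ fun q _ => (hVi p q).const_mul _]
    refine Finset.sum_eq_zero fun q hq => ?_
    rw [integral_const_mul, hV0 p hp q hq, mul_zero]
  have h1 : |∫ U, (∑ p ∈ B, ∑ q ∈ B', 1 / (N : ℝ) * (1 / N) * V p q U - t) ∂ν| = |t| := by
    rw [integral_sub hsi (integrable_const _), hs0, integral_const]
    simp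
  rw [← h1]
  have iS : Integrable (fun U : OG N => A.eS B ρ U.1 + A.eS B' ρ' U.1) ν :=
    (hA.int_eS ν hN B ρ).add (hA.int_eS ν hN B' ρ')
  have iT := hA.int_tot ν hN B B' ρ ρ' r r'
  have i6 : Integrable (fun U : OG N => |b - b'| * A.tot B B' ρ ρ' r r' U.1) ν :=
    iT.const_mul _
  have i7 : Integrable (fun U : OG N => (A.eS B ρ U.1 + A.eS B' ρ' U.1) + |b - b'| *
      A.tot B B' ρ ρ' r r' U.1) ν := iS.add i6
  have hbi : Integrable (fun U : OG N => (A.eS B ρ U.1 + A.eS B' ρ' U.1) + |b - b'| *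
      A.tot B B' ρ ρ' r r' U.1 + 32 * (A.K + 1) * η) ν :=
    i7.add (integrable_const _)
  have h2 : ‖∫ U, (∑ p ∈ B, ∑ q ∈ B', 1 / (N : ℝ) * (1 / N) * V p q U - t) ∂ν‖ ≤ _ :=
    norm_integral_le_of_norm_le hbi (Eventually.of_forall fun U =>
      hA.fix_one hN U.2 hB hρ' hr')
  rw [Real.norm_eq_abs] at h2
  refine h2.trans ?_
  · rw [integral_add i7 (integrable_const _),
      integral_add iS i6, integral_const_mul, hA.integral_tot ν hN,
      integral_add (hA.int_eS ν hN B ρ) (hA.int_eS ν hN B' ρ'), integral_const]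
    simp [dS]

end GS

end Vale.Agent.P166.H
end
end

section

section

/-!
P166, lower bound: the systems, their regularity, measurability and integrability in `U`.
-/

set_option linter.all false

open MeasureTheory ProbabilityTheory Matrix Filter Topology

namespace Vale.Agent.P166.L

open Vale.Agent.P157 (spin)
open Vale.Agent.P157.Lv Vale.Agent.P157.Par Md H U

variable {N K n : ℕ} {m : ℕ → ℝ}

/-- The model in which the patterns `w j` have the potentials `μ j` and no field. -/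
noncomputable def nmu {κ : ℕ} (K : ℕ) (m : ℕ → ℝ) (c : Fin N → Fin κ) (P : Pm κ)
    (w : Fin n → Fin N) (μ : Fin n → ℝ) : GS N (Ix N K) (Fin N → Bool) :=
  { ngs K m c P with
    lam := Function.extend w μ fun i => P.b (c i)
    u := Function.extend w (fun _ _ => 0) fun i => P.u (c i) }

/-- The model of size `N + 1` in which the site `0` has a field of strengths `s'`. -/
noncomputable def nmd {κ : ℕ} (K : ℕ) (m : ℕ → ℝ) (c : Fin (N + 1) → Fin κ) (P : Pm κ)
    (s' : ℕ → ℝ) (U : Matrix (Fin (N + 1)) (Fin (N + 1)) ℝ) :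
    Sy (Ix (N + 1) K) (Fin (N + 1) → Bool) where
  lev := lvl
  K := K
  m := m
  H := fun z x => Md.en c P U z x +
    ∑ l ∈ Finset.range (K + 1), (s' l - P.s l) * (z (sco l 0) * spin x 0)

/-- The derivatives of the energy of `nmd`. -/
noncomputable def nmdD {κ : ℕ} (K : ℕ) (c : Fin (N + 1) → Fin κ) (P : Pm κ)
    (s' : ℕ → ℝ) (U : Matrix (Fin (N + 1)) (Fin (N + 1)) ℝ) :
    Ix (N + 1) K → (Ix (N + 1) K → ℝ) → (Fin (N + 1) → Bool) → ℝ := fun e z x =>
  enD c P U e z x + if e.2.1 = true ∧ e.2.2 = 0 then (s' e.1 - P.s e.1) * spin x 0 else 0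

theorem nmd_self {κ : ℕ} (c : Fin (N + 1) → Fin κ) (P : Pm κ)
    (U : Matrix (Fin (N + 1)) (Fin (N + 1)) ℝ) : nmd K m c P P.s U = mdl K m c P U := by
  unfold nmd Md.mdl
  congr 1
  funext z x
  simp

/-- The model is a `GS`. -/
theorem ngs_sy {κ : ℕ} (c : Fin N → Fin κ) (P : Pm κ) (U : Matrix (Fin N) (Fin N) ℝ) :
    (ngs K m c P).sy U = mdl K m c P U := by
  unfold Md.mdl GS.sy
  have : Md.en c P U = (ngs K m c P).en U := by
    funext z x
    simp only [Md.en, GS.en, GS.ev, ngs, GS.y, ph, zero_mul, Finset.sum_const_zero, add_zero]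
    ring
  rw [this]
  rfl

theorem sy_bco_inj {l l' : ℕ} (hl : l ≤ K) (hl' : l' ≤ K) {i i' : Fin N}
    (h : (bco l i : Ix N K) = bco l' i') : l = l' ∧ i = i' := by
  have h1 := (mdl_bco_eq hl i (bco l' i')).1 h
  refine ⟨h1.1.trans (mdl_ofNat hl'), h1.2.2⟩

theorem ngs_ok {κ : ℕ} (hm : Exponents K m) (c : Fin N → Fin κ) (P : Pm κ) :
    (ngs K m c P).Ok := by
  obtain ⟨h0, h1, h2⟩ := hm
  refine ⟨h0, h1, fun l hl => (h2 l hl).le, ?_, fun e => Nat.lt_succ_iff.1 e.1.2,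
    fun x => mdl_spin_sum x, fun x => ?_, fun x z w h => ?_,
    fun l hl l' hl' i i' h => sy_bco_inj hl hl' h, fun l hl i => mdl_ofNat hl⟩
  · have := h2 0 (Nat.zero_le _)
    rwa [h0] at this
  · show Lip fun z : Ix N K → ℝ => ∑ l ∈ Finset.range (K + 1),
      P.s l * ∑ i, z (sco l i) * spin x i
    refine Lip.sum _ fun l _ => Lip.const_mul (Lip.sum _ fun i _ => ?_) _
    have h := (Lip.coord (ι := Ix N K) (sco l i)).const_mul (spin x i)
    simpa only [mul_comm] using h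
  · show ∑ l ∈ Finset.range (K + 1), P.s l * ∑ i, z (sco l i) * spin x i =
      ∑ l ∈ Finset.range (K + 1), P.s l * ∑ i, w (sco l i) * spin x i
    refine Finset.sum_congr rfl fun l _ => ?_
    congr 1
    refine Finset.sum_congr rfl fun i _ => ?_
    rw [h (sco l i) fun l' _ i' he => ?_]
    have := congrArg (fun e : Ix N K => e.2.1) he
    simp only [sco, Fin.ofNat_eq_cast, ngs, bco, Bool.true_eq_false] at this

theorem nmu_ok {κ : ℕ} (hm : Exponents K m) (c : Fin N → Fin κ) (P : Pm κ) (w : Fin n → Fin N)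
    (μ : Fin n → ℝ) : (nmu K m c P w μ).Ok := by
  have h := ngs_ok (K := K) hm c P
  exact ⟨h.m0, h.mK, h.mono, h.pos, h.lev, h.norm, h.lip, h.e0, h.bcinj, h.bclev⟩

theorem egs_ok (hm : Exponents K m) (E : EPm N) : (egs K m E).Ok := by
  obtain ⟨h0, h1, h2⟩ := hm
  refine ⟨h0, h1, fun l hl => (h2 l hl).le, ?_, ?_, fun x => ?_, fun x => ?_, fun x z w h => ?_,
    ?_, fun l hl i => ?_⟩
  · have := h2 0 (Nat.zero_le _)
    rwa [h0] at this
  · rintro (e | l)
    · exact Nat.lt_succ_iff.1 e.1.2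
    · exact Nat.lt_succ_iff.1 l.2
  · exact mdl_spin_sum x.2
  · show Lip fun z : Ie N K → ℝ => eE0 K E z x
    unfold eE0
    refine Lip.add (Lip.add (Lip.const _) (Lip.sum _ fun l _ => Lip.const_mul
      (Lip.sum _ fun i _ => ?_) _)) (Lip.const_mul (Lip.sum _ fun l _ => Lip.add ?_ ?_) _)
    · have h := (Lip.coord (scE (K := K) l i)).const_mul (spin x.2 i)
      simpa only [mul_comm] using h
    · exact (Lip.coord (ecE N K l)).const_mul (E.s' l)
    · exact (Lip.coord (zcE N K l)).const_mul (E.t l)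
  · show eE0 K E z x = eE0 K E w x
    have e1 : ∀ l (i : Fin N), z (scE l i) = w (scE l i) := fun l i => h _ fun l' _ i' he => by
      have h3 : sco l i.succ = (bco l' i'.succ : Ix (N + 1) K) := Sum.inl.inj he
      have := congrArg (fun e : Ix (N + 1) K => e.2.1) h3
      simp only [sco, Fin.ofNat_eq_cast, bco, Bool.true_eq_false] at this
    have e2 : ∀ l, z (ecE N K l) = w (ecE N K l) := fun l => h _ fun l' _ i' he => by
      have h3 : sco l 0 = (bco l' i'.succ : Ix (N + 1) K) := Sum.inl.inj he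
      have := congrArg (fun e : Ix (N + 1) K => e.2.1) h3
      simp only [sco, Fin.ofNat_eq_cast, bco, Bool.true_eq_false] at this
    have e3 : ∀ l, z (zcE N K l) = w (zcE N K l) := fun l => h _ fun l' _ i' he => by
      simp only [zcE, Fin.ofNat_eq_cast, egs, bcE, reduceCtorEq] at he
    unfold eE0
    simp only [e1, e2, e3]
  · intro l hl l' hl' i i' h
    have h3 : bco l i.succ = (bco l' i'.succ : Ix (N + 1) K) := Sum.inl.inj h
    have h4 := sy_bco_inj hl hl' h3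
    exact ⟨h4.1, Fin.succ_injective _ h4.2⟩
  · exact mdl_ofNat hl

/-- The partial derivatives of the energy of a system with a new spin. -/
noncomputable def egsD (K : ℕ) (E : EPm N) (U : Matrix (Fin N) (Fin N) ℝ) :
    Ie N K → (Ie N K → ℝ) → Xe N → ℝ := fun e _ x =>
  match e with
  | Sum.inl (l, true, i) => Fin.cases (E.s' l * sg1 x.1) (fun j => E.s l * spin x.2 j) i
  | Sum.inl (l, false, i) => Fin.cases 0 (fun j => E.u j l * (U *ᵥ spin x.2) j) i
  | Sum.inr l => E.t l * sg1 x.1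

theorem sy_zc_eq {l : ℕ} (hl : l ≤ K) (a : Fin (K + 1)) :
    (Fin.ofNat (K + 1) l : Fin (K + 1)) = a ↔ l = a := by
  rw [Fin.ext_iff, mdl_ofNat hl]

theorem sy_pd (E : EPm N) (U : Matrix (Fin N) (Fin N) ℝ) (e : Ie N K) (x : Xe N) :
    PD e (fun z => (egs K m E).en U z x) (fun z => egsD K E U e z x) := by
  have h1 : PD e (fun z => (egs K m E).en U z x) (fun _ => (0 +
      ∑ l ∈ Finset.range (K + 1), E.s l * ∑ i, (if scE l i = e then (1 : ℝ) else 0) * spin x.2 i +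
      sg1 x.1 * ∑ l ∈ Finset.range (K + 1), (E.s' l * (if ecE N K l = e then (1 : ℝ) else 0) +
        E.t l * (if zcE N K l = e then (1 : ℝ) else 0))) +
      ((0 + 0) + ∑ l ∈ Finset.range (K + 1), ∑ i, E.u i l *
        ((if bcE l i = e then (1 : ℝ) else 0) * (U *ᵥ spin x.2) i))) := by
    show PD e (fun z => eE0 K E z x + (egs K m E).ev (fun l i => z (bcE l i)) (U *ᵥ spin x.2) x) _
    unfold eE0 GS.ev
    refine PD.add (PD.add (PD.add (PD.const _) (PD.sum _ fun l _ => PD.const_mul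
      (PD.sum _ fun i _ => ?_) _)) (PD.const_mul (PD.sum _ fun l _ => PD.add ?_ ?_) _))
      (PD.add (PD.add (PD.const _) (PD.const _)) (PD.sum _ fun l _ => PD.sum _ fun i _ =>
        PD.const_mul ?_ _))
    · have h := (PD.coord (e := e) (scE (K := K) l i)).const_mul (spin x.2 i)
      simpa only [mul_comm] using h
    · exact (PD.coord (e := e) (ecE N K l)).const_mul (E.s' l)
    · exact (PD.coord (e := e) (zcE N K l)).const_mul (E.t l)
    · have h := (PD.coord (e := e) (bcE (K := K) l i)).const_mul ((U *ᵥ spin x.2) i)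
      simpa only [mul_comm] using h
  refine h1.congr fun z => ?_
  rcases e with ⟨a, b, j⟩ | a
  · have ha : (a : ℕ) ∈ Finset.range (K + 1) := Finset.mem_range.2 a.2
    have hs : ∀ l ∈ Finset.range (K + 1), ∀ i : Fin N,
        (if scE l i = (Sum.inl (a, b, j) : Ie N K) then (1 : ℝ) else 0) =
          if (l = (a : ℕ) ∧ b = true ∧ i.succ = j) then 1 else 0 := by
      intro l hl i
      rw [Finset.mem_range] at hl
      refine if_congr ?_ rfl rfl
      unfold scE
      rw [Sum.inl.injEq]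
      exact mdl_sco_eq (by omega) i.succ _
    have he : ∀ l ∈ Finset.range (K + 1),
        (if ecE N K l = (Sum.inl (a, b, j) : Ie N K) then (1 : ℝ) else 0) =
          if (l = (a : ℕ) ∧ b = true ∧ 0 = j) then 1 else 0 := by
      intro l hl
      rw [Finset.mem_range] at hl
      refine if_congr ?_ rfl rfl
      unfold ecE
      rw [Sum.inl.injEq]
      exact mdl_sco_eq (by omega) 0 _
    have hz : ∀ l ∈ Finset.range (K + 1),
        (if zcE N K l = (Sum.inl (a, b, j) : Ie N K) then (1 : ℝ) else 0) = 0 := by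
      intro l hl
      rw [if_neg]
      unfold zcE
      simp
    have hb : ∀ l ∈ Finset.range (K + 1), ∀ i : Fin N,
        (if bcE l i = (Sum.inl (a, b, j) : Ie N K) then (1 : ℝ) else 0) =
          if (l = (a : ℕ) ∧ b = false ∧ i.succ = j) then 1 else 0 := by
      intro l hl i
      rw [Finset.mem_range] at hl
      refine if_congr ?_ rfl rfl
      unfold bcE
      rw [Sum.inl.injEq]
      exact mdl_bco_eq (by omega) i.succ _
    have c1 : ∑ l ∈ Finset.range (K + 1), E.s l *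
        ∑ i, (if scE l i = (Sum.inl (a, b, j) : Ie N K) then (1 : ℝ) else 0) * spin x.2 i =
        E.s a * ∑ i, (if (b = true ∧ i.succ = j) then (1 : ℝ) else 0) * spin x.2 i := by
      rw [Finset.sum_eq_single_of_mem (a : ℕ) ha]
      · congr 1
        refine Finset.sum_congr rfl fun i _ => ?_
        rw [hs _ ha]
        simp
      · intro l hl hne
        rw [Finset.sum_eq_zero, mul_zero]
        intro i _
        rw [hs _ hl]
        simp [hne]
    have c2 : ∑ l ∈ Finset.range (K + 1), (E.s' l *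
        (if ecE N K l = (Sum.inl (a, b, j) : Ie N K) then (1 : ℝ) else 0) +
        E.t l * (if zcE N K l = (Sum.inl (a, b, j) : Ie N K) then (1 : ℝ) else 0)) =
        E.s' a * (if (b = true ∧ 0 = j) then (1 : ℝ) else 0) := by
      rw [Finset.sum_eq_single_of_mem (a : ℕ) ha]
      · rw [he _ ha, hz _ ha]
        simp only [true_and, mul_ite, mul_one, mul_zero, add_zero]
      · intro l hl hne
        rw [he _ hl, hz _ hl]
        simp [hne]
    have c3 : ∑ l ∈ Finset.range (K + 1), ∑ i, E.u i l *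
        ((if bcE l i = (Sum.inl (a, b, j) : Ie N K) then (1 : ℝ) else 0) * (U *ᵥ spin x.2) i) =
        ∑ i, E.u i a * ((if (b = false ∧ i.succ = j) then (1 : ℝ) else 0) *
          (U *ᵥ spin x.2) i) := by
      rw [Finset.sum_eq_single_of_mem (a : ℕ) ha]
      · refine Finset.sum_congr rfl fun i _ => ?_
        rw [hb _ ha]
        simp only [true_and, ite_mul, one_mul, zero_mul, mul_ite, mul_zero]
      · intro l hl hne
        refine Finset.sum_eq_zero fun i _ => ?_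
        rw [hb _ hl]
        simp only [hne, false_and, ↓reduceIte, zero_mul, mul_zero]
    rw [c1, c2, c3]
    cases b
    · refine Fin.cases ?_ (fun j => ?_) j
      · have hne : ∀ i : Fin N, ¬ (i.succ = 0) := fun i => Fin.succ_ne_zero i
        simp only [Bool.false_eq_true, hne, and_self, ↓reduceIte, zero_mul, Finset.sum_const_zero, mul_zero, add_zero, and_true, and_false, egsD, Fin.cases_zero]
      · simp only [Bool.false_eq_true, false_and, if_false, zero_mul, Finset.sum_const_zero,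
          mul_zero, add_zero, zero_add, true_and, egsD, Fin.cases_succ, Fin.succ_inj]
        rw [Finset.sum_eq_single_of_mem j (Finset.mem_univ j)]
        · simp
        · intro i _ hi
          simp only [hi, ↓reduceIte, zero_mul, mul_zero]
    · refine Fin.cases ?_ (fun j => ?_) j
      · have hne : ∀ i : Fin N, ¬ (i.succ = 0) := fun i => Fin.succ_ne_zero i
        simp only [hne, and_false, ↓reduceIte, zero_mul, Finset.sum_const_zero, mul_zero, add_zero, and_self, mul_one, zero_add, Bool.true_eq_false, egsD, Fin.cases_zero]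
        ring
      · have hne : ¬ ((0 : Fin (N + 1)) = j.succ) := fun h => Fin.succ_ne_zero j h.symm
        simp only [Bool.true_eq_false, false_and, if_false, zero_mul, Finset.sum_const_zero,
          mul_zero, add_zero, zero_add, true_and, egsD, Fin.cases_succ, Fin.succ_inj, hne]
        rw [Finset.sum_eq_single_of_mem j (Finset.mem_univ j)]
        · simp
        · intro i _ hi
          simp [hi]
  · have ha : (a : ℕ) ∈ Finset.range (K + 1) := Finset.mem_range.2 a.2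
    have hs : ∀ l (i : Fin N), (if scE l i = (Sum.inr a : Ie N K) then (1 : ℝ) else 0) = 0 :=
      fun l i => by rw [if_neg]; unfold scE; simp
    have he : ∀ l, (if ecE N K l = (Sum.inr a : Ie N K) then (1 : ℝ) else 0) = 0 :=
      fun l => by rw [if_neg]; unfold ecE; simp
    have hb : ∀ l (i : Fin N), (if bcE l i = (Sum.inr a : Ie N K) then (1 : ℝ) else 0) = 0 :=
      fun l i => by rw [if_neg]; unfold bcE; simp
    have hz : ∀ l ∈ Finset.range (K + 1),
        (if zcE N K l = (Sum.inr a : Ie N K) then (1 : ℝ) else 0) =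
          if l = (a : ℕ) then 1 else 0 := by
      intro l hl
      rw [Finset.mem_range] at hl
      refine if_congr ?_ rfl rfl
      unfold zcE
      rw [Sum.inr.injEq]
      exact sy_zc_eq (by omega) a
    simp only [hs, he, hb, zero_mul, mul_zero, Finset.sum_const_zero, add_zero, zero_add]
    rw [Finset.sum_eq_single_of_mem (a : ℕ) ha]
    · rw [hz _ ha]
      simp only [if_true, mul_one, egsD]
      ring
    · intro l hl hne
      rw [hz _ hl, if_neg hne, mul_zero]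

theorem egs_regD (hm : Exponents K m) (E : EPm N) (U : Matrix (Fin N) (Fin N) ℝ) :
    ((egs K m E).sy U).RegD (egsD K E U) := by
  refine ⟨(egs_ok hm E).reg U, fun e x => sy_pd E U e x, fun e x => measurable_const, ?_⟩
  refine ⟨∑ e : Ie N K, ∑ x : Xe N, |egsD K E U e 0 x|, fun e z x => ?_⟩
  have h3 : |egsD K E U e z x| = |egsD K E U e 0 x| := rfl
  rw [h3]
  refine (Finset.single_le_sum (f := fun x => |egsD K E U e 0 x|) (fun _ _ => abs_nonneg _)
    (Finset.mem_univ x)).trans ?_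
  exact Finset.single_le_sum (f := fun e => ∑ x : Xe N, |egsD K E U e 0 x|)
    (fun _ _ => Finset.sum_nonneg fun _ _ => abs_nonneg _) (Finset.mem_univ e)

/-- The strengths of the pattern fields are constant on the set `A`. -/
theorem egs_bfld (hm : Exponents K m) (hN : 0 < N) (E : EPm N) {U : Matrix (Fin N) (Fin N) ℝ}
    (hU : U ∈ orthogonalGroup (Fin N) ℝ) (A : Finset (Fin N)) (u : ℕ → ℝ)
    (hA : ∀ i ∈ A, ∀ l ≤ K, E.u i l = u l) :
    BFld ((egs K m E).sy U) (egsD K E U) (fun x => U *ᵥ spin x.2) bcE A u where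
  reg := egs_regD hm E U
  N0 := hN
  norm := fun x => by
    rw [← ph_sq hU x.2]
    exact Finset.sum_le_sum_of_subset_of_nonneg (Finset.subset_univ _) fun i _ _ => sq_nonneg _
  lev := fun l hl i _ => mdl_ofNat hl
  D := fun l hl i hi z x => by
    show E.u i ((Fin.ofNat (K + 1) l : Fin (K + 1)) : ℕ) * (U *ᵥ spin x.2) i = _
    rw [mdl_ofNat (K := K) hl, hA i hi l hl]

/-- `nmd` as a `GS`. -/
noncomputable def nmG {κ : ℕ} (K : ℕ) (m : ℕ → ℝ) (c : Fin (N + 1) → Fin κ) (P : Pm κ)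
    (s' : ℕ → ℝ) : GS (N + 1) (Ix (N + 1) K) (Fin (N + 1) → Bool) :=
  { ngs K m c P with
    E0 := fun z x => ∑ l ∈ Finset.range (K + 1), P.s l * ∑ i, z (sco l i) * spin x i +
      ∑ l ∈ Finset.range (K + 1), (s' l - P.s l) * (z (sco l 0) * spin x 0) }

theorem sy_nmG {κ : ℕ} (c : Fin (N + 1) → Fin κ) (P : Pm κ) (s' : ℕ → ℝ)
    (U : Matrix (Fin (N + 1)) (Fin (N + 1)) ℝ) : (nmG K m c P s').sy U = nmd K m c P s' U := by
  unfold nmd GS.sy
  have : (nmG K m c P s').en U = fun z x => Md.en c P U z x +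
    ∑ l ∈ Finset.range (K + 1), (s' l - P.s l) * (z (sco l 0) * spin x 0) := by
    funext z x
    simp only [Md.en, GS.en, GS.ev, nmG, ngs, GS.y, ph, zero_mul, Finset.sum_const_zero, add_zero]
    ring
  rw [this]
  rfl

theorem sy_nmG_ok {κ : ℕ} (hm : Exponents K m) (c : Fin (N + 1) → Fin κ) (P : Pm κ)
    (s' : ℕ → ℝ) : (nmG K m c P s').Ok := by
  have h := ngs_ok (K := K) hm c P
  refine ⟨h.m0, h.mK, h.mono, h.pos, h.lev, h.norm, fun x => ?_, fun x z w hzw => ?_, h.bcinj,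
    h.bclev⟩
  · refine (h.lip x).add (Lip.sum _ fun l _ => Lip.const_mul ?_ _)
    have h := (Lip.coord (sco (K := K) l (0 : Fin (N + 1)))).const_mul (spin x 0)
    simpa only [mul_comm] using h
  · have h1 := h.e0 x z w hzw
    have h2 : ∀ l, z (sco l 0) = w (sco l 0) := fun l => hzw _ fun l' _ i' he => by
      have := congrArg (fun e : Ix (N + 1) K => e.2.1) he
      simp only [sco, Fin.ofNat_eq_cast, nmG, ngs, bco, Bool.true_eq_false] at this
    show (ngs K m c P).E0 z x + ∑ l ∈ Finset.range (K + 1), (s' l - P.s l) * (z (sco l 0) * spin x 0) =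
      (ngs K m c P).E0 w x + ∑ l ∈ Finset.range (K + 1), (s' l - P.s l) * (w (sco l 0) * spin x 0)
    rw [h1]
    simp only [h2]

theorem nmd_regD {κ : ℕ} (hm : Exponents K m) (c : Fin (N + 1) → Fin κ) (P : Pm κ)
    (s' : ℕ → ℝ) (U : Matrix (Fin (N + 1)) (Fin (N + 1)) ℝ) :
    (nmd K m c P s' U).RegD (nmdD K c P s' U) := by
  have hR : (nmd K m c P s' U).Reg := by rw [← sy_nmG]; exact (sy_nmG_ok hm c P s').reg U
  refine ⟨hR, fun e x => ?_, fun e x => (measurable_const : Measurable fun _ : Ix (N + 1) K → ℝ =>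
    nmdD K c P s' U e 0 x), ?_⟩
  · show PD e (fun z => Md.en c P U z x +
      ∑ l ∈ Finset.range (K + 1), (s' l - P.s l) * (z (sco l 0) * spin x 0)) _
    have h1 : PD e (fun z : Ix (N + 1) K → ℝ => Md.en c P U z x +
        ∑ l ∈ Finset.range (K + 1), (s' l - P.s l) * (z (sco l 0) * spin x 0))
        (fun z => enD c P U e z x + ∑ l ∈ Finset.range (K + 1), (s' l - P.s l) *
          ((if sco l 0 = e then (1 : ℝ) else 0) * spin x 0)) := by
      refine PD.add (mdl_pd e x) (PD.sum _ fun l _ => PD.const_mul ?_ _)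
      have h := (PD.coord (e := e) (sco (K := K) l (0 : Fin (N + 1)))).const_mul (spin x 0)
      simpa only [mul_comm] using h
    refine h1.congr fun z => ?_
    obtain ⟨a, b, j⟩ := e
    have ha : (a : ℕ) ∈ Finset.range (K + 1) := Finset.mem_range.2 a.2
    have hs : ∀ l ∈ Finset.range (K + 1),
        (if sco l (0 : Fin (N + 1)) = ((a, b, j) : Ix (N + 1) K) then (1 : ℝ) else 0) =
          if (l = (a : ℕ) ∧ b = true ∧ 0 = j) then 1 else 0 := by
      intro l hl
      rw [Finset.mem_range] at hl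
      exact if_congr (mdl_sco_eq (by omega) 0 _) rfl rfl
    unfold nmdD
    congr 1
    rw [Finset.sum_eq_single_of_mem (a : ℕ) ha]
    · rw [hs _ ha]
      by_cases h : b = true ∧ j = 0
      · rw [if_pos ⟨rfl, h.1, h.2.symm⟩, if_pos h]
        ring
      · rw [if_neg fun h' => h ⟨h'.2.1, h'.2.2.symm⟩, if_neg h]
        ring
    · intro l hl hne
      rw [hs _ hl]
      simp only [hne, false_and, ↓reduceIte, zero_mul, mul_zero]
  · refine ⟨∑ e : Ix (N + 1) K, ∑ x : Fin (N + 1) → Bool, |nmdD K c P s' U e 0 x|,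
      fun e z x => ?_⟩
    have h3 : |nmdD K c P s' U e z x| = |nmdD K c P s' U e 0 x| := rfl
    rw [h3]
    refine (Finset.single_le_sum (f := fun x => |nmdD K c P s' U e 0 x|) (fun _ _ => abs_nonneg _)
      (Finset.mem_univ x)).trans ?_
    exact Finset.single_le_sum (f := fun e => ∑ x : Fin (N + 1) → Bool, |nmdD K c P s' U e 0 x|)
      (fun _ _ => Finset.sum_nonneg fun _ _ => abs_nonneg _) (Finset.mem_univ e)

section Int

/-- A uniform bound of the differences of the energies. -/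
theorem sy_Ex_diff {ι X : Type} [Fintype ι] [DecidableEq ι] [Fintype X] [Nonempty X]
    {A : GS N ι X} (hA : A.Ok) : ∃ C : ℝ, ∀ V ∈ orthogonalGroup (Fin N) ℝ,
      ∀ U ∈ orthogonalGroup (Fin N) ℝ, ∀ W ∈ orthogonalGroup (Fin N) ℝ,
      |(A.sy V).Ex (fun z x => A.en U z x - A.en W z x)| ≤ C := by
  set r := Real.sqrt N with hr
  have hr0 : 0 ≤ r := Real.sqrt_nonneg _
  set a : ℝ := ∑ i, |A.lam i| / 2 * r ^ 2 + ∑ i, ∑ x, |A.kap i x| * r with ha
  refine ⟨2 * (a + ∑ l ∈ Finset.range (A.K + 1), ∑ i, |A.u i l| * ((3 + 4 * (A.u i l ^ 2 * N)) * r)),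
    fun V hV U hU W hW => ?_⟩
  have hG := hA.regG V
  have nz : ∀ l i, Nh fun (z : ι → ℝ) (_ : X) => |z (A.bc l i)| := fun l i _ => (Vale.Agent.P157.Lv.EG.coord _).abs
  have nsq : ∀ l i, Nh fun (z : ι → ℝ) (_ : X) => z (A.bc l i) ^ 2 := fun l i _ =>
    (Vale.Agent.P157.Lv.EG.coord _).pow 2
  have hz : ∀ l ≤ A.K, ∀ i, (A.sy V).Ex (fun z _ => |z (A.bc l i)|) ≤
      3 + 4 * (A.u i l ^ 2 * N) := by
    intro l hl i
    have h1 := hG.Ex_mono (nz l i) (g := fun z _ => 1 + z (A.bc l i) ^ 2)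
      (Sy.Nh.add (fun _ => Vale.Agent.P157.Lv.EG.const 1) (nsq l i)) fun z _ => by
        have := sq_abs (z (A.bc l i))
        nlinarith only [this]
    rw [hG.Ex_add (fun _ => Vale.Agent.P157.Lv.EG.const 1) (nsq l i), hG.Ex_const] at h1
    have h2 := hA.Ex_z_sq_le hV hl i
    linarith only [h1, h2]
  have n1 : Nh fun (z : ι → ℝ) (_ : X) => ∑ l ∈ Finset.range (A.K + 1), ∑ i, |A.u i l| *
      (|z (A.bc l i)| * r) :=
    Sy.Nh.sum _ fun l _ => Sy.Nh.sum _ fun i _ => Sy.Nh.const_mul _ (Sy.Nh.mul (nz l i) (fun _ => Vale.Agent.P157.Lv.EG.const r))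
  have hpt : ∀ U ∈ orthogonalGroup (Fin N) ℝ, ∀ (z : ι → ℝ) x,
      |A.ev (fun l i => z (A.bc l i)) (A.y U x) x| ≤ a +
        ∑ l ∈ Finset.range (A.K + 1), ∑ i, |A.u i l| * (|z (A.bc l i)| * r) := by
    intro U hU z x
    have hy := fun i => hA.abs_y_le hU x i
    unfold GS.ev
    refine (abs_add_le _ _).trans (add_le_add ((abs_add_le _ _).trans (add_le_add ?_ ?_)) ?_)
    · refine (Finset.abs_sum_le_sum_abs _ _).trans (Finset.sum_le_sum fun i _ => ?_)
      rw [abs_mul, abs_div, abs_of_pos (two_pos : (0 : ℝ) < 2), abs_pow]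
      exact mul_le_mul_of_nonneg_left (pow_le_pow_left₀ (abs_nonneg _) (hy i) 2) (by positivity)
    · refine (Finset.abs_sum_le_sum_abs _ _).trans (Finset.sum_le_sum fun i _ => ?_)
      rw [abs_mul]
      refine (mul_le_mul_of_nonneg_left (hy i) (abs_nonneg _)).trans ?_
      exact Finset.single_le_sum (f := fun x => |A.kap i x| * r) (fun x _ => by positivity)
        (Finset.mem_univ x)
    · refine (Finset.abs_sum_le_sum_abs _ _).trans (Finset.sum_le_sum fun l _ => ?_)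
      refine (Finset.abs_sum_le_sum_abs _ _).trans (Finset.sum_le_sum fun i _ => ?_)
      rw [abs_mul, abs_mul]
      exact mul_le_mul_of_nonneg_left (mul_le_mul_of_nonneg_left (hy i) (abs_nonneg _))
        (abs_nonneg _)
  have nen : ∀ U, Nh fun (z : ι → ℝ) (x : X) => A.en U z x := fun U x => (hA.lip_en U x).eg
  have hmain := hG.abs_Ex_le_of (f := fun z x => A.en U z x - A.en W z x)
    (g := fun z _ => 2 * (a + ∑ l ∈ Finset.range (A.K + 1), ∑ i, |A.u i l| *
      (|z (A.bc l i)| * r))) (fun x => (nen U x).sub (nen W x))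
    (Sy.Nh.const_mul _ (Sy.Nh.add (fun _ => Vale.Agent.P157.Lv.EG.const a) n1)) fun z x => by
      have h1 := hpt U hU z x
      have h2 := hpt W hW z x
      have h3 : A.en U z x - A.en W z x = A.ev (fun l i => z (A.bc l i)) (A.y U x) x -
          A.ev (fun l i => z (A.bc l i)) (A.y W x) x := by
        unfold GS.en
        ring
      rw [h3]
      refine (abs_sub _ _).trans ?_
      linarith only [h1, h2]
  refine hmain.trans ?_
  rw [Sy.Ex_const_mul, hG.Ex_add (fun _ => Vale.Agent.P157.Lv.EG.const a) n1, hG.Ex_const]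
  refine mul_le_mul_of_nonneg_left (add_le_add le_rfl ?_) (by norm_num)
  rw [hG.Ex_sum _ fun l _ => Sy.Nh.sum _ fun i _ =>
    Sy.Nh.const_mul _ (Sy.Nh.mul (nz l i) (fun _ => Vale.Agent.P157.Lv.EG.const r))]
  refine Finset.sum_le_sum fun l hl => ?_
  have hl' := Nat.lt_succ_iff.1 (Finset.mem_range.1 hl)
  rw [hG.Ex_sum _ fun i _ => Sy.Nh.const_mul _ (Sy.Nh.mul (nz l i) (fun _ => Vale.Agent.P157.Lv.EG.const r))]
  refine Finset.sum_le_sum fun i _ => ?_
  rw [Sy.Ex_const_mul]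
  refine mul_le_mul_of_nonneg_left ?_ (abs_nonneg _)
  have e : (A.sy V).Ex (fun (z : ι → ℝ) (_ : X) => |z (A.bc l i)| * r) =
      r * (A.sy V).Ex (fun z _ => |z (A.bc l i)|) := by
    rw [← Sy.Ex_const_mul]
    congr 1
    funext z _
    ring
  rw [e, mul_comm]
  exact mul_le_mul_of_nonneg_right (hz l hl' i) hr0

theorem sy_bdd_fe {ι X : Type} [Fintype ι] [DecidableEq ι] [Fintype X] [Nonempty X]
    {A : GS N ι X} (hA : A.Ok) : ∃ C : ℝ, ∀ U ∈ orthogonalGroup (Fin N) ℝ,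
      |(A.sy U).fe| ≤ C := by
  obtain ⟨C, hC⟩ := sy_Ex_diff hA
  refine ⟨C + |(A.sy 1).fe|, fun U hU => ?_⟩
  have h1O : (1 : Matrix (Fin N) (Fin N) ℝ) ∈ orthogonalGroup (Fin N) ℝ := one_mem _
  have hR := hA.reg U
  have hR0 := hA.reg 1
  have j1 := hR0.jensen (H' := A.en U) hR
  have j2 := hR.jensen (H' := A.en 1) hR0
  have f1 : ((A.sy 1).wH (A.en U)).fe = (A.sy U).fe := rfl
  have f2 : ((A.sy U).wH (A.en 1)).fe = (A.sy 1).fe := rfl
  rw [f1] at j1
  rw [f2] at j2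
  have b1 := abs_le.1 (hC 1 h1O U hU 1 h1O)
  have b2 := abs_le.1 (hC U hU 1 h1O U hU)
  have e1 : (A.sy 1).Ex (fun z x => A.en U z x - (A.sy 1).H z x) =
    (A.sy 1).Ex (fun z x => A.en U z x - A.en 1 z x) := rfl
  have e2 : (A.sy U).Ex (fun z x => A.en 1 z x - (A.sy U).H z x) =
    (A.sy U).Ex (fun z x => A.en 1 z x - A.en U z x) := rfl
  rw [e1] at j1
  rw [e2] at j2
  have h3 : |(A.sy U).fe - (A.sy 1).fe| ≤ C := by
    rw [abs_le]
    constructor <;> linarith only [j1, b1.1, j2, b2.1]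
  have h4 := abs_add_le ((A.sy U).fe - (A.sy 1).fe) (A.sy 1).fe
  rw [sub_add_cancel] at h4
  linarith

variable [MeasurableSpace (orthogonalGroup (Fin N) ℝ)] [BorelSpace (orthogonalGroup (Fin N) ℝ)]
  (ν : Measure (orthogonalGroup (Fin N) ℝ)) [IsProbabilityMeasure ν]

omit [IsProbabilityMeasure ν] in
theorem sy_meas_fe {ι X : Type} [Fintype ι] [Fintype X] [Nonempty X]
    {A : GS N ι X} (hA : A.Ok) :
    Measurable fun U : orthogonalGroup (Fin N) ℝ => (A.sy U.1).fe :=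
  meas_fe (S := A.sy 0) (H := fun U : orthogonalGroup (Fin N) ℝ => A.en U.1) hA.men

/-- The free energy of a `GS` is integrable in `U`. -/
theorem int_gs_fe {ι X : Type} [Fintype ι] [DecidableEq ι] [Fintype X] [DecidableEq X] [Nonempty X]
    {A : GS N ι X} (hA : A.Ok) : Integrable (fun U : orthogonalGroup (Fin N) ℝ => (A.sy U.1).fe) ν := by
  obtain ⟨C, hC⟩ := sy_bdd_fe hA
  exact integrable_of_bdd (sy_meas_fe hA) fun U => hC U.1 U.2

/-- The averages of the observables which are bounded and do not depend on `z` are integrable in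
`U`. -/
theorem int_gs_Ex {ι X : Type} [Fintype ι] [DecidableEq ι] [Fintype X] [DecidableEq X] [Nonempty X]
    {A : GS N ι X} (hA : A.Ok) {f : Matrix (Fin N) (Fin N) ℝ → X → ℝ}
    (hf : ∀ x, Measurable fun U : orthogonalGroup (Fin N) ℝ => f U.1 x)
    (hb : ∃ C, ∀ (U : orthogonalGroup (Fin N) ℝ) x, |f U.1 x| ≤ C) :
    Integrable (fun U : orthogonalGroup (Fin N) ℝ => (A.sy U.1).Ex (fun _ x => f U.1 x)) ν := by
  obtain ⟨C, hC⟩ := hb
  refine integrable_of_bdd (C := C) ?_ fun U => ?_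
  · exact hA.mEx (h := fun U _ => f U.1) fun x => (hf x).comp measurable_fst
  · exact (hA.regG U.1).abs_Ex_le_const (Sy.Nh.snd fun x => f U.1 x) fun _ x => hC U x

theorem int_gs_pairEx {ι X : Type} [Fintype ι] [DecidableEq ι] [Fintype X] [DecidableEq X]
    [Nonempty X] {A : GS N ι X} (hA : A.Ok) {l : ℕ} (hl : l ≤ A.K)
    {f : Matrix (Fin N) (Fin N) ℝ → X → X → ℝ}
    (hf : ∀ x x', Measurable fun U : orthogonalGroup (Fin N) ℝ => f U.1 x x')
    (hb : ∃ C, ∀ (U : orthogonalGroup (Fin N) ℝ) x x', |f U.1 x x'| ≤ C) :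
    Integrable (fun U : orthogonalGroup (Fin N) ℝ => (A.sy U.1).pairEx l (f U.1)) ν := by
  obtain ⟨C, hC⟩ := hb
  refine integrable_of_bdd (C := C) ?_ fun U => ?_
  · exact meas_pairEx (S := A.sy 0) (H := fun U : orthogonalGroup (Fin N) ℝ => A.en U.1) hA.men
      (ψ := fun U x x' => f U.1 x x') hf l
  · have hR := hA.reg U.1
    rw [abs_le]
    constructor
    · have h1 := hR.pairEx_mono (l := l) hl (ψ := fun _ _ => -C) (ψ' := f U.1)
        fun x x' => (abs_le.1 (hC U x x')).1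
      rwa [hR.pairEx_const (l := l) hl] at h1
    · have h1 := hR.pairEx_mono (l := l) hl (ψ := f U.1) (ψ' := fun _ _ => C)
        fun x x' => (abs_le.1 (hC U x x')).2
      rwa [hR.pairEx_const (l := l) hl] at h1

end Int

section Int1

variable [MeasurableSpace (orthogonalGroup (Fin (N + 1)) ℝ)]
  [BorelSpace (orthogonalGroup (Fin (N + 1)) ℝ)]
  (ν' : Measure (orthogonalGroup (Fin (N + 1)) ℝ)) [IsProbabilityMeasure ν']

theorem meas_nmd_fe {κ : ℕ} (hm : Exponents K m) (c : Fin (N + 1) → Fin κ) (P : Pm κ)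
    (s' : ℕ → ℝ) :
    Measurable fun U : orthogonalGroup (Fin (N + 1)) ℝ => (nmd K m c P s' U.1).fe := by
  have h := sy_meas_fe (sy_nmG_ok hm c P s')
  simpa only [sy_nmG] using h

theorem bdd_nmd_fe {κ : ℕ} (hm : Exponents K m) (c : Fin (N + 1) → Fin κ) (P : Pm κ)
    (s' : ℕ → ℝ) : ∃ C, ∀ U : orthogonalGroup (Fin (N + 1)) ℝ, |(nmd K m c P s' U.1).fe| ≤ C := by
  obtain ⟨C, hC⟩ := sy_bdd_fe (sy_nmG_ok hm c P s')
  refine ⟨C, fun U => ?_⟩
  have := hC U.1 U.2
  rwa [sy_nmG] at this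

end Int1

end Vale.Agent.P166.L
end
end

section

section

/-!
Uniform stability of the Parisi cascade under truncation.
-/

open MeasureTheory ProbabilityTheory Filter Topology Finset

namespace Vale.Agent.P157.Par

/-! ### Gaussian integrals -/

/-! ### Elementary inequalities -/

/-! ### One step -/

section step

variable {F : ℝ → ℝ} {m v : ℝ}

end step

/-! ### Uniform truncation -/

end Vale.Agent.P157.Par
end
end

section

section

/-!
Sums over one block of patterns: the contribution of the fields.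
-/

open MeasureTheory ProbabilityTheory Filter Topology Matrix
open Vale.Agent.P157.Lv Vale.Agent.P157.Lv.Sy

namespace Vale.Agent.P166.H

open Vale.Agent

set_option linter.unusedSectionVars false

variable {N : ℕ} {ι X : Type} [Fintype ι] [Fintype X] [Nonempty X] {S : Sy ι X}

/-- Cauchy-Schwarz. -/
lemma lin_le (B : Finset (Fin N)) {c a G : Fin N → ℝ} {γ α : ℝ} (hc : ∀ q, |c q| ≤ γ * |a q|)
    (hγ : 0 ≤ γ) (ha : ∑ i, a i ^ 2 ≤ α ^ 2) (hα : 0 ≤ α) (hG : ∑ i, G i ^ 2 ≤ N) :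
    |∑ q ∈ B, c q * G q| ≤ γ * α * Real.sqrt N := by
  have h1 : |∑ q ∈ B, c q * G q| ≤ γ * ∑ q, |a q| * |G q| := by
    refine (Finset.abs_sum_le_sum_abs _ _).trans ?_
    rw [Finset.mul_sum]
    refine (Finset.sum_le_sum fun q _ => ?_).trans (Finset.sum_le_sum_of_subset_of_nonneg
      (Finset.subset_univ B) fun q _ _ => (by positivity : 0 ≤ γ * (|a q| * |G q|)))
    rw [abs_mul, ← mul_assoc]
    exact mul_le_mul_of_nonneg_right (hc q) (abs_nonneg _)
  have h2 := Real.sum_mul_le_sqrt_mul_sqrt Finset.univ (fun i => |a i|) (fun i => |G i|)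
  simp only [sq_abs] at h2
  have h3 : Real.sqrt (∑ i, a i ^ 2) ≤ α := by
    rw [← Real.sqrt_sq hα]; exact Real.sqrt_le_sqrt ha
  have h4 : ∑ q, |a q| * |G q| ≤ α * Real.sqrt N :=
    h2.trans (mul_le_mul h3 (Real.sqrt_le_sqrt hG) (Real.sqrt_nonneg _) hα)
  calc _ ≤ _ := h1
    _ ≤ γ * (α * Real.sqrt N) := mul_le_mul_of_nonneg_left h4 hγ
    _ = _ := by ring

/-- The contribution of the fields, two replicas. -/
theorem field_one (hS : RegG S) {l : ℕ} (hl : l ≤ S.K) {φ : X → Fin N → ℝ}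
    (hφ : ∀ x, ∑ r, φ x r ^ 2 ≤ N) (j : Fin N) (B : Finset (Fin N)) {ε : X → ℝ}
    (hε : ∀ x, |ε x| ≤ 1) {c a : Fin N → ℝ} {γ α : ℝ} (hc : ∀ q, |c q| ≤ γ * |a q|)
    (hγ : 0 ≤ γ) (ha : ∑ i, a i ^ 2 ≤ α ^ 2) (hα : 0 ≤ α) (z : ι → ℝ) (x : X) :
    |∑ p ∈ {j}, ∑ q ∈ B, c q * W S l (fun _ => (fun _ : Fin N => ε) p)
        (fun _ x => φ x q) z x| ≤ 7 * (γ * α * Real.sqrt N) := by
  rw [sum_W S hS hl (fun _ => ε) (fun q x => φ x q) {j} B (fun _ q => c q) z x]
  simp only [Finset.sum_singleton]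
  have hE : 0 ≤ γ * α * Real.sqrt N := by positivity
  have hT : ∀ {i : ℕ}, i ≤ S.K → ∀ z, ∑ r, S.T i (fun _ x => φ x r) z ^ 2 ≤ N := fun hi z =>
    sum_T_sq_le hS hi hφ z
  have tε : ∀ i ≤ S.K, ∀ z, |S.T i (fun _ => ε) z| ≤ 1 := fun i hi z =>
    hS.abs_T_le hi (Nh.snd ε) (fun _ x => hε x) z
  have key : ∀ {s : ℝ} {G : Fin N → ℝ}, |s| ≤ 1 → ∑ i, G i ^ 2 ≤ N →
      |∑ q ∈ B, c q * (s * G q)| ≤ γ * α * Real.sqrt N := by
    intro s G hs hG
    have e : ∑ q ∈ B, c q * (s * G q) = s * ∑ q ∈ B, c q * G q := by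
      rw [Finset.mul_sum]; exact Finset.sum_congr rfl fun q _ => by ring
    rw [e, abs_mul]
    have h := lin_le B hc hγ ha hα hG
    have := mul_le_mul hs h (abs_nonneg _) (by norm_num)
    linarith only [this]
  have t1 := key (s := ε x) (G := fun q => S.T l (fun _ x => φ x q) z) (hε x) (hT hl z)
  have t2 := key (s := S.T l (fun _ => ε) z) (G := fun q => φ x q) (tε l hl z) (hφ x)
  have t3 : |∑ i ∈ Finset.Ico (l + 1) (S.K + 1), S.p i *
        (∑ q ∈ B, c q * (S.T i (fun _ => ε) z * S.T l (fun _ x => φ x q) z) +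
         ∑ q ∈ B, c q * (S.T l (fun _ => ε) z * S.T i (fun _ x => φ x q) z))|
      ≤ 2 * (γ * α * Real.sqrt N) := by
    refine abs_sum_p_le hS (by omega) le_rfl (by positivity) fun i hi => ?_
    have hi' := Nat.lt_succ_iff.1 (Finset.mem_Ico.1 hi).2
    have e1 := key (s := S.T i (fun _ => ε) z) (G := fun q => S.T l (fun _ x => φ x q) z)
      (tε i hi' z) (hT hl z)
    have e2 := key (s := S.T l (fun _ => ε) z) (G := fun q => S.T i (fun _ x => φ x q) z)
      (tε l hl z) (hT hi' z)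
    refine (abs_add_le _ _).trans ?_
    linarith only [e1, e2]
  have t4 : |(S.m l - 2 * S.m (l + 1)) * (∑ q ∈ B, c q *
      (S.T l (fun _ => ε) z * S.T l (fun _ x => φ x q) z))| ≤ 2 * (γ * α * Real.sqrt N) := by
    rw [abs_mul]
    have m1 : 0 ≤ S.m l := by
      have := hS.m_mono (Nat.zero_le l) (by omega : l ≤ S.K + 1)
      rwa [hS.m0] at this
    have m2 := hS.mono l hl
    have m3 := hS.m_le_one (show l + 1 ≤ S.K + 1 by omega)
    have e2 : |S.m l - 2 * S.m (l + 1)| ≤ 2 := by rw [abs_le]; constructor <;> linarith only [m1, m3, m2]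
    exact mul_le_mul e2 (key (s := S.T l (fun _ => ε) z)
      (G := fun q => S.T l (fun _ x => φ x q) z) (tε l hl z) (hT hl z)) (abs_nonneg _)
      (by norm_num)
  have t5 : |∑ i ∈ Finset.range l, S.p i * S.T i (fun z _ => ∑ q ∈ B,
        c q * (S.T l (fun _ => ε) z * S.T l (fun _ x => φ x q) z)) z| ≤
      γ * α * Real.sqrt N := by
    rw [← Nat.Ico_zero_eq_range]
    refine abs_sum_p_le hS (Nat.zero_le _) (by omega) hE fun i hi => ?_
    have hi' := (Finset.mem_Ico.1 hi).2.le.trans hl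
    refine hS.abs_T_le hi' (Nh.sum _ fun q _ => Nh.const_mul _ (Nh.fst
      ((hS.eg_T hl (Nh.snd _)).mul (hS.eg_T hl (Nh.snd _))))) (fun z _ => ?_) z
    exact key (s := S.T l (fun _ => ε) z) (G := fun q => S.T l (fun _ x => φ x q) z)
      (tε l hl z) (hT hl z)
  rw [abs_le] at t1 t2 t3 t4 t5 ⊢
  constructor <;> linarith only [t1.1, t2.1, t3.2, t4.1, t5.2, t1.2, t2.2, t3.1, t4.2, t5.1]

/-- The contribution of the fields, one replica. -/
theorem field_one0 (hS : RegG S) {φ : X → Fin N → ℝ}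
    (hφ : ∀ x, ∑ r, φ x r ^ 2 ≤ N) (B : Finset (Fin N)) {ε : X → ℝ}
    (hε : ∀ x, |ε x| ≤ 1) {c a : Fin N → ℝ} {γ α : ℝ} (hc : ∀ q, |c q| ≤ γ * |a q|)
    (hγ : 0 ≤ γ) (ha : ∑ i, a i ^ 2 ≤ α ^ 2) (hα : 0 ≤ α) (z : ι → ℝ) (x : X) :
    |∑ q ∈ B, c q * W0 S (fun _ x => ε x * φ x q) z x| ≤ 2 * (γ * α * Real.sqrt N) := by
  have hE : 0 ≤ γ * α * Real.sqrt N := by positivity
  have key : ∀ x, |∑ q ∈ B, c q * (ε x * φ x q)| ≤ γ * α * Real.sqrt N := by
    intro x
    have e : ∑ q ∈ B, c q * (ε x * φ x q) = ε x * ∑ q ∈ B, c q * φ x q := by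
      rw [Finset.mul_sum]; exact Finset.sum_congr rfl fun q _ => by ring
    rw [e, abs_mul]
    have h := lin_le B hc hγ ha hα (hφ x)
    have := mul_le_mul (hε x) h (abs_nonneg _) (by norm_num)
    linarith only [this]
  have hW : ∑ q ∈ B, c q * W0 S (fun _ x => ε x * φ x q) z x =
      ∑ q ∈ B, c q * (ε x * φ x q) - ∑ i ∈ Finset.range (S.K + 1), S.p i *
        S.T i (fun _ x => ∑ q ∈ B, c q * (ε x * φ x q)) z := by
    unfold W0
    simp only [mul_sub, Finset.sum_sub_distrib]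
    congr 1
    simp only [Finset.mul_sum]
    rw [Finset.sum_comm]
    refine Finset.sum_congr rfl fun i hi => ?_
    have hi' := Nat.lt_succ_iff.1 (Finset.mem_range.1 hi)
    rw [hS.T_sum hi' B (f := fun q _ x => c q * (ε x * φ x q))
      fun q _ => Nh.snd _, Finset.mul_sum]
    refine Finset.sum_congr rfl fun q _ => ?_
    rw [T_const_mul]
    ring
  have t1 := key x
  have t2 : |∑ i ∈ Finset.range (S.K + 1), S.p i *
        S.T i (fun _ x => ∑ q ∈ B, c q * (ε x * φ x q)) z| ≤ γ * α * Real.sqrt N := by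
    rw [← Nat.Ico_zero_eq_range]
    refine abs_sum_p_le hS (Nat.zero_le _) le_rfl hE fun i hi => ?_
    exact hS.abs_T_le (Nat.lt_succ_iff.1 (Finset.mem_Ico.1 hi).2) (Nh.snd _)
      (fun _ x => key x) z
  rw [hW]
  rw [abs_le] at t1 t2 ⊢
  constructor <;> linarith only [t1.1, t2.2, t1.2, t2.1]

end Vale.Agent.P166.H
end
end

section

section

/-!
The loop equations of one pattern and one block of patterns, for a fixed matrix.
-/

open MeasureTheory ProbabilityTheory Filter Topology Matrix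
open Vale.Agent.P157.Lv Vale.Agent.P157.Lv.Sy

namespace Vale.Agent.P166.H

open Vale.Agent

set_option linter.unusedSectionVars false

variable {N : ℕ} {ι X : Type} [Fintype ι] [Fintype X] [Nonempty X] [DecidableEq ι] [DecidableEq X]

namespace GS

variable {A : GS N ι X}

/-- The entry of level `l` of the product of the hierarchical matrices, for a fixed matrix. -/
noncomputable def mY (A : GS N ι X) (ε : X → ℝ) (j : Fin N) (b ρ : ℝ) (r : ℕ → ℝ) (l : ℕ)
    (U : Matrix (Fin N) (Fin N) ℝ) : ℝ :=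
  ρ * A.Fl ε l (A.YY j b) U + r l * A.Fs ε (A.YY j b) U -
      ∑ i ∈ Finset.Ico (l + 1) (A.K + 1), (A.m (i + 1) - A.m i) *
        (r i * A.Fl ε l (A.YY j b) U + r l * A.Fl ε i (A.YY j b) U) +
      (A.m l - 2 * A.m (l + 1)) * (r l * A.Fl ε l (A.YY j b) U) -
      ∑ i ∈ Finset.range l, (A.m (i + 1) - A.m i) * (r i * A.Fl ε i (A.YY j b) U)

/-- The diagonal entry. -/
noncomputable def mY0 (A : GS N ι X) (ε : X → ℝ) (j : Fin N) (b ρ : ℝ) (r : ℕ → ℝ)
    (U : Matrix (Fin N) (Fin N) ℝ) : ℝ :=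
  ρ * A.Fs ε (A.YY j b) U -
      ∑ i ∈ Finset.range (A.K + 1), (A.m (i + 1) - A.m i) * (r i * A.Fl ε i (A.YY j b) U)

lemma Ok.Dd_le_two (hA : A.Ok) (hN : 0 < N) {U : Matrix (Fin N) (Fin N) ℝ}
    (hU : U ∈ Matrix.orthogonalGroup (Fin N) ℝ) (B : Finset (Fin N)) {r : ℕ → ℝ} {i : ℕ}
    (hi : i ≤ A.K) (hr : |r i| ≤ 1) (z : ι → ℝ) (x : X) :
    Dd (A.sy U) (RR N (A.y U) B) r i z x ≤ 2 := by
  have h := Av_mono (hA.regG U) (i := i) hi
    (ψ := fun x x' => |RR N (A.y U) B x x' - r i|) (ψ' := fun _ _ => 2) (fun x x' => by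
      have h1 := abs_sub (RR N (A.y U) B x x') (r i)
      have h2 := hA.RR_le hN hU B x x'
      linarith) z x
  refine h.trans (le_of_eq ?_)
  exact (hA.regG U).T_const (l := i) hi 2 z

/-- The second test: the average of `Y` against a sum. -/
lemma Ok.Ex_YY (hA : A.Ok) (ε : X → ℝ) (j : Fin N) (b ρ : ℝ) (r : ℕ → ℝ) {l : ℕ} (hl : l ≤ A.K)
    (U : Matrix (Fin N) (Fin N) ℝ) : (A.sy U).Ex (fun z x => A.YY j b U x *
      (ρ * (A.sy U).T l (fun _ => ε) z + r l * ε x -
      ∑ i ∈ Finset.Ico (l + 1) ((A.sy U).K + 1), (A.sy U).p i *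
        (r i * (A.sy U).T l (fun _ => ε) z + r l * (A.sy U).T i (fun _ => ε) z) +
      ((A.sy U).m l - 2 * (A.sy U).m (l + 1)) * (r l * (A.sy U).T l (fun _ => ε) z) -
      ∑ i ∈ Finset.range l, (A.sy U).p i * (r i * (A.sy U).T i (fun _ => ε) z))) =
    A.mY ε j b ρ r l U := by
  have hG := hA.regG U
  have nY : Nh (fun (_ : ι → ℝ) x => A.YY j b U x) := Nh.snd fun x => A.YY j b U x
  have nε : Nh (fun (_ : ι → ℝ) x => ε x) := Nh.snd ε
  have nT : ∀ i ≤ A.K, Nh (X := X) (fun z _ => (A.sy U).T i (fun _ => ε) z) := fun i hi =>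
    Nh.fst (hG.eg_T (l := i) hi (Nh.snd ε))
  have nF : ∀ i ≤ A.K, Nh (fun z x => A.YY j b U x * (A.sy U).T i (fun _ => ε) z) := fun i hi =>
    Nh.mul nY (nT i hi)
  have nS : Nh (fun (_ : ι → ℝ) x => A.YY j b U x * ε x) := Nh.mul nY nε
  have e1 : (fun z x => A.YY j b U x *
      (ρ * (A.sy U).T l (fun _ => ε) z + r l * ε x -
      ∑ i ∈ Finset.Ico (l + 1) ((A.sy U).K + 1), (A.sy U).p i *
        (r i * (A.sy U).T l (fun _ => ε) z + r l * (A.sy U).T i (fun _ => ε) z) +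
      ((A.sy U).m l - 2 * (A.sy U).m (l + 1)) * (r l * (A.sy U).T l (fun _ => ε) z) -
      ∑ i ∈ Finset.range l, (A.sy U).p i * (r i * (A.sy U).T i (fun _ => ε) z))) =
      fun z x => ρ * (A.YY j b U x * (A.sy U).T l (fun _ => ε) z) +
        r l * (A.YY j b U x * ε x) -
      ∑ i ∈ Finset.Ico (l + 1) (A.K + 1), (A.m (i + 1) - A.m i) *
        (r i * (A.YY j b U x * (A.sy U).T l (fun _ => ε) z) +
          r l * (A.YY j b U x * (A.sy U).T i (fun _ => ε) z)) +
      (A.m l - 2 * A.m (l + 1)) * (r l * (A.YY j b U x * (A.sy U).T l (fun _ => ε) z)) -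
      ∑ i ∈ Finset.range l, (A.m (i + 1) - A.m i) *
        (r i * (A.YY j b U x * (A.sy U).T i (fun _ => ε) z)) := by
    funext z x
    have h1 : ∑ i ∈ Finset.Ico (l + 1) (A.K + 1), (A.m (i + 1) - A.m i) *
        (r i * (A.YY j b U x * (A.sy U).T l (fun _ => ε) z) +
          r l * (A.YY j b U x * (A.sy U).T i (fun _ => ε) z)) = A.YY j b U x *
        ∑ i ∈ Finset.Ico (l + 1) ((A.sy U).K + 1), (A.sy U).p i *
        (r i * (A.sy U).T l (fun _ => ε) z + r l * (A.sy U).T i (fun _ => ε) z) := by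
      rw [Finset.mul_sum]
      refine Finset.sum_congr rfl fun i _ => ?_
      have : (A.sy U).p i = A.m (i + 1) - A.m i := rfl
      rw [this]; ring
    have h2 : ∑ i ∈ Finset.range l, (A.m (i + 1) - A.m i) *
        (r i * (A.YY j b U x * (A.sy U).T i (fun _ => ε) z)) = A.YY j b U x *
        ∑ i ∈ Finset.range l, (A.sy U).p i * (r i * (A.sy U).T i (fun _ => ε) z) := by
      rw [Finset.mul_sum]
      refine Finset.sum_congr rfl fun i _ => ?_
      have : (A.sy U).p i = A.m (i + 1) - A.m i := rfl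
      rw [this]; ring
    rw [h1, h2]
    have h3 : (A.sy U).m = A.m := rfl
    rw [h3]
    ring
  have hIco : ∀ i ∈ Finset.Ico (l + 1) (A.K + 1), i ≤ A.K := fun i hi =>
    Nat.lt_succ_iff.1 (Finset.mem_Ico.1 hi).2
  have hrg : ∀ i ∈ Finset.range l, i ≤ A.K := fun i hi => (Finset.mem_range.1 hi).le.trans hl
  have n3 : ∀ i ∈ Finset.Ico (l + 1) (A.K + 1), Nh (fun z x => (A.m (i + 1) - A.m i) *
        (r i * (A.YY j b U x * (A.sy U).T l (fun _ => ε) z) +
          r l * (A.YY j b U x * (A.sy U).T i (fun _ => ε) z))) := fun i hi =>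
    Nh.const_mul _ (Nh.add (Nh.const_mul _ (nF l hl)) (Nh.const_mul _ (nF i (hIco i hi))))
  have n5 : ∀ i ∈ Finset.range l, Nh (fun z x => (A.m (i + 1) - A.m i) *
        (r i * (A.YY j b U x * (A.sy U).T i (fun _ => ε) z))) := fun i hi =>
    Nh.const_mul _ (Nh.const_mul _ (nF i (hrg i hi)))
  have n1 := Nh.const_mul ρ (nF l hl)
  have n2 := Nh.const_mul (r l) nS
  have n4 := Nh.const_mul (A.m l - 2 * A.m (l + 1)) (Nh.const_mul (r l) (nF l hl))
  rw [e1, hG.Ex_sub (Nh.add (Nh.sub (Nh.add n1 n2) (Nh.sum _ n3)) n4) (Nh.sum _ n5),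
    hG.Ex_add (Nh.sub (Nh.add n1 n2) (Nh.sum _ n3)) n4, hG.Ex_sub (Nh.add n1 n2) (Nh.sum _ n3),
    hG.Ex_add n1 n2, hG.Ex_sum _ n3, hG.Ex_sum _ n5, Ex_const_mul, Ex_const_mul, Ex_const_mul,
    Ex_const_mul]
  unfold mY
  refine congrArg₂ (· - ·) (congrArg₂ (· + ·) (congrArg₂ (· - ·) rfl ?_) rfl) ?_
  · refine Finset.sum_congr rfl fun i hi => ?_
    rw [Ex_const_mul, hG.Ex_add (Nh.const_mul _ (nF l hl)) (Nh.const_mul _ (nF i (hIco i hi))),
      Ex_const_mul, Ex_const_mul]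
    rfl
  · refine Finset.sum_congr rfl fun i _ => ?_
    rw [Ex_const_mul, Ex_const_mul]
    rfl

lemma Ok.Ex_YY0 (hA : A.Ok) (ε : X → ℝ) (j : Fin N) (b ρ : ℝ) (r : ℕ → ℝ)
    (U : Matrix (Fin N) (Fin N) ℝ) : (A.sy U).Ex (fun z x => A.YY j b U x *
      (ρ * ε x - ∑ i ∈ Finset.range ((A.sy U).K + 1), (A.sy U).p i *
        (r i * (A.sy U).T i (fun _ => ε) z))) = A.mY0 ε j b ρ r U := by
  have hG := hA.regG U
  have nY : Nh (fun (_ : ι → ℝ) x => A.YY j b U x) := Nh.snd fun x => A.YY j b U x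
  have nε : Nh (fun (_ : ι → ℝ) x => ε x) := Nh.snd ε
  have nT : ∀ i ≤ A.K, Nh (X := X) (fun z _ => (A.sy U).T i (fun _ => ε) z) := fun i hi =>
    Nh.fst (hG.eg_T (l := i) hi (Nh.snd ε))
  have nF : ∀ i ≤ A.K, Nh (fun z x => A.YY j b U x * (A.sy U).T i (fun _ => ε) z) := fun i hi =>
    Nh.mul nY (nT i hi)
  have nS : Nh (fun (_ : ι → ℝ) x => A.YY j b U x * ε x) := Nh.mul nY nε
  have e1 : (fun z x => A.YY j b U x *
      (ρ * ε x - ∑ i ∈ Finset.range ((A.sy U).K + 1), (A.sy U).p i *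
        (r i * (A.sy U).T i (fun _ => ε) z))) = fun z x => ρ * (A.YY j b U x * ε x) -
      ∑ i ∈ Finset.range (A.K + 1), (A.m (i + 1) - A.m i) *
        (r i * (A.YY j b U x * (A.sy U).T i (fun _ => ε) z)) := by
    funext z x
    have h2 : ∑ i ∈ Finset.range (A.K + 1), (A.m (i + 1) - A.m i) *
        (r i * (A.YY j b U x * (A.sy U).T i (fun _ => ε) z)) = A.YY j b U x *
        ∑ i ∈ Finset.range ((A.sy U).K + 1), (A.sy U).p i *
          (r i * (A.sy U).T i (fun _ => ε) z) := by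
      rw [Finset.mul_sum]
      refine Finset.sum_congr rfl fun i _ => ?_
      have : (A.sy U).p i = A.m (i + 1) - A.m i := rfl
      rw [this]; ring
    rw [h2]
    ring
  have hrg : ∀ i ∈ Finset.range (A.K + 1), i ≤ A.K := fun i hi =>
    Nat.lt_succ_iff.1 (Finset.mem_range.1 hi)
  have n5 : ∀ i ∈ Finset.range (A.K + 1), Nh (fun z x => (A.m (i + 1) - A.m i) *
        (r i * (A.YY j b U x * (A.sy U).T i (fun _ => ε) z))) := fun i hi =>
    Nh.const_mul _ (Nh.const_mul _ (nF i (hrg i hi)))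
  rw [e1, hG.Ex_sub (Nh.const_mul ρ nS) (Nh.sum _ n5), hG.Ex_sum _ n5, Ex_const_mul]
  unfold mY0
  refine congrArg₂ (· - ·) rfl ?_
  refine Finset.sum_congr rfl fun i _ => ?_
  rw [Ex_const_mul, Ex_const_mul]
  rfl

lemma abs_three {a s f T e e' : ℝ} (h1 : |s - T| ≤ e) (h2 : |f| ≤ e') :
    |-a + s + f - (T - a)| ≤ e + e' := by
  have e0 : -a + s + f - (T - a) = (s - T) + f := by ring
  rw [e0]
  exact (abs_add_le _ _).trans (add_le_add h1 h2)

/-- **One pattern and one block, two replicas, fixed matrix.** -/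
theorem Ok.fix_pat_pair (hA : A.Ok) (hN : 0 < N) {U : Matrix (Fin N) (Fin N) ℝ}
    (hU : U ∈ Matrix.orthogonalGroup (Fin N) ℝ) {j : Fin N} {B : Finset (Fin N)}
    {b η : ℝ} (hB : A.One j B b η) {l : ℕ} (hl : l ≤ A.K) {ρ : ℝ} {r : ℕ → ℝ} {ε : X → ℝ}
    (hε : ∀ x, |ε x| ≤ 1) (hρ : |ρ| ≤ 1) (hr : ∀ i ≤ A.K, |r i| ≤ 1) {t : ℝ} (ht : 0 < t) :
    |∑ q ∈ B, 1 / N * A.Vf j q l (fun _ => ε) (fun _ _ => 0) (fun U x => A.y U x q)
        (fun U x => rot' j q (A.y U x) q) U -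
      (A.mY ε j b ρ r l U - al N B * A.Fl ε l (fun U x => A.y U x j) U)| ≤
      7 / 2 * (t * A.E2 (A.YY j b) U) + (A.eS B ρ U + 4 * A.eP B r l U +
        2 * ∑ i ∈ Finset.range (A.K + 1), (A.m (i + 1) - A.m i) * A.eP B r i U) / t +
        70 * (A.K + 1) * η * (1 + A.E2 (fun U x => A.y U x j) U) := by
  have hG := hA.regG U
  have hlS : l ≤ (A.sy U).K := hl
  have hφ : ∀ x, ∑ i, A.y U x i ^ 2 ≤ N := fun x => (hA.sum_y hU x).le
  set φ := A.y U with hφd
  set RB := RR N φ B with hRB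
  have nY : Nh (fun (_ : ι → ℝ) x => A.YY j b U x) := Nh.snd fun x => A.YY j b U x
  set Fq : Fin N → (ι → ℝ) → X → ℝ := fun q z x =>
    ((A.sy U).T l (fun _ x => φ x q) z * 0 +
    (A.sy U).T l (fun _ => ε) z * rot' j q (φ x) q) +
    A.lD j q U z x * W (A.sy U) l (fun _ => ε) (fun _ x => φ x q) z x with hF
  have nF : ∀ q, Nh (Fq q) := fun q => Nh.add (Nh.add
    (Nh.mul (Nh.fst (hG.eg_T hlS (Nh.snd _))) (fun _ => EG.const 0))
    (Nh.mul (Nh.fst (hG.eg_T hlS (Nh.snd _))) (Nh.snd fun x => rot' j q (φ x) q)))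
    (Nh.mul (A.nh_lD j q U) (nh_W hG hlS ε fun x => φ x q))
  have e0 : ∑ q ∈ B, 1 / N * A.Vf j q l (fun _ => ε) (fun _ _ => 0) (fun U x => A.y U x q)
        (fun U x => rot' j q (A.y U x) q) U =
      (A.sy U).Ex (fun z x => ∑ q ∈ B, 1 / (N : ℝ) * Fq q z x) := by
    rw [hG.Ex_sum _ fun q _ => Nh.const_mul _ (nF q)]
    refine Finset.sum_congr rfl fun q _ => ?_
    rw [Ex_const_mul]
    rfl
  -- the limit functional
  set L : (ι → ℝ) → X → ℝ := fun z x => ρ * (A.sy U).T l (fun _ => ε) z + r l * ε x -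
      ∑ i ∈ Finset.Ico (l + 1) ((A.sy U).K + 1), (A.sy U).p i *
        (r i * (A.sy U).T l (fun _ => ε) z + r l * (A.sy U).T i (fun _ => ε) z) +
      ((A.sy U).m l - 2 * (A.sy U).m (l + 1)) * (r l * (A.sy U).T l (fun _ => ε) z) -
      ∑ i ∈ Finset.range l, (A.sy U).p i * (r i * (A.sy U).T i (fun _ => ε) z) with hL
  have nTε : ∀ i ≤ A.K, Nh (X := X) (fun z _ => (A.sy U).T i (fun _ => ε) z) := fun i hi =>
    Nh.fst (hG.eg_T (l := i) hi (Nh.snd ε))
  have nL : Nh L := by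
    refine Nh.sub (Nh.add (Nh.sub (Nh.add (Nh.const_mul _ (nTε l hl)) (Nh.const_mul _ (Nh.snd ε)))
      (Nh.sum _ fun i hi => Nh.const_mul _ (Nh.add (Nh.const_mul _ (nTε l hl))
        (Nh.const_mul _ (nTε i (Nat.lt_succ_iff.1 (Finset.mem_Ico.1 hi).2))))))
      (Nh.const_mul _ (Nh.const_mul _ (nTε l hl)))) (Nh.sum _ fun i hi => Nh.const_mul _
        (Nh.const_mul _ (nTε i ((Finset.mem_range.1 hi).le.trans hl))))
  have hmY : (A.sy U).Ex (fun z x => A.YY j b U x * L z x) = A.mY ε j b ρ r l U :=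
    hA.Ex_YY ε j b ρ r hl U
  -- the decomposition
  have e1 : ∀ (z : ι → ℝ) x, ∑ q ∈ B, 1 / (N : ℝ) * Fq q z x =
      -(al N B * (φ x j * (A.sy U).T l (fun _ => ε) z)) +
      A.YY j b U x * ∑ p ∈ {j}, ∑ q ∈ B, (1 / N * φ x q) *
        W (A.sy U) l (fun _ => (fun _ : Fin N => ε) p) (fun _ x => φ x q) z x +
      ∑ q ∈ B, (∑ l ∈ Finset.range (A.K + 1),
        (1 / N * (A.u j l - A.u q l) * (A.y U x j * z (A.bc l q)) +
         1 / N * (A.u j l - A.u q l) * (z (A.bc l j) * A.y U x q))) *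
        W (A.sy U) l (fun _ => ε) (fun _ x => φ x q) z x := by
    intro z x
    have a1 : al N B * (φ x j * (A.sy U).T l (fun _ => ε) z) = ∑ _q ∈ B, 1 / (N : ℝ) *
        (φ x j * (A.sy U).T l (fun _ => ε) z) := by
      rw [Finset.sum_const, nsmul_eq_mul]
      unfold al
      ring
    rw [a1, ← Finset.sum_neg_distrib, Finset.sum_singleton, Finset.mul_sum,
      ← Finset.sum_add_distrib, ← Finset.sum_add_distrib]
    refine Finset.sum_congr rfl fun q hq => ?_
    have hpq := hB.disj q hq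
    have r2 : rot' j q (φ x) q = -φ x j := by simp [rot', hpq.symm]
    have a3 := lD_one A (j := j) (hB.lam q hq) (hB.kap q hq) U z x
    have a4 : 1 / (N : ℝ) * Fq q z x = 1 / (N : ℝ) *
        ((A.sy U).T l (fun _ => ε) z * rot' j q (φ x) q) +
        (1 / (N : ℝ) * A.lD j q U z x) *
          W (A.sy U) l (fun _ => ε) (fun _ x => φ x q) z x := by
      simp only [hF]; ring
    rw [a4, a3, r2]
    ring
  set Fd : (ι → ℝ) → X → ℝ := fun z x => ∑ l ∈ Finset.range (A.K + 1),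
      (2 * 7 * η / Real.sqrt N * (|A.y U x j| * A.zn l z) + 2 * 7 * η * |z (A.bc l j)|) with hFd
  have nFd : Nh Fd := Nh.sum _ fun l _ => Nh.add (Nh.const_mul _ (Nh.mul
    (Nh.snd fun x => |A.y U x j|) (A.nh_zn l))) (Nh.const_mul _ fun _ => (EG.coord _).abs)
  have hp0 : ∀ i ∈ Finset.range (A.K + 1), 0 ≤ (A.sy U).p i := fun i hi =>
    p_nonneg hG (Nat.lt_succ_iff.1 (Finset.mem_range.1 hi))
  have hpsum : ∑ i ∈ Finset.range (A.K + 1), (A.sy U).p i = 1 := by
    have := sum_p (A.sy U) hG.m0 (A.K + 1)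
    rw [this]
    exact hG.mK
  -- the pointwise bound
  have e2 : ∀ (z : ι → ℝ) x, |∑ q ∈ B, 1 / (N : ℝ) * Fq q z x -
      (A.YY j b U x * L z x - al N B * (φ x j * (A.sy U).T l (fun _ => ε) z))| ≤
      7 / 2 * (t * A.YY j b U x ^ 2) + (|RB x x - ρ| + 4 * Dd (A.sy U) RB r l z x +
        2 * ∑ i ∈ Finset.range (A.K + 1), (A.sy U).p i * Dd (A.sy U) RB r i z x) / t +
      Fd z x := by
    intro z x
    rw [e1 z x]
    have b3 := approx_one hG hlS φ j B hε (ρ := ρ) (r := r) z x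
    have b4 := hA.field_pat hU hN hB 7
      (fun q => W (A.sy U) l (fun _ => ε) (fun _ x => φ x q) z x) z x
      (fun {c a γ α} h1 h2 h3 h4 => by
        have := field_one hG hlS hφ j B hε h1 h2 h3 h4 z x
        rwa [Finset.sum_singleton] at this)
    have hR2 : |RB x x - ρ| ≤ 2 := by
      have h1 := abs_sub (RB x x) ρ
      have h2 := hA.RR_le hN hU B x x
      linarith
    have hD2 : ∀ i ≤ A.K, Dd (A.sy U) RB r i z x ≤ 2 := fun i hi =>
      hA.Dd_le_two hN hU B hi (hr i hi) z x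
    have hD0 : ∀ i ≤ A.K, 0 ≤ Dd (A.sy U) RB r i z x := fun i hi =>
      Dd_nonneg hG RB r (i := i) hi z x
    set Yx := A.YY j b U x with hYx
    have c1 := abs_mul_le_t (Y := Yx) (abs_nonneg (RB x x - ρ)) hR2 ht
    have c2 := abs_mul_le_t (Y := Yx) (hD0 l hl) (hD2 l hl) ht
    have c3 : |Yx| * ∑ i ∈ Finset.range (A.K + 1), (A.sy U).p i * Dd (A.sy U) RB r i z x ≤
        1 / 2 * (t * Yx ^ 2) + (∑ i ∈ Finset.range (A.K + 1), (A.sy U).p i *
          Dd (A.sy U) RB r i z x) / t := by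
      have d1 : |Yx| * ∑ i ∈ Finset.range (A.K + 1), (A.sy U).p i * Dd (A.sy U) RB r i z x ≤
          ∑ i ∈ Finset.range (A.K + 1), (A.sy U).p i * (1 / 2 * (t * Yx ^ 2) +
            Dd (A.sy U) RB r i z x / t) := by
        rw [Finset.mul_sum]
        refine Finset.sum_le_sum fun i hi => ?_
        have hi' := Nat.lt_succ_iff.1 (Finset.mem_range.1 hi)
        have := mul_le_mul_of_nonneg_left (abs_mul_le_t (Y := Yx) (hD0 i hi') (hD2 i hi') ht)
          (hp0 i hi)
        linarith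
      refine d1.trans (le_of_eq ?_)
      simp only [mul_add, Finset.sum_add_distrib]
      rw [← Finset.sum_mul, hpsum, one_mul, Finset.sum_div]
      congr 1
      exact Finset.sum_congr rfl fun i _ => by ring
    have c4 : |Yx * ∑ p ∈ {j}, ∑ q ∈ B, (1 / N * φ x q) *
        W (A.sy U) l (fun _ => (fun _ : Fin N => ε) p) (fun _ x => φ x q) z x -
        Yx * L z x| ≤ 7 / 2 * (t * Yx ^ 2) + (|RB x x - ρ| + 4 * Dd (A.sy U) RB r l z x +
        2 * ∑ i ∈ Finset.range (A.K + 1), (A.sy U).p i * Dd (A.sy U) RB r i z x) / t := by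
      rw [← mul_sub, abs_mul]
      have h1 := mul_le_mul_of_nonneg_left b3 (abs_nonneg Yx)
      have hK : (A.sy U).K = A.K := rfl
      rw [hK] at h1
      have h2 : (|RB x x - ρ| + 4 * Dd (A.sy U) RB r l z x +
        2 * ∑ i ∈ Finset.range (A.K + 1), (A.sy U).p i * Dd (A.sy U) RB r i z x) / t =
        |RB x x - ρ| / t + 4 * (Dd (A.sy U) RB r l z x / t) +
        2 * ((∑ i ∈ Finset.range (A.K + 1), (A.sy U).p i * Dd (A.sy U) RB r i z x) / t) := by
        ring
      rw [h2]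
      refine h1.trans ?_
      have h3 : |Yx| * (|RB x x - ρ| + 4 * Dd (A.sy U) RB r l z x +
        2 * ∑ i ∈ Finset.range (A.K + 1), (A.sy U).p i * Dd (A.sy U) RB r i z x) =
        |Yx| * |RB x x - ρ| + 4 * (|Yx| * Dd (A.sy U) RB r l z x) +
        2 * (|Yx| * ∑ i ∈ Finset.range (A.K + 1), (A.sy U).p i * Dd (A.sy U) RB r i z x) := by
        ring
      rw [h3]
      linarith
    exact abs_three c4 b4
  -- the average
  have nG : Nh (fun z x => ∑ q ∈ B, 1 / (N : ℝ) * Fq q z x) :=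
    Nh.sum _ fun q _ => Nh.const_mul _ (nF q)
  have nYL : Nh (fun z x => A.YY j b U x * L z x) := Nh.mul nY nL
  have nyT : Nh (fun z x => φ x j * (A.sy U).T l (fun _ => ε) z) :=
    Nh.mul (Nh.snd fun x => φ x j) (nTε l hl)
  have nTg : Nh (fun z x => A.YY j b U x * L z x -
      al N B * (φ x j * (A.sy U).T l (fun _ => ε) z)) := Nh.sub nYL (Nh.const_mul _ nyT)
  have e3 : (A.sy U).Ex (fun z x => ∑ q ∈ B, 1 / (N : ℝ) * Fq q z x) -
      (A.mY ε j b ρ r l U - al N B * A.Fl ε l (fun U x => A.y U x j) U) =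
      (A.sy U).Ex (fun z x => ∑ q ∈ B, 1 / (N : ℝ) * Fq q z x -
        (A.YY j b U x * L z x - al N B * (φ x j * (A.sy U).T l (fun _ => ε) z))) := by
    rw [hG.Ex_sub nG nTg, hG.Ex_sub nYL (Nh.const_mul _ nyT), hmY, Ex_const_mul]
    rfl
  have nY2 : Nh (fun (_ : ι → ℝ) x => A.YY j b U x ^ 2) := Nh.snd fun x => A.YY j b U x ^ 2
  have nR : Nh (fun (_ : ι → ℝ) x => |RB x x - ρ|) := Nh.snd fun x => |RB x x - ρ|
  have nDl := nh_Dd hG RB r (i := l) hl
  have nS : Nh (fun z x => ∑ i ∈ Finset.range (A.K + 1), (A.sy U).p i *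
      Dd (A.sy U) RB r i z x) := Nh.sum _ fun i hi => Nh.const_mul _
        (nh_Dd hG RB r (i := i) (Nat.lt_succ_iff.1 (Finset.mem_range.1 hi)))
  have nE : Nh (fun z x => |RB x x - ρ| + 4 * Dd (A.sy U) RB r l z x +
        2 * ∑ i ∈ Finset.range (A.K + 1), (A.sy U).p i * Dd (A.sy U) RB r i z x) :=
    Nh.add (Nh.add nR (Nh.const_mul 4 nDl)) (Nh.const_mul 2 nS)
  have n1 := Nh.const_mul (7 / 2) (Nh.const_mul t nY2)
  have n2 : Nh (fun z x => (|RB x x - ρ| + 4 * Dd (A.sy U) RB r l z x +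
        2 * ∑ i ∈ Finset.range (A.K + 1), (A.sy U).p i * Dd (A.sy U) RB r i z x) / t) := by
    have h := Nh.const_mul (1 / t) nE
    refine fun x => ?_
    have e := h x
    have e' : (fun z => 1 / t * (|RB x x - ρ| + 4 * Dd (A.sy U) RB r l z x +
        2 * ∑ i ∈ Finset.range (A.K + 1), (A.sy U).p i * Dd (A.sy U) RB r i z x)) =
        fun z => (|RB x x - ρ| + 4 * Dd (A.sy U) RB r l z x +
        2 * ∑ i ∈ Finset.range (A.K + 1), (A.sy U).p i * Dd (A.sy U) RB r i z x) / t := by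
      funext z; ring
    rwa [e'] at e
  have hbd := hG.abs_Ex_le_of (Nh.sub nG nTg) (Nh.add (Nh.add n1 n2) nFd) e2
  rw [e0, e3]
  refine hbd.trans ?_
  rw [hG.Ex_add (Nh.add n1 n2) nFd, hG.Ex_add n1 n2, Ex_const_mul, Ex_const_mul]
  have x1 : (A.sy U).Ex (fun z x => (|RB x x - ρ| + 4 * Dd (A.sy U) RB r l z x +
        2 * ∑ i ∈ Finset.range (A.K + 1), (A.sy U).p i * Dd (A.sy U) RB r i z x) / t) =
      (A.eS B ρ U + 4 * A.eP B r l U +
        2 * ∑ i ∈ Finset.range (A.K + 1), (A.m (i + 1) - A.m i) * A.eP B r i U) / t := by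
    have e' : (fun z x => (|RB x x - ρ| + 4 * Dd (A.sy U) RB r l z x +
        2 * ∑ i ∈ Finset.range (A.K + 1), (A.sy U).p i * Dd (A.sy U) RB r i z x) / t) =
        fun z x => 1 / t * (|RB x x - ρ| + 4 * Dd (A.sy U) RB r l z x +
        2 * ∑ i ∈ Finset.range (A.K + 1), (A.sy U).p i * Dd (A.sy U) RB r i z x) := by
      funext z x; ring
    rw [e', Ex_const_mul, hG.Ex_add (Nh.add nR (Nh.const_mul 4 nDl)) (Nh.const_mul 2 nS),
      hG.Ex_add nR (Nh.const_mul 4 nDl), Ex_const_mul, Ex_const_mul]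
    have y0 : (A.sy U).Ex (fun z x => ∑ i ∈ Finset.range (A.K + 1), (A.sy U).p i *
        Dd (A.sy U) RB r i z x) = ∑ i ∈ Finset.range (A.K + 1), (A.sy U).Ex (fun z x =>
          (A.sy U).p i * Dd (A.sy U) RB r i z x) :=
      hG.Ex_sum _ fun i hi => Nh.const_mul _
        (nh_Dd hG RB r (i := i) (Nat.lt_succ_iff.1 (Finset.mem_range.1 hi)))
    rw [y0]
    have y1 : (A.sy U).Ex (Dd (A.sy U) RB r l) = A.eP B r l U := hA.Ex_Dd U B r hl
    have y2 : ∑ i ∈ Finset.range (A.K + 1), (A.sy U).Ex (fun z x => (A.sy U).p i *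
        Dd (A.sy U) RB r i z x) = ∑ i ∈ Finset.range (A.K + 1), (A.m (i + 1) - A.m i) *
          A.eP B r i U := by
      refine Finset.sum_congr rfl fun i hi => ?_
      rw [Ex_const_mul]
      have := hA.Ex_Dd U B r (Nat.lt_succ_iff.1 (Finset.mem_range.1 hi))
      exact congrArg (fun t => (A.m (i + 1) - A.m i) * t) this
    have y3 : (A.sy U).Ex (fun (_ : ι → ℝ) x => |RB x x - ρ|) = A.eS B ρ U := rfl
    have y4 : (A.sy U).Ex (fun z x => Dd (A.sy U) RB r l z x) = A.eP B r l U := y1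
    rw [y2, y3, y4]
    ring
  have x2 : (A.sy U).Ex Fd ≤ 70 * (A.K + 1) * η * (1 + A.E2 (fun U x => A.y U x j) U) := by
    have := hA.Ex_field_pat hU hN hB (C := 7) (by norm_num)
    refine this.trans (le_of_eq ?_)
    ring
  have x3 : (A.sy U).Ex (fun (_ : ι → ℝ) x => A.YY j b U x ^ 2) = A.E2 (A.YY j b) U := rfl
  rw [x1, x3]
  linarith

end GS

end Vale.Agent.P166.H
end
end

section

section

/-!
The loop equations of one pattern and one block of patterns: the Haar averages.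
-/

open MeasureTheory ProbabilityTheory Filter Topology Matrix
open Vale.Agent.P157.Lv Vale.Agent.P157.Lv.Sy
open Vale.Agent.P166.Conc (OG)
open Vale.Agent.P166.F (Hm)

namespace Vale.Agent.P166.H

open Vale.Agent

set_option linter.unusedSectionVars false

variable {N : ℕ} [MeasurableSpace (OG N)] [BorelSpace (OG N)]
variable {ι X : Type} [Fintype ι] [Fintype X] [Nonempty X] [DecidableEq ι] [DecidableEq X]

namespace GS

variable {A : GS N ι X}

lemma mm_YY (A : GS N ι X) (j : Fin N) (b : ℝ) : MM N (A.YY j b) := fun x =>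
  ((mm_y A j x).const_mul _).add_const _

lemma Ok.ub_YY (hA : A.Ok) (j : Fin N) (b : ℝ) : UB N (A.YY j b) := by
  refine ⟨|A.lam j - b| * Real.sqrt N + ∑ x, |A.kap j x|, fun U x => ?_⟩
  unfold YY
  refine (abs_add_le _ _).trans (add_le_add ?_ ?_)
  · rw [abs_mul]
    exact mul_le_mul_of_nonneg_left (hA.abs_y_le U.2 x j) (abs_nonneg _)
  · exact Finset.single_le_sum (f := fun x => |A.kap j x|) (fun _ _ => abs_nonneg _)
      (Finset.mem_univ x)

variable (ν : Measure (OG N)) [IsProbabilityMeasure ν]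

lemma Ok.int_Fl (hA : A.Ok) {ε : X → ℝ} (hε : ∀ x, |ε x| ≤ 1) {i : ℕ} (hi : i ≤ A.K)
    {f : Matrix (Fin N) (Fin N) ℝ → X → ℝ} (mf : MM N f) (bf : UB N f) :
    Integrable (fun U : OG N => A.Fl ε i f U.1) ν := by
  obtain ⟨a, ha⟩ := bf
  refine Integrable.of_bound (hA.mEx (h := fun U z x => f U.1 x *
    (A.sy U.1).T i (fun _ => ε) z) fun x => (mf.joint x).mul (hA.mT (h := fun _ _ => ε)
      (fun x => measurable_const) i)).aestronglyMeasurable a (Eventually.of_forall fun U => ?_)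
  have hG := hA.regG U.1
  refine hG.abs_Ex_le_const (Nh.mul (Nh.snd (f U.1)) (Nh.fst (hG.eg_T (l := i) hi (Nh.snd ε))))
    fun z x => ?_
  rw [abs_mul]
  have h1 := hG.abs_T_le (l := i) hi (Nh.snd ε) (fun _ x => hε x) z
  have h2 := ha U x
  have h3 := mul_le_mul h2 h1 (abs_nonneg _) ((abs_nonneg _).trans h2)
  linarith

omit [DecidableEq ι] [DecidableEq X] in
lemma Ok.int_Fs (hA : A.Ok) {ε : X → ℝ} (hε : ∀ x, |ε x| ≤ 1)
    {f : Matrix (Fin N) (Fin N) ℝ → X → ℝ} (mf : MM N f) (bf : UB N f) :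
    Integrable (fun U : OG N => A.Fs ε f U.1) ν := by
  obtain ⟨a, ha⟩ := bf
  refine Integrable.of_bound (hA.mEx (h := fun U _ x => f U.1 x * ε x)
    fun x => (mf.joint x).mul measurable_const).aestronglyMeasurable a
      (Eventually.of_forall fun U => ?_)
  have hG := hA.regG U.1
  refine hG.abs_Ex_le_const (Nh.snd fun x => f U.1 x * ε x) fun z x => ?_
  rw [abs_mul]
  have h2 := ha U x
  have h3 := mul_le_mul h2 (hε x) (abs_nonneg _) ((abs_nonneg _).trans h2)
  linarith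

omit [DecidableEq ι] [DecidableEq X] in
lemma Ok.int_E2 (hA : A.Ok) {f : Matrix (Fin N) (Fin N) ℝ → X → ℝ} (mf : MM N f)
    (bf : UB N f) : Integrable (fun U : OG N => A.E2 f U.1) ν := by
  obtain ⟨a, ha⟩ := bf
  refine Integrable.of_bound (hA.mEx (h := fun U _ x => f U.1 x ^ 2)
    fun x => (mf.joint x).pow_const 2).aestronglyMeasurable (a ^ 2)
      (Eventually.of_forall fun U => ?_)
  have hG := hA.regG U.1
  refine hG.abs_Ex_le_const (Nh.snd fun x => f U.1 x ^ 2) fun z x => ?_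
  have h2 := ha U x
  rw [abs_pow]
  exact pow_le_pow_left₀ (abs_nonneg _) h2 2

/-- The hierarchical matrix of the averages of `f ε`. -/
noncomputable def Phi (A : GS N ι X) (ε : X → ℝ) (f : Matrix (Fin N) (Fin N) ℝ → X → ℝ) :
    Hm where
  d := ∫ U : OG N, A.Fs ε f U.1 ∂ν
  e := fun l => ∫ U : OG N, A.Fl ε l f U.1 ∂ν

lemma Ok.int_mY (hA : A.Ok) {ε : X → ℝ} (hε : ∀ x, |ε x| ≤ 1) (j : Fin N) (b ρ : ℝ) (r : ℕ → ℝ)
    {l : ℕ} (hl : l ≤ A.K) : Integrable (fun U : OG N => A.mY ε j b ρ r l U.1) ν ∧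
    ∫ U : OG N, A.mY ε j b ρ r l U.1 ∂ν =
      (Hm.mul A.K A.m ⟨ρ, r⟩ (Phi ν A ε (A.YY j b))).e l := by
  have mf := mm_YY A j b
  have bf := hA.ub_YY j b
  have iF : ∀ i ≤ A.K, Integrable (fun U : OG N => A.Fl ε i (A.YY j b) U.1) ν := fun i hi =>
    hA.int_Fl ν hε hi mf bf
  have iS := hA.int_Fs ν hε mf bf
  have i1 : Integrable (fun U : OG N => ρ * A.Fl ε l (A.YY j b) U.1) ν := (iF l hl).const_mul _
  have i2 : Integrable (fun U : OG N => r l * A.Fs ε (A.YY j b) U.1) ν := iS.const_mul _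
  have hIco : ∀ i ∈ Finset.Ico (l + 1) (A.K + 1), i ≤ A.K := fun i hi =>
    Nat.lt_succ_iff.1 (Finset.mem_Ico.1 hi).2
  have hrg : ∀ i ∈ Finset.range l, i ≤ A.K := fun i hi => (Finset.mem_range.1 hi).le.trans hl
  have i31 : ∀ i ∈ Finset.Ico (l + 1) (A.K + 1), Integrable (fun U : OG N =>
      r i * A.Fl ε l (A.YY j b) U.1) ν := fun i hi => (iF l hl).const_mul _
  have i32 : ∀ i ∈ Finset.Ico (l + 1) (A.K + 1), Integrable (fun U : OG N =>
      r l * A.Fl ε i (A.YY j b) U.1) ν := fun i hi => (iF i (hIco i hi)).const_mul _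
  have i33 : ∀ i ∈ Finset.Ico (l + 1) (A.K + 1), Integrable (fun U : OG N =>
      (A.m (i + 1) - A.m i) * (r i * A.Fl ε l (A.YY j b) U.1 + r l * A.Fl ε i (A.YY j b) U.1)) ν :=
    fun i hi => ((i31 i hi).add (i32 i hi)).const_mul _
  have i3 : Integrable (fun U : OG N => ∑ i ∈ Finset.Ico (l + 1) (A.K + 1),
      (A.m (i + 1) - A.m i) *
        (r i * A.Fl ε l (A.YY j b) U.1 + r l * A.Fl ε i (A.YY j b) U.1)) ν :=
    integrable_finsetSum _ i33
  have i40 : Integrable (fun U : OG N => r l * A.Fl ε l (A.YY j b) U.1) ν :=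
    (iF l hl).const_mul _
  have i4 : Integrable (fun U : OG N => (A.m l - 2 * A.m (l + 1)) *
      (r l * A.Fl ε l (A.YY j b) U.1)) ν := i40.const_mul _
  have i50 : ∀ i ∈ Finset.range l, Integrable (fun U : OG N =>
      r i * A.Fl ε i (A.YY j b) U.1) ν := fun i hi => (iF i (hrg i hi)).const_mul _
  have i51 : ∀ i ∈ Finset.range l, Integrable (fun U : OG N =>
      (A.m (i + 1) - A.m i) * (r i * A.Fl ε i (A.YY j b) U.1)) ν := fun i hi =>
    (i50 i hi).const_mul _
  have i5 : Integrable (fun U : OG N => ∑ i ∈ Finset.range l,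
      (A.m (i + 1) - A.m i) * (r i * A.Fl ε i (A.YY j b) U.1)) ν := integrable_finsetSum _ i51
  have i12 : Integrable (fun U : OG N => ρ * A.Fl ε l (A.YY j b) U.1 +
      r l * A.Fs ε (A.YY j b) U.1) ν := i1.add i2
  have i123 : Integrable (fun U : OG N => ρ * A.Fl ε l (A.YY j b) U.1 +
      r l * A.Fs ε (A.YY j b) U.1 - ∑ i ∈ Finset.Ico (l + 1) (A.K + 1),
      (A.m (i + 1) - A.m i) *
        (r i * A.Fl ε l (A.YY j b) U.1 + r l * A.Fl ε i (A.YY j b) U.1)) ν := i12.sub i3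
  have i1234 : Integrable (fun U : OG N => ρ * A.Fl ε l (A.YY j b) U.1 +
      r l * A.Fs ε (A.YY j b) U.1 - ∑ i ∈ Finset.Ico (l + 1) (A.K + 1),
      (A.m (i + 1) - A.m i) *
        (r i * A.Fl ε l (A.YY j b) U.1 + r l * A.Fl ε i (A.YY j b) U.1) +
      (A.m l - 2 * A.m (l + 1)) * (r l * A.Fl ε l (A.YY j b) U.1)) ν := i123.add i4
  refine ⟨i1234.sub i5, ?_⟩
  unfold mY
  rw [integral_sub i1234 i5, integral_add i123 i4, integral_sub i12 i3, integral_add i1 i2,
    integral_finsetSum _ i33, integral_finsetSum _ i51, integral_const_mul, integral_const_mul,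
    integral_const_mul, integral_const_mul]
  have e3 : ∑ i ∈ Finset.Ico (l + 1) (A.K + 1), ∫ U : OG N, (A.m (i + 1) - A.m i) *
      (r i * A.Fl ε l (A.YY j b) U.1 + r l * A.Fl ε i (A.YY j b) U.1) ∂ν =
      ∑ i ∈ Finset.Ico (l + 1) (A.K + 1), (A.m (i + 1) - A.m i) *
      (r i * (Phi ν A ε (A.YY j b)).e l + r l * (Phi ν A ε (A.YY j b)).e i) := by
    refine Finset.sum_congr rfl fun i hi => ?_
    rw [integral_const_mul, integral_add (i31 i hi) (i32 i hi), integral_const_mul,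
      integral_const_mul]
    rfl
  have e5 : ∑ i ∈ Finset.range l, ∫ U : OG N, (A.m (i + 1) - A.m i) *
      (r i * A.Fl ε i (A.YY j b) U.1) ∂ν =
      ∑ i ∈ Finset.range l, (A.m (i + 1) - A.m i) *
      (r i * (Phi ν A ε (A.YY j b)).e i) := by
    refine Finset.sum_congr rfl fun i hi => ?_
    rw [integral_const_mul, integral_const_mul]
    rfl
  rw [e3, e5]
  have h : ∀ (a b c d x y z : ℝ), a + b - c + (x - 2 * y) * z - d =
      a + b - (2 * y - x) * z - c - d := fun a b c d x y z => by ring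
  exact h _ _ _ _ _ _ _

lemma Ok.int_mY0 (hA : A.Ok) {ε : X → ℝ} (hε : ∀ x, |ε x| ≤ 1) (j : Fin N) (b ρ : ℝ)
    (r : ℕ → ℝ) : Integrable (fun U : OG N => A.mY0 ε j b ρ r U.1) ν ∧
    ∫ U : OG N, A.mY0 ε j b ρ r U.1 ∂ν =
      (Hm.mul A.K A.m ⟨ρ, r⟩ (Phi ν A ε (A.YY j b))).d := by
  have mf := mm_YY A j b
  have bf := hA.ub_YY j b
  have iF : ∀ i ≤ A.K, Integrable (fun U : OG N => A.Fl ε i (A.YY j b) U.1) ν := fun i hi =>
    hA.int_Fl ν hε hi mf bf
  have iS := hA.int_Fs ν hε mf bf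
  have i1 : Integrable (fun U : OG N => ρ * A.Fs ε (A.YY j b) U.1) ν := iS.const_mul _
  have hrg : ∀ i ∈ Finset.range (A.K + 1), i ≤ A.K := fun i hi =>
    Nat.lt_succ_iff.1 (Finset.mem_range.1 hi)
  have i50 : ∀ i ∈ Finset.range (A.K + 1), Integrable (fun U : OG N =>
      r i * A.Fl ε i (A.YY j b) U.1) ν := fun i hi => (iF i (hrg i hi)).const_mul _
  have i51 : ∀ i ∈ Finset.range (A.K + 1), Integrable (fun U : OG N =>
      (A.m (i + 1) - A.m i) * (r i * A.Fl ε i (A.YY j b) U.1)) ν := fun i hi =>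
    (i50 i hi).const_mul _
  have i5 : Integrable (fun U : OG N => ∑ i ∈ Finset.range (A.K + 1),
      (A.m (i + 1) - A.m i) * (r i * A.Fl ε i (A.YY j b) U.1)) ν := integrable_finsetSum _ i51
  refine ⟨i1.sub i5, ?_⟩
  unfold mY0
  rw [integral_sub i1 i5, integral_finsetSum _ i51, integral_const_mul]
  have e5 : ∑ i ∈ Finset.range (A.K + 1), ∫ U : OG N, (A.m (i + 1) - A.m i) *
      (r i * A.Fl ε i (A.YY j b) U.1) ∂ν =
      ∑ i ∈ Finset.range (A.K + 1), (A.m (i + 1) - A.m i) *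
      (r i * (Phi ν A ε (A.YY j b)).e i) := by
    refine Finset.sum_congr rfl fun i hi => ?_
    rw [integral_const_mul, integral_const_mul]
    rfl
  rw [e5]
  rfl

end GS

end Vale.Agent.P166.H
end
end

section

section

/-! SP2: derivative in the parameter of a family of log-weights. -/

open MeasureTheory ProbabilityTheory Filter Topology Set

namespace Vale.Agent.P157.Par

/-! ### exponential bounds -/

/-! ### the derivative in the parameter -/

/-! ### families -/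

section SP2

variable {a b : ℝ} {u u1 u2 us : ℝ → ℝ → ℝ}

end SP2

end Vale.Agent.P157.Par
end
end

section

section

/-!
The loop equations of one pattern and one block of patterns: one replica, fixed matrix.
-/

open MeasureTheory ProbabilityTheory Filter Topology Matrix
open Vale.Agent.P157.Lv Vale.Agent.P157.Lv.Sy

namespace Vale.Agent.P166.H

open Vale.Agent

set_option linter.unusedSectionVars false

variable {N : ℕ} {ι X : Type} [Fintype ι] [Fintype X] [Nonempty X] [DecidableEq ι] [DecidableEq X]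

namespace GS

variable {A : GS N ι X}

/-- **One pattern and one block, one replica, fixed matrix.** -/
theorem Ok.fix_pat_one (hA : A.Ok) (hN : 0 < N) {U : Matrix (Fin N) (Fin N) ℝ}
    (hU : U ∈ Matrix.orthogonalGroup (Fin N) ℝ) {j : Fin N} {B : Finset (Fin N)}
    {b η : ℝ} (hB : A.One j B b η) {ρ : ℝ} {r : ℕ → ℝ} {ε : X → ℝ}
    (hε : ∀ x, |ε x| ≤ 1) (hρ : |ρ| ≤ 1) (hr : ∀ i ≤ A.K, |r i| ≤ 1) {t : ℝ} (ht : 0 < t) :
    |∑ q ∈ B, 1 / N * A.V1 j q (fun U x => ε x * A.y U x q)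
        (fun U x => ε x * rot' j q (A.y U x) q) U -
      (A.mY0 ε j b ρ r U - al N B * A.Fs ε (fun U x => A.y U x j) U)| ≤
      t * A.E2 (A.YY j b) U + (A.eS B ρ U +
        ∑ i ∈ Finset.range (A.K + 1), (A.m (i + 1) - A.m i) * A.eP B r i U) / t +
        20 * (A.K + 1) * η * (1 + A.E2 (fun U x => A.y U x j) U) := by
  have hG := hA.regG U
  have hφ : ∀ x, ∑ i, A.y U x i ^ 2 ≤ N := fun x => (hA.sum_y hU x).le
  set φ := A.y U with hφd
  set RB := RR N φ B with hRB
  have nY : Nh (fun (_ : ι → ℝ) x => A.YY j b U x) := Nh.snd fun x => A.YY j b U x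
  set Fq : Fin N → (ι → ℝ) → X → ℝ := fun q z x =>
    ε x * rot' j q (φ x) q + A.lD j q U z x * W0 (A.sy U) (fun _ x => ε x * φ x q) z x with hF
  have nF : ∀ q, Nh (Fq q) := fun q => Nh.add (Nh.snd fun x => ε x * rot' j q (φ x) q)
    (Nh.mul (A.nh_lD j q U) (nh_W0 hG fun x => ε x * φ x q))
  have e0 : ∑ q ∈ B, 1 / N * A.V1 j q (fun U x => ε x * A.y U x q)
        (fun U x => ε x * rot' j q (A.y U x) q) U =
      (A.sy U).Ex (fun z x => ∑ q ∈ B, 1 / (N : ℝ) * Fq q z x) := by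
    rw [hG.Ex_sum _ fun q _ => Nh.const_mul _ (nF q)]
    refine Finset.sum_congr rfl fun q _ => ?_
    rw [Ex_const_mul]
    rfl
  set L : (ι → ℝ) → X → ℝ := fun z x => ρ * ε x -
      ∑ i ∈ Finset.range ((A.sy U).K + 1), (A.sy U).p i *
        (r i * (A.sy U).T i (fun _ => ε) z) with hL
  have nTε : ∀ i ≤ A.K, Nh (X := X) (fun z _ => (A.sy U).T i (fun _ => ε) z) := fun i hi =>
    Nh.fst (hG.eg_T (l := i) hi (Nh.snd ε))
  have nL : Nh L := by
    refine Nh.sub (Nh.const_mul _ (Nh.snd ε)) (Nh.sum _ fun i hi => Nh.const_mul _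
        (Nh.const_mul _ (nTε i (Nat.lt_succ_iff.1 (Finset.mem_range.1 hi)))))
  have hmY : (A.sy U).Ex (fun z x => A.YY j b U x * L z x) = A.mY0 ε j b ρ r U :=
    hA.Ex_YY0 ε j b ρ r U
  -- the decomposition
  have e1 : ∀ (z : ι → ℝ) x, ∑ q ∈ B, 1 / (N : ℝ) * Fq q z x =
      -(al N B * (φ x j * ε x)) +
      A.YY j b U x * ∑ q ∈ B, (1 / N * φ x q) * W0 (A.sy U) (fun _ x => ε x * φ x q) z x +
      ∑ q ∈ B, (∑ l ∈ Finset.range (A.K + 1),
        (1 / N * (A.u j l - A.u q l) * (A.y U x j * z (A.bc l q)) +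
         1 / N * (A.u j l - A.u q l) * (z (A.bc l j) * A.y U x q))) *
        W0 (A.sy U) (fun _ x => ε x * φ x q) z x := by
    intro z x
    have a1 : al N B * (φ x j * ε x) = ∑ _q ∈ B, 1 / (N : ℝ) * (φ x j * ε x) := by
      rw [Finset.sum_const, nsmul_eq_mul]
      unfold al
      ring
    rw [a1, ← Finset.sum_neg_distrib, Finset.mul_sum,
      ← Finset.sum_add_distrib, ← Finset.sum_add_distrib]
    refine Finset.sum_congr rfl fun q hq => ?_
    have hpq := hB.disj q hq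
    have r2 : rot' j q (φ x) q = -φ x j := by simp [rot', hpq.symm]
    have a3 := lD_one A (j := j) (hB.lam q hq) (hB.kap q hq) U z x
    have a4 : 1 / (N : ℝ) * Fq q z x = 1 / (N : ℝ) * (ε x * rot' j q (φ x) q) +
        (1 / (N : ℝ) * A.lD j q U z x) * W0 (A.sy U) (fun _ x => ε x * φ x q) z x := by
      simp only [hF]; ring
    rw [a4, a3, r2]
    ring
  set Fd : (ι → ℝ) → X → ℝ := fun z x => ∑ l ∈ Finset.range (A.K + 1),
      (2 * 2 * η / Real.sqrt N * (|A.y U x j| * A.zn l z) + 2 * 2 * η * |z (A.bc l j)|) with hFd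
  have nFd : Nh Fd := Nh.sum _ fun l _ => Nh.add (Nh.const_mul _ (Nh.mul
    (Nh.snd fun x => |A.y U x j|) (A.nh_zn l))) (Nh.const_mul _ fun _ => (EG.coord _).abs)
  have hp0 : ∀ i ∈ Finset.range (A.K + 1), 0 ≤ (A.sy U).p i := fun i hi =>
    p_nonneg hG (Nat.lt_succ_iff.1 (Finset.mem_range.1 hi))
  have hpsum : ∑ i ∈ Finset.range (A.K + 1), (A.sy U).p i = 1 := by
    have := sum_p (A.sy U) hG.m0 (A.K + 1)
    rw [this]
    exact hG.mK
  -- the pointwise bound
  have e2 : ∀ (z : ι → ℝ) x, |∑ q ∈ B, 1 / (N : ℝ) * Fq q z x -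
      (A.YY j b U x * L z x - al N B * (φ x j * ε x))| ≤
      (t * A.YY j b U x ^ 2) + (|RB x x - ρ| +
        ∑ i ∈ Finset.range (A.K + 1), (A.sy U).p i * Dd (A.sy U) RB r i z x) / t +
      Fd z x := by
    intro z x
    rw [e1 z x]
    have b3 := approx_one0 hG φ B hε (ρ := ρ) (r := r) z x
    have b4 := hA.field_pat hU hN hB 2
      (fun q => W0 (A.sy U) (fun _ x => ε x * φ x q) z x) z x
      (fun {c a γ α} h1 h2 h3 h4 => field_one0 hG hφ B hε h1 h2 h3 h4 z x)
    have hR2 : |RB x x - ρ| ≤ 2 := by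
      have h1 := abs_sub (RB x x) ρ
      have h2 := hA.RR_le hN hU B x x
      linarith only [hρ, h1, h2]
    have hD2 : ∀ i ≤ A.K, Dd (A.sy U) RB r i z x ≤ 2 := fun i hi =>
      hA.Dd_le_two hN hU B hi (hr i hi) z x
    have hD0 : ∀ i ≤ A.K, 0 ≤ Dd (A.sy U) RB r i z x := fun i hi =>
      Dd_nonneg hG RB r (i := i) hi z x
    set Yx := A.YY j b U x with hYx
    have c1 := abs_mul_le_t (Y := Yx) (abs_nonneg (RB x x - ρ)) hR2 ht
    have c3 : |Yx| * ∑ i ∈ Finset.range (A.K + 1), (A.sy U).p i * Dd (A.sy U) RB r i z x ≤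
        1 / 2 * (t * Yx ^ 2) + (∑ i ∈ Finset.range (A.K + 1), (A.sy U).p i *
          Dd (A.sy U) RB r i z x) / t := by
      have d1 : |Yx| * ∑ i ∈ Finset.range (A.K + 1), (A.sy U).p i * Dd (A.sy U) RB r i z x ≤
          ∑ i ∈ Finset.range (A.K + 1), (A.sy U).p i * (1 / 2 * (t * Yx ^ 2) +
            Dd (A.sy U) RB r i z x / t) := by
        rw [Finset.mul_sum]
        refine Finset.sum_le_sum fun i hi => ?_
        have hi' := Nat.lt_succ_iff.1 (Finset.mem_range.1 hi)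
        have := mul_le_mul_of_nonneg_left (abs_mul_le_t (Y := Yx) (hD0 i hi') (hD2 i hi') ht)
          (hp0 i hi)
        linarith only [this]
      refine d1.trans (le_of_eq ?_)
      simp only [mul_add, Finset.sum_add_distrib]
      rw [← Finset.sum_mul, hpsum, one_mul, Finset.sum_div]
      congr 1
      exact Finset.sum_congr rfl fun i _ => by ring
    have c4 : |Yx * ∑ q ∈ B, (1 / N * φ x q) *
        W0 (A.sy U) (fun _ x => ε x * φ x q) z x -
        Yx * L z x| ≤ (t * Yx ^ 2) + (|RB x x - ρ| +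
        ∑ i ∈ Finset.range (A.K + 1), (A.sy U).p i * Dd (A.sy U) RB r i z x) / t := by
      rw [← mul_sub, abs_mul]
      have h1 := mul_le_mul_of_nonneg_left b3 (abs_nonneg Yx)
      have hK : (A.sy U).K = A.K := rfl
      rw [hK] at h1
      have h2 : (|RB x x - ρ| +
        ∑ i ∈ Finset.range (A.K + 1), (A.sy U).p i * Dd (A.sy U) RB r i z x) / t =
        |RB x x - ρ| / t +
        ((∑ i ∈ Finset.range (A.K + 1), (A.sy U).p i * Dd (A.sy U) RB r i z x) / t) := by
        ring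
      rw [h2]
      refine h1.trans ?_
      have h3 : |Yx| * (|RB x x - ρ| +
        ∑ i ∈ Finset.range (A.K + 1), (A.sy U).p i * Dd (A.sy U) RB r i z x) =
        |Yx| * |RB x x - ρ| +
        (|Yx| * ∑ i ∈ Finset.range (A.K + 1), (A.sy U).p i * Dd (A.sy U) RB r i z x) := by
        ring
      rw [h3]
      linarith only [c1, c3]
    exact abs_three c4 b4
  -- the average
  have nG : Nh (fun z x => ∑ q ∈ B, 1 / (N : ℝ) * Fq q z x) :=
    Nh.sum _ fun q _ => Nh.const_mul _ (nF q)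
  have nYL : Nh (fun z x => A.YY j b U x * L z x) := Nh.mul nY nL
  have nyT : Nh (fun (_ : ι → ℝ) x => φ x j * ε x) := Nh.snd fun x => φ x j * ε x
  have nTg : Nh (fun z x => A.YY j b U x * L z x -
      al N B * (φ x j * ε x)) := Nh.sub nYL (Nh.const_mul _ nyT)
  have e3 : (A.sy U).Ex (fun z x => ∑ q ∈ B, 1 / (N : ℝ) * Fq q z x) -
      (A.mY0 ε j b ρ r U - al N B * A.Fs ε (fun U x => A.y U x j) U) =
      (A.sy U).Ex (fun z x => ∑ q ∈ B, 1 / (N : ℝ) * Fq q z x -
        (A.YY j b U x * L z x - al N B * (φ x j * ε x))) := by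
    rw [hG.Ex_sub nG nTg, hG.Ex_sub nYL (Nh.const_mul _ nyT), hmY, Ex_const_mul]
    rfl
  have nY2 : Nh (fun (_ : ι → ℝ) x => A.YY j b U x ^ 2) := Nh.snd fun x => A.YY j b U x ^ 2
  have nR : Nh (fun (_ : ι → ℝ) x => |RB x x - ρ|) := Nh.snd fun x => |RB x x - ρ|
  have nS : Nh (fun z x => ∑ i ∈ Finset.range (A.K + 1), (A.sy U).p i *
      Dd (A.sy U) RB r i z x) := Nh.sum _ fun i hi => Nh.const_mul _
        (nh_Dd hG RB r (i := i) (Nat.lt_succ_iff.1 (Finset.mem_range.1 hi)))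
  have nE : Nh (fun z x => |RB x x - ρ| +
        ∑ i ∈ Finset.range (A.K + 1), (A.sy U).p i * Dd (A.sy U) RB r i z x) :=
    Nh.add nR nS
  have n1 := Nh.const_mul t nY2
  have n2 : Nh (fun z x => (|RB x x - ρ| +
        ∑ i ∈ Finset.range (A.K + 1), (A.sy U).p i * Dd (A.sy U) RB r i z x) / t) := by
    have h := Nh.const_mul (1 / t) nE
    refine fun x => ?_
    have e := h x
    have e' : (fun z => 1 / t * (|RB x x - ρ| +
        ∑ i ∈ Finset.range (A.K + 1), (A.sy U).p i * Dd (A.sy U) RB r i z x)) =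
        fun z => (|RB x x - ρ| +
        ∑ i ∈ Finset.range (A.K + 1), (A.sy U).p i * Dd (A.sy U) RB r i z x) / t := by
      funext z; ring
    rwa [e'] at e
  have hbd := hG.abs_Ex_le_of (Nh.sub nG nTg) (Nh.add (Nh.add n1 n2) nFd) e2
  rw [e0, e3]
  refine hbd.trans ?_
  rw [hG.Ex_add (Nh.add n1 n2) nFd, hG.Ex_add n1 n2, Ex_const_mul]
  have x1 : (A.sy U).Ex (fun z x => (|RB x x - ρ| +
        ∑ i ∈ Finset.range (A.K + 1), (A.sy U).p i * Dd (A.sy U) RB r i z x) / t) =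
      (A.eS B ρ U +
        ∑ i ∈ Finset.range (A.K + 1), (A.m (i + 1) - A.m i) * A.eP B r i U) / t := by
    have e' : (fun z x => (|RB x x - ρ| +
        ∑ i ∈ Finset.range (A.K + 1), (A.sy U).p i * Dd (A.sy U) RB r i z x) / t) =
        fun z x => 1 / t * (|RB x x - ρ| +
        ∑ i ∈ Finset.range (A.K + 1), (A.sy U).p i * Dd (A.sy U) RB r i z x) := by
      funext z x; ring
    rw [e', Ex_const_mul, hG.Ex_add nR nS]
    have y0 : (A.sy U).Ex (fun z x => ∑ i ∈ Finset.range (A.K + 1), (A.sy U).p i *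
        Dd (A.sy U) RB r i z x) = ∑ i ∈ Finset.range (A.K + 1), (A.sy U).Ex (fun z x =>
          (A.sy U).p i * Dd (A.sy U) RB r i z x) :=
      hG.Ex_sum _ fun i hi => Nh.const_mul _
        (nh_Dd hG RB r (i := i) (Nat.lt_succ_iff.1 (Finset.mem_range.1 hi)))
    rw [y0]
    have y2 : ∑ i ∈ Finset.range (A.K + 1), (A.sy U).Ex (fun z x => (A.sy U).p i *
        Dd (A.sy U) RB r i z x) = ∑ i ∈ Finset.range (A.K + 1), (A.m (i + 1) - A.m i) *
          A.eP B r i U := by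
      refine Finset.sum_congr rfl fun i hi => ?_
      rw [Ex_const_mul]
      have := hA.Ex_Dd U B r (Nat.lt_succ_iff.1 (Finset.mem_range.1 hi))
      exact congrArg (fun t => (A.m (i + 1) - A.m i) * t) this
    have y3 : (A.sy U).Ex (fun (_ : ι → ℝ) x => |RB x x - ρ|) = A.eS B ρ U := rfl
    rw [y2, y3]
    ring
  have x2 : (A.sy U).Ex Fd ≤ 20 * (A.K + 1) * η * (1 + A.E2 (fun U x => A.y U x j) U) := by
    have := hA.Ex_field_pat hU hN hB (C := 2) (by norm_num)
    refine this.trans (le_of_eq ?_)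
    ring
  have x3 : (A.sy U).Ex (fun (_ : ι → ℝ) x => A.YY j b U x ^ 2) = A.E2 (A.YY j b) U := rfl
  rw [x1, x3]
  linarith only [x2]

end GS

end Vale.Agent.P166.H
end
end

section

section

/-!
The variance bound, half A (helper879): second moment of the local field and the two-sided Jensen
inequality.
-/

open MeasureTheory ProbabilityTheory Filter Topology Matrix
open Vale.Agent.P157.Lv Vale.Agent.P157.Lv.Sy
open Vale.Agent.P166.Conc (OG rfl' rflG)

namespace Vale.Agent.P166.H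

open Vale.Agent

set_option linter.unusedSectionVars false

variable {N : ℕ} {ι X : Type} [Fintype ι] [Fintype X] [Nonempty X] [DecidableEq ι]

/-- Cauchy-Schwarz for the weights of the levels. -/
lemma v2_sum_sq {S : Sy ι X} (hG : RegG S) {l : ℕ} (hl : l ≤ S.K) (a : ℕ → ℝ) :
    (∑ j ∈ Finset.Ico l (S.K + 1), S.p j * a j) ^ 2 ≤
      ∑ j ∈ Finset.Ico l (S.K + 1), S.p j * a j ^ 2 := by
  have hp : ∀ j ∈ Finset.Ico l (S.K + 1), 0 ≤ S.p j := fun j hj =>
    p_nonneg hG (Nat.lt_succ_iff.1 (Finset.mem_Ico.1 hj).2)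
  have hcs := Finset.sum_mul_sq_le_sq_mul_sq (Finset.Ico l (S.K + 1))
    (fun j => Real.sqrt (S.p j)) (fun j => Real.sqrt (S.p j) * a j)
  have s1 : ∑ j ∈ Finset.Ico l (S.K + 1), Real.sqrt (S.p j) * (Real.sqrt (S.p j) * a j) =
      ∑ j ∈ Finset.Ico l (S.K + 1), S.p j * a j :=
    Finset.sum_congr rfl fun j hj => by rw [← mul_assoc, Real.mul_self_sqrt (hp j hj)]
  have s2 : ∑ j ∈ Finset.Ico l (S.K + 1), Real.sqrt (S.p j) ^ 2 ≤ 1 := by
    rw [Finset.sum_congr rfl fun j hj => Real.sq_sqrt (hp j hj)]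
    exact sum_p_le hG (by omega) le_rfl
  have s3 : ∑ j ∈ Finset.Ico l (S.K + 1), (Real.sqrt (S.p j) * a j) ^ 2 =
      ∑ j ∈ Finset.Ico l (S.K + 1), S.p j * a j ^ 2 :=
    Finset.sum_congr rfl fun j hj => by rw [mul_pow, Real.sq_sqrt (hp j hj)]
  have s4 : 0 ≤ ∑ j ∈ Finset.Ico l (S.K + 1), S.p j * a j ^ 2 :=
    Finset.sum_nonneg fun j hj => mul_nonneg (hp j hj) (sq_nonneg _)
  rw [s1, s3] at hcs
  calc _ ≤ _ := hcs
    _ ≤ 1 * _ := mul_le_mul_of_nonneg_right s2 s4
    _ = _ := one_mul _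

namespace GS

variable {A : GS N ι X} {b : ℝ}

/-- The local field has exponential growth. -/
lemma Ok.nh_gv (hA : A.Ok) (U : Matrix (Fin N) (Fin N) ℝ) (i : Fin N) :
    Nh fun z x => A.gv U z x i := by
  intro x
  unfold gv lc mulVec dotProduct
  exact EG.sum _ fun j _ => EG.const_mul _ ((EG.const _).add ((EG.const _).add
    (EG.sum _ fun l _ => (EG.coord _).const_mul _)))

/-- The fields of the pattern `i`. -/
noncomputable def v2Z (A : GS N ι X) (i : Fin N) (z : ι → ℝ) : ℝ :=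
  ∑ l ∈ Finset.range (A.K + 1), A.u i l * z (A.bc l i)

lemma v2_eg (A : GS N ι X) (i : Fin N) : EG (A.v2Z i) :=
  EG.sum _ fun l _ => (EG.coord _).const_mul _

/-- The second moment of the fields of one pattern. -/
lemma Ok.v2_Z_sq (hA : A.Ok) (hb : A.Bd b) (U : Matrix (Fin N) (Fin N) ℝ) (i : Fin N) :
    (A.sy U).Ex (fun z _ => A.v2Z i z ^ 2) ≤
      4 / 3 * (b + 4 * b ^ 2 * (A.sy U).Ex (fun _ x => A.y U x i ^ 2)) := by
  have hG := hA.regG U
  have b1 := hb.one
  have b0 : 0 < b := by linarith only [b1]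
  have nZ : Nh (X := X) fun z _ => A.v2Z i z := fun _ => A.v2_eg i
  have nZ2 : Nh (X := X) fun z _ => A.v2Z i z ^ 2 := Nh.pow nZ 2
  have ny : Nh (ι := ι) fun _ x => A.y U x i := Nh.snd _
  have ny2 : Nh (ι := ι) fun _ x => A.y U x i ^ 2 := Nh.pow ny 2
  obtain ⟨q, hq⟩ : ∃ q, q = (A.sy U).Ex (fun z _ => A.v2Z i z ^ 2) := ⟨_, rfl⟩
  obtain ⟨e, he⟩ : ∃ e, e = (A.sy U).Ex (fun _ x => A.y U x i ^ 2) := ⟨_, rfl⟩
  have q0 : 0 ≤ q := by rw [hq]; exact hG.Ex_nonneg nZ2 fun z x => sq_nonneg _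
  have e0 : 0 ≤ e := by rw [he]; exact hG.Ex_nonneg ny2 fun z x => sq_nonneg _
  have nT : ∀ j ≤ A.K, Nh (X := X) fun z _ => (A.sy U).T j (fun _ x => A.y U x i) z :=
    fun j hj => Nh.fst (hG.eg_T hj ny)
  -- the centered coordinate
  obtain ⟨t, ht⟩ : ∃ t : ℕ → (ι → ℝ) → X → ℝ, t = fun l z x => A.y U x i -
    ∑ j ∈ Finset.Ico l (A.K + 1), (A.sy U).p j * (A.sy U).T j (fun _ x => A.y U x i) z := ⟨_, rfl⟩
  have nt : ∀ l, Nh (t l) := fun l => by
    rw [ht]
    exact Nh.sub ny (Nh.sum _ fun j hj => Nh.const_mul _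
      (nT j (Nat.lt_succ_iff.1 (Finset.mem_Ico.1 hj).2)))
  -- integration by parts
  have h1 : ∀ l ≤ A.K, (A.sy U).Ex (fun z _ => z (A.bc l i) * A.v2Z i z) =
      A.u i l * (1 + (A.sy U).Ex (fun z x => A.v2Z i z * t l z x)) := by
    intro l hl
    have hd : ∀ x : X, PD (A.bc l i) (fun z => (fun (z : ι → ℝ) (_ : X) => A.v2Z i z) z x)
        (fun z => (fun (_ : ι → ℝ) (_ : X) => A.u i l) z x) := by
      intro x
      have h2 := PD.sum (e := A.bc l i) (Finset.range (A.K + 1)) (fun l' _ =>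
        (PD.coord (e := A.bc l i) (A.bc l' i)).const_mul (A.u i l'))
      refine h2.congr fun y => ?_
      rw [Finset.sum_eq_single l]
      · simp
      · intro l' hl' hne
        have : A.bc l' i ≠ A.bc l i := fun h =>
          hne (hA.bcinj l' (Nat.lt_succ_iff.1 (Finset.mem_range.1 hl')) l hl i i h).1
        simp [this]
      · intro h
        exact absurd (Finset.mem_range.2 (Nat.lt_succ_iff.2 hl)) h
    have h := (hA.regE U hl i).ibp hd nZ (fun _ => EG.const _)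
    have e1 : (A.sy U).lev (A.bc l i) = l := hA.bclev l hl i
    rw [e1] at h
    have e2 : (fun (z : ι → ℝ) (x : X) => A.u i l + A.v2Z i z * (A.u i l * A.y U x i -
        ∑ j ∈ Finset.Ico l ((A.sy U).K + 1), (A.sy U).p j *
          (A.sy U).T j (fun _ x => A.u i l * A.y U x i) z)) =
        fun z x => A.u i l * (1 + A.v2Z i z * t l z x) := by
      funext z x
      have e3 : ∑ j ∈ Finset.Ico l ((A.sy U).K + 1), (A.sy U).p j *
          (A.sy U).T j (fun _ x => A.u i l * A.y U x i) z = A.u i l *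
          ∑ j ∈ Finset.Ico l (A.K + 1), (A.sy U).p j *
            (A.sy U).T j (fun _ x => A.y U x i) z := by
        rw [Finset.mul_sum]
        refine Finset.sum_congr rfl fun j _ => ?_
        rw [T_const_mul]
        ring
      rw [e3]
      simp only [ht]
      ring
    rw [e2, Ex_const_mul, hG.Ex_add (fun _ => EG.const _) (Nh.mul nZ (nt l)), hG.Ex_const] at h
    exact h
  -- the bound of the correction
  have h2 : ∀ l ≤ A.K, (A.sy U).Ex (fun z x => A.v2Z i z * t l z x) ≤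
      q / (4 * b) + 4 * b * e := by
    intro l hl
    have hpt : ∀ (z : ι → ℝ) (x : X), A.v2Z i z * t l z x ≤ 1 / (4 * b) * A.v2Z i z ^ 2 +
        (2 * b * A.y U x i ^ 2 + 2 * b * ∑ j ∈ Finset.Ico l (A.K + 1), (A.sy U).p j *
          (A.sy U).T j (fun _ x => A.y U x i) z ^ 2) := by
      intro z x
      have c1 : A.v2Z i z * t l z x ≤ 1 / (4 * b) * A.v2Z i z ^ 2 + b * t l z x ^ 2 := by
        have h3 : 1 / (4 * b) * A.v2Z i z ^ 2 + b * t l z x ^ 2 - A.v2Z i z * t l z x =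
            (A.v2Z i z - 2 * b * t l z x) ^ 2 / (4 * b) := by
          field_simp
          ring
        have h4 : 0 ≤ (A.v2Z i z - 2 * b * t l z x) ^ 2 / (4 * b) := by (clear * - b1; positivity)
        linarith only [h3, h4]
      have c2 := v2_sum_sq hG (l := l) hl (fun j => (A.sy U).T j (fun _ x => A.y U x i) z)
      have c3 : t l z x ^ 2 ≤ 2 * A.y U x i ^ 2 + 2 * ∑ j ∈ Finset.Ico l (A.K + 1),
          (A.sy U).p j * (A.sy U).T j (fun _ x => A.y U x i) z ^ 2 := by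
        have c2' : (∑ j ∈ Finset.Ico l (A.K + 1), (A.sy U).p j *
            (A.sy U).T j (fun _ x => A.y U x i) z) ^ 2 ≤ ∑ j ∈ Finset.Ico l (A.K + 1),
            (A.sy U).p j * (A.sy U).T j (fun _ x => A.y U x i) z ^ 2 := c2
        simp only [ht]
        nlinarith only [c2', sq_nonneg (A.y U x i + ∑ j ∈ Finset.Ico l (A.K + 1), (A.sy U).p j *           (A.sy U).T j (fun _ x => A.y U x i) z)]
      have c4 := mul_le_mul_of_nonneg_left c3 b0.le
      (clear * - c1 c4; linarith)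
    have nS : ∀ j ∈ Finset.Ico l (A.K + 1), Nh (X := X) fun z _ => (A.sy U).p j *
        (A.sy U).T j (fun _ x => A.y U x i) z ^ 2 := fun j hj =>
      Nh.const_mul _ (Nh.pow (nT j (Nat.lt_succ_iff.1 (Finset.mem_Ico.1 hj).2)) 2)
    have nS' := Nh.sum _ nS
    have hle := hG.Ex_mono (Nh.mul nZ (nt l)) (Nh.add (Nh.const_mul (1 / (4 * b)) nZ2)
      (Nh.add (Nh.const_mul (2 * b) ny2) (Nh.const_mul (2 * b) nS'))) hpt
    rw [hG.Ex_add (Nh.const_mul (1 / (4 * b)) nZ2)
      (Nh.add (Nh.const_mul (2 * b) ny2) (Nh.const_mul (2 * b) nS')),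
      hG.Ex_add (Nh.const_mul (2 * b) ny2) (Nh.const_mul (2 * b) nS'), Ex_const_mul,
      Ex_const_mul, Ex_const_mul, hG.Ex_sum _ nS, ← hq, ← he] at hle
    have hT : ∀ j ∈ Finset.Ico l (A.K + 1), (A.sy U).Ex (fun z _ => (A.sy U).p j *
        (A.sy U).T j (fun _ x => A.y U x i) z ^ 2) ≤ (A.sy U).p j * e := by
      intro j hj
      have hj' := Nat.lt_succ_iff.1 (Finset.mem_Ico.1 hj).2
      rw [Ex_const_mul]
      refine mul_le_mul_of_nonneg_left ?_ (p_nonneg hG hj')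
      have h3 := hG.Ex_mono (Nh.pow (nT j hj') 2) (Nh.fst (X := X) (hG.eg_T hj' ny2))
        fun z _ => hG.sq_T_le hj' ny z
      rw [hG.Ex_T hj' ny2] at h3
      rw [he]
      exact h3
    have hS := Finset.sum_le_sum hT
    rw [← Finset.sum_mul] at hS
    have hp1 := sum_p_le hG (a := l) (b := A.K + 1) (by omega) le_rfl
    have h5 : (∑ j ∈ Finset.Ico l (A.K + 1), (A.sy U).p j) * e ≤ 1 * e :=
      mul_le_mul_of_nonneg_right hp1 e0
    have h6 := mul_le_mul_of_nonneg_left (hS.trans h5) (by linarith only [b1] : (0 : ℝ) ≤ 2 * b)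
    have h7 : 1 / (4 * b) * q = q / (4 * b) := by ring
    linarith only [hle, h6, h7]
  -- the sum over the levels
  have h3 : q = ∑ l ∈ Finset.range (A.K + 1), A.u i l ^ 2 *
      (1 + (A.sy U).Ex (fun z x => A.v2Z i z * t l z x)) := by
    have e1 : (fun (z : ι → ℝ) (_ : X) => A.v2Z i z ^ 2) = fun z x =>
        ∑ l ∈ Finset.range (A.K + 1), (fun l (z : ι → ℝ) (_ : X) =>
          A.u i l * (z (A.bc l i) * A.v2Z i z)) l z x := by
      funext z x
      rw [sq]
      nth_rewrite 1 [v2Z]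
      rw [Finset.sum_mul]
      exact Finset.sum_congr rfl fun l _ => by ring
    rw [hq, e1, hG.Ex_sum _ fun l _ => Nh.const_mul _
      (Nh.mul (Nh.fst (X := X) (EG.coord (A.bc l i))) nZ)]
    refine Finset.sum_congr rfl fun l hl => ?_
    rw [Ex_const_mul, h1 l (Nat.lt_succ_iff.1 (Finset.mem_range.1 hl))]
    ring
  have h4 : q ≤ b * (1 + (q / (4 * b) + 4 * b * e)) := by
    have h5 : ∀ l ∈ Finset.range (A.K + 1), A.u i l ^ 2 *
        (1 + (A.sy U).Ex (fun z x => A.v2Z i z * t l z x)) ≤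
        A.u i l ^ 2 * (1 + (q / (4 * b) + 4 * b * e)) := fun l hl =>
      mul_le_mul_of_nonneg_left (by
        have := h2 l (Nat.lt_succ_iff.1 (Finset.mem_range.1 hl))
        linarith) (sq_nonneg _)
    have h6 := Finset.sum_le_sum h5
    rw [← h3, ← Finset.sum_mul] at h6
    exact h6.trans (mul_le_mul_of_nonneg_right (hb.u i) (by (clear * - q0 b1 e0; positivity)))
  have h5 : b * (1 + (q / (4 * b) + 4 * b * e)) = b + q / 4 + 4 * b ^ 2 * e := by
    field_simp
    ring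
  rw [h5] at h4
  rw [← hq, ← he]
  linarith only [h4]

/-- The second moment of the local field: `|g|² = ∑_i (lam_i y_i + kap_i + Z_i)²`,
`3/4 Ex Z_i² ≤ b + 4 b² Ex y_i²` by integration by parts (`regE.ibp` with `h = Z_i`). -/
theorem Ok.Ex_gv (hA : A.Ok) (hb : A.Bd b) (U : OG N) :
    (A.sy U.1).Ex (fun z x => ∑ i, A.gv U.1 z x i ^ 2) ≤ 26 * b ^ 2 * N := by
  have hG := hA.regG U.1
  have b1 := hb.one
  have hN0 : (0 : ℝ) ≤ N := Nat.cast_nonneg N
  have nZ2 : ∀ i : Fin N, Nh (X := X) fun z _ => A.v2Z i z ^ 2 := fun i =>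
    Nh.pow (fun _ => A.v2_eg i) 2
  have ny2 : ∀ i : Fin N, Nh (ι := ι) fun _ x => A.y U.1 x i ^ 2 := fun i => Nh.snd _
  have nS : Nh (X := X) fun z _ => ∑ i, A.v2Z i z ^ 2 := Nh.sum _ fun i _ => nZ2 i
  have hpt : ∀ (z : ι → ℝ) (x : X), ∑ i, A.gv U.1 z x i ^ 2 ≤
      (3 * b ^ 2 * N + 3 * (b * N)) + 3 * ∑ i, A.v2Z i z ^ 2 := by
    intro z x
    have e1 : ∑ i, A.gv U.1 z x i ^ 2 = ∑ i, (A.lam i * A.y U.1 x i + A.lc z x i) ^ 2 := by
      have h := Conc.OG.dot U⁻¹ (fun i => A.lam i * A.y U.1 x i + A.lc z x i)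
        (fun i => A.lam i * A.y U.1 x i + A.lc z x i)
      rw [Conc.OG.coe_inv] at h
      have h2 : ∑ i, A.gv U.1 z x i ^ 2 = (A.gv U.1 z x) ⬝ᵥ (A.gv U.1 z x) := by
        unfold dotProduct
        exact Finset.sum_congr rfl fun i _ => sq _
      rw [h2]
      unfold gv
      rw [h]
      unfold dotProduct
      exact Finset.sum_congr rfl fun i _ => (sq _).symm
    rw [e1]
    have h3 : ∀ i, (A.lam i * A.y U.1 x i + A.lc z x i) ^ 2 ≤
        3 * b ^ 2 * A.y U.1 x i ^ 2 + 3 * A.kap i x ^ 2 + 3 * A.v2Z i z ^ 2 := by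
      intro i
      have c1 : A.lc z x i = A.kap i x + A.v2Z i z := rfl
      have c2 : A.lam i ^ 2 ≤ b ^ 2 := by
        rw [← sq_abs]
        exact pow_le_pow_left₀ (abs_nonneg _) (hb.lam i) 2
      have c3 : (A.lam i * A.y U.1 x i) ^ 2 ≤ b ^ 2 * A.y U.1 x i ^ 2 := by
        rw [mul_pow]
        exact mul_le_mul_of_nonneg_right c2 (sq_nonneg _)
      rw [c1]
      nlinarith only [c3, sq_nonneg (A.lam i * A.y U.1 x i - A.v2Z i z), sq_nonneg (A.kap i x - A.v2Z i z)]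
    refine (Finset.sum_le_sum fun i _ => h3 i).trans ?_
    rw [Finset.sum_add_distrib, Finset.sum_add_distrib, ← Finset.mul_sum, ← Finset.mul_sum,
      ← Finset.mul_sum, hA.sum_y U.2 x]
    have h4 := hb.kap x
    linarith
  have hle := hG.Ex_mono (Nh.sum _ fun i _ => Nh.pow (hA.nh_gv U.1 i) 2)
    (Nh.add (fun _ => EG.const _) (Nh.const_mul 3 nS)) hpt
  rw [hG.Ex_add (fun _ => EG.const _) (Nh.const_mul 3 nS), hG.Ex_const, Ex_const_mul,
    hG.Ex_sum _ fun i _ => nZ2 i] at hle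
  have h5 : ∑ i, (A.sy U.1).Ex (fun z _ => A.v2Z i z ^ 2) ≤
      ∑ i, 4 / 3 * (b + 4 * b ^ 2 * (A.sy U.1).Ex (fun _ x => A.y U.1 x i ^ 2)) :=
    Finset.sum_le_sum fun i _ => hA.v2_Z_sq hb U.1 i
  have h6 : ∑ i, (A.sy U.1).Ex (fun _ x => A.y U.1 x i ^ 2) = N := by
    rw [← hG.Ex_sum _ fun i _ => ny2 i]
    have e2 : (fun (_ : ι → ℝ) (x : X) => ∑ i, A.y U.1 x i ^ 2) = fun _ _ => (N : ℝ) := by
      funext _ x
      exact hA.sum_y U.2 x
    rw [e2, hG.Ex_const]
  rw [← Finset.mul_sum, Finset.sum_add_distrib, ← Finset.mul_sum, h6] at h5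
  simp only [Finset.sum_const, Finset.card_univ, Fintype.card_fin, nsmul_eq_mul] at h5
  have h7 : b * N ≤ b ^ 2 * N := by
    refine mul_le_mul_of_nonneg_right ?_ hN0
    nlinarith only [b1]
  linarith

lemma v2_cs {n : ℕ} (v w : Fin n → ℝ) : (v ⬝ᵥ w) ^ 2 ≤ (v ⬝ᵥ v) * (w ⬝ᵥ w) := by
  have h := Finset.sum_mul_sq_le_sq_mul_sq Finset.univ v w
  simpa only [dotProduct, sq, ge_iff_le] using h

lemma v2_dot_nonneg {n : ℕ} (v : Fin n → ℝ) : 0 ≤ v ⬝ᵥ v :=
  Finset.sum_nonneg fun i _ => mul_self_nonneg _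

/-- Uniform bound for the change of the energy (from `dX_eq` and Cauchy-Schwarz). -/
theorem Ok.dX_sq_le (hA : A.Ok) (hb : A.Bd b) (U : OG N) (w : Fin N → ℝ) (z : ι → ℝ) (x : X) :
    A.dX U.1 w z x ^ 2 ≤ 8 * N * ∑ i, A.gv U.1 z x i ^ 2 + 8 * b ^ 2 * N ^ 2 := by
  have b1 := hb.one
  have hN0 : (0 : ℝ) ≤ N := Nat.cast_nonneg N
  rw [dX_eq]
  have hg : ∑ i, A.gv U.1 z x i ^ 2 = (A.gv U.1 z x) ⬝ᵥ (A.gv U.1 z x) := by
    unfold dotProduct
    exact Finset.sum_congr rfl fun i _ => sq _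
  have hs : A.sg x ⬝ᵥ A.sg x = N := by
    rw [← hA.norm x]
    unfold dotProduct
    exact Finset.sum_congr rfl fun i _ => (sq _).symm
  rw [hg]
  obtain ⟨g, hg'⟩ : ∃ g, g = A.gv U.1 z x := ⟨_, rfl⟩
  obtain ⟨s, hs'⟩ : ∃ s, s = A.sg x := ⟨_, rfl⟩
  obtain ⟨j, hj'⟩ : ∃ j, j = w ⬝ᵥ (Conc.JU A.lam U *ᵥ w) := ⟨_, rfl⟩
  rw [← hg', ← hs', ← hj']
  rw [← hs'] at hs
  have hj : |j| ≤ b * (w ⬝ᵥ w) := by
    rw [hj']
    exact (Conc.JU_nice (by linarith only [b1]) hb.lam U).form w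
  have hw0 := v2_dot_nonneg w
  have hg0 := v2_dot_nonneg g
  have k1 : (2 / (w ⬝ᵥ w) * (w ⬝ᵥ s) * (w ⬝ᵥ g)) ^ 2 ≤ 4 * N * (g ⬝ᵥ g) := by
    rcases hw0.eq_or_lt with h | h
    · rw [← h]
      simp only [div_zero, zero_mul, ne_eq, OfNat.ofNat_ne_zero, not_false_eq_true, zero_pow]
      (clear * - hg0; positivity)
    · have c1 := v2_cs w s
      have c2 := v2_cs w g
      rw [hs] at c1
      have c3 : (w ⬝ᵥ s) ^ 2 * (w ⬝ᵥ g) ^ 2 ≤ (w ⬝ᵥ w) * N * ((w ⬝ᵥ w) * (g ⬝ᵥ g)) :=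
        mul_le_mul c1 c2 (sq_nonneg _) (by (clear * - h; positivity))
      have c4 : (2 / (w ⬝ᵥ w) * (w ⬝ᵥ s) * (w ⬝ᵥ g)) ^ 2 =
          4 * ((w ⬝ᵥ s) ^ 2 * (w ⬝ᵥ g) ^ 2) / (w ⬝ᵥ w) ^ 2 := by
        field_simp
        ring
      rw [c4, div_le_iff₀ (by (clear * - h; positivity))]
      nlinarith only [c3]
  have k2 : |(2 / (w ⬝ᵥ w) * (w ⬝ᵥ s)) ^ 2 / 2 * j| ≤ 2 * b * N := by
    rcases hw0.eq_or_lt with h | h
    · rw [← h]
      simp only [div_zero, zero_mul, ne_eq, OfNat.ofNat_ne_zero, not_false_eq_true, zero_pow, zero_div, abs_zero]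
      (clear * - b1; positivity)
    · have c1 := v2_cs w s
      rw [hs] at c1
      have c2 : (2 / (w ⬝ᵥ w) * (w ⬝ᵥ s)) ^ 2 / 2 ≤ 2 * N / (w ⬝ᵥ w) := by
        have c4 : (2 / (w ⬝ᵥ w) * (w ⬝ᵥ s)) ^ 2 / 2 = 2 * (w ⬝ᵥ s) ^ 2 / (w ⬝ᵥ w) ^ 2 := by
          field_simp
        rw [c4, div_le_div_iff₀ (by (clear * - h; positivity)) h]
        nlinarith only [hw0, c1]
      rw [abs_mul, abs_of_nonneg (by (clear * -; positivity))]
      calc (2 / (w ⬝ᵥ w) * (w ⬝ᵥ s)) ^ 2 / 2 * |j|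
          ≤ 2 * N / (w ⬝ᵥ w) * (b * (w ⬝ᵥ w)) :=
            mul_le_mul c2 hj (abs_nonneg _) (by (clear * - h; positivity))
        _ = 2 * b * N := by (clear * - h b1; field_simp)
  have k3 : ((2 / (w ⬝ᵥ w) * (w ⬝ᵥ s)) ^ 2 / 2 * j) ^ 2 ≤ (2 * b * N) ^ 2 := by
    rw [← sq_abs]
    exact pow_le_pow_left₀ (abs_nonneg _) k2 2
  have k4 : ∀ a c : ℝ, (-a + c) ^ 2 ≤ 2 * a ^ 2 + 2 * c ^ 2 := fun a c => by
    nlinarith only [sq_nonneg (a + c)]
  have k5 := k4 (2 / (w ⬝ᵥ w) * (w ⬝ᵥ s) * (w ⬝ᵥ g)) ((2 / (w ⬝ᵥ w) * (w ⬝ᵥ s)) ^ 2 / 2 * j)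
  rw [neg_mul]
  refine k5.trans ?_
  linarith only [k1, k3]

lemma Ok.v2_nh_en (hA : A.Ok) (U : Matrix (Fin N) (Fin N) ℝ) : Nh (A.en U) :=
  fun x => (hA.lip_en U x).eg

lemma Ok.v2_nh_dX (hA : A.Ok) (U : Matrix (Fin N) (Fin N) ℝ) (w : Fin N → ℝ) :
    Nh (A.dX U w) := Nh.sub (hA.v2_nh_en _) (hA.v2_nh_en _)

/-- Jensen. -/
lemma Ok.v2_jensen (hA : A.Ok) (U V : Matrix (Fin N) (Fin N) ℝ) :
    (A.sy U).Ex (fun z x => A.en V z x - A.en U z x) ≤ (A.sy V).fe - (A.sy U).fe :=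
  (hA.reg U).jensen (H' := A.en V) (hA.reg V)

lemma Ok.v2_sq (hA : A.Ok) (U : Matrix (Fin N) (Fin N) ℝ) (w : Fin N → ℝ) :
    (A.sy U).Ex (A.dX U w) ^ 2 ≤ A.Qv U w := by
  have hG := hA.regG U
  have h := hG.Ex_cs (hA.v2_nh_dX U w) (g := fun _ _ => 1) (Nh.snd fun _ => 1)
  simp only [mul_one, one_pow, hG.Ex_const] at h
  exact h

/-- Jensen both ways. -/
theorem Ok.jensen_sq (hA : A.Ok) (U : OG N) (w : Fin N → ℝ) :
    ((A.sy (U * rflG w : OG N).1).fe - (A.sy U.1).fe) ^ 2 ≤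
      A.Qv U.1 w + A.Qv (U * rflG w : OG N).1 w := by
  have e1 : (U * rflG w : OG N).1 = U.1 * rfl' w := rfl
  have e2 : (U.1 * rfl' w) * rfl' w = U.1 := by
    rw [mul_assoc, Conc.rfl'_mul_self, mul_one]
  rw [e1]
  have h1 := hA.v2_jensen U.1 (U.1 * rfl' w)
  have h2 := hA.v2_jensen (U.1 * rfl' w) U.1
  have h3 := hA.v2_sq U.1 w
  have h4 := hA.v2_sq (U.1 * rfl' w) w
  have e3 : A.dX (U.1 * rfl' w) w = fun z x => A.en U.1 z x - A.en (U.1 * rfl' w) z x := by
    funext z x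
    unfold dX
    rw [e2]
  rw [e3] at h4
  have e4 : A.dX U.1 w = fun z x => A.en (U.1 * rfl' w) z x - A.en U.1 z x := rfl
  rw [e4] at h3
  obtain ⟨a, ha⟩ : ∃ a, a = (A.sy (U.1 * rfl' w)).fe - (A.sy U.1).fe := ⟨_, rfl⟩
  rw [← ha] at h1 ⊢
  have h2' : (A.sy (U.1 * rfl' w)).Ex (fun z x => A.en U.1 z x - A.en (U.1 * rfl' w) z x) ≤
      -a := by rw [ha]; linarith
  rcases le_total 0 a with h | h
  · nlinarith only [h3, h4, h2, ha, h]
  · nlinarith only [h3, h4, h1, h]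

theorem Ok.Qv_nonneg (hA : A.Ok) (U : Matrix (Fin N) (Fin N) ℝ) (w : Fin N → ℝ) :
    0 ≤ A.Qv U w :=
  (hA.regG U).Ex_nonneg (Nh.pow (hA.v2_nh_dX U w) 2) fun z x => sq_nonneg _

/-- Uniform bound: `Qv ≤ 8 N (26 b² N) + 8 b² N²`. -/
theorem Ok.Qv_bd (hA : A.Ok) (hb : A.Bd b) (U : OG N) (w : Fin N → ℝ) :
    |A.Qv U.1 w| ≤ 216 * b ^ 2 * N ^ 2 := by
  have hG := hA.regG U.1
  have hN0 : (0 : ℝ) ≤ N := Nat.cast_nonneg N
  rw [abs_of_nonneg (hA.Qv_nonneg U.1 w)]
  have nS : Nh fun z x => ∑ i, A.gv U.1 z x i ^ 2 :=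
    Nh.sum _ fun i _ => Nh.pow (hA.nh_gv U.1 i) 2
  have h1 : A.Qv U.1 w ≤ (A.sy U.1).Ex fun z x =>
      8 * N * ∑ i, A.gv U.1 z x i ^ 2 + 8 * b ^ 2 * N ^ 2 :=
    hG.Ex_mono (Nh.pow (hA.v2_nh_dX U.1 w) 2) (Nh.add (Nh.const_mul _ nS)
      (fun _ => EG.const _)) fun z x => hA.dX_sq_le hb U w z x
  rw [hG.Ex_add (Nh.const_mul _ nS) (fun _ => EG.const _), hG.Ex_const, Ex_const_mul] at h1
  have h2 := mul_le_mul_of_nonneg_left (hA.Ex_gv hb U) (by (clear * -; positivity) : (0 : ℝ) ≤ 8 * N)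
  refine h1.trans ?_
  linarith only [h2]

variable [MeasurableSpace (OG N)] [BorelSpace (OG N)]

lemma v2_meas_rot : Measurable fun p : OG N × (Fin N → ℝ) => (p.1 * rflG p.2 : OG N) :=
  measurable_fst.mul (Conc.measurable_rflG measurable_snd)

/-- Joint measurability of the change of the energy. -/
theorem Ok.meas_dX (hA : A.Ok) (x : X) :
    Measurable fun p : (OG N × (Fin N → ℝ)) × (ι → ℝ) => A.dX p.1.1.1 p.1.2 p.2 x := by
  have h1 : Measurable fun p : (OG N × (Fin N → ℝ)) × (ι → ℝ) =>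
      ((p.1.1 * rflG p.1.2 : OG N), p.2) :=
    (v2_meas_rot.comp measurable_fst).prodMk measurable_snd
  have h2 : Measurable fun p : (OG N × (Fin N → ℝ)) × (ι → ℝ) => (p.1.1, p.2) :=
    (measurable_fst.comp measurable_fst).prodMk measurable_snd
  exact ((hA.men x).comp h1).sub ((hA.men x).comp h2)

theorem Ok.meas_Qv (hA : A.Ok) : Measurable fun p : OG N × (Fin N → ℝ) => A.Qv p.1.1 p.2 := by
  have hH : ∀ x, Measurable fun p : (OG N × (Fin N → ℝ)) × (ι → ℝ) =>
      (fun q : OG N × (Fin N → ℝ) => A.en q.1.1) p.1 p.2 x := fun x =>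
    (hA.men x).comp ((measurable_fst.comp measurable_fst).prodMk measurable_snd)
  exact U.meas_Ex (S := A.sy 0) (H := fun q : OG N × (Fin N → ℝ) => A.en q.1.1) hH
    (h := fun q z x => A.dX q.1.1 q.2 z x ^ 2) fun x => (hA.meas_dX x).pow_const 2

lemma v2_meas_mul (w : Fin N → ℝ) : Measurable fun U : OG N => (U * rflG w : OG N) :=
  measurable_id.mul measurable_const

lemma Ok.v2_meas_Qv (hA : A.Ok) (w : Fin N → ℝ) : Measurable fun U : OG N => A.Qv U.1 w := by
  have h : Measurable fun U : OG N => ((U, w) : OG N × (Fin N → ℝ)) :=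
    measurable_id.prodMk measurable_const
  have h2 := hA.meas_Qv
  have h3 := h2.comp h
  exact h3

/-- The energies of two matrices. -/
lemma Ok.v2_en_diff (hA : A.Ok) (hb : A.Bd b) (U V W : OG N) (z : ι → ℝ) (x : X) :
    A.en V.1 z x - A.en U.1 z x ≤
      (b * N + N + 2 * (b ^ 2 * N)) + 2 * ∑ i, A.gv W.1 z x i ^ 2 := by
  have b1 := hb.one
  have hN0 : (0 : ℝ) ≤ N := Nat.cast_nonneg N
  -- the linear coefficients
  have hlc : ∑ i, A.lc z x i ^ 2 ≤ 2 * (b ^ 2 * N) + 2 * ∑ i, A.gv W.1 z x i ^ 2 := by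
    have e1 : ∑ i, A.gv W.1 z x i ^ 2 = ∑ i, (A.lam i * A.y W.1 x i + A.lc z x i) ^ 2 := by
      have h := Conc.OG.dot W⁻¹ (fun i => A.lam i * A.y W.1 x i + A.lc z x i)
        (fun i => A.lam i * A.y W.1 x i + A.lc z x i)
      rw [Conc.OG.coe_inv] at h
      have h2 : ∑ i, A.gv W.1 z x i ^ 2 = (A.gv W.1 z x) ⬝ᵥ (A.gv W.1 z x) := by
        unfold dotProduct
        exact Finset.sum_congr rfl fun i _ => sq _
      rw [h2]
      unfold gv
      rw [h]
      unfold dotProduct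
      exact Finset.sum_congr rfl fun i _ => (sq _).symm
    have h3 : ∀ i, A.lc z x i ^ 2 ≤ 2 * (b ^ 2 * A.y W.1 x i ^ 2) +
        2 * (A.lam i * A.y W.1 x i + A.lc z x i) ^ 2 := by
      intro i
      have c2 : A.lam i ^ 2 ≤ b ^ 2 := by
        rw [← sq_abs]
        exact pow_le_pow_left₀ (abs_nonneg _) (hb.lam i) 2
      have c3 : (A.lam i * A.y W.1 x i) ^ 2 ≤ b ^ 2 * A.y W.1 x i ^ 2 := by
        rw [mul_pow]
        exact mul_le_mul_of_nonneg_right c2 (sq_nonneg _)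
      nlinarith only [c3, sq_nonneg (2 * (A.lam i * A.y W.1 x i) + A.lc z x i)]
    refine (Finset.sum_le_sum fun i _ => h3 i).trans ?_
    rw [Finset.sum_add_distrib, ← Finset.mul_sum, ← Finset.mul_sum, ← Finset.mul_sum,
      hA.sum_y W.2 x, ← e1]
  have hev : ∀ V : OG N, A.en V.1 z x = A.E0 z x +
      ∑ i, (A.lam i / 2 * A.y V.1 x i ^ 2 + A.lc z x i * A.y V.1 x i) := by
    intro V
    unfold en
    rw [ev_eq]
    rfl
  have hbd : ∀ V : OG N, |∑ i, (A.lam i / 2 * A.y V.1 x i ^ 2 + A.lc z x i * A.y V.1 x i)| ≤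
      (b * N + N) / 2 + (∑ i, A.lc z x i ^ 2) / 2 := by
    intro V
    refine (Finset.abs_sum_le_sum_abs _ _).trans ?_
    have h4 : ∀ i, |A.lam i / 2 * A.y V.1 x i ^ 2 + A.lc z x i * A.y V.1 x i| ≤
        (b + 1) / 2 * A.y V.1 x i ^ 2 + 1 / 2 * A.lc z x i ^ 2 := by
      intro i
      have c1 : |A.lam i / 2 * A.y V.1 x i ^ 2| ≤ b / 2 * A.y V.1 x i ^ 2 := by
        rw [abs_mul, abs_div, abs_two, abs_of_nonneg (sq_nonneg (A.y V.1 x i))]
        exact mul_le_mul_of_nonneg_right (by linarith only [hb.lam i]) (sq_nonneg _)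
      have c2 : |A.lc z x i * A.y V.1 x i| ≤ 1 / 2 * A.y V.1 x i ^ 2 +
          1 / 2 * A.lc z x i ^ 2 := by
        rw [abs_le]
        constructor <;> nlinarith only [sq_nonneg (A.lc z x i + A.y V.1 x i), sq_nonneg (A.lc z x i - A.y V.1 x i)]
      refine (abs_add_le _ _).trans ?_
      linarith
    refine (Finset.sum_le_sum fun i _ => h4 i).trans (le_of_eq ?_)
    rw [Finset.sum_add_distrib, ← Finset.mul_sum, ← Finset.mul_sum, hA.sum_y V.2 x]
    ring
  rw [hev V, hev U]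
  have h5 := (abs_le.1 (hbd V)).2
  have h6 := (abs_le.1 (hbd U)).1
  linarith only [hlc, h5, h6]

/-- The free energy is measurable and bounded. -/
theorem Ok.BM_fe (hA : A.Ok) (hb : A.Bd b) :
    ∃ B, Conc.BM B fun U : OG N => (A.sy U.1).fe := by
  have hN0 : (0 : ℝ) ≤ N := Nat.cast_nonneg N
  refine ⟨|(A.sy (1 : OG N).1).fe| + ((b * N + N + 2 * (b ^ 2 * N)) + 2 * (26 * b ^ 2 * N)),
    ?_, fun U => ?_⟩
  · exact U.meas_fe (S := A.sy 0) (H := fun U : OG N => A.en U.1) hA.men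
  · have key : ∀ U V : OG N, (A.sy U.1).fe - (A.sy V.1).fe ≤
        (b * N + N + 2 * (b ^ 2 * N)) + 2 * (26 * b ^ 2 * N) := by
      intro U V
      have hG := hA.regG U.1
      have h1 := hA.v2_jensen U.1 V.1
      have nS : Nh fun z x => ∑ i, A.gv U.1 z x i ^ 2 :=
        Nh.sum _ fun i _ => Nh.pow (hA.nh_gv U.1 i) 2
      have nD : Nh fun z x => A.en U.1 z x - A.en V.1 z x :=
        Nh.sub (hA.v2_nh_en _) (hA.v2_nh_en _)
      have h2 := hG.Ex_mono nD (Nh.add (fun _ => EG.const _) (Nh.const_mul 2 nS))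
        fun z x => hA.v2_en_diff hb V U U z x
      rw [hG.Ex_add (fun _ => EG.const _) (Nh.const_mul 2 nS), hG.Ex_const, Ex_const_mul] at h2
      have h3 := hA.Ex_gv hb U
      have h4 : (A.sy U.1).Ex (fun z x => A.en U.1 z x - A.en V.1 z x) =
          -(A.sy U.1).Ex (fun z x => A.en V.1 z x - A.en U.1 z x) := by
        have e : (fun (z : ι → ℝ) (x : X) => A.en U.1 z x - A.en V.1 z x) =
            fun z x => (-1) * (A.en V.1 z x - A.en U.1 z x) := by
          funext z x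
          ring
        rw [e, Ex_const_mul]
        ring
      linarith
    have k1 := key U 1
    have k2 := key 1 U
    have k3 := abs_le.1 (le_refl |(A.sy (1 : OG N).1).fe|)
    rw [abs_le]
    constructor <;> linarith [k3.1, k3.2]

variable (ν : Measure (OG N)) [IsProbabilityMeasure ν] [ν.IsMulRightInvariant]

/-- The mean square of the change of the free energy under a reflection. -/
noncomputable def Dl (A : GS N ι X) (w : Fin N → ℝ) : ℝ :=
  ∫ U : OG N, ((A.sy (U * rflG w : OG N).1).fe - (A.sy U.1).fe) ^ 2 ∂ν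

lemma v2_int_mul {f : OG N → ℝ} (w : Fin N → ℝ) :
    ∫ U : OG N, f (U * rflG w) ∂ν = ∫ U : OG N, f U ∂ν :=
  integral_mul_right_eq_self (μ := ν) f (rflG w)

theorem Ok.Dl_le (hA : A.Ok) (hb : A.Bd b) (w : Fin N → ℝ) :
    Dl ν A w ≤ 2 * ∫ U : OG N, A.Qv U.1 w ∂ν := by
  obtain ⟨B, hB⟩ := hA.BM_fe hb
  obtain ⟨Q, hQ⟩ : ∃ Q : OG N → ℝ, Q = fun U => A.Qv U.1 w := ⟨_, rfl⟩
  obtain ⟨F, hF⟩ : ∃ F : OG N → ℝ, F = fun U => (A.sy U.1).fe := ⟨_, rfl⟩
  rw [← hF] at hB
  have mQ : Measurable Q := by rw [hQ]; exact hA.v2_meas_Qv w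
  have bQ : ∀ U, |Q U| ≤ 216 * b ^ 2 * N ^ 2 := fun U => by rw [hQ]; exact hA.Qv_bd hb U w
  have mR := v2_meas_mul (N := N) w
  have i1 : Integrable Q ν := Conc.intg ν mQ _ bQ
  have i2 : Integrable (fun U : OG N => Q (U * rflG w)) ν :=
    Conc.intg ν (mQ.comp mR) _ fun U => bQ (U * rflG w)
  have hj : ∀ U : OG N, (F (U * rflG w) - F U) ^ 2 ≤ Q U + Q (U * rflG w) := fun U => by
    rw [hF, hQ]
    exact hA.jensen_sq U w
  have i3 : Integrable (fun U : OG N => (F (U * rflG w) - F U) ^ 2) ν := by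
    refine Conc.intg ν (((hB.meas.comp mR).sub hB.meas).pow_const 2)
      (216 * b ^ 2 * N ^ 2 + 216 * b ^ 2 * N ^ 2) fun U => ?_
    rw [abs_of_nonneg (sq_nonneg _)]
    exact (hj U).trans (add_le_add ((le_abs_self _).trans (bQ U))
      ((le_abs_self _).trans (bQ (U * rflG w))))
  have h0 : Dl ν A w = ∫ U : OG N, (F (U * rflG w) - F U) ^ 2 ∂ν := by
    rw [hF]
    rfl
  have h1 : Dl ν A w ≤ ∫ U : OG N, (Q U + Q (U * rflG w)) ∂ν := by
    rw [h0]
    exact integral_mono i3 (i1.add i2) hj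
  rw [integral_add i1 i2, v2_int_mul ν w] at h1
  rw [hQ] at h1
  linarith only [h1]

end GS

end Vale.Agent.P166.H
end
end

section

section

/-!
Bounds for the overlaps of the spin chain: nonnegativity, monotonicity in the level, strict bound
by one and the Lipschitz bound for the increments.
-/

open MeasureTheory ProbabilityTheory Filter Topology Set

namespace Vale.Agent.P157.Par

end Vale.Agent.P157.Par
end
end

section

section

/-!
Monotone likelihood ratio comparisons for even convex log-weights (task SP3).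
-/

open MeasureTheory ProbabilityTheory Filter Topology Set

namespace Vale.Agent.P157.Par

variable {F M D F' M' D' : ℝ → ℝ}

/-! ### Basic facts -/

/-! ### Integrability -/

/-! ### Shift and symmetrisation -/

/-! ### Chebyshev association -/

/-! ### The two ratios -/

/-! ### The statements -/

end Vale.Agent.P157.Par
end
end

section

section

/-!
Monotonicity of the overlaps of the spin chain.
-/

open MeasureTheory ProbabilityTheory Filter Topology Set

namespace Vale.Agent.P157.Par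

/-! ### Elementary facts -/

/-! ### Two steps -/

/-! ### Comparison of two chains -/

/-! ### The exponents -/

/-! ### The overlaps decrease -/

/-! ### The overlaps increase along the diagonal -/

end Vale.Agent.P157.Par
end
end
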