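import Mathlib
import Vale.Agent.P146.R3.X.B2
import Vale.Agent.P146.R3.X.B1
import Vale.Agent.P146.R3.X.B3

set_option linter.all false

section

section

/-!
P166, lower bound: the orthonormal basis which diagonalizes the compression of `diag b` to the
orthogonal complement of `√γ`.
-/

open Finset Matrix

namespace Vale.Agent.P166.L

variable {n : ℕ} {b γ : Fin (n + 1) → ℝ} {μ : Fin n → ℝ}

/-- The sum `∑ γ_k / (μ_j - b_k)^2`. -/
noncomputable def Ssq (b γ : Fin (n + 1) → ℝ) (μ : Fin n → ℝ) (j : Fin n) : ℝ :=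
  ∑ k, γ k / (μ j - b k) ^ 2

/-- The coupling of the outlier `j` with the direction `√γ`. -/
noncomputable def Alp (b γ : Fin (n + 1) → ℝ) (μ : Fin n → ℝ) (j : Fin n) : ℝ :=
  -1 / √(Ssq b γ μ j)

/-- The orthonormal basis: the row `0` is `√γ`, the row `j + 1` is the eigenvector of `μ_j`. -/
noncomputable def Ob (b γ : Fin (n + 1) → ℝ) (μ : Fin n → ℝ) :
    Matrix (Fin (n + 1)) (Fin (n + 1)) ℝ :=
  Matrix.of (Fin.cons (fun k => √(γ k)) (fun j k => √(γ k) / (μ j - b k) / √(Ssq b γ μ j)))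

theorem Ssq_pos (hb : StrictMono b) (hγ : ∀ k, 0 < γ k) (h : Outl b γ μ) (j : Fin n) :
    0 < Ssq b γ μ j := by
  unfold Ssq
  refine Finset.sum_pos (fun k _ => ?_) univ_nonempty
  have h1 : μ j - b k ≠ 0 := sub_ne_zero.mpr (h.ne hb j k)
  have h2 := hγ k
  positivity

theorem Ob_zero (k : Fin (n + 1)) : Ob b γ μ 0 k = √(γ k) := by
  simp only [Ob, of_apply, Fin.cons_zero]

theorem Ob_succ (j : Fin n) (k : Fin (n + 1)) :
    Ob b γ μ j.succ k = √(γ k) / (μ j - b k) / √(Ssq b γ μ j) := by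
  simp only [Ob, of_apply, Fin.cons_succ]

theorem dotOb (hb : StrictMono b) (h : Outl b γ μ) (i j : Fin n) :
    ∑ k, γ k / ((μ i - b k) * (μ j - b k)) = if i = j then Ssq b γ μ i else 0 := by
  split_ifs with hij
  · subst hij
    unfold Ssq
    refine Finset.sum_congr rfl fun k _ => ?_
    rw [sq]
  · have hne : μ j - μ i ≠ 0 := by
      rw [sub_ne_zero]
      exact fun e => hij (h.strictMono.injective e).symm
    have h1 : ∀ k, γ k / ((μ i - b k) * (μ j - b k)) =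
        (1 / (μ j - μ i)) * (γ k / (μ i - b k) - γ k / (μ j - b k)) := by
      intro k
      have h1 : μ i - b k ≠ 0 := sub_ne_zero.mpr (h.ne hb i k)
      have h2 : μ j - b k ≠ 0 := sub_ne_zero.mpr (h.ne hb j k)
      field_simp
      ring
    simp_rw [h1]
    rw [← Finset.mul_sum, Finset.sum_sub_distrib, h.zero i, h.zero j]
    simp

theorem dotOb_b (hb : StrictMono b) (h : Outl b γ μ) (i j : Fin n) :
    ∑ k, b k * (γ k / ((μ i - b k) * (μ j - b k))) =
      if i = j then μ i * Ssq b γ μ i else 0 := by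
  have h1 : ∀ k, b k * (γ k / ((μ i - b k) * (μ j - b k))) =
      μ i * (γ k / ((μ i - b k) * (μ j - b k))) - γ k / (μ j - b k) := by
    intro k
    have h1 : μ i - b k ≠ 0 := sub_ne_zero.mpr (h.ne hb i k)
    have h2 : μ j - b k ≠ 0 := sub_ne_zero.mpr (h.ne hb j k)
    field_simp
    ring
  simp_rw [h1]
  rw [Finset.sum_sub_distrib, ← Finset.mul_sum, dotOb hb h, h.zero j]
  split_ifs <;> simp

theorem sum_b_div (hb : StrictMono b) (hγ1 : ∑ k, γ k = 1) (h : Outl b γ μ) (j : Fin n) :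
    ∑ k, b k * (γ k / (μ j - b k)) = -1 := by
  have h1 : ∀ k, b k * (γ k / (μ j - b k)) = μ j * (γ k / (μ j - b k)) - γ k := by
    intro k
    have h2 : μ j - b k ≠ 0 := sub_ne_zero.mpr (h.ne hb j k)
    field_simp
    ring
  simp_rw [h1]
  rw [Finset.sum_sub_distrib, ← Finset.mul_sum, h.zero j, hγ1]
  simp

theorem Ob_mul (hb : StrictMono b) (hγ : ∀ k, 0 < γ k) (hγ1 : ∑ k, γ k = 1) (h : Outl b γ μ) :
    Ob b γ μ * (Ob b γ μ)ᵀ = 1 ∧ (Ob b γ μ)ᵀ * Ob b γ μ = 1 := by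
  have key : Ob b γ μ * (Ob b γ μ)ᵀ = 1 := by
    ext i j
    rw [Matrix.mul_apply]
    simp only [Matrix.transpose_apply]
    have hs : ∀ k, √(γ k) * √(γ k) = γ k := fun k => Real.mul_self_sqrt (hγ k).le
    refine Fin.cases ?_ (fun i => ?_) i <;> refine Fin.cases ?_ (fun j => ?_) j
    · simp_rw [Ob_zero, hs]
      rw [hγ1]; simp
    · simp_rw [Ob_zero, Ob_succ]
      have h1 : ∀ k, √(γ k) * (√(γ k) / (μ j - b k) / √(Ssq b γ μ j)) =
          (γ k / (μ j - b k)) * (1 / √(Ssq b γ μ j)) := by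
        intro k
        conv_rhs => rw [← hs k]
        ring
      simp_rw [h1]
      rw [← Finset.sum_mul, h.zero j, zero_mul, Matrix.one_apply_ne]
      exact (Fin.succ_ne_zero j).symm
    · simp_rw [Ob_zero, Ob_succ]
      have h1 : ∀ k, (√(γ k) / (μ i - b k) / √(Ssq b γ μ i)) * √(γ k) =
          (γ k / (μ i - b k)) * (1 / √(Ssq b γ μ i)) := by
        intro k
        conv_rhs => rw [← hs k]
        ring
      simp_rw [h1]
      rw [← Finset.sum_mul, h.zero i, zero_mul, Matrix.one_apply_ne]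
      exact (Fin.succ_ne_zero i)
    · simp_rw [Ob_succ]
      have h1 : ∀ k, (√(γ k) / (μ i - b k) / √(Ssq b γ μ i)) *
          (√(γ k) / (μ j - b k) / √(Ssq b γ μ j)) =
          (γ k / ((μ i - b k) * (μ j - b k))) * (1 / (√(Ssq b γ μ i) * √(Ssq b γ μ j))) := by
        intro k
        conv_rhs => rw [← hs k]
        simp only [div_eq_mul_inv, mul_inv, one_mul]
        ring
      simp_rw [h1]
      rw [← Finset.sum_mul, dotOb hb h, Matrix.one_apply]
      simp only [Fin.succ_inj]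
      split_ifs with hij
      · subst hij
        rw [Real.mul_self_sqrt (Ssq_pos hb hγ h i).le]
        have := (Ssq_pos hb hγ h i).ne'
        field_simp
      · simp only [one_div, _root_.mul_inv_rev, zero_mul]
  exact ⟨key, mul_eq_one_comm.mp key⟩

theorem Ob_conj_apply (i j : Fin (n + 1)) :
    (Ob b γ μ * diagonal b * (Ob b γ μ)ᵀ) i j = ∑ k, Ob b γ μ i k * b k * Ob b γ μ j k := by
  rw [Matrix.mul_apply]
  simp only [Matrix.transpose_apply, Matrix.mul_diagonal]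

/-- The entries of `O diag(b) Oᵀ`. -/
theorem Ob_conj (hb : StrictMono b) (hγ : ∀ k, 0 < γ k) (hγ1 : ∑ k, γ k = 1) (h : Outl b γ μ) :
    (Ob b γ μ * diagonal b * (Ob b γ μ)ᵀ) 0 0 = ∑ k, γ k * b k ∧
    (∀ j : Fin n, (Ob b γ μ * diagonal b * (Ob b γ μ)ᵀ) 0 j.succ = Alp b γ μ j) ∧
    (∀ j : Fin n, (Ob b γ μ * diagonal b * (Ob b γ μ)ᵀ) j.succ 0 = Alp b γ μ j) ∧
    ∀ i j : Fin n, (Ob b γ μ * diagonal b * (Ob b γ μ)ᵀ) i.succ j.succ =
      if i = j then μ i else 0 := by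
  have hs : ∀ k, √(γ k) * √(γ k) = γ k := fun k => Real.mul_self_sqrt (hγ k).le
  have hA : ∀ j : Fin n, ∑ k, (b k * (γ k / (μ j - b k))) * (1 / √(Ssq b γ μ j)) =
      Alp b γ μ j := by
    intro j
    rw [← Finset.sum_mul, sum_b_div hb hγ1 h, Alp]
    ring
  refine ⟨?_, fun j => ?_, fun j => ?_, fun i j => ?_⟩
  · rw [Ob_conj_apply]
    refine Finset.sum_congr rfl fun k _ => ?_
    rw [Ob_zero]
    rw [mul_right_comm, hs]
  · rw [Ob_conj_apply, ← hA]
    refine Finset.sum_congr rfl fun k _ => ?_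
    rw [Ob_zero, Ob_succ]
    conv_rhs => rw [← hs k]
    ring
  · rw [Ob_conj_apply, ← hA]
    refine Finset.sum_congr rfl fun k _ => ?_
    rw [Ob_zero, Ob_succ]
    conv_rhs => rw [← hs k]
    ring
  · rw [Ob_conj_apply]
    have h1 : ∀ k, Ob b γ μ i.succ k * b k * Ob b γ μ j.succ k =
          (b k * (γ k / ((μ i - b k) * (μ j - b k)))) *
            (1 / (√(Ssq b γ μ i) * √(Ssq b γ μ j))) := by
      intro k
      rw [Ob_succ, Ob_succ]
      conv_rhs => rw [← hs k]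
      simp only [div_eq_mul_inv, mul_inv, one_mul]
      ring
    simp_rw [h1]
    rw [← Finset.sum_mul, dotOb_b hb h]
    split_ifs with hij
    · subst hij
      rw [Real.mul_self_sqrt (Ssq_pos hb hγ h i).le]
      have := (Ssq_pos hb hγ h i).ne'
      field_simp
    · simp only [one_div, _root_.mul_inv_rev, zero_mul]

/-- The resolvent identity (Schur complement). -/
theorem resolvent_id (hb : StrictMono b) (hγ : ∀ k, 0 < γ k) (hγ1 : ∑ k, γ k = 1)
    (h : Outl b γ μ) {z : ℝ} (hz : ∀ k, b k < z) :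
    ∑ j, Alp b γ μ j ^ 2 / (z - μ j) = z - ∑ k, γ k * b k - 1 / ∑ k, γ k / (z - b k) := by
  have hs : ∀ k, √(γ k) * √(γ k) = γ k := fun k => Real.mul_self_sqrt (hγ k).le
  have hzb : ∀ k, z - b k ≠ 0 := fun k => (sub_pos.mpr (hz k)).ne'
  have hG : 0 < ∑ k, γ k / (z - b k) :=
    Finset.sum_pos (fun k _ => div_pos (hγ k) (sub_pos.mpr (hz k))) univ_nonempty
  have hzμ : ∀ j, z - μ j ≠ 0 := by
    intro j
    have h1 := h.hi j
    have h2 := hz j.succ
    exact (by linarith only [h1, h2] : 0 < z - μ j).ne'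
  -- x_0 and x_j
  set G := ∑ k, γ k / (z - b k) with hGdef
  have hxj : ∀ j : Fin n, ∑ k, (γ k / (μ j - b k)) / (z - b k) = - (G / (z - μ j)) := by
    intro j
    have h1 : ∀ k, (γ k / (μ j - b k)) / (z - b k) =
        (1 / (z - μ j)) * (γ k / (μ j - b k) - γ k / (z - b k)) := by
      intro k
      have h1 : μ j - b k ≠ 0 := sub_ne_zero.mpr (h.ne hb j k)
      have h2 := hzb k
      have h3 := hzμ j
      field_simp
      ring
    simp_rw [h1]
    rw [← Finset.mul_sum, Finset.sum_sub_distrib, h.zero j, hGdef]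
    ring
  -- use `Oᵀ O = 1`: apply to the vector `√γ/(z-b)`
  set y : Fin (n + 1) → ℝ := fun k => √(γ k) / (z - b k) with hy
  have hw0 : (Ob b γ μ *ᵥ y) 0 = G := by
    simp only [Matrix.mulVec, dotProduct, Ob_zero, hy, hGdef]
    refine Finset.sum_congr rfl fun k _ => ?_
    conv_rhs => rw [← hs k]
    ring
  have hwj : ∀ j : Fin n, (Ob b γ μ *ᵥ y) j.succ = Alp b γ μ j * G / (z - μ j) := by
    intro j
    simp only [Matrix.mulVec, dotProduct, Ob_succ, hy]
    have h1 : ∀ k, √(γ k) / (μ j - b k) / √(Ssq b γ μ j) * (√(γ k) / (z - b k)) =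
        ((γ k / (μ j - b k)) / (z - b k)) * (1 / √(Ssq b γ μ j)) := by
      intro k
      conv_rhs => rw [← hs k]
      ring
    simp_rw [h1]
    rw [← Finset.sum_mul, hxj, Alp]
    ring
  have hB : (Ob b γ μ * diagonal b * (Ob b γ μ)ᵀ) *ᵥ (Ob b γ μ *ᵥ y) =
      Ob b γ μ *ᵥ (diagonal b *ᵥ y) := by
    rw [Matrix.mulVec_mulVec, Matrix.mul_assoc, (Ob_mul hb hγ hγ1 h).2, Matrix.mul_one,
      ← Matrix.mulVec_mulVec]
  have hB0 := congrFun hB 0
  obtain ⟨h00, h0j, hj0, hij⟩ := Ob_conj hb hγ hγ1 h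
  have hL : ((Ob b γ μ * diagonal b * (Ob b γ μ)ᵀ) *ᵥ (Ob b γ μ *ᵥ y)) 0 =
      (∑ k, γ k * b k) * G + ∑ j : Fin n, Alp b γ μ j * (Alp b γ μ j * G / (z - μ j)) := by
    rw [Matrix.mulVec, dotProduct, Fin.sum_univ_succ, h00, hw0]
    simp only [h0j, hwj]
  have hR : (Ob b γ μ *ᵥ (diagonal b *ᵥ y)) 0 = z * G - 1 := by
    rw [Matrix.mulVec, dotProduct]
    simp only [Matrix.mulVec_diagonal, Ob_zero, hy]
    have h1 : ∀ k, √(γ k) * (b k * (√(γ k) / (z - b k))) = z * (γ k / (z - b k)) - γ k := by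
      intro k
      have h2 := hzb k
      have h3 : √(γ k) * (b k * (√(γ k) / (z - b k))) =
          (√(γ k) * √(γ k)) * (b k / (z - b k)) := by ring
      rw [h3, hs k]
      field_simp
      ring
    simp_rw [h1]
    rw [Finset.sum_sub_distrib, ← Finset.mul_sum, hγ1]
  rw [hL, hR] at hB0
  have h6 : ∑ j : Fin n, Alp b γ μ j * (Alp b γ μ j * G / (z - μ j)) =
      G * ∑ j, Alp b γ μ j ^ 2 / (z - μ j) := by
    rw [Finset.mul_sum]
    refine Finset.sum_congr rfl fun k _ => ?_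
    ring
  rw [h6] at hB0
  have hGne : G ≠ 0 := hG.ne'
  have h7 : G * ∑ j, Alp b γ μ j ^ 2 / (z - μ j) = G * (z - ∑ k, γ k * b k - 1 / G) := by
    have : G * (z - ∑ k, γ k * b k - 1 / G) = z * G - (∑ k, γ k * b k) * G - 1 := by
      field_simp
    rw [this]
    linarith only [hB0]
  exact mul_left_cancel₀ hGne h7

/-- The squares of the couplings are bounded: `∑ α_j^2 ≤ (b_n - b_0)^2`. -/
theorem sum_Alp_sq (hb : StrictMono b) (hγ : ∀ k, 0 < γ k) (hγ1 : ∑ k, γ k = 1)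
    (h : Outl b γ μ) : ∑ j, Alp b γ μ j ^ 2 ≤ (b (Fin.last n) - b 0) ^ 2 := by
  have hs : ∀ k, √(γ k) * √(γ k) = γ k := fun k => Real.mul_self_sqrt (hγ k).le
  obtain ⟨h00, h0j, hj0, hij⟩ := Ob_conj hb hγ hγ1 h
  -- the square of the matrix
  have hsq : (Ob b γ μ * diagonal b * (Ob b γ μ)ᵀ) * (Ob b γ μ * diagonal b * (Ob b γ μ)ᵀ) =
      Ob b γ μ * diagonal (fun k => b k * b k) * (Ob b γ μ)ᵀ := by
    calc (Ob b γ μ * diagonal b * (Ob b γ μ)ᵀ) * (Ob b γ μ * diagonal b * (Ob b γ μ)ᵀ)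
        = Ob b γ μ * diagonal b * ((Ob b γ μ)ᵀ * Ob b γ μ) * diagonal b * (Ob b γ μ)ᵀ := by
          simp only [Matrix.mul_assoc]
      _ = Ob b γ μ * (diagonal b * diagonal b) * (Ob b γ μ)ᵀ := by
          rw [(Ob_mul hb hγ hγ1 h).2]
          simp only [Matrix.mul_assoc, Matrix.one_mul]
      _ = _ := by rw [Matrix.diagonal_mul_diagonal]
  have hsq0 := congrFun (congrFun hsq 0) 0
  rw [Matrix.mul_apply, Fin.sum_univ_succ, h00] at hsq0
  simp only [h0j, hj0] at hsq0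
  have hR : (Ob b γ μ * diagonal (fun k => b k * b k) * (Ob b γ μ)ᵀ) 0 0 =
      ∑ k, γ k * (b k * b k) := by
    rw [Matrix.mul_apply]
    simp only [Matrix.transpose_apply, Matrix.mul_diagonal, Ob_zero]
    refine Finset.sum_congr rfl fun k _ => ?_
    rw [mul_right_comm, hs]
  rw [hR] at hsq0
  set m := ∑ k, γ k * b k with hm
  have h1 : ∑ j, Alp b γ μ j ^ 2 = ∑ k, γ k * (b k - b 0) ^ 2 - (m - b 0) ^ 2 := by
    have e1 : ∑ j, Alp b γ μ j ^ 2 = ∑ j, Alp b γ μ j * Alp b γ μ j :=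
      Finset.sum_congr rfl fun k _ => by ring
    have e2 : ∑ k, γ k * (b k - b 0) ^ 2 =
        ∑ k, γ k * (b k * b k) - 2 * b 0 * m + b 0 ^ 2 := by
      have : ∀ k, γ k * (b k - b 0) ^ 2 =
          γ k * (b k * b k) - (2 * b 0) * (γ k * b k) + b 0 ^ 2 * γ k := fun k => by ring
      simp_rw [this]
      rw [Finset.sum_add_distrib, Finset.sum_sub_distrib, ← Finset.mul_sum, ← Finset.mul_sum, hγ1,
        hm]
      ring
    rw [e1, e2]
    linarith only [hsq0]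
  have h2 : ∑ k, γ k * (b k - b 0) ^ 2 ≤ ∑ k, γ k * (b (Fin.last n) - b 0) ^ 2 := by
    refine Finset.sum_le_sum fun k _ => ?_
    refine mul_le_mul_of_nonneg_left ?_ (hγ k).le
    have h3 : b 0 ≤ b k := hb.monotone (Fin.zero_le k)
    have h4 : b k ≤ b (Fin.last n) := hb.monotone (Fin.le_last k)
    exact pow_le_pow_left₀ (by linarith only [h3]) (by linarith) 2
  rw [← Finset.sum_mul, hγ1, one_mul] at h2
  rw [h1]
  linarith only [h2, sq_nonneg (m - b 0)]

end Vale.Agent.P166.L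
end
end

section

section

/-! P166, lower bound: the outliers and the orthogonal matrices. -/

open Finset Matrix

namespace Vale.Agent.P166.L

variable {n : ℕ}

/-- The orthogonal matrix with the column `k0` equal to `√α`. -/
noncomputable def Qm (b α : Fin (n + 1) → ℝ) (μ : Fin n → ℝ) (k0 : Fin (n + 1)) :
    Matrix (Fin (n + 1)) (Fin (n + 1)) ℝ :=
  Matrix.of fun k => Fin.insertNth k0 (Ob b α μ 0 k) (fun j : Fin n => Ob b α μ j.succ k)

lemma Qm_same (b α : Fin (n + 1) → ℝ) (μ : Fin n → ℝ) (k0 k : Fin (n + 1)) :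
    Qm b α μ k0 k k0 = Ob b α μ 0 k := by
  unfold Qm
  rw [Matrix.of_apply, Fin.insertNth_apply_same]

lemma Qm_succAbove (b α : Fin (n + 1) → ℝ) (μ : Fin n → ℝ) (k0 k : Fin (n + 1)) (j : Fin n) :
    Qm b α μ k0 k (k0.succAbove j) = Ob b α μ j.succ k := by
  unfold Qm
  rw [Matrix.of_apply, Fin.insertNth_apply_succAbove]

lemma Qm_conj (b α : Fin (n + 1) → ℝ) (μ : Fin n → ℝ) (k0 : Fin (n + 1))
    {l l' i i' : Fin (n + 1)} (h : ∀ k, Qm b α μ k0 k l = Ob b α μ i k)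
    (h' : ∀ k, Qm b α μ k0 k l' = Ob b α μ i' k) :
    ((Qm b α μ k0)ᵀ * diagonal b * Qm b α μ k0) l l' =
      (Ob b α μ * diagonal b * (Ob b α μ)ᵀ) i i' := by
  rw [Matrix.mul_apply, Matrix.mul_apply]
  refine sum_congr rfl fun k _ => ?_
  rw [Matrix.mul_diagonal, Matrix.mul_diagonal, Matrix.transpose_apply, Matrix.transpose_apply,
    h, h']

lemma Qm_mul {b α : Fin (n + 1) → ℝ} {μ : Fin n → ℝ} (k0 : Fin (n + 1))
    (h : (Ob b α μ)ᵀ * Ob b α μ = 1) : Qm b α μ k0 * (Qm b α μ k0)ᵀ = 1 := by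
  rw [← h]
  ext k l
  rw [Matrix.mul_apply, Matrix.mul_apply, Fin.sum_univ_succAbove _ k0, Fin.sum_univ_succ]
  congr 1
  · rw [Matrix.transpose_apply, Matrix.transpose_apply, Qm_same, Qm_same]
  · refine sum_congr rfl fun j _ => ?_
    rw [Matrix.transpose_apply, Matrix.transpose_apply, Qm_succAbove, Qm_succAbove]

/-- **The outliers.** -/
theorem outliers {b α : Fin (n + 1) → ℝ} (hb : StrictMono b) (hα : ∀ k, 0 < α k)
    (hα1 : ∑ k, α k = 1) :
    ∃ μ g : Fin n → ℝ, Outl b α μ ∧ (∀ k0 : Fin (n + 1), ∃ Q : Matrix (Fin (n + 1)) (Fin (n + 1)) ℝ,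
      Q * Qᵀ = 1 ∧ Qᵀ * Q = 1 ∧ (∀ k, Q k k0 = √(α k)) ∧
      (Qᵀ * diagonal b * Q) k0 k0 = ∑ k, α k * b k ∧
      (∀ j, (Qᵀ * diagonal b * Q) k0 (k0.succAbove j) = g j) ∧
      (∀ j, (Qᵀ * diagonal b * Q) (k0.succAbove j) k0 = g j) ∧
      ∀ i j, (Qᵀ * diagonal b * Q) (k0.succAbove i) (k0.succAbove j) = if i = j then μ j else 0) ∧
      (∀ A, (∀ k, b k < A) →
        (∑ k, α k / (A - b k)) * ∏ k, (A - b k) = ∏ j, (A - μ j) ∧
        ∑ j, g j ^ 2 / (A - μ j) = A - ∑ k, α k * b k - 1 / ∑ k, α k / (A - b k)) ∧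
      ∑ j, g j ^ 2 ≤ (b (Fin.last n) - b 0) ^ 2 := by
  obtain ⟨μ, h⟩ := exists_outl hb hα
  obtain ⟨-, hO⟩ := Ob_mul hb hα hα1 h
  obtain ⟨c1, c2, c3, c4⟩ := Ob_conj hb hα hα1 h
  refine ⟨μ, Alp b α μ, h, fun k0 => ⟨Qm b α μ k0, Qm_mul k0 hO, mul_eq_one_comm.1 (Qm_mul k0 hO),
    fun k => ?_, ?_, fun j => ?_, fun j => ?_, fun i j => ?_⟩, fun A hA => ⟨?_, ?_⟩, ?_⟩
  · rw [Qm_same, Ob_zero]
  · rw [Qm_conj b α μ k0 (Qm_same b α μ k0) (Qm_same b α μ k0), c1]
  · rw [Qm_conj b α μ k0 (Qm_same b α μ k0) fun k => Qm_succAbove b α μ k0 k j, c2]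
  · rw [Qm_conj b α μ k0 (fun k => Qm_succAbove b α μ k0 k j) (Qm_same b α μ k0), c3]
  · rw [Qm_conj b α μ k0 (fun k => Qm_succAbove b α μ k0 k i)
      fun k => Qm_succAbove b α μ k0 k j, c4]
    by_cases hij : i = j
    · rw [hij]
    · rw [if_neg hij, if_neg hij]
  · exact (Outl.prod_eq hb hα1 h fun k => (hA k).ne').symm
  · exact resolvent_id hb hα hα1 h hA
  · exact sum_Alp_sq hb hα hα1 h

end Vale.Agent.P166.L
end
end

section

section

open MeasureTheory ProbabilityTheory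

namespace Vale.Agent.P157

section
variable {E : Type*} [MeasurableSpace E] (μ : Measure E) [IsProbabilityMeasure μ]

end

end Vale.Agent.P157
end
end

section

section

/-! P166, lower bound: from the increments for good types to the averages over the types. -/

open MeasureTheory Finset Filter Topology

namespace Vale.Agent.P166.L

open Vale.Agent.P166.F

theorem lower_of_inc {n : ℕ} {α : Fin (n + 1) → ℝ} (hα : ∀ b, 0 < α b) (hα1 : ∑ b, α b = 1)
    (F : (N : ℕ) → (Fin N → Fin (n + 1)) → ℝ) {C : ℝ} (hC : ∀ N c, |F N c| ≤ C) {η v : ℝ}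
    (hη : 0 < η) {N₀ : ℕ}
    (hinc : ∀ N, N₀ ≤ N → ∀ c : Fin N → Fin (n + 1), (∀ k, |frac c k - α k| ≤ η) →
      v ≤ ((N : ℝ) + 1) * ∑ k, α k * F (N + 1) (Fin.cons k c) - N * F N c) {ε : ℝ}
    (hε : 0 < ε) : ∀ᶠ N in atTop, v - ε ≤ ∑ c : Fin N → Fin (n + 1), wt α c * F N c := by
  have hC0 : 0 ≤ C := (abs_nonneg _).trans (hC 0 Fin.elim0)
  set x : ℕ → ℝ := fun N => ∑ c : Fin N → Fin (n + 1), wt α c * F N c with hx
  set p : ℕ → ℝ := fun N => ∑ c : Fin N → Fin (n + 1),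
    if ∀ k, |frac c k - α k| ≤ η then 0 else wt α c with hp
  have hwt : ∀ {N : ℕ} (c : Fin N → Fin (n + 1)), 0 ≤ wt α c := fun c =>
    Finset.prod_nonneg fun i _ => (hα _).le
  have hp0 : ∀ N, 0 ≤ p N := fun N => Finset.sum_nonneg fun c _ => by
    split_ifs
    · exact le_rfl
    · exact hwt c
  -- the increments
  have key : ∀ N, N₀ ≤ N → v - (|v| + 2 * C) * (((N : ℝ) + 1) * p N) ≤
      ((N : ℝ) + 1) * x (N + 1) - N * x N := by
    intro N hN
    have e1 : ((N : ℝ) + 1) * x (N + 1) - N * x N = ∑ c : Fin N → Fin (n + 1), wt α c *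
        (((N : ℝ) + 1) * ∑ k, α k * F (N + 1) (Fin.cons k c) - N * F N c) := by
      simp only [hx]
      rw [sum_wt_cons α (fun c => F (N + 1) c), Finset.mul_sum, Finset.mul_sum,
        ← Finset.sum_sub_distrib]
      exact Finset.sum_congr rfl fun c _ => by ring
    have hN0 : (0 : ℝ) ≤ N := Nat.cast_nonneg N
    have hcrude : ∀ c : Fin N → Fin (n + 1), -(2 * C * ((N : ℝ) + 1)) ≤
        ((N : ℝ) + 1) * ∑ k, α k * F (N + 1) (Fin.cons k c) - N * F N c := by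
      intro c
      have h1 : -C ≤ ∑ k, α k * F (N + 1) (Fin.cons k c) := by
        have h2 : ∑ k, α k * (-C) ≤ ∑ k, α k * F (N + 1) (Fin.cons k c) :=
          Finset.sum_le_sum fun k _ => mul_le_mul_of_nonneg_left (abs_le.1 (hC _ _)).1 (hα k).le
        rwa [← Finset.sum_mul, hα1, one_mul] at h2
      have h3 := (abs_le.1 (hC N c)).2
      nlinarith only [hC0, h1, h3]
    have e2 : v - (|v| + 2 * C) * (((N : ℝ) + 1) * p N) ≤
        ∑ c : Fin N → Fin (n + 1), (wt α c * v - (|v| + 2 * C) * (((N : ℝ) + 1) *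
          (if ∀ k, |frac c k - α k| ≤ η then 0 else wt α c))) := by
      rw [Finset.sum_sub_distrib, ← Finset.sum_mul, sum_wt α hα1, one_mul, ← Finset.mul_sum,
        ← Finset.mul_sum]
    rw [e1]
    refine e2.trans (Finset.sum_le_sum fun c _ => ?_)
    split_ifs with hc
    · rw [mul_zero, mul_zero, sub_zero]
      exact mul_le_mul_of_nonneg_left (hinc N hN c hc) (hwt c)
    · have h1 := mul_le_mul_of_nonneg_left (hcrude c) (hwt c)
      have h2 : wt α c * v ≤ |v| * (((N : ℝ) + 1) * wt α c) := by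
        have h3 := le_abs_self v
        have h4 : 0 ≤ wt α c * |v| := mul_nonneg (hwt c) (abs_nonneg v)
        nlinarith only [h3, hwt c, mul_nonneg hN0 h4]
      linarith only [h1, h2]
  have hlim := types_ld hα hα1 hη
  have hlim2 : Tendsto (fun N : ℕ => (|v| + 2 * C) * (((N : ℝ) + 1) * p N)) atTop (𝓝 0) := by
    have := hlim.const_mul (|v| + 2 * C)
    rw [mul_zero] at this
    exact this
  rw [Metric.tendsto_atTop] at hlim2
  obtain ⟨N₁, hN₁⟩ := hlim2 (ε / 2) (by linarith only [hε])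
  have h1 : ∀ N, max N₀ N₁ ≤ N → v - ε / 2 ≤ ((N : ℝ) + 1) * x (N + 1) - N * x N := by
    intro N hN
    have h2 := key N ((le_max_left _ _).trans hN)
    have h3 := hN₁ N ((le_max_right _ _).trans hN)
    rw [Real.dist_eq, sub_zero] at h3
    have := le_abs_self ((|v| + 2 * C) * (((N : ℝ) + 1) * p N))
    linarith only [h2, h3, this]
  filter_upwards [cesaro_ge h1 (half_pos hε)] with N hN
  linarith only [hN]

end Vale.Agent.P166.L
end
end

section

section

open MeasureTheory ProbabilityTheory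

namespace Vale.Agent.P157

end Vale.Agent.P157
end
end

section

section

/-!
P166, lower bound: the hypotheses common to the estimates.
-/

open MeasureTheory ProbabilityTheory Matrix Filter Topology

namespace Vale.Agent.P166.L

open Vale.Agent.P157.Lv Vale.Agent.P157.Par Md H U
open Vale.Agent.P166.F (Hm frac)

variable {N K n : ℕ}

/-- The mean of the potentials. -/
noncomputable def mbar (b α : Fin (n + 1) → ℝ) : ℝ := ∑ k, α k * b k

/-- The data: the potentials `b`, the weights `α`, the outliers `μ`, their couplings `g`, the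
orthogonal matrices `Q`. -/
structure Dat (b α : Fin (n + 1) → ℝ) (μ g : Fin n → ℝ)
    (Q : Fin (n + 1) → Matrix (Fin (n + 1)) (Fin (n + 1)) ℝ) : Prop where
  mono : StrictMono b
  pos : ∀ k, 0 < α k
  one : ∑ k, α k = 1
  outl : Outl b α μ
  out : Out b α μ g Q

/-- The data exist. -/
theorem exists_dat {b α : Fin (n + 1) → ℝ} (hb : StrictMono b) (hα : ∀ k, 0 < α k)
    (hα1 : ∑ k, α k = 1) : ∃ μ g Q, Dat b α μ g Q := by
  obtain ⟨μ, g, h1, h2, h3, -⟩ := outliers hb hα hα1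
  choose Q q1 q2 q3 q4 q5 q6 q7 using h2
  exact ⟨μ, g, Q, hb, hα, hα1, h1, ⟨h1.lo, h1.hi, fun k0 => (mem_orthogonalGroup_iff _ _).2 (q1 k0),
    q3, q4, q5, q6, q7, fun A hA => (h3 A hA).1, fun A hA => (h3 A hA).2⟩⟩

/-- The hypotheses on the system of size `N`: `dl` bounds the perturbations, `r k` is a pattern of
type `k`. -/
structure Good (b α : Fin (n + 1) → ℝ) (B dl : ℝ) (K : ℕ) (m : ℕ → ℝ) (c : Fin N → Fin (n + 1))
    (P : Pm (n + 1)) (r : Fin (n + 1) → Fin N) : Prop where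
  N0 : 0 < N
  hm : Exponents K m
  hb : ∀ k, |P.b k - b k| ≤ dl
  s0 : P.s 0 = 0
  hs : ∑ l ∈ Finset.range (K + 1), P.s l ^ 2 ≤ B
  u0 : ∀ k, P.u k 0 = 0
  hu : ∀ k, ∀ l ≤ K, |P.u k l| ≤ dl
  fr : ∀ k, |frac c k - α k| ≤ dl
  hr : ∀ k, c (r k) = k

lemma Good.dl0 {b α : Fin (n + 1) → ℝ} {B dl : ℝ} {m : ℕ → ℝ} {c : Fin N → Fin (n + 1)}
    {P : Pm (n + 1)} {r : Fin (n + 1) → Fin N} (h : Good b α B dl K m c P r) : 0 ≤ dl :=
  (abs_nonneg _).trans (h.fr 0)

/-- The hypotheses on the parameters of the systems with a new spin. -/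
structure EPar (K : ℕ) (B rd : ℝ) (rr s' : ℕ → ℝ) (σ τ : ℝ) : Prop where
  hrd : |rd| ≤ B
  rr0 : rr 0 = 0
  hrr : ∀ l < K, rr l ≤ rr (l + 1)
  rrK : rr K ≤ B
  s0 : s' 0 = 0
  hs : ∑ l ∈ Finset.range (K + 1), s' l ^ 2 ≤ B
  hσ : |σ| ≤ 1
  hτ : |τ| ≤ 1

/-- The patterns of the last type which are not replaced by outliers. -/
noncomputable def Bt (c : Fin N → Fin (n + 1)) (w : Fin n → Fin N) : Finset (Fin N) :=
  blk c (Fin.last n) \ Finset.univ.image w

variable [MeasurableSpace (orthogonalGroup (Fin N) ℝ)]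

/-- The deviation of the overlap in the set `B` of a system from the matrix `M`. -/
noncomputable def DvE {ι X : Type} [Fintype ι] [Fintype X] [DecidableEq X]
    (ν : Measure (orthogonalGroup (Fin N) ℝ))
    (A : GS N ι X) (B : Finset (Fin N)) (M : Hm) : ℝ :=
  EU ν (fun U => (A.sy U).Ex (fun _ x => |A.R B U x x - M.d|)) +
    ∑ l ∈ Finset.range (A.K + 1), (A.m (l + 1) - A.m l) *
      EU ν (fun U => (A.sy U).pairEx l (fun x x' => |A.R B U x x' - M.e l|))

/-- The systems with a new spin of type `k0`. -/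
noncomputable abbrev GE (K : ℕ) (m : ℕ → ℝ) (b α : Fin (n + 1) → ℝ) (μ g : Fin n → ℝ)
    (c : Fin N → Fin (n + 1)) (P : Pm (n + 1)) (r : Fin (n + 1) → Fin N) (k0 : Fin (n + 1))
    (rd : ℝ) (rr s' : ℕ → ℝ) (σ τ : ℝ) : GS N (Ie N K) (Xe N) :=
  egs K m (MP K c (wi r k0) P μ g (mbar b α) rd rr s' σ τ)

/-- The errors of the systems of size `N`: the parameters, the deviations of the overlaps of the
blocks, the deviations of the overlap of the last block in the systems with a new spin. -/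
structure Err (b α : Fin (n + 1) → ℝ) (μ g : Fin n → ℝ) (B dl X : ℝ)
    (ν : Measure (orthogonalGroup (Fin N) ℝ)) (K : ℕ) (m : ℕ → ℝ) (c : Fin N → Fin (n + 1))
    (P : Pm (n + 1)) (r : Fin (n + 1) → Fin N) : Prop where
  hdl : (K + 1) * dl ≤ X
  hN : 1 / √N ≤ X
  hD : ∑ k, Dv ν K m c P k ≤ X
  hE : ∀ (k0 : Fin (n + 1)) (rd : ℝ) (rr s' : ℕ → ℝ) (σ τ : ℝ), EPar K B rd rr s' σ τ →
    DvE ν (GE K m b α μ g c P r k0 rd rr s' σ τ) (Bt c (wi r k0)) (Mk ν K m c P (Fin.last n)) ≤ X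

end Vale.Agent.P166.L
end
end

section

section

/-!
P166, lower bound: Jensen's inequality and the invariance of the Haar measure; exchangeability of
the patterns.
-/

open MeasureTheory ProbabilityTheory Matrix Filter Topology

namespace Vale.Agent.P166.L

open Vale.Agent.P157.Lv Vale.Agent.P157.Par Md H U
open Vale.Agent.P166.F (frac)

section Perm

variable {N : ℕ} {ι X : Type} [DecidableEq ι]

/-- The transposition of the coordinates of the fields of the patterns `p` and `q`. -/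
def hj_tau (A : GS N ι X) (p q : Fin N) (e : ι) : ι :=
  Equiv.swap (A.bc (A.lev e) p) (A.bc (A.lev e) q) e

/-- The transposition of two patterns. -/
def hj_sw (w t : Fin N) : Matrix (Fin N) (Fin N) ℝ :=
  (1 : Matrix (Fin N) (Fin N) ℝ).submatrix (Equiv.swap w t) id

lemma hj_sw_mulVec (w t : Fin N) (v : Fin N → ℝ) (i : Fin N) :
    (hj_sw w t *ᵥ v) i = v (Equiv.swap w t i) := by
  simp [hj_sw, mulVec, dotProduct, one_apply]

lemma hj_sw_mem (w t : Fin N) : hj_sw w t ∈ orthogonalGroup (Fin N) ℝ := by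
  rw [mem_orthogonalGroup_iff]
  ext i j
  simp [hj_sw, mul_apply, one_apply, eq_comm]

variable [Fintype ι] {A : GS N ι X}

lemma hj_lev (hA : A.Ok) (p q : Fin N) (e : ι) : A.lev (hj_tau A p q e) = A.lev e := by
  unfold hj_tau
  rw [Equiv.swap_apply_def]
  split_ifs with h1 h2
  · exact hA.bclev _ (hA.lev e) q
  · exact hA.bclev _ (hA.lev e) p
  · rfl

lemma hj_invol (hA : A.Ok) (p q : Fin N) : Function.Involutive (hj_tau A p q) := by
  intro e
  have h := hj_lev hA p q e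
  show Equiv.swap (A.bc (A.lev (hj_tau A p q e)) p) (A.bc (A.lev (hj_tau A p q e)) q)
    (hj_tau A p q e) = e
  rw [h]
  exact Equiv.swap_apply_self _ _ _

lemma hj_tau_bc (hA : A.Ok) (p q : Fin N) {l : ℕ} (hl : l ≤ A.K) (i : Fin N) :
    hj_tau A p q (A.bc l i) = A.bc l (Equiv.swap p q i) := by
  have hinj : Function.Injective (A.bc l) := fun i j h => (hA.bcinj l hl l hl i j h).2
  unfold hj_tau
  rw [hA.bclev l hl i]
  exact hinj.swap_apply p q i

lemma hj_tau_of_ne (hA : A.Ok) (p q : Fin N) {e : ι} (he : ∀ l ≤ A.K, ∀ i, e ≠ A.bc l i) :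
    hj_tau A p q e = e :=
  Equiv.swap_apply_of_ne_of_ne (he _ (hA.lev e) p) (he _ (hA.lev e) q)

/-- The transformation of the coordinates. -/
lemma hj_rho (hA : A.Ok) (p q : Fin N) : Rho A.lev fun z e => z (hj_tau A p q e) := by
  refine ⟨measurable_pi_lambda _ fun e => measurable_pi_apply _, ?_, fun l z w => ?_⟩
  · refine gauss_iso (LinearMap.funLeft ℝ ℝ (hj_tau A p q)) fun z => ?_
    exact Equiv.sum_comp (hj_invol hA p q).toPerm fun e => z e ^ 2
  · funext e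
    unfold mix
    rw [hj_lev hA p q e]

lemma hj_en (hA : A.Ok) {p q : Fin N} (hl : A.lam p = A.lam q) (hp : A.kap p = 0)
    (hq : A.kap q = 0) (hu : ∀ l ≤ A.K, A.u p l = A.u q l) (U : Matrix (Fin N) (Fin N) ℝ) :
    A.en (hj_sw p q * U) = fun z x => A.en U (fun e => z (hj_tau A p q e)) x := by
  funext z x
  have hy : A.y (hj_sw p q * U) x = fun i => A.y U x (Equiv.swap p q i) := by
    funext i
    unfold GS.y
    rw [← mulVec_mulVec, hj_sw_mulVec]
  have hsw : ∀ f : Fin N → ℝ, f p = f q → ∀ i, f (Equiv.swap p q i) = f i := by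
    intro f hf i
    by_cases h1 : i = p
    · rw [h1, Equiv.swap_apply_left, hf]
    · by_cases h2 : i = q
      · rw [h2, Equiv.swap_apply_right, hf]
      · rw [Equiv.swap_apply_of_ne_of_ne h1 h2]
  unfold GS.en GS.ev
  rw [hy]
  congr 1
  · refine hA.e0 x _ _ fun e he => ?_
    rw [hj_tau_of_ne hA p q he]
  congr 1
  congr 1
  · rw [← Equiv.sum_comp (Equiv.swap p q) fun i => A.lam i / 2 * A.y U x i ^ 2]
    refine Finset.sum_congr rfl fun i _ => ?_
    rw [hsw A.lam hl]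
  · rw [← Equiv.sum_comp (Equiv.swap p q) fun i => A.kap i x * A.y U x i]
    refine Finset.sum_congr rfl fun i _ => ?_
    rw [hsw (fun i => A.kap i x) (by rw [hp, hq]) i]
  · refine Finset.sum_congr rfl fun l hl => ?_
    have hl' := Nat.lt_succ_iff.1 (Finset.mem_range.1 hl)
    rw [← Equiv.sum_comp (Equiv.swap p q) fun i => A.u i l *
      (z (hj_tau A p q (A.bc l i)) * A.y U x i)]
    refine Finset.sum_congr rfl fun i _ => ?_
    rw [hsw (fun i => A.u i l) (hu l hl') i, hj_tau_bc hA p q hl', Equiv.swap_apply_self]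

end Perm

variable {N K n : ℕ} {m : ℕ → ℝ}
  [MeasurableSpace (orthogonalGroup (Fin N) ℝ)] [BorelSpace (orthogonalGroup (Fin N) ℝ)]
  {ν : Measure (orthogonalGroup (Fin N) ℝ)} [IsProbabilityMeasure ν] [ν.IsMulLeftInvariant]

/-- **Jensen's inequality and invariance**: the free energies of the energies `H (L U)` and `H U`
have the same mean, and `fe (H (L U)) ≥ fe (H U) + Ex (H (L U) - H U)` (`Reg.jensen`). -/
theorem haar_jensen {ι X : Type} [Fintype ι] [Fintype X] [Nonempty X] {lev : ι → ℕ}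
    {H : Matrix (Fin N) (Fin N) ℝ → (ι → ℝ) → X → ℝ}
    (hR : ∀ U : orthogonalGroup (Fin N) ℝ, (⟨lev, K, m, H U.1⟩ : Sy ι X).Reg)
    (hI : Integrable (fun U : orthogonalGroup (Fin N) ℝ => (⟨lev, K, m, H U.1⟩ : Sy ι X).fe) ν)
    (L : orthogonalGroup (Fin N) ℝ) {v : orthogonalGroup (Fin N) ℝ → ℝ} (hv : Integrable v ν)
    (hle : ∀ U : orthogonalGroup (Fin N) ℝ, v U ≤ (⟨lev, K, m, H U.1⟩ : Sy ι X).Ex
      (fun z x => H (L.1 * U.1) z x - H U.1 z x)) :
    ∫ U, v U ∂ν ≤ 0 := by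
  have hI' : Integrable (fun U : orthogonalGroup (Fin N) ℝ =>
      (⟨lev, K, m, H (L * U).1⟩ : Sy ι X).fe) ν := hI.comp_mul_left L
  have h1 : ∀ U : orthogonalGroup (Fin N) ℝ, v U ≤ (⟨lev, K, m, H (L * U).1⟩ : Sy ι X).fe -
      (⟨lev, K, m, H U.1⟩ : Sy ι X).fe := fun U =>
    (hle U).trans ((hR U).jensen (H' := H (L * U).1) (hR (L * U)))
  have h2 := integral_mono hv (hI'.sub hI) h1
  have h3 : ∫ U : orthogonalGroup (Fin N) ℝ, ((⟨lev, K, m, H (L * U).1⟩ : Sy ι X).fe -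
      (⟨lev, K, m, H U.1⟩ : Sy ι X).fe) ∂ν = 0 := by
    rw [integral_sub hI' hI, integral_mul_left_eq_self (μ := ν)
      (fun U : orthogonalGroup (Fin N) ℝ => (⟨lev, K, m, H U.1⟩ : Sy ι X).fe) L, sub_self]
  exact h2.trans h3.le

/-- Exchangeability of two patterns which have the same parameters and no coupling to `x`: apply the
transposition of `p` and `q` to `U` and to the coordinates of the fields. -/
theorem exch_sq {ι X : Type} [Fintype ι] [DecidableEq ι] [Fintype X] [DecidableEq X] [Nonempty X]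
    {A : GS N ι X} (hA : A.Ok) {p q : Fin N} (hl : A.lam p = A.lam q) (hp : A.kap p = 0)
    (hq : A.kap q = 0) (hu : ∀ l ≤ A.K, A.u p l = A.u q l) :
    EU ν (fun U => (A.sy U).Ex (fun _ x => A.y U x p ^ 2)) =
      EU ν (fun U => (A.sy U).Ex (fun _ x => A.y U x q ^ 2)) := by
  set L : orthogonalGroup (Fin N) ℝ := ⟨hj_sw p q, hj_sw_mem p q⟩ with hL
  unfold EU
  rw [← integral_mul_left_eq_self (μ := ν) (fun U : orthogonalGroup (Fin N) ℝ =>
    (A.sy U.1).Ex (fun _ x => A.y U.1 x p ^ 2)) L]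
  congr 1
  funext U
  have e1 : A.sy (L * U).1 = pb (A.sy U.1) fun z e => z (hj_tau A p q e) := by
    show A.sy (hj_sw p q * U.1) = _
    unfold GS.sy pb Sy.wH
    rw [hj_en hA hl hp hq hu]
  have e2 : ∀ x, A.y (L * U).1 x p = A.y U.1 x q := fun x => by
    show A.y (hj_sw p q * U.1) x p = _
    unfold GS.y
    rw [← mulVec_mulVec, hj_sw_mulVec, Equiv.swap_apply_left]
  have e3 := (hj_rho hA p q).Ex (hA.regG U.1) (h := fun _ x => A.y U.1 x q ^ 2)
    (fun _ => EG.const _)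
  show (A.sy (L * U).1).Ex (fun _ x => A.y (L * U).1 x p ^ 2) =
    (A.sy U.1).Ex (fun _ x => A.y U.1 x q ^ 2)
  rw [← e3, e1]
  congr 1
  funext _ x
  rw [e2]

/-- The second moment of a pattern of the model is `rho / frac`. -/
theorem mdl_sq {κ : ℕ} (hN : 0 < N) (hm : Exponents K m) (c : Fin N → Fin κ) (P : Pm κ)
    (i : Fin N) : frac c (c i) * EU ν (fun U => (mdl K m c P U).Ex (fun _ x => ph U x i ^ 2)) =
      rho ν K m c P (c i) := by
  have hA := ngs_ok hm c P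
  have hex : ∀ j ∈ Finset.univ.filter (fun j => c j = c i),
      EU ν (fun U => (mdl K m c P U).Ex (fun _ x => ph U x j ^ 2)) =
      EU ν (fun U => (mdl K m c P U).Ex (fun _ x => ph U x i ^ 2)) := by
    intro j hj
    have hj' : c j = c i := (Finset.mem_filter.1 hj).2
    have h := exch_sq (ν := ν) hA (p := j) (q := i) (by show P.b (c j) = P.b (c i); rw [hj'])
      rfl rfl (fun l _ => by show P.u (c j) l = P.u (c i) l; rw [hj'])
    simp only [ngs_sy] at h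
    exact h
  have hint : ∀ j, Integrable (fun U : orthogonalGroup (Fin N) ℝ =>
      (mdl K m c P U.1).Ex (fun _ x => ph U.1 x j ^ 2)) ν := by
    intro j
    have h := int_gs_Ex ν hA (f := fun U x => (ngs K m c P).y U x j ^ 2)
      (fun x => (GS.mm_y (ngs K m c P) j x).pow_const 2) (by
        obtain ⟨C, hC⟩ := hA.ub_y j
        exact ⟨C ^ 2, fun U x => by
          rw [abs_pow]; exact pow_le_pow_left₀ (abs_nonneg _) (hC U x) 2⟩)
    simp only [ngs_sy] at h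
    exact h
  have e1 : ∀ U : orthogonalGroup (Fin N) ℝ, (mdl K m c P U.1).Ex (fun _ x => Rb c U.1 (c i) x x) =
      1 / N * ∑ j ∈ Finset.univ.filter (fun j => c j = c i),
        (mdl K m c P U.1).Ex (fun _ x => ph U.1 x j ^ 2) := by
    intro U
    have hG : RegG (mdl K m c P U.1) := by rw [← ngs_sy]; exact hA.regG U.1
    have e2 : (fun (_ : Ix N K → ℝ) x => Rb c U.1 (c i) x x) = fun _ x => 1 / N *
        ∑ j ∈ Finset.univ.filter (fun j => c j = c i), ph U.1 x j ^ 2 := by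
      funext _ x
      unfold Rb
      rw [Finset.sum_filter]
      congr 1
      refine Finset.sum_congr rfl fun j _ => ?_
      split_ifs
      · ring
      · rfl
    have e4 := hG.Ex_sum (Finset.univ.filter fun j => c j = c i)
      (f := fun j (_ : Ix N K → ℝ) x => ph U.1 x j ^ 2) fun j _ => fun _ => EG.const _
    rw [e2, Sy.Ex_const_mul, e4]
  unfold rho EU
  simp only [e1]
  rw [integral_const_mul, integral_finsetSum _ fun j _ => hint j]
  have e3 : ∑ j ∈ Finset.univ.filter (fun j => c j = c i), ∫ U : orthogonalGroup (Fin N) ℝ,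
      (mdl K m c P U.1).Ex (fun _ x => ph U.1 x j ^ 2) ∂ν =
      ∑ _j ∈ Finset.univ.filter (fun j => c j = c i),
        EU ν (fun U => (mdl K m c P U).Ex (fun _ x => ph U x i ^ 2)) :=
    Finset.sum_congr rfl hex
  rw [e3, Finset.sum_const, nsmul_eq_mul]
  unfold frac EU
  ring

end Vale.Agent.P166.L
end
end

section

section

/-!
P166, lower bound: second moments of the patterns of general systems.
-/

open MeasureTheory ProbabilityTheory Matrix Filter Topology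
open Vale.Agent.P157.Lv Vale.Agent.P157.Lv.Sy
open Vale.Agent.P166.Md (EU)

namespace Vale.Agent.P166.H

open Vale.Agent

set_option linter.unusedSectionVars false

/-! ### General systems -/

section Gen

variable {N : ℕ} {ι X : Type} [Fintype ι] [DecidableEq ι] [Fintype X] [DecidableEq X] [Nonempty X]

omit [DecidableEq X] in
/-- Integration by parts against a function which does not depend on the fields. -/
lemma m2_ibp {S : Sy ι X} {e : ι} {u : ℝ} {f : X → ℝ} (hS : RegE S e (fun _ x => u * f x))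
    (g : X → ℝ) : |S.Ex (fun z x => z e * g x)| ≤
      |u| * (1 / 2 * S.Ex (fun _ x => g x ^ 2) + 2 * S.Ex (fun _ x => f x ^ 2)) := by
  have hG := hS.toRegG
  have nf : Nh (fun (_ : ι → ℝ) x => f x) := Nh.snd f
  have ng : Nh (fun (_ : ι → ℝ) x => g x) := Nh.snd g
  have nf2 : Nh (fun (_ : ι → ℝ) x => f x ^ 2) := Nh.snd fun x => f x ^ 2
  have ng2 : Nh (fun (_ : ι → ℝ) x => g x ^ 2) := Nh.snd fun x => g x ^ 2
  have nT : ∀ l ∈ Finset.Ico (S.lev e) (S.K + 1), Nh (X := X) fun z _ => S.T l (fun _ => f) z :=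
    fun i hi => Nh.fst (hG.eg_T (Nat.lt_succ_iff.1 (Finset.mem_Ico.1 hi).2) nf)
  have h := hS.ibp (h := fun _ x => g x) (h' := fun _ _ => 0)
    (fun x => PD.const (g x)) ng (fun _ => EG.const 0)
  have nsum : Nh (X := X) fun z _ => ∑ l ∈ Finset.Ico (S.lev e) (S.K + 1),
      S.p l * S.T l (fun _ => f) z := Nh.sum _ fun i hi => Nh.const_mul _ (nT i hi)
  have nsum2 : Nh (X := X) fun z _ => ∑ l ∈ Finset.Ico (S.lev e) (S.K + 1),
      S.p l * S.T l (fun _ => f) z ^ 2 := Nh.sum _ fun i hi => Nh.const_mul _ (Nh.pow (nT i hi) 2)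
  have hp : ∀ j ∈ Finset.Ico (S.lev e) (S.K + 1), 0 ≤ S.p j := fun j hj =>
    p_nonneg hG (Nat.lt_succ_iff.1 (Finset.mem_Ico.1 hj).2)
  have e1 : (fun z x => 0 + g x * (u * f x - ∑ l ∈ Finset.Ico (S.lev e) (S.K + 1),
      S.p l * S.T l (fun _ x => u * f x) z)) = fun z x => u * (g x * (f x -
        ∑ l ∈ Finset.Ico (S.lev e) (S.K + 1), S.p l * S.T l (fun _ => f) z)) := by
    funext z x
    have : ∀ l ∈ Finset.Ico (S.lev e) (S.K + 1), S.p l * S.T l (fun _ x => u * f x) z =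
        u * (S.p l * S.T l (fun _ => f) z) := fun l _ => by
      rw [T_const_mul]; ring
    rw [Finset.sum_congr rfl this, ← Finset.mul_sum]
    ring
  rw [e1, Ex_const_mul] at h
  rw [h, abs_mul]
  refine mul_le_mul_of_nonneg_left ?_ (abs_nonneg _)
  have hle := hG.abs_Ex_le_of (f := fun z x => g x * (f x -
        ∑ l ∈ Finset.Ico (S.lev e) (S.K + 1), S.p l * S.T l (fun _ => f) z))
      (g := fun z x => 1 / 2 * g x ^ 2 + (f x ^ 2 +
        ∑ l ∈ Finset.Ico (S.lev e) (S.K + 1), S.p l * S.T l (fun _ => f) z ^ 2))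
      (Nh.mul ng (Nh.sub nf nsum))
      (Nh.add (Nh.const_mul _ ng2) (Nh.add nf2 nsum2)) fun z x => by
    have c2 : (∑ j ∈ Finset.Ico (S.lev e) (S.K + 1), S.p j * S.T j (fun _ => f) z) ^ 2 ≤
        ∑ j ∈ Finset.Ico (S.lev e) (S.K + 1), S.p j * S.T j (fun _ => f) z ^ 2 := by
      have hcs := Finset.sum_mul_sq_le_sq_mul_sq (Finset.Ico (S.lev e) (S.K + 1))
        (fun j => Real.sqrt (S.p j)) (fun j => Real.sqrt (S.p j) * S.T j (fun _ => f) z)
      have s1 : ∑ j ∈ Finset.Ico (S.lev e) (S.K + 1), Real.sqrt (S.p j) *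
          (Real.sqrt (S.p j) * S.T j (fun _ => f) z) = ∑ j ∈ Finset.Ico (S.lev e) (S.K + 1),
            S.p j * S.T j (fun _ => f) z :=
        Finset.sum_congr rfl fun j hj => by rw [← mul_assoc, Real.mul_self_sqrt (hp j hj)]
      have s2 : ∑ j ∈ Finset.Ico (S.lev e) (S.K + 1), Real.sqrt (S.p j) ^ 2 ≤ 1 := by
        rw [Finset.sum_congr rfl fun j hj => Real.sq_sqrt (hp j hj)]
        exact sum_p_le hG (by have := hG.lev e; omega) le_rfl
      have s3 : ∑ j ∈ Finset.Ico (S.lev e) (S.K + 1),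
          (Real.sqrt (S.p j) * S.T j (fun _ => f) z) ^ 2 =
          ∑ j ∈ Finset.Ico (S.lev e) (S.K + 1), S.p j * S.T j (fun _ => f) z ^ 2 :=
        Finset.sum_congr rfl fun j hj => by rw [mul_pow, Real.sq_sqrt (hp j hj)]
      have s4 : 0 ≤ ∑ j ∈ Finset.Ico (S.lev e) (S.K + 1), S.p j * S.T j (fun _ => f) z ^ 2 :=
        Finset.sum_nonneg fun j hj => mul_nonneg (hp j hj) (sq_nonneg _)
      rw [s1, s3] at hcs
      calc _ ≤ _ := hcs
        _ ≤ 1 * _ := mul_le_mul_of_nonneg_right s2 s4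
        _ = _ := one_mul _
    set q := ∑ j ∈ Finset.Ico (S.lev e) (S.K + 1), S.p j * S.T j (fun _ => f) z
    rw [abs_le]
    constructor <;> linarith only [c2, sq_nonneg (g x + (f x - q)), sq_nonneg (f x + q), sq_nonneg (g x - (f x - q))]
  rw [hG.Ex_add (Nh.const_mul _ ng2) (Nh.add nf2 nsum2), Ex_const_mul,
    hG.Ex_add nf2 nsum2] at hle
  have h5 : S.Ex (fun z _ => ∑ l ∈ Finset.Ico (S.lev e) (S.K + 1),
      S.p l * S.T l (fun _ => f) z ^ 2) ≤ S.Ex (fun _ x => f x ^ 2) := by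
    rw [hG.Ex_sum _ fun i hi => Nh.const_mul _ (Nh.pow (nT i hi) 2)]
    have h6 : ∀ i ∈ Finset.Ico (S.lev e) (S.K + 1), S.Ex (fun z _ => S.p i *
        S.T i (fun _ => f) z ^ 2) ≤ S.p i * S.Ex (fun _ x => f x ^ 2) := by
      intro i hi
      have hi' := Nat.lt_succ_iff.1 (Finset.mem_Ico.1 hi).2
      rw [Ex_const_mul]
      refine mul_le_mul_of_nonneg_left ?_ (hp i hi)
      rw [← hG.Ex_T hi' nf2]
      exact hG.Ex_mono (Nh.pow (nT i hi) 2) (Nh.fst (hG.eg_T hi' nf2)) fun z _ =>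
        hG.sq_T_le hi' nf z
    refine (Finset.sum_le_sum h6).trans ?_
    rw [← Finset.sum_mul]
    have h7 := sum_p_le hG (a := S.lev e) (b := S.K + 1) (by have := hG.lev e; omega) le_rfl
    have h8 := hG.Ex_nonneg nf2 fun z x => sq_nonneg _
    nlinarith only [h7, h8]
  linarith

/-- The matrix of a transposition. -/
def m2_sw (w t : Fin N) : Matrix (Fin N) (Fin N) ℝ :=
  (1 : Matrix (Fin N) (Fin N) ℝ).submatrix (Equiv.swap w t) id

lemma m2_sw_mulVec (w t : Fin N) (v : Fin N → ℝ) (i : Fin N) :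
    (m2_sw w t *ᵥ v) i = v (Equiv.swap w t i) := by
  simp only [mulVec, dotProduct, m2_sw, submatrix_apply, one_apply, id_eq, ite_mul, one_mul, zero_mul, Finset.sum_ite_eq, Finset.mem_univ, ↓reduceIte]

lemma m2_sw_mem (w t : Fin N) : m2_sw w t ∈ orthogonalGroup (Fin N) ℝ := by
  rw [mem_orthogonalGroup_iff]
  ext i j
  simp only [m2_sw, transpose_submatrix, transpose_one, mul_apply, submatrix_apply, one_apply, id_eq, eq_comm, mul_ite, mul_one, mul_zero, Finset.sum_ite_eq', Finset.mem_univ, ↓reduceIte, EmbeddingLike.apply_eq_iff_eq]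

/-- The change of the energy under a transposition. -/
lemma m2_diff (A : GS N ι X) {w t : Fin N} (hwt : w ≠ t) (ht : A.kap t = 0)
    (hw : ∀ l ≤ A.K, A.u w l = 0) (U : Matrix (Fin N) (Fin N) ℝ) (z : ι → ℝ) (x : X) :
    A.en (m2_sw w t * U) z x - A.en U z x = (A.lam t - A.lam w) / 2 * (A.y U x w ^ 2 -
      A.y U x t ^ 2) + (A.kap w x * (A.y U x t - A.y U x w)) +
      ∑ l ∈ Finset.range (A.K + 1), A.u t l * (z (A.bc l t) * (A.y U x w - A.y U x t)) := by
  have hy : A.y (m2_sw w t * U) x = fun i => A.y U x (Equiv.swap w t i) := by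
    funext i
    unfold GS.y
    rw [← mulVec_mulVec, m2_sw_mulVec]
  have key : ∀ F : Fin N → ℝ → ℝ, ∑ i, F i (A.y U x (Equiv.swap w t i)) - ∑ i, F i (A.y U x i) =
      (F w (A.y U x t) - F w (A.y U x w)) + (F t (A.y U x w) - F t (A.y U x t)) := by
    intro F
    rw [← Finset.sum_sub_distrib, Fintype.sum_eq_add w t hwt]
    · rw [Equiv.swap_apply_left, Equiv.swap_apply_right]
    · rintro i ⟨h1, h2⟩
      rw [Equiv.swap_apply_of_ne_of_ne h1 h2, sub_self]
  unfold GS.en GS.ev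
  rw [hy]
  have k1 := key fun i s => A.lam i / 2 * s ^ 2
  have k2 := key fun i s => A.kap i x * s
  have k3 : ∑ l ∈ Finset.range (A.K + 1), ∑ i, A.u i l * (z (A.bc l i) *
        A.y U x (Equiv.swap w t i)) - ∑ l ∈ Finset.range (A.K + 1), ∑ i, A.u i l *
        (z (A.bc l i) * A.y U x i) =
      ∑ l ∈ Finset.range (A.K + 1), A.u t l * (z (A.bc l t) * (A.y U x w - A.y U x t)) := by
    rw [← Finset.sum_sub_distrib]
    refine Finset.sum_congr rfl fun l hl => ?_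
    rw [key fun i s => A.u i l * (z (A.bc l i) * s), hw l (Nat.lt_succ_iff.1
      (Finset.mem_range.1 hl))]
    ring
  have h0 : A.kap t x = 0 := by rw [ht]; rfl
  simp only at k1 k2 k3 ⊢
  rw [h0] at k2
  linarith

end Gen

section Gen2

variable {N : ℕ} [MeasurableSpace (orthogonalGroup (Fin N) ℝ)]
  [BorelSpace (orthogonalGroup (Fin N) ℝ)] {ι X : Type} [Fintype ι] [DecidableEq ι]
  [Fintype X] [DecidableEq X] [Nonempty X]
  {ν : Measure (orthogonalGroup (Fin N) ℝ)} [IsProbabilityMeasure ν]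

omit [DecidableEq ι] [DecidableEq X] in
lemma m2_int_sq {A : GS N ι X} (hA : A.Ok) (i : Fin N) :
    Integrable (fun U : orthogonalGroup (Fin N) ℝ =>
      (A.sy U.1).Ex (fun _ x => A.y U.1 x i ^ 2)) ν := by
  have h := hA.int_E2 ν (GS.mm_y A i) (hA.ub_y i)
  exact h

omit [DecidableEq ι] [DecidableEq X] in
/-- The second moments sum up to `N`. -/
lemma m2_sum {A : GS N ι X} (hA : A.Ok) :
    ∑ i, EU ν (fun U => (A.sy U).Ex (fun _ x => A.y U x i ^ 2)) = N := by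
  unfold EU
  rw [← integral_finsetSum _ fun i _ => m2_int_sq hA i]
  have h : ∀ U : orthogonalGroup (Fin N) ℝ, ∑ i, (A.sy U.1).Ex (fun _ x => A.y U.1 x i ^ 2) =
      N := fun U => by
    have hG := hA.regG U.1
    have e := hG.Ex_sum Finset.univ (f := fun i (_ : ι → ℝ) x => A.y U.1 x i ^ 2)
      fun i _ => Nh.snd fun x => A.y U.1 x i ^ 2
    rw [← e]
    have e2 : (fun (_ : ι → ℝ) x => ∑ i, A.y U.1 x i ^ 2) = fun _ _ => (N : ℝ) := by
      funext _ x
      exact hA.sum_y U.2 x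
    rw [e2, hG.Ex_const]
  simp only [h]
  simp only [integral_const, probReal_univ, smul_eq_mul, one_mul]

variable [ν.IsMulLeftInvariant]

/-- Exchangeable patterns have bounded second moments. -/
theorem m2_exch {A : GS N ι X} (hA : A.Ok) {t : Fin N} {B : Finset (Fin N)}
    (hl : ∀ i ∈ B, A.lam i = A.lam t) (hk : ∀ i ∈ B, A.kap i = 0) (hkt : A.kap t = 0)
    (hu : ∀ i ∈ B, ∀ l ≤ A.K, A.u i l = A.u t l) :
    (B.card : ℝ) * EU ν (fun U => (A.sy U).Ex (fun _ x => A.y U x t ^ 2)) ≤ N := by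
  have h0 : ∀ i, 0 ≤ EU ν (fun U => (A.sy U).Ex (fun _ x => A.y U x i ^ 2)) := fun i =>
    integral_nonneg fun U => (hA.regG U.1).Ex_nonneg (Nh.snd fun x => A.y U.1 x i ^ 2)
      fun _ _ => sq_nonneg _
  have h1 : ∀ i ∈ B, EU ν (fun U => (A.sy U).Ex (fun _ x => A.y U x i ^ 2)) =
      EU ν (fun U => (A.sy U).Ex (fun _ x => A.y U x t ^ 2)) := fun i hi =>
    L.exch_sq hA (hl i hi) (hk i hi) hkt (hu i hi)
  have h2 := Finset.sum_le_sum_of_subset_of_nonneg (Finset.subset_univ B)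
    (f := fun i => EU ν (fun U => (A.sy U).Ex (fun _ x => A.y U x i ^ 2))) fun i _ _ => h0 i
  rw [m2_sum hA, Finset.sum_congr rfl h1, Finset.sum_const, nsmul_eq_mul] at h2
  exact h2

/-- **The second moment of a pattern with a smaller potential.** -/
theorem m2_swap {A : GS N ι X} (hA : A.Ok) {w t : Fin N} {k : ℝ}
    (hlam : A.lam w < A.lam t) (ht : A.kap t = 0) (hk : ∀ x, |A.kap w x| ≤ k)
    (hw : ∀ l ≤ A.K, A.u w l = 0)
    (hs : ∑ l ∈ Finset.range (A.K + 1), A.u t l ^ 2 ≤ (A.lam t - A.lam w) / 8) :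
    EU ν (fun U => (A.sy U).Ex (fun _ x => A.y U x w ^ 2)) ≤
      4 * EU ν (fun U => (A.sy U).Ex (fun _ x => A.y U x t ^ 2)) +
        16 * k ^ 2 / (A.lam t - A.lam w) ^ 2 := by
  have hwt : w ≠ t := fun h => by rw [h] at hlam; exact lt_irrefl _ hlam
  obtain ⟨d, hd⟩ : ∃ d, d = A.lam t - A.lam w := ⟨_, rfl⟩
  have hd0 : 0 < d := by rw [hd]; linarith only [hlam]
  rw [← hd] at hs ⊢
  set Lm : orthogonalGroup (Fin N) ℝ := ⟨m2_sw w t, m2_sw_mem w t⟩ with hL
  set W : orthogonalGroup (Fin N) ℝ → ℝ := fun U =>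
    (A.sy U.1).Ex (fun _ x => A.y U.1 x w ^ 2) with hW
  set T : orthogonalGroup (Fin N) ℝ → ℝ := fun U =>
    (A.sy U.1).Ex (fun _ x => A.y U.1 x t ^ 2) with hT
  have iW : Integrable W ν := m2_int_sq hA w
  have iT : Integrable T ν := m2_int_sq hA t
  have iW' : Integrable (fun U => d / 4 * W U) ν := iW.const_mul _
  have iT' : Integrable (fun U => d * T U) ν := iT.const_mul _
  have iWT : Integrable (fun U => d / 4 * W U - d * T U) ν := iW'.sub iT'
  have iv : Integrable (fun U => d / 4 * W U - d * T U - 4 * k ^ 2 / d) ν :=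
    iWT.sub (integrable_const _)
  have hle : ∀ U : orthogonalGroup (Fin N) ℝ, d / 4 * W U - d * T U - 4 * k ^ 2 / d ≤
      (A.sy U.1).Ex (fun z x => A.en (Lm.1 * U.1) z x - A.en U.1 z x) := by
    intro U
    have hG := hA.regG U.1
    have nw2 : Nh (fun (_ : ι → ℝ) x => A.y U.1 x w ^ 2) := Nh.snd fun x => A.y U.1 x w ^ 2
    have nt2 : Nh (fun (_ : ι → ℝ) x => A.y U.1 x t ^ 2) := Nh.snd fun x => A.y U.1 x t ^ 2
    have n1 : Nh (fun (_ : ι → ℝ) x => d / 2 * (A.y U.1 x w ^ 2 - A.y U.1 x t ^ 2) +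
        A.kap w x * (A.y U.1 x t - A.y U.1 x w)) := Nh.snd _
    have n2 : ∀ l, Nh (fun (z : ι → ℝ) x => z (A.bc l t) * (A.y U.1 x w - A.y U.1 x t)) :=
      fun l => Nh.mul (fun _ => EG.coord _) (Nh.snd fun x => A.y U.1 x w - A.y U.1 x t)
    have n3 : Nh (fun (z : ι → ℝ) x => ∑ l ∈ Finset.range (A.K + 1), A.u t l *
        (z (A.bc l t) * (A.y U.1 x w - A.y U.1 x t))) :=
      Nh.sum _ fun l _ => Nh.const_mul _ (n2 l)
    have e1 : (fun z x => A.en (Lm.1 * U.1) z x - A.en U.1 z x) = fun z x =>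
        (d / 2 * (A.y U.1 x w ^ 2 - A.y U.1 x t ^ 2) +
        A.kap w x * (A.y U.1 x t - A.y U.1 x w)) +
        ∑ l ∈ Finset.range (A.K + 1), A.u t l *
          (z (A.bc l t) * (A.y U.1 x w - A.y U.1 x t)) := by
      funext z x
      rw [hd]
      exact m2_diff A hwt ht hw U.1 z x
    rw [e1, hG.Ex_add n1 n3]
    -- the first part
    have p1 : (A.sy U.1).Ex (fun _ x => d / 2 * (A.y U.1 x w ^ 2 - A.y U.1 x t ^ 2) +
        A.kap w x * (A.y U.1 x t - A.y U.1 x w)) ≥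
        3 * d / 8 * W U - 5 * d / 8 * T U - 4 * k ^ 2 / d := by
      have h1 := hG.Ex_mono (f := fun (_ : ι → ℝ) x => 3 * d / 8 * A.y U.1 x w ^ 2 +
        -(5 * d / 8) * A.y U.1 x t ^ 2 + -(4 * k ^ 2 / d))
        (Nh.add (Nh.add (Nh.const_mul _ nw2) (Nh.const_mul _ nt2)) (fun _ => EG.const _)) n1
        fun _ x => by
          have h2 : |A.kap w x * (A.y U.1 x t - A.y U.1 x w)| ≤
              d / 16 * (A.y U.1 x t - A.y U.1 x w) ^ 2 + 4 * k ^ 2 / d := by
            rw [abs_mul]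
            have h3 := mul_le_mul_of_nonneg_right (hk x) (abs_nonneg (A.y U.1 x t - A.y U.1 x w))
            refine h3.trans ?_
            rw [← sub_nonneg, ← sq_abs (A.y U.1 x t - A.y U.1 x w)]
            have e : d / 16 * |A.y U.1 x t - A.y U.1 x w| ^ 2 + 4 * k ^ 2 / d -
                k * |A.y U.1 x t - A.y U.1 x w| =
                (d * |A.y U.1 x t - A.y U.1 x w| - 8 * k) ^ 2 / (16 * d) := by
              field_simp
              ring
            rw [e]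
            positivity
          have h4 := (abs_le.1 h2).1
          have h5 : d / 16 * (A.y U.1 x t - A.y U.1 x w) ^ 2 ≤
              d / 8 * A.y U.1 x t ^ 2 + d / 8 * A.y U.1 x w ^ 2 := by
            linarith only [mul_nonneg hd0.le (sq_nonneg (A.y U.1 x t + A.y U.1 x w))]
          linarith only [h4, h5]
      rw [hG.Ex_add (Nh.add (Nh.const_mul _ nw2) (Nh.const_mul _ nt2)) (fun _ => EG.const _),
        hG.Ex_add (Nh.const_mul _ nw2) (Nh.const_mul _ nt2), Ex_const_mul, Ex_const_mul,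
        hG.Ex_const] at h1
      have h6 : 3 * d / 8 * W U + -(5 * d / 8) * T U + -(4 * k ^ 2 / d) ≤
        (A.sy U.1).Ex (fun _ x => d / 2 * (A.y U.1 x w ^ 2 - A.y U.1 x t ^ 2) +
        A.kap w x * (A.y U.1 x t - A.y U.1 x w)) := h1
      linarith only [h1]
    have hW0 : 0 ≤ W U := hG.Ex_nonneg nw2 fun _ _ => sq_nonneg _
    have hT0 : 0 ≤ T U := hG.Ex_nonneg nt2 fun _ _ => sq_nonneg _
    have p2 : -(d / 8 * (W U + 3 * T U)) ≤ (A.sy U.1).Ex (fun (z : ι → ℝ) x =>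
        ∑ l ∈ Finset.range (A.K + 1), A.u t l *
          (z (A.bc l t) * (A.y U.1 x w - A.y U.1 x t))) := by
      rw [hG.Ex_sum _ fun l _ => Nh.const_mul _ (n2 l)]
      have h1 : ∀ l ∈ Finset.range (A.K + 1), -(A.u t l ^ 2 * (W U + 3 * T U)) ≤
          (A.sy U.1).Ex (fun (z : ι → ℝ) x => A.u t l *
            (z (A.bc l t) * (A.y U.1 x w - A.y U.1 x t))) := by
        intro l hl
        have hl' := Nat.lt_succ_iff.1 (Finset.mem_range.1 hl)
        rw [Ex_const_mul]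
        have h2 := m2_ibp (hA.regE U.1 hl' t) (fun x => A.y U.1 x w - A.y U.1 x t)
        have h3 : (A.sy U.1).Ex (fun _ x => (A.y U.1 x w - A.y U.1 x t) ^ 2) ≤
            2 * W U + 2 * T U := by
          have h4 := hG.Ex_mono (f := fun (_ : ι → ℝ) x => (A.y U.1 x w - A.y U.1 x t) ^ 2)
            (g := fun _ x => 2 * A.y U.1 x w ^ 2 + 2 * A.y U.1 x t ^ 2)
            (Nh.snd fun x => (A.y U.1 x w - A.y U.1 x t) ^ 2)
            (Nh.add (Nh.const_mul _ nw2) (Nh.const_mul _ nt2)) fun _ x => by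
              linarith only [sq_nonneg (A.y U.1 x w + A.y U.1 x t)]
          rw [hG.Ex_add (Nh.const_mul _ nw2) (Nh.const_mul _ nt2), Ex_const_mul,
            Ex_const_mul] at h4
          exact h4
        have h5 : |(A.sy U.1).Ex (fun z x => z (A.bc l t) * (A.y U.1 x w - A.y U.1 x t))| ≤
            |A.u t l| * (W U + 3 * T U) := by
          refine h2.trans (mul_le_mul_of_nonneg_left ?_ (abs_nonneg _))
          have h6 : (A.sy U.1).Ex (fun _ x => A.y U.1 x t ^ 2) = T U := rfl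
          rw [h6]
          linarith only [h3]
        have h7 : |A.u t l * (A.sy U.1).Ex (fun z x => z (A.bc l t) *
            (A.y U.1 x w - A.y U.1 x t))| ≤ A.u t l ^ 2 * (W U + 3 * T U) := by
          rw [abs_mul, ← sq_abs (A.u t l)]
          have := mul_le_mul_of_nonneg_left h5 (abs_nonneg (A.u t l))
          linarith only [this]
        exact (abs_le.1 h7).1
      refine le_trans ?_ (Finset.sum_le_sum h1)
      rw [Finset.sum_neg_distrib, ← Finset.sum_mul]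
      have h8 : 0 ≤ W U + 3 * T U := by linarith only [hW0, hT0]
      have := mul_le_mul_of_nonneg_right hs h8
      linarith only [this]
    linarith
  have hj := L.haar_jensen (ν := ν) (lev := A.lev) (K := A.K) (m := A.m) (H := A.en)
    (fun U => hA.reg U.1) (L.int_gs_fe ν hA) Lm iv hle
  rw [integral_sub iWT (integrable_const _), integral_sub iW' iT', integral_const_mul,
    integral_const_mul, integral_const] at hj
  simp only [probReal_univ, one_smul] at hj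
  have hj' : d / 4 * (∫ U, W U ∂ν) ≤ d * (∫ U, T U ∂ν) + 4 * k ^ 2 / d := by linarith only [hj]
  have h9 : (∫ U, W U ∂ν) ≤ 4 * (∫ U, T U ∂ν) + 16 * k ^ 2 / d ^ 2 := by
    have h10 := mul_le_mul_of_nonneg_left hj' (by positivity : 0 ≤ 4 / d)
    have e1 : 4 / d * (d / 4 * (∫ U, W U ∂ν)) = ∫ U, W U ∂ν := by field_simp
    have e2 : 4 / d * (d * (∫ U, T U ∂ν) + 4 * k ^ 2 / d) =
        4 * (∫ U, T U ∂ν) + 16 * k ^ 2 / d ^ 2 := by field_simp; ring
    rw [e1, e2] at h10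
    exact h10
  exact h9

end Gen2

end Vale.Agent.P166.H
end
end

section

section

/-!
P166, lower bound: second moments of the patterns which are replaced by outliers, and the free
energies of the systems with a new spin.
-/

open MeasureTheory ProbabilityTheory Matrix Filter Topology

namespace Vale.Agent.P166.L

open Vale.Agent.P157 (spin)
open Vale.Agent.P157.Lv Vale.Agent.P157.Par Md H U
open Vale.Agent.P166.F (frac)

variable {n : ℕ}

/-- A positive lower bound of finitely many positive numbers. -/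
noncomputable def m2_inv {κ : ℕ} (f : Fin κ → ℝ) : ℝ := 1 / (1 + ∑ j, 1 / f j)

lemma m2_inv_pos {κ : ℕ} {f : Fin κ → ℝ} (hf : ∀ j, 0 < f j) : 0 < m2_inv f := by
  have : 0 ≤ ∑ j, 1 / f j := Finset.sum_nonneg fun j _ => (one_div_pos.2 (hf j)).le
  unfold m2_inv
  positivity

lemma m2_inv_le {κ : ℕ} {f : Fin κ → ℝ} (hf : ∀ j, 0 < f j) (j : Fin κ) : m2_inv f ≤ f j := by
  have h1 : 1 / f j ≤ ∑ j, 1 / f j :=
    Finset.single_le_sum (f := fun j => 1 / f j) (fun j _ => (one_div_pos.2 (hf j)).le)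
      (Finset.mem_univ j)
  have h2 : 1 / f j ≤ 1 + ∑ j, 1 / f j := by linarith only [h1]
  unfold m2_inv
  have h3 := one_div_le_one_div_of_le (one_div_pos.2 (hf j)) h2
  rwa [one_div_one_div] at h3

lemma m2_wi_inj {N : ℕ} {c : Fin N → Fin (n + 1)} {r : Fin (n + 1) → Fin N}
    (hr : ∀ k, c (r k) = k) (k0 : Fin (n + 1)) : Function.Injective (wi r k0) := by
  intro i j h
  have h1 : c (wi r k0 i) = c (wi r k0 j) := by rw [h]
  unfold wi at h1
  rw [hr, hr] at h1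
  exact Fin.succAbove_right_injective h1

lemma m2_mem_Bt {N : ℕ} {c : Fin N → Fin (n + 1)} {w : Fin n → Fin N} {t : Fin N}
    (ht : t ∈ Bt c w) : c t = Fin.last n ∧ ¬∃ j, w j = t := by
  unfold Bt at ht
  rw [Finset.mem_sdiff] at ht
  refine ⟨?_, fun ⟨j, hj⟩ => ht.2 ?_⟩
  · have := ht.1
    simp only [blk, Finset.mem_filter, Finset.mem_univ, true_and] at this
    exact this
  · rw [← hj]
    exact Finset.mem_image_of_mem _ (Finset.mem_univ j)

section GEl

variable {N K : ℕ} {m : ℕ → ℝ} {b α : Fin (n + 1) → ℝ} {μ g : Fin n → ℝ}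
  {c : Fin N → Fin (n + 1)} {P : Pm (n + 1)} {r : Fin (n + 1) → Fin N} {k0 : Fin (n + 1)}
  {rd : ℝ} {rr s' : ℕ → ℝ} {σ τ : ℝ}

lemma m2_lam {t : Fin N} (ht : t ∈ Bt c (wi r k0)) :
    (GE K m b α μ g c P r k0 rd rr s' σ τ).lam t = P.b (Fin.last n) := by
  obtain ⟨h1, h2⟩ := m2_mem_Bt ht
  show Function.extend (wi r k0) μ (fun i => P.b (c i)) t = _
  rw [Function.extend_apply' _ _ _ h2, h1]

lemma m2_kap {t : Fin N} (ht : t ∈ Bt c (wi r k0)) :
    (GE K m b α μ g c P r k0 rd rr s' σ τ).kap t = 0 := by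
  obtain ⟨h1, h2⟩ := m2_mem_Bt ht
  funext x
  show Function.extend (wi r k0) (fun j => σ * g j) (fun _ => 0) t * sg1 x.1 = _
  rw [Function.extend_apply' _ _ _ h2, zero_mul]
  rfl

lemma m2_u {t : Fin N} (ht : t ∈ Bt c (wi r k0)) :
    (GE K m b α μ g c P r k0 rd rr s' σ τ).u t = P.u (Fin.last n) := by
  obtain ⟨h1, h2⟩ := m2_mem_Bt ht
  show Function.extend (wi r k0) (fun _ _ => 0) (fun i => P.u (c i)) t = _
  rw [Function.extend_apply' _ _ _ h2, h1]

lemma m2_lam_w (hr : ∀ k, c (r k) = k) (j : Fin n) :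
    (GE K m b α μ g c P r k0 rd rr s' σ τ).lam (wi r k0 j) = μ j := by
  show Function.extend (wi r k0) μ (fun i => P.b (c i)) (wi r k0 j) = _
  rw [(m2_wi_inj hr k0).extend_apply]

lemma m2_kap_w (hr : ∀ k, c (r k) = k) (j : Fin n) (x : Xe N) :
    (GE K m b α μ g c P r k0 rd rr s' σ τ).kap (wi r k0 j) x = σ * g j * sg1 x.1 := by
  show Function.extend (wi r k0) (fun j => σ * g j) (fun _ => 0) (wi r k0 j) * sg1 x.1 = _
  rw [(m2_wi_inj hr k0).extend_apply]

lemma m2_u_w (hr : ∀ k, c (r k) = k) (j : Fin n) (l : ℕ) :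
    (GE K m b α μ g c P r k0 rd rr s' σ τ).u (wi r k0 j) l = 0 := by
  show Function.extend (wi r k0) (fun _ _ => (0 : ℝ)) (fun i => P.u (c i)) (wi r k0 j) l = _
  rw [(m2_wi_inj hr k0).extend_apply]

end GEl

lemma m2_sg1 (a : Bool) : |sg1 a| = 1 := by
  unfold sg1; split_ifs <;> simp

lemma m2_dl_le {N K : ℕ} {b α : Fin (n + 1) → ℝ} {B dl x0 : ℝ} {m : ℕ → ℝ}
    {c : Fin N → Fin (n + 1)} {P : Pm (n + 1)} {r : Fin (n + 1) → Fin N}
    (h : Good b α B dl K m c P r) (hx : (K + 1) * dl ≤ x0) : dl ≤ x0 := by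
  have h1 := h.dl0
  have h2 : (0 : ℝ) ≤ K := Nat.cast_nonneg K
  nlinarith

/-- The set `Bt` is large. -/
theorem Bt_card {b α : Fin (n + 1) → ℝ} {μ g : Fin n → ℝ}
    {Q : Fin (n + 1) → Matrix (Fin (n + 1)) (Fin (n + 1)) ℝ} (D : Dat b α μ g Q) (B : ℝ) :
    ∃ x0 : ℝ, 0 < x0 ∧ ∀ (N K : ℕ) (m : ℕ → ℝ) (c : Fin N → Fin (n + 1)) (P : Pm (n + 1))
      (r : Fin (n + 1) → Fin N) (k0 : Fin (n + 1)) (dl : ℝ), Good b α B dl K m c P r →
      (K + 1) * dl ≤ x0 → 1 / √N ≤ x0 →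
      α (Fin.last n) / 2 ≤ (Bt c (wi r k0)).card / N ∧
      |(Bt c (wi r k0)).card / N - α (Fin.last n)| ≤ dl + n / N := by
  have hα := D.pos (Fin.last n)
  refine ⟨α (Fin.last n) / (4 * (n + 1)), by positivity, ?_⟩
  intro N K m c P r k0 dl G hK hN
  have hα1 : α (Fin.last n) ≤ 1 := by
    rw [← D.one]
    exact Finset.single_le_sum (f := α) (fun k _ => (D.pos k).le) (Finset.mem_univ _)
  have hN0 : (0 : ℝ) < N := by exact_mod_cast G.N0
  have hs : 0 < √(N : ℝ) := Real.sqrt_pos.2 hN0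
  have hn0 : (0 : ℝ) ≤ n := Nat.cast_nonneg n
  obtain ⟨x0, hx0⟩ : ∃ x0, x0 = α (Fin.last n) / (4 * (n + 1)) := ⟨_, rfl⟩
  rw [← hx0] at hK hN
  have hx00 : 0 < x0 := by rw [hx0]; positivity
  have hxe : x0 * (n + 1) = α (Fin.last n) / 4 := by rw [hx0]; field_simp
  have hx1 : x0 ≤ 1 := by nlinarith only [hα1, hxe]
  have hdl : dl ≤ x0 := m2_dl_le G hK
  have hnN : n / N ≤ n * x0 := by
    have e : (n : ℝ) / N = n * (1 / √N * (1 / √N)) := by
      rw [div_mul_div_comm, _root_.one_mul, Real.mul_self_sqrt hN0.le]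
      ring
    rw [e]
    refine mul_le_mul_of_nonneg_left ?_ hn0
    have h0 : 0 ≤ 1 / √(N : ℝ) := by positivity
    nlinarith only [hN, h0, hx1]
  have c1 : (blk c (Fin.last n)).card ≤ (Bt c (wi r k0)).card + n := by
    have h1 := Finset.card_le_card_sdiff_add_card (s := blk c (Fin.last n))
      (t := Finset.univ.image (wi r k0))
    have h2 : (Finset.univ.image (wi r k0)).card ≤ n := by
      refine Finset.card_image_le.trans ?_
      simp only [Finset.card_univ, Fintype.card_fin, Std.le_refl]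
    unfold Bt
    omega
  have c2 : (Bt c (wi r k0)).card ≤ (blk c (Fin.last n)).card :=
    Finset.card_le_card Finset.sdiff_subset
  have c1' : ((blk c (Fin.last n)).card : ℝ) ≤ (Bt c (wi r k0)).card + n := by exact_mod_cast c1
  have c2' : ((Bt c (wi r k0)).card : ℝ) ≤ (blk c (Fin.last n)).card := by exact_mod_cast c2
  have hf : |((blk c (Fin.last n)).card : ℝ) / N - α (Fin.last n)| ≤ dl := G.fr (Fin.last n)
  have h3 : ((blk c (Fin.last n)).card : ℝ) / N ≤ (Bt c (wi r k0)).card / N + n / N := by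
    rw [← add_div]; exact div_le_div_of_nonneg_right c1' hN0.le
  have h4 : ((Bt c (wi r k0)).card : ℝ) / N ≤ (blk c (Fin.last n)).card / N :=
    div_le_div_of_nonneg_right c2' hN0.le
  have h5 : (0 : ℝ) ≤ n / N := by positivity
  rw [abs_le] at hf
  have h6 : |((Bt c (wi r k0)).card : ℝ) / N - α (Fin.last n)| ≤ dl + n / N := by
    rw [abs_le]; constructor <;> linarith only [h3, hf.1, h4, hf.2]
  refine ⟨?_, h6⟩
  have h7 := (abs_le.1 h6).1
  linarith only [hxe, hdl, hnN, hf, h3, h4]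

/-- The same for the patterns of `Bt` (exchangeability, `exch_sq`). -/
theorem m2_Bt {b α : Fin (n + 1) → ℝ} {μ g : Fin n → ℝ}
    {Q : Fin (n + 1) → Matrix (Fin (n + 1)) (Fin (n + 1)) ℝ} (D : Dat b α μ g Q) (B : ℝ) :
    ∃ C x0 : ℝ, 0 ≤ C ∧ 0 < x0 ∧ ∀ (N K : ℕ) (m : ℕ → ℝ) (c : Fin N → Fin (n + 1)) (P : Pm (n + 1))
      (r : Fin (n + 1) → Fin N) (k0 : Fin (n + 1)) [MeasurableSpace (orthogonalGroup (Fin N) ℝ)]
      [BorelSpace (orthogonalGroup (Fin N) ℝ)] (ν : Measure (orthogonalGroup (Fin N) ℝ))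
      [IsProbabilityMeasure ν] [ν.IsMulLeftInvariant] (dl : ℝ), Good b α B dl K m c P r →
      (K + 1) * dl ≤ x0 → 1 / √N ≤ x0 →
      ∀ (rd : ℝ) (rr s' : ℕ → ℝ) (σ τ : ℝ), EPar K B rd rr s' σ τ → ∀ t ∈ Bt c (wi r k0),
      EU ν (fun U => ((GE K m b α μ g c P r k0 rd rr s' σ τ).sy U).Ex
        (fun _ x => (U *ᵥ spin x.2) t ^ 2)) ≤ C := by
  obtain ⟨x0, hx0, hcard⟩ := Bt_card D B
  have hα := D.pos (Fin.last n)
  refine ⟨2 / α (Fin.last n), x0, by positivity, hx0, ?_⟩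
  intro N K m c P r k0 _ _ ν _ _ dl G hK hN rd rr s' σ τ E t ht
  obtain ⟨h1, -⟩ := hcard N K m c P r k0 dl G hK hN
  have hN0 : (0 : ℝ) < N := by exact_mod_cast G.N0
  have hA : (GE K m b α μ g c P r k0 rd rr s' σ τ).Ok := egs_ok G.hm _
  have h2 := m2_exch (ν := ν) hA (t := t) (B := Bt c (wi r k0))
    (fun i hi => by rw [m2_lam hi, m2_lam ht]) (fun i hi => m2_kap hi) (m2_kap ht)
    (fun i hi l _ => by rw [m2_u hi, m2_u ht])
  have h0 : 0 ≤ EU ν (fun U => ((GE K m b α μ g c P r k0 rd rr s' σ τ).sy U).Ex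
      (fun _ x => (GE K m b α μ g c P r k0 rd rr s' σ τ).y U x t ^ 2)) :=
    integral_nonneg fun U => (hA.regG U.1).Ex_nonneg (fun _ => EG.const _)
      fun _ _ => sq_nonneg _
  have h3 : EU ν (fun U => ((GE K m b α μ g c P r k0 rd rr s' σ τ).sy U).Ex
      (fun _ x => (GE K m b α μ g c P r k0 rd rr s' σ τ).y U x t ^ 2)) ≤ 2 / α (Fin.last n) := by
    rw [le_div_iff₀ hN0] at h1
    rw [le_div_iff₀ hα]
    have h4 := mul_le_mul_of_nonneg_right h1 h0
    have h5 := h4.trans h2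
    have h6 : N * (EU ν (fun U => ((GE K m b α μ g c P r k0 rd rr s' σ τ).sy U).Ex
      (fun _ x => (GE K m b α μ g c P r k0 rd rr s' σ τ).y U x t ^ 2)) * α (Fin.last n)) ≤
        N * 2 := by linarith only [h2, h4]
    exact le_of_mul_le_mul_left h6 hN0
  exact h3

/-- **Second moments.** For the transposition `L` of `w = wi r k0 j` and of `t ∈ Bt`, use
`haar_jensen`:
`(λ_t - λ_w) / 2 * (Y_w - Y_t) ≤ |kap| (√Y_w + √Y_t) + ∑_l u_l ^ 2 * O(Y_w + Y_t)`
(integration by parts for the fields `z_{l,t}`), and average over `t ∈ Bt`: the mean of the `Y_t` is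
at most `N / card Bt`. The gap is `λ_t - λ_w ≥ (b last - μ_j) / 2`. -/
theorem m2_E {b α : Fin (n + 1) → ℝ} {μ g : Fin n → ℝ}
    {Q : Fin (n + 1) → Matrix (Fin (n + 1)) (Fin (n + 1)) ℝ} (D : Dat b α μ g Q) (B : ℝ) :
    ∃ C x0 : ℝ, 0 ≤ C ∧ 0 < x0 ∧ ∀ (N K : ℕ) (m : ℕ → ℝ) (c : Fin N → Fin (n + 1)) (P : Pm (n + 1))
      (r : Fin (n + 1) → Fin N) (k0 : Fin (n + 1)) [MeasurableSpace (orthogonalGroup (Fin N) ℝ)]
      [BorelSpace (orthogonalGroup (Fin N) ℝ)] (ν : Measure (orthogonalGroup (Fin N) ℝ))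
      [IsProbabilityMeasure ν] [ν.IsMulLeftInvariant] (dl : ℝ), Good b α B dl K m c P r →
      (K + 1) * dl ≤ x0 → 1 / √N ≤ x0 →
      ∀ (rd : ℝ) (rr s' : ℕ → ℝ) (σ τ : ℝ), EPar K B rd rr s' σ τ → ∀ j : Fin n,
      EU ν (fun U => ((GE K m b α μ g c P r k0 rd rr s' σ τ).sy U).Ex
        (fun _ x => (U *ᵥ spin x.2) (wi r k0 j) ^ 2)) ≤ C := by
  obtain ⟨x1, hx1, hcard⟩ := Bt_card D B
  obtain ⟨C2, x2, hC2, hx2, hm2⟩ := m2_Bt D B
  obtain ⟨d0, hd0⟩ : ∃ d0, d0 = m2_inv fun j => b (Fin.last n) - μ j := ⟨_, rfl⟩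
  have hgap : ∀ j, 0 < b (Fin.last n) - μ j := fun j => by
    have h1 := D.out.hi j
    have h2 := D.mono.monotone (Fin.le_last j.succ)
    linarith
  have hd00 : 0 < d0 := by rw [hd0]; exact m2_inv_pos hgap
  have hd0j : ∀ j, d0 ≤ b (Fin.last n) - μ j := fun j => by rw [hd0]; exact m2_inv_le hgap j
  refine ⟨4 * C2 + 64 * (∑ j, |g j|) ^ 2 / d0 ^ 2, min x1 (min x2 (min (d0 / 16) 1)),
    by positivity, by positivity, ?_⟩
  intro N K m c P r k0 _ _ ν _ _ dl G hK hN rd rr s' σ τ E j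
  have hK1 := hK.trans (min_le_left _ _)
  have hN1 := hN.trans (min_le_left _ _)
  have hK2 := hK.trans ((min_le_right _ _).trans (min_le_left _ _))
  have hN2 := hN.trans ((min_le_right _ _).trans (min_le_left _ _))
  have hK3 : (K + 1) * dl ≤ d0 / 16 := hK.trans ((min_le_right _ _).trans ((min_le_right _ _).trans
    (min_le_left _ _)))
  have hK4 : (K + 1) * dl ≤ 1 := hK.trans ((min_le_right _ _).trans ((min_le_right _ _).trans
    (min_le_right _ _)))
  have hdl0 := G.dl0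
  have hdl3 := m2_dl_le G hK3
  have hdl4 := m2_dl_le G hK4
  obtain ⟨h1, -⟩ := hcard N K m c P r k0 dl G hK1 hN1
  have hα := D.pos (Fin.last n)
  have hN0 : (0 : ℝ) < N := by exact_mod_cast G.N0
  have hA : (GE K m b α μ g c P r k0 rd rr s' σ τ).Ok := egs_ok G.hm _
  have hne : (Bt c (wi r k0)).Nonempty := by
    rw [← Finset.card_pos]
    by_contra h
    have h0 : (Bt c (wi r k0)).card = 0 := by omega
    rw [h0, Nat.cast_zero, zero_div] at h1
    linarith only [h1, hα]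
  obtain ⟨t, ht⟩ := hne
  have hYt := hm2 N K m c P r k0 ν dl G hK2 hN2 rd rr s' σ τ E t ht
  -- the gap
  have hPb := (abs_le.1 (G.hb (Fin.last n))).1
  have hδ : d0 / 2 ≤ P.b (Fin.last n) - μ j := by
    have := hd0j j
    linarith only [hd00, hdl3, hPb, this]
  have hkap : ∀ x, |(GE K m b α μ g c P r k0 rd rr s' σ τ).kap (wi r k0 j) x| ≤ ∑ j, |g j| := by
    intro x
    rw [m2_kap_w G.hr, abs_mul, m2_sg1, mul_one, abs_mul]
    have h2 : |g j| ≤ ∑ j, |g j| :=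
      Finset.single_le_sum (f := fun j => |g j|) (fun _ _ => abs_nonneg _) (Finset.mem_univ j)
    have h3 := mul_le_mul_of_nonneg_right E.hσ (abs_nonneg (g j))
    linarith only [h2, h3]
  have hsum : ∑ l ∈ Finset.range (K + 1), P.u (Fin.last n) l ^ 2 ≤
      (P.b (Fin.last n) - μ j) / 8 := by
    have h2 : ∀ l ∈ Finset.range (K + 1), P.u (Fin.last n) l ^ 2 ≤ dl * dl := fun l hl => by
      have h3 := G.hu (Fin.last n) l (Nat.lt_succ_iff.1 (Finset.mem_range.1 hl))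
      rw [← sq_abs, sq]
      exact mul_le_mul h3 h3 (abs_nonneg _) hdl0
    refine (Finset.sum_le_sum h2).trans ?_
    rw [Finset.sum_const, Finset.card_range, nsmul_eq_mul]
    push_cast
    have h3 : ((K : ℝ) + 1) * (dl * dl) ≤ d0 / 16 * 1 := by
      rw [← mul_assoc]
      exact mul_le_mul hK3 hdl4 hdl0 (by positivity)
    linarith only [hδ, h3]
  have hsw := m2_swap (ν := ν) hA (w := wi r k0 j) (t := t) (k := ∑ j, |g j|)
    (by rw [m2_lam_w G.hr, m2_lam ht]; linarith only [hd00, hδ]) (m2_kap ht) hkap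
    (fun l _ => m2_u_w G.hr j l) (by rw [m2_lam_w G.hr, m2_lam ht, m2_u ht]; exact hsum)
  rw [m2_lam_w G.hr, m2_lam ht] at hsw
  have h4 : 16 * (∑ j, |g j|) ^ 2 / (P.b (Fin.last n) - μ j) ^ 2 ≤
      64 * (∑ j, |g j|) ^ 2 / d0 ^ 2 := by
    have e : 64 * (∑ j, |g j|) ^ 2 / d0 ^ 2 = 16 * (∑ j, |g j|) ^ 2 / (d0 / 2) ^ 2 := by
      field_simp
      ring
    rw [e]
    apply div_le_div_of_nonneg_left (by positivity) (by positivity)
    exact pow_le_pow_left₀ (by positivity) hδ 2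
  have hYt' : EU ν (fun U => ((GE K m b α μ g c P r k0 rd rr s' σ τ).sy U).Ex
      (fun _ x => (GE K m b α μ g c P r k0 rd rr s' σ τ).y U x t ^ 2)) ≤ C2 := hYt
  refine hsw.trans ?_
  linarith only [h4, hYt']

/-- The same for all the patterns of the model (`mdl_sq`, `rho ≤ 1`, `frac ≥ α / 2`). -/
theorem m2_mdl {b α : Fin (n + 1) → ℝ} {μ g : Fin n → ℝ}
    {Q : Fin (n + 1) → Matrix (Fin (n + 1)) (Fin (n + 1)) ℝ} (D : Dat b α μ g Q) (B : ℝ) :
    ∃ C x0 : ℝ, 0 ≤ C ∧ 0 < x0 ∧ ∀ (N K : ℕ) (m : ℕ → ℝ) (c : Fin N → Fin (n + 1)) (P : Pm (n + 1))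
      (r : Fin (n + 1) → Fin N) [MeasurableSpace (orthogonalGroup (Fin N) ℝ)]
      [BorelSpace (orthogonalGroup (Fin N) ℝ)] (ν : Measure (orthogonalGroup (Fin N) ℝ))
      [IsProbabilityMeasure ν] [ν.IsMulLeftInvariant] (dl : ℝ), Good b α B dl K m c P r →
      (K + 1) * dl ≤ x0 → ∀ i : Fin N,
      EU ν (fun U => (mdl K m c P U).Ex (fun _ x => ph U x i ^ 2)) ≤ C := by
  obtain ⟨a0, ha0⟩ : ∃ a0, a0 = m2_inv α := ⟨_, rfl⟩
  have ha00 : 0 < a0 := by rw [ha0]; exact m2_inv_pos D.pos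
  have ha0k : ∀ k, a0 ≤ α k := fun k => by rw [ha0]; exact m2_inv_le D.pos k
  refine ⟨2 / a0, a0 / 2, by positivity, by positivity, ?_⟩
  intro N K m c P r _ _ ν _ _ dl G hK i
  have hdl := m2_dl_le G hK
  have h1 := mdl_sq (ν := ν) G.N0 G.hm c P i
  have h2 := m3_rho_le_one (ν := ν) (c := c) (P := P) G.hm G.N0 (c i)
  have h3 := (abs_le.1 (G.fr (c i))).1
  have h4 : a0 / 2 ≤ frac c (c i) := by have := ha0k (c i); linarith
  obtain ⟨Y, hY⟩ : ∃ Y, Y = EU ν (fun U => (mdl K m c P U).Ex (fun _ x => ph U x i ^ 2)) :=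
    ⟨_, rfl⟩
  rw [← hY] at h1 ⊢
  have hY0 : 0 ≤ Y := by
    rw [hY]
    refine integral_nonneg fun U => ?_
    have hG : RegG (mdl K m c P U.1) := by rw [← ngs_sy]; exact (ngs_ok G.hm c P).regG U.1
    exact hG.Ex_nonneg (fun _ => EG.const _) fun _ _ => sq_nonneg _
  rw [le_div_iff₀ ha00]
  have h5 := mul_le_mul_of_nonneg_right h4 hY0
  linarith only [h2, h1, h5]

end Vale.Agent.P166.L
end
end

section

section

/-!
P166, lower bound: the value of stage 1 (Jensen inequality in the moved potentials) and the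
covariance of the fields of the new spin.
-/

open Finset MeasureTheory

namespace Vale.Agent.P166.L

open Vale.Agent.P166.F
open Vale.Agent.P157.Par (Path)

/-- The average over the type of the new pattern, and the value. -/
theorem stage_value {n : ℕ} {a α : Fin (n + 1) → ℝ}
    (hα : ∀ b, 0 < α b) (hα1 : ∑ b, α b = 1) {β : ℝ} (hβ : 0 < β) {K : ℕ}
    {m q : ℕ → ℝ} (hm : Expo K m) (hq : Path K q) (hq0 : q 0 = 0) (hq1 : q K < 1) :
    -(1 / 2) * ∑ k, α k * trf K m (fun x => Real.log (x * (Az β a α x - β * a k))) (eq' K m q) +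
      1 / 2 * rDiag β (atoms a α) K m q =
    specPart β (atoms a α) K m q +
      1 / 2 * ∑ l ∈ range (K + 1), (m (l + 1) - m l) * rPath β (atoms a α) K m q l * q l := by
  have hqO : OPath K q := ⟨hq0 ▸ le_rfl, hq.2, hq1.le⟩
  have h1 := value_identity (a := a) hα hα1 hβ hm hqO hq0 hq1
  rw [← h1]
  have h2 : ∀ k, (fun x => Real.log (x * (Az β a α x - β * a k))) =
      fun x => Real.log (β * x * (stInv (atoms a α) (β * x) - a k)) := by
    intro k
    funext x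
    congr 1
    unfold Az
    ring
  simp only [h2]

/-- The matrix of the covariance of the fields of the new spin: the function
`x ↦ ∑ g_j^2 / (A(x) - μ_j)` of the overlap matrix has the diagonal entry `rDiag - mbar` and the
levels `rPath`. `g`, `μ` are the couplings and the outliers for the potentials `β a`. -/
theorem rt_matrix {n : ℕ} {a α : Fin (n + 1) → ℝ} {μ g : Fin n → ℝ}
    (hα : ∀ b, 0 < α b) (hα1 : ∑ b, α b = 1) {β : ℝ} (hβ : 0 < β)
    (hg : ∀ A, (∀ k, β * a k < A) → ∑ j, g j ^ 2 / (A - μ j) =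
      A - ∑ k, α k * (β * a k) - 1 / ∑ k, α k / (A - β * a k)) {K : ℕ}
    {m q : ℕ → ℝ} (hm : Expo K m) (hq : Path K q) (hq0 : q 0 = 0) (hq1 : q K < 1) :
    (∀ x, 0 < x → ∑ j, g j ^ 2 / (Az β a α x - μ j) =
      β * Rt (atoms a α) (β * x) - ∑ k, α k * (β * a k)) ∧
    (Hm.ofEv K m (fun l => ∑ j, g j ^ 2 / (Az β a α (eq' K m q l) - μ j))).d =
      rDiag β (atoms a α) K m q - ∑ k, α k * (β * a k) ∧
    ∀ l ≤ K, (Hm.ofEv K m (fun l => ∑ j, g j ^ 2 / (Az β a α (eq' K m q l) - μ j))).e l =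
      rPath β (atoms a α) K m q l := by
  have hqO : OPath K q := ⟨hq0 ▸ le_rfl, hq.2, hq1.le⟩
  have h1 : ∀ x, 0 < x → ∑ j, g j ^ 2 / (Az β a α x - μ j) =
      β * Rt (atoms a α) (β * x) - ∑ k, α k * (β * a k) := by
    intro x hx
    obtain ⟨h2, h3⟩ := Az_spec (a := a) hα hα1 hβ hx
    rw [hg _ h2, h3]
    unfold Az Rt
    field_simp
    ring
  have h2 : ∀ l ≤ K, ∑ j, g j ^ 2 / (Az β a α (eq' K m q l) - μ j) =
      β * Rt (atoms a α) (β * eq' K m q l) - ∑ k, α k * (β * a k) := fun l hl =>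
    h1 _ (vb_ev_pos hm hqO hq1 hl)
  have h3 : ∀ l ≤ K, ∑ i ∈ range l, ((∑ j, g j ^ 2 / (Az β a α (eq' K m q i) - μ j)) -
      ∑ j, g j ^ 2 / (Az β a α (eq' K m q (i + 1)) - μ j)) / m (i + 1) =
      ∑ i ∈ range l, (β * Rt (atoms a α) (β * eq' K m q i) -
        β * Rt (atoms a α) (β * eq' K m q (i + 1))) / m (i + 1) := by
    intro l hl
    refine Finset.sum_congr rfl fun i hi => ?_
    rw [Finset.mem_range] at hi
    rw [h2 i (by omega), h2 (i + 1) (by omega)]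
    congr 1
    ring
  refine ⟨h1, ?_, fun l hl => ?_⟩
  · simp only [Hm.ofEv]
    rw [h3 K le_rfl, h2 K le_rfl]
    unfold rDiag
    simp only [Hm.ofEv]
    ring
  · simp only [Hm.ofEv]
    rw [h3 l hl]
    rfl

end Vale.Agent.P166.L
end
end

section

section

/-!
P166, lower bound: the algebra of the loop equations of the outliers.
-/

open MeasureTheory ProbabilityTheory Matrix Filter Topology

namespace Vale.Agent.P166.L

open Vale.Agent.P157.Par
open Vale.Agent.P166.F (Hm Expo eq')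

variable {n : ℕ}

/-- The matrix `1 / (A(Q) - μ_j)`. -/
noncomputable def Gj (β : ℝ) (a α : Fin (n + 1) → ℝ) (μ : Fin n → ℝ) (K : ℕ) (m q : ℕ → ℝ)
    (j : Fin n) : Hm := Hm.ofEv K m (fun l => 1 / (Az β a α (eq' K m q l) - μ j))

lemma la_ev_ofEv {K : ℕ} {m : ℕ → ℝ} (hm : Expo K m) (c : ℝ) (f : ℕ → ℝ) {l : ℕ} (hl : l ≤ K) :
    Hm.ev K m ⟨c * (Hm.ofEv K m f).d, fun l => c * (Hm.ofEv K m f).e l⟩ l = c * f l := by
  have h := F.St.ev_addmul K m ⟨0, fun _ => 0⟩ c (Hm.ofEv K m f) l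
  rw [Hm.ev_ofEv hm f hl] at h
  have e : F.St.addmul ⟨0, fun _ => 0⟩ c (Hm.ofEv K m f) =
      ⟨c * (Hm.ofEv K m f).d, fun l => c * (Hm.ofEv K m f).e l⟩ := by
    unfold F.St.addmul
    simp only [zero_add]
  rw [← e, h]
  simp only [Hm.ev, mul_zero, sub_self, Finset.sum_const_zero, zero_add]

/-- `x ↦ 1 / (A(x) - t)` with `t ≤ b_last` is bounded and Lipschitz. -/
lemma la_bd {β : ℝ} (hβ : 0 < β) {a α : Fin (n + 1) → ℝ} (hα : ∀ k, 0 < α k)
    (hα1 : ∑ k, α k = 1) {K : ℕ} {m q : ℕ → ℝ} (hm : Expo K m) (hq : Path K q)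
    (hq1 : q K < 1) {t : ℝ} (ht : t ≤ β * a (Fin.last n)) :
    F.St.Bd K (eq' K m q) (1 / α (Fin.last n))
      (fun l => 1 / (Az β a α (eq' K m q l) - t)) := by
  have hpos : ∀ l ≤ K, 0 < eq' K m q l := vb_eq_pos hm hq hq1
  have hL := hα (Fin.last n)
  have hA : ∀ l ≤ K, 0 < Az β a α (eq' K m q l) - t := fun l hl => by
    have := (Az_spec (a := a) hα hα1 hβ (hpos l hl)).1 (Fin.last n)
    linarith only [ht, this]
  have hle1 : ∀ l ≤ K, eq' K m q l ≤ 1 := by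
    intro l hl
    have h0 : ∀ j ≤ K, 0 ≤ q j := fun j hj =>
      hq.1.trans (F.fs_mono (lva_opath hq hq1) 0 j (Nat.zero_le _) hj)
    have h1 : 0 ≤ ∑ j ∈ Finset.Ico (l + 1) (K + 1), (m (j + 1) - m j) * q j :=
      Finset.sum_nonneg fun j hj => by
        rw [Finset.mem_Ico] at hj
        exact mul_nonneg (hm.p_nonneg (by omega)) (h0 j (by omega))
    have h2 := mul_nonneg (F.fs_mpos hm l hl).le (h0 l hl)
    unfold F.eq'
    linarith only [h1, h2]
  constructor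
  · intro l hl
    obtain ⟨h1, h2⟩ := Az_spec (a := a) hα hα1 hβ (hpos l hl)
    have h3 : α (Fin.last n) / (Az β a α (eq' K m q l) - β * a (Fin.last n)) ≤
        ∑ k, α k / (Az β a α (eq' K m q l) - β * a k) :=
      Finset.single_le_sum (f := fun k => α k / (Az β a α (eq' K m q l) - β * a k))
        (fun k _ => div_nonneg (hα k).le (sub_pos.2 (h1 k)).le) (Finset.mem_univ _)
    rw [h2] at h3
    have h4 : 0 < Az β a α (eq' K m q l) - β * a (Fin.last n) := sub_pos.2 (h1 _)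
    rw [div_le_iff₀ h4] at h3
    have h5 := hle1 l hl
    rw [abs_of_pos (one_div_pos.2 (hA l hl))]
    refine one_div_le_one_div_of_le hL ?_
    have h6 : eq' K m q l * (Az β a α (eq' K m q l) - β * a (Fin.last n)) ≤
        1 * (Az β a α (eq' K m q l) - β * a (Fin.last n)) :=
      mul_le_mul_of_nonneg_right h5 h4.le
    linarith only [ht, h3, h6]
  · intro l hl
    have hx := hpos (l + 1) hl
    have hy := hpos l hl.le
    have hxy := lva_anti hm hq hl
    have hAn := lva_anti_Az (a := a) hα hα1 hβ hx hxy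
    obtain ⟨h1, h2⟩ := Az_spec (a := a) hα hα1 hβ hx
    obtain ⟨h1', h2'⟩ := Az_spec (a := a) hα hα1 hβ hy
    have hAx := hA (l + 1) hl
    have hAy := hA l hl.le
    obtain ⟨X, hX⟩ : ∃ X, X = Az β a α (eq' K m q (l + 1)) := ⟨_, rfl⟩
    obtain ⟨Y, hY⟩ : ∃ Y, Y = Az β a α (eq' K m q l) := ⟨_, rfl⟩
    rw [← hX] at h1 h2 hAx hAn
    rw [← hY] at h1' h2' hAy hAn
    show |1 / (Az β a α (eq' K m q l) - t) - 1 / (Az β a α (eq' K m q (l + 1)) - t)| ≤ _
    rw [← hX, ← hY]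
    have e1 : 1 / (Y - t) - 1 / (X - t) = (X - Y) / ((X - t) * (Y - t)) := by
      field_simp
      ring
    rw [e1, abs_of_nonneg (div_nonneg (by linarith only [hAn]) (mul_pos hAx hAy).le)]
    have e2 : eq' K m q l - eq' K m q (l + 1) =
        ∑ k, α k * ((X - Y) / ((X - β * a k) * (Y - β * a k))) := by
      rw [← h2, ← h2', ← Finset.sum_sub_distrib]
      refine Finset.sum_congr rfl fun k _ => ?_
      have g1 := (sub_pos.2 (h1 k)).ne'
      have g2 := (sub_pos.2 (h1' k)).ne'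
      field_simp
      ring
    have g1 : 0 < X - β * a (Fin.last n) := sub_pos.2 (h1 _)
    have g2 : 0 < Y - β * a (Fin.last n) := sub_pos.2 (h1' _)
    have h3 : α (Fin.last n) * ((X - Y) / ((X - β * a (Fin.last n)) *
        (Y - β * a (Fin.last n)))) ≤ eq' K m q l - eq' K m q (l + 1) := by
      rw [e2]
      exact Finset.single_le_sum
        (f := fun k => α k * ((X - Y) / ((X - β * a k) * (Y - β * a k))))
        (fun k _ => mul_nonneg (hα k).le (div_nonneg (by linarith only [hAn])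
          (mul_pos (sub_pos.2 (h1 k)) (sub_pos.2 (h1' k))).le)) (Finset.mem_univ _)
    have h4 : (X - Y) / ((X - t) * (Y - t)) ≤
        (X - Y) / ((X - β * a (Fin.last n)) * (Y - β * a (Fin.last n))) := by
      refine div_le_div_of_nonneg_left (by linarith only [hAn]) (mul_pos g1 g2) ?_
      exact mul_le_mul (by linarith only [ht]) (by linarith only [ht]) g2.le hAx.le
    rw [one_div, ← div_eq_inv_mul, le_div_iff₀ hL, mul_comm]
    exact (mul_le_mul_of_nonneg_left h4 hL.le).trans h3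

lemma la_mu_le {β : ℝ} {a α : Fin (n + 1) → ℝ} {μ g : Fin n → ℝ}
    {Q : Fin (n + 1) → Matrix (Fin (n + 1)) (Fin (n + 1)) ℝ}
    (D : Dat (fun k => β * a k) α μ g Q) (j : Fin n) : μ j ≤ β * a (Fin.last n) :=
  (D.out.hi j).le.trans (D.mono.monotone (Fin.le_last _))

lemma la_entries {K : ℕ} {m q : ℕ → ℝ} (hm : Expo K m) (hq : Path K q) (hq0 : q 0 = 0)
    (hq1 : q K < 1) {C : ℝ} {u : ℕ → ℝ} (h : F.St.Bd K (eq' K m q) C u) :
    |(Hm.ofEv K m u).d| ≤ 2 * C ∧ ∀ l ≤ K, |(Hm.ofEv K m u).e l| ≤ 2 * C :=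
  h.entries hm hq0 hq.2 hq1.le (fun _ hl => lva_step K m q hl)

/-- A matrix is determined by its eigenvalues and its entry of level zero. -/
lemma la_nrm_ext {K : ℕ} {m : ℕ → ℝ} (hm : Expo K m) {M N : Hm} (h0 : M.e 0 = N.e 0)
    (hev : ∀ l ≤ K, Hm.ev K m M l = Hm.ev K m N l) : Hm.nrm K m M = Hm.nrm K m N := by
  refine F.St.nrm_congr ?_
  have h := Hm.ext_ev hm (Hm.sub M N) ⟨0, fun _ => 0⟩ (by simp only [Hm.sub, h0, sub_self]) rfl (by
    intro l hl
    rw [F.St.ev_sub', hev l hl]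
    simp only [Hm.ev, sub_self, mul_zero, Finset.sum_const_zero])
  exact ⟨sub_eq_zero.1 h.1, fun l hl => sub_eq_zero.1 (h.2 l hl)⟩

lemma la_ev2 (K : ℕ) (m : ℕ → ℝ) (M N : Hm) (s t : ℝ) (l : ℕ) :
    Hm.ev K m ⟨s * M.d + t * N.d, fun l => s * M.e l + t * N.e l⟩ l =
      s * Hm.ev K m M l + t * Hm.ev K m N l := by
  have h := F.St.ev_comb K m M N M N s t 0 0 l
  simp only [zero_mul, add_zero] at h
  exact h

lemma la_ev1 (K : ℕ) (m : ℕ → ℝ) (M : Hm) (s : ℝ) (l : ℕ) :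
    Hm.ev K m ⟨s * M.d, fun l => s * M.e l⟩ l = s * Hm.ev K m M l := by
  have h := F.St.ev_comb K m M M M M s 0 0 0 l
  simp only [zero_mul, add_zero] at h
  exact h

lemma la_nrm_le {K : ℕ} {m : ℕ → ℝ} (hm : Expo K m) {M : Hm} {C : ℝ} (hd : |M.d| ≤ C)
    (he : ∀ l ≤ K, |M.e l| ≤ C) : Hm.nrm K m M ≤ 2 * C := by
  unfold Hm.nrm
  have h1 : ∑ l ∈ Finset.range (K + 1), (m (l + 1) - m l) * |M.e l| ≤
      ∑ l ∈ Finset.range (K + 1), (m (l + 1) - m l) * C :=
    Finset.sum_le_sum fun l hl => mul_le_mul_of_nonneg_left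
      (he l (by rw [Finset.mem_range] at hl; omega)) (F.St.pl hm hl)
  rw [← Finset.sum_mul, Finset.sum_range_sub, hm.mK, hm.m0] at h1
  linarith

lemma la_lin (m : ℕ → ℝ) {J : Type} [Fintype J] (c : J → ℝ) (u : J → ℕ → ℝ) (l : ℕ) :
    ∑ i ∈ Finset.range l, ((∑ j, c j * u j i) - ∑ j, c j * u j (i + 1)) / m (i + 1) =
      ∑ j, c j * ∑ i ∈ Finset.range l, (u j i - u j (i + 1)) / m (i + 1) := by
  simp only [Finset.mul_sum]
  rw [Finset.sum_comm]
  refine Finset.sum_congr rfl fun i _ => ?_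
  rw [← Finset.sum_sub_distrib, Finset.sum_div]
  exact Finset.sum_congr rfl fun j _ => by ring

/-- **The algebra of the loop equation of an outlier.** `M` is the matrix of the overlaps of the new
spin with the pattern, `Qh` the one of the new spin with itself, `R` the one of the last block,
`s = σ g_j`, `bt` the potential of the last block. Exact solution: with
`R0 = α_last / (A - b_last)`, `Inv = (1 / α_last) (1 + (μ_j - b_last) Gj)` one has
`(α_last - (μ_j - b_last) R0) * Inv = 1`, `R0 * Inv = Gj`. -/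
theorem loop_alg {β : ℝ} (hβ : 0 < β) {a α : Fin (n + 1) → ℝ} {μ g : Fin n → ℝ}
    {Q : Fin (n + 1) → Matrix (Fin (n + 1)) (Fin (n + 1)) ℝ}
    (D : Dat (fun k => β * a k) α μ g Q) {C0 : ℝ} (hC0 : 0 ≤ C0) :
    ∃ C : ℝ, 0 ≤ C ∧ ∀ (K : ℕ) (m q : ℕ → ℝ) (j : Fin n) (M Qh R : Hm) (s al bt e : ℝ), Expo K m →
      Path K q → q 0 = 0 → q K < 1 → 0 ≤ e → |s| ≤ C0 →
      |M.d| ≤ C0 → (∀ l ≤ K, |M.e l| ≤ C0) → |Qh.d| ≤ 1 → (∀ l ≤ K, |Qh.e l| ≤ 1) →
      |R.d| ≤ 1 → (∀ l ≤ K, |R.e l| ≤ 1) →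
      |al - α (Fin.last n)| ≤ e → |bt - β * a (Fin.last n)| ≤ e → e ≤ 1 →
      Hm.nrm K m (Hm.sub R ⟨α (Fin.last n) * (Hm.ofEv K m (fun l =>
          1 / (Az β a α (eq' K m q l) - β * a (Fin.last n)))).d, fun l => α (Fin.last n) *
        (Hm.ofEv K m (fun l => 1 / (Az β a α (eq' K m q l) - β * a (Fin.last n)))).e l⟩) ≤ e →
      Hm.nrm K m (Hm.sub ⟨al * M.d, fun l => al * M.e l⟩ (Hm.mul K m R
        ⟨(μ j - bt) * M.d + s * Qh.d, fun l => (μ j - bt) * M.e l + s * Qh.e l⟩)) ≤ e →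
      Hm.nrm K m (Hm.sub M ⟨s * (Hm.mul K m (Gj β a α μ K m q j) Qh).d,
        fun l => s * (Hm.mul K m (Gj β a α μ K m q j) Qh).e l⟩) ≤ C * e := by
  obtain ⟨αl, hαl⟩ : ∃ x, x = α (Fin.last n) := ⟨_, rfl⟩
  obtain ⟨bl, hbl⟩ : ∃ x, x = β * a (Fin.last n) := ⟨_, rfl⟩
  have hα : 0 < αl := hαl ▸ D.pos _
  obtain ⟨Λ, hΛ⟩ : ∃ x, x = ∑ j, |μ j - bl| := ⟨_, rfl⟩
  have hΛ0 : 0 ≤ Λ := hΛ ▸ Finset.sum_nonneg fun _ _ => abs_nonneg _
  have hΛj : ∀ j, |μ j - bl| ≤ Λ := fun j => hΛ ▸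
    Finset.single_le_sum (f := fun j => |μ j - bl|) (fun _ _ => abs_nonneg _) (Finset.mem_univ j)
  obtain ⟨CI, hCI⟩ : ∃ x, x = 2 * (1 / αl * (1 + Λ * (1 / αl))) := ⟨_, rfl⟩
  have hCI0 : 0 ≤ CI := by rw [hCI]; positivity
  obtain ⟨CX, hCX⟩ : ∃ x, x = Λ * C0 + C0 := ⟨_, rfl⟩
  have hCX0 : 0 ≤ CX := by rw [hCX]; positivity
  refine ⟨5 * CI * (1 + 2 * C0 + 10 * C0 + 5 * CX), by positivity, ?_⟩
  intro K m q j M Qh R s al bt e hm hq hq0 hq1 he0 hs hMd hMe hQd hQe hRd hRe hal hbt _ h1 h2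
  rw [← hαl] at hal h1
  rw [← hbl] at hbt h1
  obtain ⟨r0, hr0⟩ : ∃ f : ℕ → ℝ, f = fun l => 1 / (Az β a α (eq' K m q l) - bl) := ⟨_, rfl⟩
  obtain ⟨gj, hgj⟩ : ∃ f : ℕ → ℝ, f = fun l => 1 / (Az β a α (eq' K m q l) - μ j) := ⟨_, rfl⟩
  have hG : Gj β a α μ K m q j = Hm.ofEv K m gj := by rw [hgj]; rfl
  rw [← hr0] at h1
  rw [hG]
  -- the entries of the inverse
  have hgB : F.St.Bd K (eq' K m q) (1 / αl) gj := by
    rw [hgj, hαl]
    exact la_bd hβ D.pos D.one hm hq hq1 (la_mu_le D j)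
  have hxx : ∀ l < K, 0 ≤ eq' K m q l - eq' K m q (l + 1) := fun l hl =>
    sub_nonneg.2 (lva_anti hm hq hl)
  have hIB : F.St.Bd K (eq' K m q) (1 / αl * (1 + Λ * (1 / αl)))
      (fun l => 1 / αl * (1 + (μ j - bl) * gj l)) := by
    refine F.St.Bd.const_mul (u := fun l => 1 + (μ j - bl) * gj l) (1 / αl) (by positivity) ?_
    constructor
    · intro l hl
      refine (abs_add_le _ _).trans ?_
      rw [abs_one, abs_mul]
      have := mul_le_mul (hΛj j) (hgB.1 l hl) (abs_nonneg _) hΛ0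
      linarith only [this]
    · intro l hl
      have e3 : 1 + (μ j - bl) * gj l - (1 + (μ j - bl) * gj (l + 1)) =
          (μ j - bl) * (gj l - gj (l + 1)) := by ring
      rw [e3, abs_mul]
      have h3 := mul_le_mul (hΛj j) (hgB.2 l hl) (abs_nonneg _) hΛ0
      have h4 := hxx l hl
      linarith only [h3, h4]
  obtain ⟨I, hI⟩ : ∃ I, I = Hm.ofEv K m (fun l => 1 / αl * (1 + (μ j - bl) * gj l)) := ⟨_, rfl⟩
  have hIe : |I.d| ≤ CI ∧ ∀ l ≤ K, |I.e l| ≤ CI := by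
    rw [hI, hCI]
    exact la_entries hm hq hq0 hq1 hIB
  have hI0 : I.e 0 = 0 := by rw [hI]; simp only [Hm.ofEv, one_div, Finset.range_zero, Finset.sum_empty]
  have hIev : ∀ l ≤ K, Hm.ev K m I l = 1 / αl * (1 + (μ j - bl) * gj l) := fun l hl => by
    rw [hI, Hm.ev_ofEv hm _ hl]
  have hG0 : (Hm.ofEv K m gj).e 0 = 0 := by simp only [Hm.ofEv, Finset.range_zero, Finset.sum_empty]
  -- the matrices
  obtain ⟨ρ, hρ⟩ : ∃ x, x = Hm.sub R ⟨αl * (Hm.ofEv K m r0).d,
    fun l => αl * (Hm.ofEv K m r0).e l⟩ := ⟨_, rfl⟩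
  obtain ⟨X, hX⟩ : ∃ x : Hm, x = ⟨(μ j - bt) * M.d + s * Qh.d,
    fun l => (μ j - bt) * M.e l + s * Qh.e l⟩ := ⟨_, rfl⟩
  obtain ⟨X0, hX0⟩ : ∃ x : Hm, x = ⟨(μ j - bl) * M.d + s * Qh.d,
    fun l => (μ j - bl) * M.e l + s * Qh.e l⟩ := ⟨_, rfl⟩
  obtain ⟨E, hE⟩ : ∃ x, x = Hm.sub ⟨al * M.d, fun l => al * M.e l⟩ (Hm.mul K m R X) := ⟨_, rfl⟩
  rw [← hρ] at h1
  rw [← hX, ← hE] at h2
  obtain ⟨E1, hE1⟩ : ∃ x, x = F.St.addmul (F.St.addmul (F.St.addmul E (-(al - αl)) M)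
    (-(bt - bl)) (Hm.mul K m R M)) 1 (Hm.mul K m X0 ρ) := ⟨_, rfl⟩
  have hnM : Hm.nrm K m M ≤ 2 * C0 := la_nrm_le hm hMd hMe
  have hnM0 := F.St.nrm_nonneg hm M
  have hnRM : Hm.nrm K m (Hm.mul K m R M) ≤ 10 * C0 := by
    have := Hm.nrm_mul_le hm R M hRd hRe
    linarith only [hnM, this]
  have hX0b : ∀ x y : ℝ, |x| ≤ C0 → |y| ≤ 1 → |(μ j - bl) * x + s * y| ≤ CX := by
    intro x y hx hy
    refine (abs_add_le _ _).trans ?_
    rw [abs_mul, abs_mul]
    have h3 := mul_le_mul (hΛj j) hx (abs_nonneg _) hΛ0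
    have h4 := mul_le_mul hs hy (abs_nonneg _) hC0
    rw [hCX]
    linarith only [h3, h4]
  have hnX : Hm.nrm K m (Hm.mul K m X0 ρ) ≤ 5 * CX * e := by
    refine (Hm.nrm_mul_le hm X0 ρ (C := CX) ?_ ?_).trans
      (mul_le_mul_of_nonneg_left h1 (by positivity))
    · rw [hX0]
      exact hX0b _ _ hMd hQd
    · intro l hl
      rw [hX0]
      exact hX0b _ _ (hMe l hl) (hQe l hl)
  have hnE1 : Hm.nrm K m E1 ≤ (1 + 2 * C0 + 10 * C0 + 5 * CX) * e := by
    have h3 := F.St.nrm_addmul hm (F.St.addmul (F.St.addmul E (-(al - αl)) M)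
      (-(bt - bl)) (Hm.mul K m R M)) 1 (Hm.mul K m X0 ρ)
    have h4 := F.St.nrm_addmul hm (F.St.addmul E (-(al - αl)) M) (-(bt - bl)) (Hm.mul K m R M)
    have h5 := F.St.nrm_addmul hm E (-(al - αl)) M
    rw [← hE1, abs_one, one_mul] at h3
    rw [abs_neg] at h4 h5
    have h6 := mul_le_mul hal hnM hnM0 he0
    have h7 := mul_le_mul hbt hnRM (F.St.nrm_nonneg hm _) he0
    linarith only [h2, hnX, h3, h4, h5, h6, h7]
  have hkey : Hm.nrm K m (Hm.sub M ⟨s * (Hm.mul K m (Hm.ofEv K m gj) Qh).d,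
      fun l => s * (Hm.mul K m (Hm.ofEv K m gj) Qh).e l⟩) = Hm.nrm K m (Hm.mul K m I E1) := by
    have hρev : ∀ l ≤ K, Hm.ev K m ρ l = Hm.ev K m R l - αl * r0 l := fun l hl => by
      rw [hρ, F.St.ev_sub', la_ev_ofEv hm αl r0 hl]
    have hpos : ∀ l ≤ K, 0 < eq' K m q l := vb_eq_pos hm hq hq1
    have hid : ∀ l ≤ K, ∀ x y : ℝ, (1 / αl * (1 + (μ j - bl) * gj l)) *
        (αl * x - αl * r0 l * ((μ j - bl) * x + s * y)) = x - s * (gj l * y) := by
      intro l hl x y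
      have g1 : bl < Az β a α (eq' K m q l) := hbl ▸
        (Az_spec (a := a) D.pos D.one hβ (hpos l hl)).1 (Fin.last n)
      have g2 : μ j < Az β a α (eq' K m q l) := lt_of_le_of_lt (hbl ▸ la_mu_le D j) g1
      have g3 := (sub_pos.2 g1).ne'
      have g4 := (sub_pos.2 g2).ne'
      rw [hr0, hgj]
      simp only
      field_simp
      ring
    refine la_nrm_ext hm ?_ ?_
    · rw [Hm.mul_zero_level hm, hI0, zero_mul, add_zero, hIev 0 (Nat.zero_le _)]
      have e1 : (Hm.sub M ⟨s * (Hm.mul K m (Hm.ofEv K m gj) Qh).d,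
          fun l => s * (Hm.mul K m (Hm.ofEv K m gj) Qh).e l⟩).e 0 =
          M.e 0 - s * (gj 0 * Qh.e 0) := by
        show M.e 0 - s * (Hm.mul K m (Hm.ofEv K m gj) Qh).e 0 = _
        rw [Hm.mul_zero_level hm, hG0, Hm.ev_ofEv hm _ (Nat.zero_le _), zero_mul, add_zero]
      have e2 : E1.e 0 = αl * M.e 0 - αl * r0 0 * ((μ j - bl) * M.e 0 + s * Qh.e 0) := by
        have q1 : E1.e 0 = E.e 0 + -(al - αl) * M.e 0 + -(bt - bl) * (Hm.mul K m R M).e 0 +
            1 * (Hm.mul K m X0 ρ).e 0 := by rw [hE1]; rfl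
        have q2 : E.e 0 = al * M.e 0 - (Hm.mul K m R X).e 0 := by rw [hE]; rfl
        have q3 : ρ.e 0 = R.e 0 := by
          rw [hρ]
          show R.e 0 - αl * (Hm.ofEv K m r0).e 0 = R.e 0
          simp only [Hm.ofEv, Finset.range_zero, Finset.sum_empty, mul_zero, sub_zero]
        have q4 : Hm.ev K m X 0 = (μ j - bt) * Hm.ev K m M 0 + s * Hm.ev K m Qh 0 := by
          rw [hX, la_ev2]
        have q5 : Hm.ev K m X0 0 = (μ j - bl) * Hm.ev K m M 0 + s * Hm.ev K m Qh 0 := by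
          rw [hX0, la_ev2]
        have q6 : X.e 0 = (μ j - bt) * M.e 0 + s * Qh.e 0 := by rw [hX]
        have q7 : X0.e 0 = (μ j - bl) * M.e 0 + s * Qh.e 0 := by rw [hX0]
        rw [q1, q2, Hm.mul_zero_level hm, Hm.mul_zero_level hm, Hm.mul_zero_level hm, q3,
          hρev 0 (Nat.zero_le _), q4, q5, q6, q7]
        ring
      rw [e1, e2, hid 0 (Nat.zero_le _)]
    · intro l hl
      rw [Hm.ev_mul hm _ _ hl, hIev l hl, F.St.ev_sub', la_ev1, Hm.ev_mul hm _ _ hl,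
        Hm.ev_ofEv hm _ hl]
      have e2 : Hm.ev K m E1 l = αl * Hm.ev K m M l -
          αl * r0 l * ((μ j - bl) * Hm.ev K m M l + s * Hm.ev K m Qh l) := by
        rw [hE1, F.St.ev_addmul, F.St.ev_addmul, F.St.ev_addmul, Hm.ev_mul hm _ _ hl,
          Hm.ev_mul hm _ _ hl, hρev l hl, hE, F.St.ev_sub', la_ev1, Hm.ev_mul hm _ _ hl, hX, hX0,
          la_ev2, la_ev2]
        ring
      rw [e2, hid l hl]
  rw [hkey]
  refine (Hm.nrm_mul_le hm I E1 hIe.1 hIe.2).trans ?_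
  calc 5 * CI * Hm.nrm K m E1 ≤ 5 * CI * ((1 + 2 * C0 + 10 * C0 + 5 * CX) * e) :=
        mul_le_mul_of_nonneg_left hnE1 (by positivity)
    _ = 5 * CI * (1 + 2 * C0 + 10 * C0 + 5 * CX) * e := by ring

/-- The sum over the outliers: `∑ g_j^2 Gj = (rDiag - mbar, rPath)` (`rt_matrix`). -/
theorem sum_Gj {β : ℝ} (hβ : 0 < β) {a α : Fin (n + 1) → ℝ} {μ g : Fin n → ℝ}
    {Q : Fin (n + 1) → Matrix (Fin (n + 1)) (Fin (n + 1)) ℝ}
    (D : Dat (fun k => β * a k) α μ g Q) {K : ℕ} {m q : ℕ → ℝ} (hm : Expo K m) (hq : Path K q)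
    (hq0 : q 0 = 0) (hq1 : q K < 1) (Qh : Hm) (hQ : Qh.d = 1) :
    ∑ j, g j ^ 2 * (Hm.mul K m (Gj β a α μ K m q j) Qh).d =
      F.rDiag β (atoms a α) K m q - mbar (fun k => β * a k) α -
        ∑ l ∈ Finset.range (K + 1), (m (l + 1) - m l) *
          (F.rPath β (atoms a α) K m q l * Qh.e l) := by
  obtain ⟨-, h2, h3⟩ := rt_matrix (a := a) (μ := μ) (g := g) D.pos D.one hβ D.out.sum hm hq hq0 hq1
  have hu : (fun l => ∑ j, g j ^ 2 / (Az β a α (eq' K m q l) - μ j)) =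
      fun l => ∑ j, g j ^ 2 * (1 / (Az β a α (eq' K m q l) - μ j)) := by
    funext l
    exact Finset.sum_congr rfl fun j _ => by ring
  rw [hu] at h2 h3
  have e1 : ∑ j, g j ^ 2 * (Gj β a α μ K m q j).d =
      F.rDiag β (atoms a α) K m q - ∑ k, α k * (β * a k) := by
    rw [← h2]
    simp only [Gj, Hm.ofEv]
    rw [la_lin m (fun j => g j ^ 2) (fun j l => 1 / (Az β a α (eq' K m q l) - μ j)) K,
      ← Finset.sum_add_distrib]
    exact Finset.sum_congr rfl fun j _ => by ring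
  have e2 : ∀ l ≤ K, ∑ j, g j ^ 2 * (Gj β a α μ K m q j).e l =
      F.rPath β (atoms a α) K m q l := by
    intro l hl
    rw [← h3 l hl]
    simp only [Gj, Hm.ofEv]
    rw [la_lin m (fun j => g j ^ 2) (fun j l => 1 / (Az β a α (eq' K m q l) - μ j)) l]
  have e3 : ∀ j, g j ^ 2 * (Hm.mul K m (Gj β a α μ K m q j) Qh).d =
      g j ^ 2 * (Gj β a α μ K m q j).d - ∑ l ∈ Finset.range (K + 1), (m (l + 1) - m l) *
        (g j ^ 2 * (Gj β a α μ K m q j).e l * Qh.e l) := by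
    intro j
    show g j ^ 2 * ((Gj β a α μ K m q j).d * Qh.d - ∑ l ∈ Finset.range (K + 1),
      (m (l + 1) - m l) * ((Gj β a α μ K m q j).e l * Qh.e l)) = _
    rw [hQ, mul_one, mul_sub, Finset.mul_sum]
    congr 1
    exact Finset.sum_congr rfl fun l _ => by ring
  rw [Finset.sum_congr rfl fun j _ => e3 j, Finset.sum_sub_distrib, e1, Finset.sum_comm]
  unfold mbar
  congr 1
  refine Finset.sum_congr rfl fun l hl => ?_
  rw [Finset.mem_range] at hl
  rw [← Finset.mul_sum, ← Finset.sum_mul, e2 l (by omega)]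

end Vale.Agent.P166.L
end
end

section

section

/-!
The loop equations of one pattern and one block of patterns.
-/

open MeasureTheory ProbabilityTheory Filter Topology Matrix
open Vale.Agent.P157.Lv Vale.Agent.P157.Lv.Sy
open Vale.Agent.P166.Conc (OG)
open Vale.Agent.P166.F (Hm)

namespace Vale.Agent.P166.H

open Vale.Agent

set_option linter.unusedSectionVars false

variable {N : ℕ} [MeasurableSpace (OG N)] [BorelSpace (OG N)]
variable {ι X : Type} [Fintype ι] [Fintype X] [Nonempty X] [DecidableEq ι] [DecidableEq X]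

namespace GS

variable {A : GS N ι X}
variable (ν : Measure (OG N)) [IsProbabilityMeasure ν] [ν.IsMulLeftInvariant]

/-- **One pattern and one block, two replicas.** -/
theorem Ok.loop_pat_pair (hA : A.Ok) (hN : 0 < N) {j : Fin N} {B : Finset (Fin N)}
    {b η : ℝ} (hB : A.One j B b η) {l : ℕ} (hl : l ≤ A.K) {ρ : ℝ} {r : ℕ → ℝ} {ε : X → ℝ}
    (hε : ∀ x, |ε x| ≤ 1) (hρ : |ρ| ≤ 1) (hr : ∀ i ≤ A.K, |r i| ≤ 1) {t : ℝ} (ht : 0 < t) :
    |al N B * (Phi ν A ε (fun U x => A.y U x j)).e l -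
      (Hm.mul A.K A.m ⟨ρ, r⟩ (Phi ν A ε (A.YY j b))).e l| ≤
      7 / 2 * (t * ∫ U : OG N, A.E2 (A.YY j b) U.1 ∂ν) + (dS ν A B ρ + 4 * dP ν A B r l +
        2 * ∑ i ∈ Finset.range (A.K + 1), (A.m (i + 1) - A.m i) * dP ν A B r i) / t +
        70 * (A.K + 1) * η * (1 + ∫ U : OG N, A.E2 (fun U x => A.y U x j) U.1 ∂ν) := by
  set V : Fin N → OG N → ℝ := fun q U => A.Vf j q l (fun _ => ε) (fun _ _ => 0)
        (fun U x => A.y U x q) (fun U x => rot' j q (A.y U x) q) U.1 with hV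
  have m0 : MM N (fun _ => ε) := MM.const (N := N) ε
  have m0' : MM N (fun _ (_ : X) => (0 : ℝ)) := MM.const (N := N) fun _ => 0
  have u0 : UB N (fun _ => ε) := ⟨1, fun _ => hε⟩
  have u0' : UB N (fun _ (_ : X) => (0 : ℝ)) := ⟨0, fun _ _ => by simp⟩
  have hVi : ∀ q, Integrable (V q) ν := fun q => by
    obtain ⟨C, hC⟩ := hA.bVf j q hl u0 u0' (hA.ub_y q) (hA.ub_y' j q q)
    exact Integrable.of_bound (hA.mVf j q l m0 m0' (mm_y A q)
      (mm_y' A j q q)).aestronglyMeasurable C (Eventually.of_forall hC)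
  have hV0 : ∀ q ∈ B, ∫ U, V q U ∂ν = 0 := fun q hq =>
    hA.loop_pair ν (hB.disj q hq) hl (MT.const j q ε) (A.mt_y (hB.disj q hq) q)
      m0 m0' (mm_y A q) (mm_y' A j q q) u0 u0' (hA.ub_y q) (hA.ub_y' j q q)
  have hsi : Integrable (fun U => ∑ q ∈ B, 1 / (N : ℝ) * V q U) ν :=
    integrable_finsetSum _ fun q _ => (hVi q).const_mul _
  have hs0 : ∫ U, ∑ q ∈ B, 1 / (N : ℝ) * V q U ∂ν = 0 := by
    rw [integral_finsetSum _ fun q _ => (hVi q).const_mul _]
    refine Finset.sum_eq_zero fun q hq => ?_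
    rw [integral_const_mul, hV0 q hq, mul_zero]
  obtain ⟨iY, eY⟩ := hA.int_mY ν hε j b ρ r hl
  have iF : Integrable (fun U : OG N => A.Fl ε l (fun U x => A.y U x j) U.1) ν :=
    hA.int_Fl ν hε hl (mm_y A j) (hA.ub_y j)
  have iaF : Integrable (fun U : OG N => al N B * A.Fl ε l (fun U x => A.y U x j) U.1) ν :=
    iF.const_mul _
  have iT : Integrable (fun U : OG N => A.mY ε j b ρ r l U.1 -
      al N B * A.Fl ε l (fun U x => A.y U x j) U.1) ν := iY.sub iaF
  have h1 : |∫ U : OG N, (∑ q ∈ B, 1 / (N : ℝ) * V q U - (A.mY ε j b ρ r l U.1 -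
      al N B * A.Fl ε l (fun U x => A.y U x j) U.1)) ∂ν| =
      |al N B * (Phi ν A ε (fun U x => A.y U x j)).e l -
      (Hm.mul A.K A.m ⟨ρ, r⟩ (Phi ν A ε (A.YY j b))).e l| := by
    rw [integral_sub hsi iT, hs0, integral_sub iY iaF, integral_const_mul, eY, zero_sub, neg_sub]
    rfl
  rw [← h1]
  have iE : Integrable (fun U : OG N => A.E2 (A.YY j b) U.1) ν :=
    hA.int_E2 ν (mm_YY A j b) (hA.ub_YY j b)
  have iE' : Integrable (fun U : OG N => A.E2 (fun U x => A.y U x j) U.1) ν :=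
    hA.int_E2 ν (mm_y A j) (hA.ub_y j)
  have iS := hA.int_eS ν hN B ρ
  have iP : ∀ i ≤ A.K, Integrable (fun U : OG N => A.eP B r i U.1) ν := fun i hi =>
    hA.int_eP ν hN B r hi
  have iP4 : Integrable (fun U : OG N => 4 * A.eP B r l U.1) ν := (iP l hl).const_mul _
  have iq : ∀ i ∈ Finset.range (A.K + 1), Integrable (fun U : OG N =>
      (A.m (i + 1) - A.m i) * A.eP B r i U.1) ν := fun i hi =>
    (iP i (Nat.lt_succ_iff.1 (Finset.mem_range.1 hi))).const_mul _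
  have iQ : Integrable (fun U : OG N => ∑ i ∈ Finset.range (A.K + 1),
      (A.m (i + 1) - A.m i) * A.eP B r i U.1) ν := integrable_finsetSum _ iq
  have iQ2 : Integrable (fun U : OG N => 2 * ∑ i ∈ Finset.range (A.K + 1),
      (A.m (i + 1) - A.m i) * A.eP B r i U.1) ν := iQ.const_mul 2
  have j1 : Integrable (fun U : OG N => A.eS B ρ U.1 + 4 * A.eP B r l U.1) ν := iS.add iP4
  have j2 : Integrable (fun U : OG N => A.eS B ρ U.1 + 4 * A.eP B r l U.1 +
        2 * ∑ i ∈ Finset.range (A.K + 1), (A.m (i + 1) - A.m i) * A.eP B r i U.1) ν := j1.add iQ2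
  have j3 : Integrable (fun U : OG N => (A.eS B ρ U.1 + 4 * A.eP B r l U.1 +
        2 * ∑ i ∈ Finset.range (A.K + 1), (A.m (i + 1) - A.m i) * A.eP B r i U.1) / t) ν :=
    j2.div_const t
  have j40 : Integrable (fun U : OG N => t * A.E2 (A.YY j b) U.1) ν := iE.const_mul _
  have j4 : Integrable (fun U : OG N => 7 / 2 * (t * A.E2 (A.YY j b) U.1)) ν :=
    j40.const_mul _
  have j5 : Integrable (fun U : OG N => 7 / 2 * (t * A.E2 (A.YY j b) U.1) +
      (A.eS B ρ U.1 + 4 * A.eP B r l U.1 +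
        2 * ∑ i ∈ Finset.range (A.K + 1), (A.m (i + 1) - A.m i) * A.eP B r i U.1) / t) ν :=
    j4.add j3
  have j6 : Integrable (fun U : OG N => 1 + A.E2 (fun U x => A.y U x j) U.1) ν :=
    (integrable_const _).add iE'
  have j7 : Integrable (fun U : OG N => 70 * (A.K + 1) * η *
      (1 + A.E2 (fun U x => A.y U x j) U.1)) ν := j6.const_mul _
  have hbi : Integrable (fun U : OG N => 7 / 2 * (t * A.E2 (A.YY j b) U.1) +
      (A.eS B ρ U.1 + 4 * A.eP B r l U.1 +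
        2 * ∑ i ∈ Finset.range (A.K + 1), (A.m (i + 1) - A.m i) * A.eP B r i U.1) / t +
      70 * (A.K + 1) * η * (1 + A.E2 (fun U x => A.y U x j) U.1)) ν := j5.add j7
  have h2 : ‖∫ U : OG N, (∑ q ∈ B, 1 / (N : ℝ) * V q U - (A.mY ε j b ρ r l U.1 -
      al N B * A.Fl ε l (fun U x => A.y U x j) U.1)) ∂ν‖ ≤ _ :=
    norm_integral_le_of_norm_le hbi (Eventually.of_forall fun U =>
      hA.fix_pat_pair hN U.2 hB hl hε hρ hr ht)
  rw [Real.norm_eq_abs] at h2
  refine h2.trans (le_of_eq ?_)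
  rw [integral_add j5 j7, integral_add j4 j3, integral_const_mul, integral_const_mul,
    integral_div, integral_add j1 iQ2, integral_add iS iP4, integral_const_mul,
    integral_const_mul, integral_finsetSum _ iq, integral_const_mul,
    integral_add (integrable_const _) iE', integral_const]
  have e1 : ∑ i ∈ Finset.range (A.K + 1), ∫ U : OG N, (A.m (i + 1) - A.m i) *
      A.eP B r i U.1 ∂ν = ∑ i ∈ Finset.range (A.K + 1), (A.m (i + 1) - A.m i) *
        dP ν A B r i := Finset.sum_congr rfl fun i _ => integral_const_mul _ _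
  rw [e1]
  simp only [dP, probReal_univ, smul_eq_mul, mul_one, dS]

/-- **One pattern and one block, one replica.** -/
theorem Ok.loop_pat_one (hA : A.Ok) (hN : 0 < N) {j : Fin N} {B : Finset (Fin N)}
    {b η : ℝ} (hB : A.One j B b η) {ρ : ℝ} {r : ℕ → ℝ} {ε : X → ℝ}
    (hε : ∀ x, |ε x| ≤ 1) (hρ : |ρ| ≤ 1) (hr : ∀ i ≤ A.K, |r i| ≤ 1) {t : ℝ} (ht : 0 < t) :
    |al N B * (Phi ν A ε (fun U x => A.y U x j)).d -
      (Hm.mul A.K A.m ⟨ρ, r⟩ (Phi ν A ε (A.YY j b))).d| ≤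
      t * (∫ U : OG N, A.E2 (A.YY j b) U.1 ∂ν) + (dS ν A B ρ +
        ∑ i ∈ Finset.range (A.K + 1), (A.m (i + 1) - A.m i) * dP ν A B r i) / t +
        20 * (A.K + 1) * η * (1 + ∫ U : OG N, A.E2 (fun U x => A.y U x j) U.1 ∂ν) := by
  set V : Fin N → OG N → ℝ := fun q U => A.V1 j q (fun U x => ε x * A.y U x q)
        (fun U x => ε x * rot' j q (A.y U x) q) U.1 with hV
  have u0 : UB N (fun _ : Matrix (Fin N) (Fin N) ℝ => ε) := ⟨1, fun _ => hε⟩
  have u1 : ∀ q, UB N (fun U x => ε x * A.y U x q) := fun q => u0.mul (hA.ub_y q)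
  have u2 : ∀ q, UB N (fun U x => ε x * rot' j q (A.y U x) q) := fun q =>
    u0.mul (hA.ub_y' j q q)
  have hVi : ∀ q, Integrable (V q) ν := fun q => by
    obtain ⟨C, hC⟩ := hA.bV1 j q (u1 q) (u2 q)
    exact Integrable.of_bound (hA.mV1 j q (MM.y A q ε)
      (MM.rot' A j q q ε)).aestronglyMeasurable C (Eventually.of_forall hC)
  have hV0 : ∀ q ∈ B, ∫ U, V q U ∂ν = 0 := fun q hq =>
    hA.loop_one ν (hB.disj q hq) (MT.coord A (hB.disj q hq) q ε)
      (MM.y A q ε) (MM.rot' A j q q ε) (u1 q) (u2 q)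
  have hsi : Integrable (fun U => ∑ q ∈ B, 1 / (N : ℝ) * V q U) ν :=
    integrable_finsetSum _ fun q _ => (hVi q).const_mul _
  have hs0 : ∫ U, ∑ q ∈ B, 1 / (N : ℝ) * V q U ∂ν = 0 := by
    rw [integral_finsetSum _ fun q _ => (hVi q).const_mul _]
    refine Finset.sum_eq_zero fun q hq => ?_
    rw [integral_const_mul, hV0 q hq, mul_zero]
  obtain ⟨iY, eY⟩ := hA.int_mY0 ν hε j b ρ r
  have iF : Integrable (fun U : OG N => A.Fs ε (fun U x => A.y U x j) U.1) ν :=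
    hA.int_Fs ν hε (mm_y A j) (hA.ub_y j)
  have iaF : Integrable (fun U : OG N => al N B * A.Fs ε (fun U x => A.y U x j) U.1) ν :=
    iF.const_mul _
  have iT : Integrable (fun U : OG N => A.mY0 ε j b ρ r U.1 -
      al N B * A.Fs ε (fun U x => A.y U x j) U.1) ν := iY.sub iaF
  have h1 : |∫ U : OG N, (∑ q ∈ B, 1 / (N : ℝ) * V q U - (A.mY0 ε j b ρ r U.1 -
      al N B * A.Fs ε (fun U x => A.y U x j) U.1)) ∂ν| =
      |al N B * (Phi ν A ε (fun U x => A.y U x j)).d -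
      (Hm.mul A.K A.m ⟨ρ, r⟩ (Phi ν A ε (A.YY j b))).d| := by
    rw [integral_sub hsi iT, hs0, integral_sub iY iaF, integral_const_mul, eY, zero_sub, neg_sub]
    rfl
  rw [← h1]
  have iE : Integrable (fun U : OG N => A.E2 (A.YY j b) U.1) ν :=
    hA.int_E2 ν (mm_YY A j b) (hA.ub_YY j b)
  have iE' : Integrable (fun U : OG N => A.E2 (fun U x => A.y U x j) U.1) ν :=
    hA.int_E2 ν (mm_y A j) (hA.ub_y j)
  have iS := hA.int_eS ν hN B ρ
  have iP : ∀ i ≤ A.K, Integrable (fun U : OG N => A.eP B r i U.1) ν := fun i hi =>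
    hA.int_eP ν hN B r hi
  have iq : ∀ i ∈ Finset.range (A.K + 1), Integrable (fun U : OG N =>
      (A.m (i + 1) - A.m i) * A.eP B r i U.1) ν := fun i hi =>
    (iP i (Nat.lt_succ_iff.1 (Finset.mem_range.1 hi))).const_mul _
  have iQ : Integrable (fun U : OG N => ∑ i ∈ Finset.range (A.K + 1),
      (A.m (i + 1) - A.m i) * A.eP B r i U.1) ν := integrable_finsetSum _ iq
  have j2 : Integrable (fun U : OG N => A.eS B ρ U.1 +
        ∑ i ∈ Finset.range (A.K + 1), (A.m (i + 1) - A.m i) * A.eP B r i U.1) ν := iS.add iQ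
  have j3 : Integrable (fun U : OG N => (A.eS B ρ U.1 +
        ∑ i ∈ Finset.range (A.K + 1), (A.m (i + 1) - A.m i) * A.eP B r i U.1) / t) ν :=
    j2.div_const t
  have j4 : Integrable (fun U : OG N => t * A.E2 (A.YY j b) U.1) ν := iE.const_mul _
  have j5 : Integrable (fun U : OG N => t * A.E2 (A.YY j b) U.1 + (A.eS B ρ U.1 +
        ∑ i ∈ Finset.range (A.K + 1), (A.m (i + 1) - A.m i) * A.eP B r i U.1) / t) ν :=
    j4.add j3
  have j6 : Integrable (fun U : OG N => 1 + A.E2 (fun U x => A.y U x j) U.1) ν :=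
    (integrable_const _).add iE'
  have j7 : Integrable (fun U : OG N => 20 * (A.K + 1) * η *
      (1 + A.E2 (fun U x => A.y U x j) U.1)) ν := j6.const_mul _
  have hbi : Integrable (fun U : OG N => t * A.E2 (A.YY j b) U.1 + (A.eS B ρ U.1 +
        ∑ i ∈ Finset.range (A.K + 1), (A.m (i + 1) - A.m i) * A.eP B r i U.1) / t +
      20 * (A.K + 1) * η * (1 + A.E2 (fun U x => A.y U x j) U.1)) ν := j5.add j7
  have h2 : ‖∫ U : OG N, (∑ q ∈ B, 1 / (N : ℝ) * V q U - (A.mY0 ε j b ρ r U.1 -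
      al N B * A.Fs ε (fun U x => A.y U x j) U.1)) ∂ν‖ ≤ _ :=
    norm_integral_le_of_norm_le hbi (Eventually.of_forall fun U =>
      hA.fix_pat_one hN U.2 hB hε hρ hr ht)
  rw [Real.norm_eq_abs] at h2
  refine h2.trans (le_of_eq ?_)
  rw [integral_add j5 j7, integral_add j4 j3, integral_const_mul, 
    integral_div, integral_add iS iQ, integral_finsetSum _ iq, integral_const_mul,
    integral_add (integrable_const _) iE', integral_const]
  have e1 : ∑ i ∈ Finset.range (A.K + 1), ∫ U : OG N, (A.m (i + 1) - A.m i) *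
      A.eP B r i U.1 ∂ν = ∑ i ∈ Finset.range (A.K + 1), (A.m (i + 1) - A.m i) *
        dP ν A B r i := Finset.sum_congr rfl fun i _ => integral_const_mul _ _
  rw [e1]
  simp only [probReal_univ, smul_eq_mul, mul_one, dS]

end GS

end Vale.Agent.P166.H
end
end

section

section

/-!
The loop equation of one pattern `j` and one block `B` of patterns, as an estimate of a
hierarchical matrix.
-/

open MeasureTheory ProbabilityTheory Filter Topology Matrix
open Vale.Agent.P157.Lv Vale.Agent.P157.Lv.Sy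
open Vale.Agent.P166.Conc (OG)
open Vale.Agent.P166.F (Hm)
open Vale.Agent.P166.Md (EU)

namespace Vale.Agent.P166.H

open Vale.Agent

set_option linter.unusedSectionVars false

variable {N : ℕ} [MeasurableSpace (OG N)] [BorelSpace (OG N)]
variable {ι X : Type} [Fintype ι] [Fintype X] [Nonempty X] [DecidableEq ι] [DecidableEq X]

/-- Optimization over the weight. -/
lemma inf_t {x a b : ℝ} (ha : 0 ≤ a) (hb : 0 ≤ b)
    (h : ∀ t : ℝ, 0 < t → x ≤ 9 / 2 * (t * a) + 7 * b / t) :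
    x ≤ 12 * (Real.sqrt a * Real.sqrt b) := by
  rcases eq_or_lt_of_le ha with ha0 | ha0
  · rw [← ha0, Real.sqrt_zero, zero_mul, mul_zero]
    refine le_of_forall_pos_le_add fun e he => ?_
    have h1 := h (7 * b / e + 1) (by positivity)
    rw [← ha0, mul_zero, mul_zero, zero_add] at h1
    rw [zero_add]
    refine h1.trans ?_
    rw [div_le_iff₀ (by positivity)]
    have : e * (7 * b / e + 1) = 7 * b + e := by field_simp
    rw [this]
    linarith
  rcases eq_or_lt_of_le hb with hb0 | hb0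
  · rw [← hb0, Real.sqrt_zero, mul_zero, mul_zero]
    refine le_of_forall_pos_le_add fun e he => ?_
    have h1 := h (e / (5 * a)) (by positivity)
    rw [← hb0, mul_zero, zero_div, add_zero] at h1
    rw [zero_add]
    refine h1.trans ?_
    have : 9 / 2 * (e / (5 * a) * a) = 9 / 10 * e := by field_simp; norm_num
    rw [this]
    linarith
  have sa : 0 < Real.sqrt a := Real.sqrt_pos.2 ha0
  have sb : 0 < Real.sqrt b := Real.sqrt_pos.2 hb0
  have h1 := h (Real.sqrt b / Real.sqrt a) (by positivity)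
  have ea : a = Real.sqrt a * Real.sqrt a := (Real.mul_self_sqrt ha).symm
  have eb : b = Real.sqrt b * Real.sqrt b := (Real.mul_self_sqrt hb).symm
  have e1 : Real.sqrt b / Real.sqrt a * a = Real.sqrt a * Real.sqrt b := by
    nth_rewrite 2 [ea]
    field_simp
  have e2 : 7 * b / (Real.sqrt b / Real.sqrt a) = 7 * (Real.sqrt a * Real.sqrt b) := by
    nth_rewrite 1 [eb]
    field_simp
  rw [e1, e2] at h1
  have := mul_pos sa sb
  linarith

namespace GS

variable {A : GS N ι X}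
variable (ν : Measure (OG N))

/-- The deviation of the overlap of the block `B`. -/
noncomputable def DvB (A : GS N ι X) (B : Finset (Fin N)) (M : Hm) : ℝ :=
  EU ν (fun U => (A.sy U).Ex (fun _ x => |A.R B U x x - M.d|)) +
    ∑ l ∈ Finset.range (A.K + 1), (A.m (l + 1) - A.m l) *
      EU ν (fun U => (A.sy U).pairEx l (fun x x' => |A.R B U x x' - M.e l|))

/-- The hierarchical matrix of the averages of `f ε`. -/
noncomputable def Ph1 (A : GS N ι X) (ε : X → ℝ) (f : Matrix (Fin N) (Fin N) ℝ → X → ℝ) :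
    Hm where
  d := EU ν (fun U => (A.sy U).Ex (fun _ x => f U x * ε x))
  e := fun l => EU ν (fun U => (A.sy U).Ex (fun z x => f U x * (A.sy U).T l (fun _ => ε) z))

/-- The residual of the loop equation of the pattern `j` and of the block `B`. -/
noncomputable def LO (A : GS N ι X) (ε : X → ℝ) (j : Fin N) (b : ℝ) (B : Finset (Fin N))
    (M : Hm) : Hm :=
  Hm.sub ⟨al N B * (Ph1 ν A ε (fun U x => A.y U x j)).d,
    fun l => al N B * (Ph1 ν A ε (fun U x => A.y U x j)).e l⟩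
    (Hm.mul A.K A.m M (Ph1 ν A ε (fun U x => (A.lam j - b) * A.y U x j + A.kap j x)))

variable [IsProbabilityMeasure ν] [ν.IsMulLeftInvariant]

/-- **The loop equation of one pattern and one block.** -/
theorem Ok.loop_out (hA : A.Ok) (hN : 0 < N) {j : Fin N} {B : Finset (Fin N)} {b η : ℝ}
    (hj : j ∉ B) (hlam : ∀ q ∈ B, A.lam q = b) (hkap : ∀ q ∈ B, ∀ x, A.kap q x = 0)
    (hu : ∀ i, ∀ l ≤ A.K, |A.u i l| ≤ η) (hη0 : 0 ≤ η) (hη1 : η ≤ 1) {M : Hm} {ε : X → ℝ}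
    (hε : ∀ x, |ε x| ≤ 1) (hρ : |M.d| ≤ 1) (hr : ∀ i ≤ A.K, |M.e i| ≤ 1) :
    Hm.nrm A.K A.m (LO ν A ε j b B M) ≤
      12 * (Real.sqrt (EU ν (fun U => (A.sy U).Ex (fun _ x =>
        ((A.lam j - b) * A.y U x j + A.kap j x) ^ 2))) * Real.sqrt (DvB ν A B M)) +
      90 * (A.K + 1) * η * (1 + EU ν (fun U => (A.sy U).Ex (fun _ x => A.y U x j ^ 2))) := by
  have hB : A.One j B b η := ⟨fun q hq h => hj (h ▸ hq), hlam, hkap, hu, hη0, hη1⟩
  have hM : M = ⟨M.d, M.e⟩ := rfl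
  have hG := fun U : OG N => hA.regG U.1
  obtain ⟨s, hs⟩ : ∃ s, s = dS ν A B M.d := ⟨_, rfl⟩
  obtain ⟨E, hE⟩ : ∃ E, E = ∑ i ∈ Finset.range (A.K + 1), (A.m (i + 1) - A.m i) *
    dP ν A B M.e i := ⟨_, rfl⟩
  obtain ⟨e2, he2⟩ : ∃ e2, e2 = ∫ U : OG N, A.E2 (A.YY j b) U.1 ∂ν := ⟨_, rfl⟩
  obtain ⟨y2, hy2⟩ : ∃ y2, y2 = ∫ U : OG N, A.E2 (fun U x => A.y U x j) U.1 ∂ν := ⟨_, rfl⟩
  have hDv : DvB ν A B M = s + E := by rw [hs, hE]; rfl
  have hY : EU ν (fun U => (A.sy U).Ex (fun _ x =>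
        ((A.lam j - b) * A.y U x j + A.kap j x) ^ 2)) = e2 := by rw [he2]; rfl
  have hy : EU ν (fun U => (A.sy U).Ex (fun _ x => A.y U x j ^ 2)) = y2 := by rw [hy2]; rfl
  rw [hDv, hY, hy]
  have hp0 : ∀ l ∈ Finset.range (A.K + 1), 0 ≤ A.m (l + 1) - A.m l := fun l hl =>
    p_nonneg (hA.regG 0) (Nat.lt_succ_iff.1 (Finset.mem_range.1 hl))
  have hsum : ∑ l ∈ Finset.range (A.K + 1), (A.m (l + 1) - A.m l) = 1 := by
    have h0 := (hA.regG 0).m0
    have h1 := (hA.regG 0).mK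
    have h0' : A.m 0 = 0 := h0
    have h1' : A.m (A.K + 1) = 1 := h1
    rw [Finset.sum_range_sub, h0', h1', sub_zero]
  have hs0 : 0 ≤ s := by
    rw [hs]
    exact integral_nonneg fun U => (hG U).Ex_nonneg
      (Nh.snd fun x => |A.R B U.1 x x - M.d|) fun _ _ => abs_nonneg _
  have hd0 : ∀ l ∈ Finset.range (A.K + 1), 0 ≤ dP ν A B M.e l := fun l hl =>
    integral_nonneg fun U => hA.eP_nonneg _ _ (Nat.lt_succ_iff.1 (Finset.mem_range.1 hl)) U.1
  have hE0 : 0 ≤ E := by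
    rw [hE]; exact Finset.sum_nonneg fun l hl => mul_nonneg (hp0 l hl) (hd0 l hl)
  have he0 : 0 ≤ e2 := by
    rw [he2]
    exact integral_nonneg fun U => (hG U).Ex_nonneg (Nh.snd fun x => A.YY j b U.1 x ^ 2)
      fun _ _ => sq_nonneg _
  have hy0 : 0 ≤ y2 := by
    rw [hy2]
    exact integral_nonneg fun U => (hG U).Ex_nonneg (Nh.snd fun x => A.y U.1 x j ^ 2)
      fun _ _ => sq_nonneg _
  -- the bound for each weight
  have key : ∀ t : ℝ, 0 < t → Hm.nrm A.K A.m (LO ν A ε j b B M) -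
      90 * (A.K + 1) * η * (1 + y2) ≤ 9 / 2 * (t * e2) + 7 * (s + E) / t := by
    intro t ht
    have L1 : |(LO ν A ε j b B M).d| ≤ t * e2 + (s + E) / t + 20 * (A.K + 1) * η * (1 + y2) := by
      have h := hA.loop_pat_one ν hN hB hε hρ hr ht
      rw [hs, hE, he2, hy2]
      exact h
    have L2 : ∀ l ∈ Finset.range (A.K + 1), |(LO ν A ε j b B M).e l| ≤
        7 / 2 * (t * e2) + (s + 4 * dP ν A B M.e l + 2 * E) / t +
          70 * (A.K + 1) * η * (1 + y2) := fun l hl => by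
      have h := hA.loop_pat_pair ν hN hB (Nat.lt_succ_iff.1 (Finset.mem_range.1 hl)) hε hρ hr ht
      rw [hs, hE, he2, hy2]
      exact h
    have L3 : ∑ l ∈ Finset.range (A.K + 1), (A.m (l + 1) - A.m l) *
        |(LO ν A ε j b B M).e l| ≤ 7 / 2 * (t * e2) + (s + 4 * E + 2 * E) / t +
          70 * (A.K + 1) * η * (1 + y2) := by
      refine (Finset.sum_le_sum fun l hl =>
        mul_le_mul_of_nonneg_left (L2 l hl) (hp0 l hl)).trans (le_of_eq ?_)
      have h5 : ∀ l ∈ Finset.range (A.K + 1), (A.m (l + 1) - A.m l) *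
          (7 / 2 * (t * e2) + (s + 4 * dP ν A B M.e l + 2 * E) / t +
            70 * (A.K + 1) * η * (1 + y2)) =
          (4 / t) * ((A.m (l + 1) - A.m l) * dP ν A B M.e l) +
            (7 / 2 * (t * e2) + (s + 2 * E) / t + 70 * (A.K + 1) * η * (1 + y2)) *
              (A.m (l + 1) - A.m l) := fun l _ => by ring
      rw [Finset.sum_congr rfl h5, Finset.sum_add_distrib, ← Finset.mul_sum, ← Finset.mul_sum,
        ← hE, hsum]
      ring
    unfold Hm.nrm
    have h6 : (s + E) / t + (s + 4 * E + 2 * E) / t ≤ 7 * (s + E) / t := by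
      rw [← add_div]
      apply div_le_div_of_nonneg_right _ ht.le
      linarith
    linarith
  have h := inf_t he0 (add_nonneg hs0 hE0) key
  linarith

end GS

end Vale.Agent.P166.H
end
end

section

section

/-! Task F-BDD: the supremum over `r` is finite. -/

open MeasureTheory Finset Filter Topology

namespace Vale.Agent.P166.F

open Vale.Agent.P157 ProbabilityTheory

/-- `E exp(t |z|) ≤ 2 exp(t²/2)`. -/
lemma bdd_exp_abs (t : ℝ) :
    ∫ z, Real.exp (t * |z|) ∂(gaussianReal 0 1) ≤ 2 * Real.exp (t ^ 2 / 2) := by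
  have h1 : ∀ s : ℝ, ∫ z, Real.exp (s * z) ∂(gaussianReal 0 1) = Real.exp (s ^ 2 / 2) := by
    intro s
    have h := congrFun (mgf_id_gaussianReal (μ := 0) (v := 1)) s
    simp only [mgf, id_eq] at h
    rw [h]
    simp
  have hi : ∀ s : ℝ, Integrable (fun z => Real.exp (s * z)) (gaussianReal 0 1) := fun s =>
    integrable_exp_mul_gaussianReal s
  calc ∫ z, Real.exp (t * |z|) ∂(gaussianReal 0 1)
      ≤ ∫ z, (Real.exp (t * z) + Real.exp (-t * z)) ∂(gaussianReal 0 1) := by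
        refine integral_mono (Par.integrable_exp_abs t) ((hi t).add (hi (-t))) fun z => ?_
        dsimp only
        rcases abs_cases z with ⟨h, _⟩ | ⟨h, _⟩
        · rw [h]; linarith only [Real.exp_pos (-t * z)]
        · rw [h]
          have : t * -z = -t * z := by ring
          rw [this]; linarith only [Real.exp_pos (t * z)]
    _ = 2 * Real.exp (t ^ 2 / 2) := by
        rw [integral_add (hi t) (hi (-t)), h1, h1]
        have : (-t) ^ 2 = t ^ 2 := by ring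
        rw [this]; ring

/-- One step: `F ≤ |x| + c` gives `gstep F ≤ |x| + c + m v / 2 + log 2 / m`. -/
lemma bdd_gstep {F : ℝ → ℝ} (hF : Par.Lip1 F) {c : ℝ} (hc : ∀ x, F x ≤ |x| + c) {m v : ℝ}
    (hm : 0 < m) (hv : 0 ≤ v) (x : ℝ) :
    Par.gstep m v F x ≤ |x| + (c + (m * v / 2 + Real.log 2 / m)) := by
  unfold Par.gstep
  have h1 : ∫ z, Real.exp (m * F (x + √v * z)) ∂(gaussianReal 0 1) ≤
      Real.exp (m * (|x| + c)) * (2 * Real.exp ((m * √v) ^ 2 / 2)) := by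
    calc ∫ z, Real.exp (m * F (x + √v * z)) ∂(gaussianReal 0 1)
        ≤ ∫ z, Real.exp (m * (|x| + c)) * Real.exp (m * √v * |z|) ∂(gaussianReal 0 1) := by
          refine integral_mono (hF.integrable_exp m x (√v))
            ((Par.integrable_exp_abs (m * √v)).const_mul _) fun z => ?_
          dsimp only
          rw [← Real.exp_add, Real.exp_le_exp]
          have h2 := hc (x + √v * z)
          have h3 : |x + √v * z| ≤ |x| + √v * |z| := by
            refine (abs_add_le _ _).trans ?_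
            rw [abs_mul, abs_of_nonneg (Real.sqrt_nonneg v)]
          have h4 : F (x + √v * z) ≤ (|x| + c) + √v * |z| := by linarith only [h2, h3]
          calc m * F (x + √v * z) ≤ m * ((|x| + c) + √v * |z|) :=
                mul_le_mul_of_nonneg_left h4 hm.le
            _ = _ := by ring
      _ = Real.exp (m * (|x| + c)) * ∫ z, Real.exp (m * √v * |z|) ∂(gaussianReal 0 1) :=
          integral_const_mul _ _
      _ ≤ _ := mul_le_mul_of_nonneg_left (bdd_exp_abs _) (Real.exp_pos _).le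
  have h2 := Real.log_le_log (hF.int_exp_pos m x (√v)) h1
  rw [Real.log_mul (Real.exp_pos _).ne' (by positivity), Real.log_mul (by norm_num)
    (Real.exp_pos _).ne', Real.log_exp, Real.log_exp, mul_pow, Real.sq_sqrt hv] at h2
  calc 1 / m * Real.log (∫ z, Real.exp (m * F (x + √v * z)) ∂(gaussianReal 0 1)) ≤
      1 / m * (m * (|x| + c) + (Real.log 2 + m ^ 2 * v / 2)) :=
        mul_le_mul_of_nonneg_left h2 (by (clear * - hm; positivity))
    _ = _ := by field_simp; ring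

/-- The cascade. -/
lemma bdd_cascade {m r : ℕ → ℝ} {l : ℕ} (hm : ∀ j < l, 0 < m (j + 1))
    (hr : ∀ j < l, r j ≤ r (j + 1)) {F : ℝ → ℝ} (hF : Par.Lip1 F) {c : ℝ}
    (hc : ∀ x, F x ≤ |x| + c) :
    Par.Lip1 (Par.cascade m r l F) ∧ ∀ x, Par.cascade m r l F x ≤
      |x| + (c + ∑ j ∈ range l, (m (j + 1) * (r (j + 1) - r j) / 2 + Real.log 2 / m (j + 1))) := by
  induction l generalizing F c with
  | zero =>
    refine ⟨hF, fun x => ?_⟩
    rw [range_zero, sum_empty, add_zero]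
    exact hc x
  | succ l ih =>
    have h1 := ih (fun j hj => hm j (by omega)) (fun j hj => hr j (by omega))
      (hF.gstep (hm l (by omega)) (r (l + 1) - r l))
      (c := c + (m (l + 1) * (r (l + 1) - r l) / 2 + Real.log 2 / m (l + 1)))
      (bdd_gstep hF hc (hm l (by omega)) (sub_nonneg.2 (hr l (by omega))))
    rw [Par.cascade_succ_def]
    refine ⟨h1.1, fun x => ?_⟩
    have h2 := h1.2 x
    rw [sum_range_succ]
    linarith only [h2]

/-- Summation by parts. -/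
lemma bdd_abel (k : ℕ) (m r : ℕ → ℝ) (h0 : m 0 = 0) :
    ∑ l ∈ range (k + 1), (m (l + 1) - m l) * r l =
      m (k + 1) * r k - ∑ l ∈ range k, m (l + 1) * (r (l + 1) - r l) := by
  induction k with
  | zero => simp [h0]
  | succ k ih =>
    rw [sum_range_succ, ih, sum_range_succ _ k]
    ring

lemma bdd_log_cosh (x : ℝ) : Real.log (Real.cosh x) ≤ |x| + 0 := by
  rw [add_zero, ← Real.log_exp |x|]
  refine Real.log_le_log (Real.cosh_pos x) ?_
  rw [Real.cosh_eq]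
  have h1 : Real.exp x ≤ Real.exp |x| := Real.exp_le_exp.2 (le_abs_self x)
  have h2 : Real.exp (-x) ≤ Real.exp |x| := Real.exp_le_exp.2 (neg_le_abs x)
  linarith only [h1, h2]

/-- `E |z| ≤ 1`. -/
lemma bdd_abs : ∫ z, |z| ∂(gaussianReal 0 1) ≤ 1 := by
  have h2 : Integrable (fun z : ℝ => z ^ 2) (gaussianReal 0 1) :=
    (memLp_id_gaussianReal 2).integrable_sq
  have h1 : Integrable (fun z : ℝ => |z|) (gaussianReal 0 1) :=
    ((memLp_id_gaussianReal 1).integrable le_rfl).abs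
  have h3 : ∫ z, z ^ 2 ∂(gaussianReal 0 1) = 1 := by
    have h := variance_fun_id_gaussianReal (μ := 0) (v := 1)
    rw [variance_of_integral_eq_zero (by fun_prop) (by simp [integral_id_gaussianReal])] at h
    simpa using h
  calc ∫ z, |z| ∂(gaussianReal 0 1) ≤ ∫ z, (1 / 2 + 1 / 2 * z ^ 2) ∂(gaussianReal 0 1) := by
        refine integral_mono h1 ((integrable_const _).add (h2.const_mul _)) fun z => ?_
        dsimp only
        (clear * -; nlinarith [sq_nonneg (|z| - 1), sq_abs z])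
    _ = 1 := by
        rw [integral_add (integrable_const _) (h2.const_mul _), integral_const_mul, h3]
        simp
        norm_num

/-- `Γ(m, r) ≤ √r_0 + log 2 ∑ 1/m_l - (1/2) ∑ p_l r_l`. -/
theorem spinPart_le {k : ℕ} {m r : ℕ → ℝ} (hm : Par.Exponents k m) (hr : Par.Path k r) :
    Par.spinPart k m r ≤ √(r 0) + ∑ l ∈ range k, Real.log 2 / m (l + 1) -
      1 / 2 * ∑ l ∈ range (k + 1), (m (l + 1) - m l) * r l := by
  obtain ⟨h0, h1, hmono⟩ := hm
  have hpos : ∀ j ≤ k, 0 < m (j + 1) := by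
    intro j hj
    induction j with
    | zero => have := hmono 0 hj; rw [h0] at this; exact this
    | succ j ih => exact (ih (by omega)).trans (hmono (j + 1) hj)
  obtain ⟨hL, hle⟩ := bdd_cascade (l := k) (fun j hj => hpos j (by omega)) (fun j hj => hr.2 j hj)
    Par.lip1_log_cosh bdd_log_cosh
  set C : ℝ := ∑ j ∈ range k, (m (j + 1) * (r (j + 1) - r j) / 2 + Real.log 2 / m (j + 1)) with hC
  have hz : Integrable (fun z : ℝ => |z|) (gaussianReal 0 1) :=
    ((memLp_id_gaussianReal 1).integrable le_rfl).abs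
  have h2 : ∫ z, Par.cascade m r k (fun x => Real.log (Real.cosh x)) (√(r 0) * z)
      ∂(gaussianReal 0 1) ≤ √(r 0) + C := by
    calc ∫ z, Par.cascade m r k (fun x => Real.log (Real.cosh x)) (√(r 0) * z) ∂(gaussianReal 0 1)
        ≤ ∫ z, (√(r 0) * |z| + C) ∂(gaussianReal 0 1) := by
          refine integral_mono ?_ ((hz.const_mul _).add (integrable_const _)) fun z => ?_
          · simpa only [zero_add] using hL.integrable 0 (√(r 0))
          · dsimp only
            have := hle (√(r 0) * z)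
            rw [abs_mul, abs_of_nonneg (Real.sqrt_nonneg _)] at this
            linarith only [this]
      _ = √(r 0) * ∫ z, |z| ∂(gaussianReal 0 1) + C := by
          rw [integral_add (hz.const_mul _) (integrable_const _), integral_const_mul]
          simp
      _ ≤ √(r 0) * 1 + C := by
          have := mul_le_mul_of_nonneg_left bdd_abs (Real.sqrt_nonneg (r 0))
          linarith only [this]
      _ = _ := by ring
  unfold Par.spinPart
  rw [bdd_abel k m r h0, h1]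
  have h3 : C = 1 / 2 * ∑ l ∈ range k, m (l + 1) * (r (l + 1) - r l) +
      ∑ l ∈ range k, Real.log 2 / m (l + 1) := by
    rw [hC, sum_add_distrib, mul_sum]
    congr 1
    exact sum_congr rfl fun j _ => by ring
  linarith only [h2, h3]

theorem Jf_bdd {k : ℕ} {m q : ℕ → ℝ} (β : ℝ) (μ : Measure ℝ) (hm : Par.Exponents k m)
    (hq : Par.Path k q) (hq1 : q k < 1) :
    BddAbove {y | ∃ r, Par.Path k r ∧ y = Jf β μ k m q r} := by
  have hc : 0 < 1 - q k := by linarith only [hq1]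
  refine ⟨specPart β μ k m q + (∑ l ∈ range k, Real.log 2 / m (l + 1)) + 1 / (2 * (1 - q k)), ?_⟩
  rintro y ⟨r, hr, rfl⟩
  have h1 := spinPart_le hm hr
  have hmono : ∀ (f : ℕ → ℝ), (∀ l < k, f l ≤ f (l + 1)) → ∀ i j, i ≤ j → j ≤ k → f i ≤ f j := by
    intro f hf i j hij
    induction j, hij using Nat.le_induction with
    | base => intro _; exact le_rfl
    | succ j hj ih => intro h; exact (ih (by omega)).trans (hf j (by omega))
  have h2 : (1 - q k) * r 0 ≤ ∑ l ∈ range (k + 1), (m (l + 1) - m l) * r l * (1 - q l) := by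
    have e1 : ∑ l ∈ range (k + 1), (m (l + 1) - m l) * (r 0 * (1 - q k)) = (1 - q k) * r 0 := by
      rw [← sum_mul, sum_range_sub, hm.1, hm.2.1]
      ring
    rw [← e1]
    refine sum_le_sum fun l hl => ?_
    rw [mem_range] at hl
    have a1 : 0 ≤ m (l + 1) - m l := by
      have := hm.2.2 l (by omega); linarith only [this]
    have a2 : r 0 ≤ r l := hmono r hr.2 0 l (by omega) (by omega)
    have a3 : q l ≤ q k := hmono q hq.2 l k (by omega) le_rfl
    rw [mul_assoc]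
    refine mul_le_mul_of_nonneg_left ?_ a1
    exact mul_le_mul a2 (by linarith only [a3]) hc.le (hr.1.trans a2)
  have h3 : ∑ l ∈ range (k + 1), (m (l + 1) - m l) * r l * (1 - q l) =
      ∑ l ∈ range (k + 1), (m (l + 1) - m l) * r l -
        ∑ l ∈ range (k + 1), (m (l + 1) - m l) * r l * q l := by
    rw [← sum_sub_distrib]
    exact sum_congr rfl fun l _ => by ring
  have h4 : √(r 0) ≤ 1 / (2 * (1 - q k)) + 1 / 2 * ((1 - q k) * r 0) := by
    obtain ⟨s, hs⟩ : ∃ s, s = √(r 0) := ⟨_, rfl⟩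
    have a1 : r 0 = s ^ 2 := by rw [hs, Real.sq_sqrt hr.1]
    rw [← hs, a1]
    have a2 : 1 / (2 * (1 - q k)) + 1 / 2 * ((1 - q k) * s ^ 2) - s =
        1 / (2 * (1 - q k)) * (1 - (1 - q k) * s) ^ 2 := by
      field_simp
      ring
    have a3 : 0 ≤ 1 / (2 * (1 - q k)) * (1 - (1 - q k) * s) ^ 2 := by (clear * - hq1; positivity)
    linarith only [a2, a3]
  unfold Jf
  linarith

/-- Every admissible `(k, m, q)` gives a value. -/
theorem vals_of {k : ℕ} {m q : ℕ → ℝ} (β : ℝ) (μ : Measure ℝ) (hm : Par.Exponents k m)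
    (hq : Par.Path k q) (hq0 : q 0 = 0) (hq1 : q k < 1) :
    sSup {y | ∃ r, Par.Path k r ∧ y = Jf β μ k m q r} ∈ vals β μ := by
  refine ⟨k, m, q, hm, hq, hq0, hq1, isLUB_csSup ⟨_, fun _ => 0, ⟨le_rfl, fun _ _ => le_rfl⟩, rfl⟩
    (Jf_bdd β μ hm hq hq1)⟩

end Vale.Agent.P166.F
end
end

section

section

/-!
P166, lower bound: the free energies of the systems with a new spin.
-/

open MeasureTheory ProbabilityTheory Matrix Filter Topology

namespace Vale.Agent.P166.L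

open Vale.Agent.P157 (spin)
open Vale.Agent.P157.Lv Vale.Agent.P157.Par Md H U

variable {n : ℕ}

section Triv

/-- The system of one free spin. -/
noncomputable def ce_triv (K : ℕ) (m : ℕ → ℝ) : Sy (Fin 0) Bool where
  lev := fun _ => 0
  K := K
  m := m
  H := fun _ _ => 0

lemma ce_triv_reg {K : ℕ} {m : ℕ → ℝ} (hm : Exponents K m) : (ce_triv K m).Reg := by
  obtain ⟨h0, h1, h2⟩ := hm
  refine ⟨h0, h1, fun l hl => (h2 l hl).le, ?_, fun e => Nat.zero_le _, fun x => Lip.const 0⟩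
  have := h2 0 (Nat.zero_le _)
  rwa [h0] at this

lemma ce_triv_fe {K : ℕ} {m : ℕ → ℝ} (hm : Exponents K m) :
    (ce_triv K m).fe = Real.log 2 := by
  have hR := ce_triv_reg hm
  have key : ∀ l ≤ K, ∀ z, (ce_triv K m).lg l z = Real.log 2 := by
    refine Sy.down_ind (K := K) (P := fun l => ∀ z, (ce_triv K m).lg l z = Real.log 2) ?_ ?_
    · intro z
      have h1 := congrFun (Sy.lg_top (ce_triv K m)) z
      have h2 : (ce_triv K m).K = K := rfl
      rw [h2] at h1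
      rw [h1]
      unfold Sy.top ce_triv
      simp only [Fintype.univ_bool, Real.exp_zero, Finset.sum_const, Finset.mem_singleton, Bool.true_eq_false, not_false_eq_true, Finset.card_insert_of_notMem, Finset.card_singleton, Nat.reduceAdd, nsmul_eq_mul, Nat.cast_ofNat, mul_one]
    · intro l hl ih z
      have h1 := congrFun (Sy.lg_step (ce_triv K m) (l := l) hl) z
      rw [h1]
      unfold Sy.stp
      have e : (fun z => Real.exp ((ce_triv K m).m (l + 1) * (ce_triv K m).lg (l + 1) z)) =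
          fun _ => Real.exp (m (l + 1) * Real.log 2) := by
        funext z
        rw [ih z]
        rfl
      rw [e, J_const, Real.log_exp]
      have hm0 : 0 < m (l + 1) := hR.m_pos (l := l + 1) (by omega) (Nat.succ_le_succ hl.le)
      show 1 / m (l + 1) * (m (l + 1) * Real.log 2) = _
      field_simp
  unfold Sy.fe
  simp only [key 0 (Nat.zero_le _)]
  simp

end Triv

/-- Restriction of the coordinates preserves the Lipschitz functions. -/
lemma ce_lip {ι ι' : Type} [Fintype ι] [Fintype ι'] (f : ι → ι') {F : (ι → ℝ) → ℝ} (hF : Lip F) :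
    Lip fun z : ι' → ℝ => F (fun e => z (f e)) := by
  obtain ⟨L, hL, h⟩ := hF
  refine ⟨L, hL, fun y y' => (h _ _).trans (mul_le_mul_of_nonneg_left ?_ hL)⟩
  refine (pi_norm_le_iff_of_nonneg (norm_nonneg _)).2 fun e => ?_
  exact norm_le_pi_norm (y - y') (f e)

lemma ce_pr2_reg {ι ι' X X' : Type} [Fintype ι] [Fintype ι'] [Fintype X] [Fintype X']
    {S : Sy ι X} {S' : Sy ι' X'} (hS : S.Reg) (hS' : S'.Reg) (hK : S'.K = S.K) :
    (pr2 S S').Reg := by
  refine ⟨hS.m0, hS.mK, hS.mono, hS.pos, ?_, fun x => ?_⟩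
  · rintro (e | e)
    · exact hS.lev e
    · have := hS'.lev e
      rw [hK] at this
      exact this
  · exact (ce_lip Sum.inl (hS.lip x.1)).add (ce_lip Sum.inr (hS'.lip x.2))

section Free

variable {N K κ : ℕ} {m : ℕ → ℝ}

/-- The parameters of the model with a free new spin. -/
def ce_P0 (c : Fin N → Fin κ) (P : Pm κ) : EPm N where
  c0 := 0
  s := P.s
  s' := 0
  t := 0
  lam := fun i => P.b (c i)
  kap := 0
  u := fun i => P.u (c i)

/-- The coordinates of the model in the ones of the systems with a new spin. -/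
def ce_inj (N K : ℕ) : Ix N K ⊕ Fin 0 → Ie N K
  | Sum.inl e => Sum.inl (e.1, e.2.1, e.2.2.succ)
  | Sum.inr a => a.elim0

lemma ce_inj_inj : Function.Injective (ce_inj N K) := by
  rintro (⟨l, b, i⟩ | a) (⟨l', b', i'⟩ | a') h
  · have h1 : ((l, b, i.succ) : Ix (N + 1) K) = (l', b', i'.succ) := Sum.inl.inj h
    have h2 := congrArg Prod.fst h1
    have h3 := congrArg (fun e : Ix (N + 1) K => e.2.1) h1
    have h4 := congrArg (fun e : Ix (N + 1) K => e.2.2) h1
    simp only at h2 h3 h4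
    rw [h2, h3, Fin.succ_injective _ h4]
  · exact a'.elim0
  · exact a.elim0
  · exact a.elim0

lemma ce_pb (c : Fin N → Fin κ) (P : Pm κ) (U : Matrix (Fin N) (Fin N) ℝ) :
    PB (pr2 (mdl K m c P U) (ce_triv K m)) ((egs K m (ce_P0 c P)).sy U)
      (fun z e => z (ce_inj N K e)) (Equiv.prodComm Bool (Fin N → Bool)) where
  meas := by fun_prop
  map := gI_restrict ce_inj_inj
  mix := fun l z w => by
    funext e
    rcases e with e | a
    · rfl
    · exact a.elim0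
  K := rfl
  m := fun _ _ => rfl
  H := fun z x => by
    show (egs K m (ce_P0 c P)).E0 z x + (egs K m (ce_P0 c P)).ev
      (fun l i => z (bcE l i)) (U *ᵥ spin x.2) x = Md.en c P U (fun e => z (ce_inj N K (Sum.inl e)))
        x.2 + 0
    have e1 : ∀ l (i : Fin N), z (ce_inj N K (Sum.inl (sco l i))) = z (scE l i) := fun l i => rfl
    have e2 : ∀ l (i : Fin N), z (ce_inj N K (Sum.inl (bco l i))) = z (bcE l i) := fun l i => rfl
    simp only [Md.en, GS.ev, egs, eE0, ce_P0, ph, e1, e2, Pi.zero_apply, zero_mul, add_zero,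
      Finset.sum_const_zero, mul_zero, zero_add]
    ring

lemma ce_mdl_reg (hm : Exponents K m) (c : Fin N → Fin κ) (P : Pm κ)
    (U : Matrix (Fin N) (Fin N) ℝ) : (mdl K m c P U).Reg := by
  rw [← ngs_sy]
  exact (ngs_ok hm c P).reg U

lemma ce_fe (hm : Exponents K m) (c : Fin N → Fin κ) (P : Pm κ)
    (U : Matrix (Fin N) (Fin N) ℝ) :
    ((egs K m (ce_P0 c P)).sy U).fe = (mdl K m c P U).fe + Real.log 2 := by
  have h1 := ce_mdl_reg hm c P U
  have h2 := ce_triv_reg hm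
  rw [(ce_pb c P U).fe (RegG.of_reg (ce_pr2_reg h1 h2 rfl)),
    pr2_fe (RegG.of_reg h1) (RegG.of_reg h2) rfl rfl, ce_triv_fe hm]

lemma ce_Ex (hm : Exponents K m) (c : Fin N → Fin κ) (P : Pm κ)
    (U : Matrix (Fin N) (Fin N) ℝ) (f : (Fin N → Bool) → ℝ) :
    ((egs K m (ce_P0 c P)).sy U).Ex (fun _ x => f x.2) = (mdl K m c P U).Ex (fun _ x => f x) := by
  have h1 := ce_mdl_reg hm c P U
  have h2 := ce_triv_reg hm
  have h3 := (ce_pb c P U).Ex (RegG.of_reg (ce_pr2_reg h1 h2 rfl))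
    (f := fun _ x => f x.1) (Sy.Nh.snd fun x : (Fin N → Bool) × Bool => f x.1)
  have h4 := pr2_Ex (RegG.of_reg h1) (RegG.of_reg h2) rfl rfl
    (f := fun _ x => f x) (Sy.Nh.snd f) (f' := fun _ _ => 1) (Sy.Nh.snd fun _ => 1)
  rw [(RegG.of_reg h2).Ex_const, mul_one] at h4
  simp only [mul_one] at h4
  rw [← h4]
  exact h3

end Free

section Bound

variable {N K : ℕ} {m : ℕ → ℝ}

/-- The difference of the energies. -/
noncomputable def ce_D (K : ℕ) (U : Matrix (Fin N) (Fin N) ℝ) (w : Fin n → Fin N) (c0 : ℝ)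
    (s' t : ℕ → ℝ) (a k : Fin n → ℝ) (pu : Fin n → ℕ → ℝ) (z : Ie N K → ℝ) (x : Xe N) : ℝ :=
  c0 + ∑ l ∈ Finset.range (K + 1), (s' l * (z (ecE N K l) * sg1 x.1) +
      t l * (z (zcE N K l) * sg1 x.1)) +
    ∑ j, ((a j * (U *ᵥ spin x.2) (w j) ^ 2 + k j * (sg1 x.1 * (U *ᵥ spin x.2) (w j))) +
      ∑ l ∈ Finset.range (K + 1), pu j l * (z (bcE l (w j)) * (U *ᵥ spin x.2) (w j)))

lemma ce_sg_sq (a : Bool) : sg1 a ^ 2 = 1 := by
  unfold sg1; split_ifs <;> norm_num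

lemma ce_regE (hm : Exponents K m) (E : EPm N) (U : Matrix (Fin N) (Fin N) ℝ) (e : Ie N K) :
    RegE ((egs K m E).sy U) e (fun z x => egsD K E U e z x) :=
  ⟨(egs_ok hm E).regG U, fun x => sy_pd E U e x, fun x => EG.const (egsD K E U e 0 x)⟩

lemma ce_ec (hm : Exponents K m) (E : EPm N) (U : Matrix (Fin N) (Fin N) ℝ) {l : ℕ} (hl : l ≤ K) :
    |((egs K m E).sy U).Ex (fun z x => z (ecE N K l) * sg1 x.1)| ≤ |E.s' l| * (5 / 2) := by
  have hG := (egs_ok hm E).regG U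
  have hE : RegE ((egs K m E).sy U) (ecE N K l) (fun _ x => E.s' l * sg1 x.1) := by
    have h := ce_regE hm E U (ecE N K l)
    have e : (fun (z : Ie N K → ℝ) (x : Xe N) => egsD K E U (ecE N K l) z x) =
        fun _ x => E.s' l * sg1 x.1 := by
      funext z x
      show E.s' ((Fin.ofNat (K + 1) l : Fin (K + 1)) : ℕ) * sg1 x.1 = _
      rw [mdl_ofNat hl]
    rw [e] at h
    exact h
  have h1 := m2_ibp hE (fun x => sg1 x.1)
  simp only [ce_sg_sq] at h1
  rw [hG.Ex_const] at h1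
  linarith

lemma ce_zc (hm : Exponents K m) (E : EPm N) (U : Matrix (Fin N) (Fin N) ℝ) {l : ℕ} (hl : l ≤ K) :
    |((egs K m E).sy U).Ex (fun z x => z (zcE N K l) * sg1 x.1)| ≤ |E.t l| * (5 / 2) := by
  have hG := (egs_ok hm E).regG U
  have hE : RegE ((egs K m E).sy U) (zcE N K l) (fun _ x => E.t l * sg1 x.1) := by
    have h := ce_regE hm E U (zcE N K l)
    have e : (fun (z : Ie N K → ℝ) (x : Xe N) => egsD K E U (zcE N K l) z x) =
        fun _ x => E.t l * sg1 x.1 := by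
      funext z x
      show E.t ((Fin.ofNat (K + 1) l : Fin (K + 1)) : ℕ) * sg1 x.1 = _
      rw [mdl_ofNat hl]
    rw [e] at h
    exact h
  have h1 := m2_ibp hE (fun x => sg1 x.1)
  simp only [ce_sg_sq] at h1
  rw [hG.Ex_const] at h1
  linarith only [h1]

lemma ce_bc (hm : Exponents K m) (E : EPm N) (U : Matrix (Fin N) (Fin N) ℝ) {l : ℕ} (hl : l ≤ K)
    (i : Fin N) :
    |((egs K m E).sy U).Ex (fun z x => z (bcE l i) * (U *ᵥ spin x.2) i)| ≤
      |E.u i l| * (5 / 2 * ((egs K m E).sy U).Ex (fun _ x => (U *ᵥ spin x.2) i ^ 2)) := by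
  have h1 := m2_ibp ((egs_ok hm E).regE U hl i) (fun x => (U *ᵥ spin x.2) i)
  refine h1.trans (mul_le_mul_of_nonneg_left (le_of_eq ?_) (abs_nonneg _))
  have e : (egs K m E).y U = fun x => U *ᵥ spin x.2 := rfl
  rw [e]
  ring

lemma ce_bound (hm : Exponents K m) (E : EPm N) (U : Matrix (Fin N) (Fin N) ℝ)
    (w : Fin n → Fin N) (c0 : ℝ) (s' t : ℕ → ℝ) (a k : Fin n → ℝ) (pu : Fin n → ℕ → ℝ)
    (hs : ∀ l ≤ K, |E.s' l| ≤ |s' l|) (ht : ∀ l ≤ K, |E.t l| ≤ |t l|)
    (hu : ∀ j, ∀ l ≤ K, |E.u (w j) l| ≤ |pu j l|) :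
    |((egs K m E).sy U).Ex (ce_D K U w c0 s' t a k pu)| ≤
      |c0| + ∑ l ∈ Finset.range (K + 1), (5 / 2 * s' l ^ 2 + 5 / 2 * t l ^ 2) +
        ∑ j, ((|a j| + |k j| / 2 + ∑ l ∈ Finset.range (K + 1), 5 / 2 * pu j l ^ 2) *
          ((egs K m E).sy U).Ex (fun _ x => (U *ᵥ spin x.2) (w j) ^ 2) + |k j| / 2) := by
  have hG := (egs_ok hm E).regG U
  obtain ⟨S, hS⟩ : ∃ S, S = (egs K m E).sy U := ⟨_, rfl⟩
  have hec : ∀ l ≤ K, |S.Ex (fun z x => z (ecE N K l) * sg1 x.1)| ≤ |E.s' l| * (5 / 2) :=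
    fun l hl => by rw [hS]; exact ce_ec hm E U hl
  have hzc : ∀ l ≤ K, |S.Ex (fun z x => z (zcE N K l) * sg1 x.1)| ≤ |E.t l| * (5 / 2) :=
    fun l hl => by rw [hS]; exact ce_zc hm E U hl
  have hbc : ∀ l ≤ K, ∀ i, |S.Ex (fun z x => z (bcE l i) * (U *ᵥ spin x.2) i)| ≤
      |E.u i l| * (5 / 2 * S.Ex (fun _ x => (U *ᵥ spin x.2) i ^ 2)) :=
    fun l hl i => by rw [hS]; exact ce_bc hm E U hl i
  rw [← hS] at hG ⊢
  clear hS
  have n1 : ∀ l, Nh fun (z : Ie N K → ℝ) (x : Xe N) => z (ecE N K l) * sg1 x.1 := fun l =>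
    Sy.Nh.mul (fun _ => EG.coord _) (Sy.Nh.snd fun x : Xe N => sg1 x.1)
  have n2 : ∀ l, Nh fun (z : Ie N K → ℝ) (x : Xe N) => z (zcE N K l) * sg1 x.1 := fun l =>
    Sy.Nh.mul (fun _ => EG.coord _) (Sy.Nh.snd fun x : Xe N => sg1 x.1)
  have n12 : ∀ l, Nh fun (z : Ie N K → ℝ) (x : Xe N) => s' l * (z (ecE N K l) * sg1 x.1) +
      t l * (z (zcE N K l) * sg1 x.1) := fun l =>
    Sy.Nh.add (Sy.Nh.const_mul _ (n1 l)) (Sy.Nh.const_mul _ (n2 l))
  have n3 : ∀ j, Nh fun (_ : Ie N K → ℝ) (x : Xe N) => (U *ᵥ spin x.2) (w j) ^ 2 := fun j =>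
    Sy.Nh.snd fun x : Xe N => (U *ᵥ spin x.2) (w j) ^ 2
  have n4 : ∀ j, Nh fun (_ : Ie N K → ℝ) (x : Xe N) => sg1 x.1 * (U *ᵥ spin x.2) (w j) := fun j =>
    Sy.Nh.snd fun x : Xe N => sg1 x.1 * (U *ᵥ spin x.2) (w j)
  have n5 : ∀ l j, Nh fun (z : Ie N K → ℝ) (x : Xe N) =>
      z (bcE l (w j)) * (U *ᵥ spin x.2) (w j) := fun l j =>
    Sy.Nh.mul (fun _ => EG.coord _) (Sy.Nh.snd fun x : Xe N => (U *ᵥ spin x.2) (w j))
  have n34 : ∀ j, Nh fun (_ : Ie N K → ℝ) (x : Xe N) => a j * (U *ᵥ spin x.2) (w j) ^ 2 +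
      k j * (sg1 x.1 * (U *ᵥ spin x.2) (w j)) := fun j =>
    Sy.Nh.add (Sy.Nh.const_mul _ (n3 j)) (Sy.Nh.const_mul _ (n4 j))
  have n5' : ∀ j, Nh fun (z : Ie N K → ℝ) (x : Xe N) => ∑ l ∈ Finset.range (K + 1),
      pu j l * (z (bcE l (w j)) * (U *ᵥ spin x.2) (w j)) := fun j =>
    Sy.Nh.sum _ fun l _ => Sy.Nh.const_mul _ (n5 l j)
  have n345 : ∀ j, Nh fun (z : Ie N K → ℝ) (x : Xe N) => (a j * (U *ᵥ spin x.2) (w j) ^ 2 +
      k j * (sg1 x.1 * (U *ᵥ spin x.2) (w j))) + ∑ l ∈ Finset.range (K + 1),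
      pu j l * (z (bcE l (w j)) * (U *ᵥ spin x.2) (w j)) := fun j => Sy.Nh.add (n34 j) (n5' j)
  have hY0 : ∀ j, 0 ≤ S.Ex (fun _ x => (U *ᵥ spin x.2) (w j) ^ 2) := fun j =>
    hG.Ex_nonneg (n3 j) fun _ _ => sq_nonneg _
  -- linearity
  have hlin : S.Ex (ce_D K U w c0 s' t a k pu) = c0 + ∑ l ∈ Finset.range (K + 1),
      (s' l * S.Ex (fun z x => z (ecE N K l) * sg1 x.1) +
        t l * S.Ex (fun z x => z (zcE N K l) * sg1 x.1)) +
      ∑ j, ((a j * S.Ex (fun _ x => (U *ᵥ spin x.2) (w j) ^ 2) +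
        k j * S.Ex (fun _ x => sg1 x.1 * (U *ᵥ spin x.2) (w j))) +
        ∑ l ∈ Finset.range (K + 1), pu j l *
          S.Ex (fun z x => z (bcE l (w j)) * (U *ᵥ spin x.2) (w j))) := by
    unfold ce_D
    rw [hG.Ex_add (Sy.Nh.add (fun _ => EG.const c0) (Sy.Nh.sum _ fun l _ => n12 l))
      (Sy.Nh.sum _ fun j _ => n345 j), hG.Ex_add (fun _ => EG.const c0) (Sy.Nh.sum _ fun l _ => n12 l),
      hG.Ex_const, hG.Ex_sum _ (fun l _ => n12 l), hG.Ex_sum _ (fun j _ => n345 j)]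
    congr 1
    · congr 1
      refine Finset.sum_congr rfl fun l _ => ?_
      rw [hG.Ex_add (Sy.Nh.const_mul _ (n1 l)) (Sy.Nh.const_mul _ (n2 l)), Sy.Ex_const_mul,
        Sy.Ex_const_mul]
    · refine Finset.sum_congr rfl fun j _ => ?_
      rw [hG.Ex_add (n34 j) (n5' j), hG.Ex_add (Sy.Nh.const_mul _ (n3 j)) (Sy.Nh.const_mul _ (n4 j)),
        Sy.Ex_const_mul, Sy.Ex_const_mul, hG.Ex_sum _ (fun l _ => Sy.Nh.const_mul _ (n5 l j))]
      congr 1
      refine Finset.sum_congr rfl fun l _ => ?_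
      rw [Sy.Ex_const_mul]
  rw [hlin]
  refine (abs_add_le _ _).trans (add_le_add ((abs_add_le _ _).trans (add_le_add le_rfl ?_)) ?_)
  · refine (Finset.abs_sum_le_sum_abs _ _).trans (Finset.sum_le_sum fun l hl => ?_)
    have hl' := Nat.lt_succ_iff.1 (Finset.mem_range.1 hl)
    refine (abs_add_le _ _).trans (add_le_add ?_ ?_)
    · rw [abs_mul]
      have h1 := (hec l hl').trans (mul_le_mul_of_nonneg_right (hs l hl') (by norm_num))
      have h2 := mul_le_mul_of_nonneg_left h1 (abs_nonneg (s' l))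
      have h3 := abs_mul_abs_self (s' l)
      linarith only [h2, h3]
    · rw [abs_mul]
      have h1 := (hzc l hl').trans (mul_le_mul_of_nonneg_right (ht l hl') (by norm_num))
      have h2 := mul_le_mul_of_nonneg_left h1 (abs_nonneg (t l))
      have h3 := abs_mul_abs_self (t l)
      linarith only [h2, h3]
  · refine (Finset.abs_sum_le_sum_abs _ _).trans (Finset.sum_le_sum fun j _ => ?_)
    obtain ⟨Y, hY⟩ : ∃ Y, Y = S.Ex (fun _ x => (U *ᵥ spin x.2) (w j) ^ 2) := ⟨_, rfl⟩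
    have hYn : 0 ≤ Y := by rw [hY]; exact hY0 j
    have hk : |S.Ex (fun _ x => sg1 x.1 * (U *ᵥ spin x.2) (w j))| ≤ 1 / 2 + Y / 2 := by
      have h1 := hG.abs_Ex_le_of (n4 j) (g := fun _ x => 1 / 2 + 1 / 2 * (U *ᵥ spin x.2) (w j) ^ 2)
        (Sy.Nh.add (fun _ => EG.const _) (Sy.Nh.const_mul _ (n3 j))) fun z x => by
          rw [abs_mul, m2_sg1, _root_.one_mul]
          have := sq_abs ((U *ᵥ spin x.2) (w j))
          linarith only [this, sq_nonneg (|(U *ᵥ spin x.2) (w j)| - 1)]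
      rw [hG.Ex_add (fun _ => EG.const _) (Sy.Nh.const_mul _ (n3 j)), hG.Ex_const, Sy.Ex_const_mul,
        ← hY] at h1
      linarith
    have hb : ∑ l ∈ Finset.range (K + 1), |pu j l *
        S.Ex (fun z x => z (bcE l (w j)) * (U *ᵥ spin x.2) (w j))| ≤
        (∑ l ∈ Finset.range (K + 1), 5 / 2 * pu j l ^ 2) * Y := by
      rw [Finset.sum_mul]
      refine Finset.sum_le_sum fun l hl => ?_
      have hl' := Nat.lt_succ_iff.1 (Finset.mem_range.1 hl)
      rw [abs_mul]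
      have h1 := hbc l hl' (w j)
      rw [← hY] at h1
      have h2 := h1.trans (mul_le_mul_of_nonneg_right (hu j l hl') (by positivity))
      have h3 := mul_le_mul_of_nonneg_left h2 (abs_nonneg (pu j l))
      have h4 : |pu j l| * (|pu j l| * (5 / 2 * Y)) = 5 / 2 * pu j l ^ 2 * Y := by
        rw [← sq_abs (pu j l)]; ring
      linarith only [h3, h4]
    rw [← hY]
    refine (abs_add_le _ _).trans ?_
    have h1 : |a j * Y + k j * S.Ex (fun _ x => sg1 x.1 * (U *ᵥ spin x.2) (w j))| ≤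
        |a j| * Y + |k j| * (1 / 2 + Y / 2) := by
      refine (abs_add_le _ _).trans (add_le_add ?_ ?_)
      · rw [abs_mul, abs_of_nonneg hYn]
      · rw [abs_mul]
        exact mul_le_mul_of_nonneg_left hk (abs_nonneg _)
    have h2 := (Finset.abs_sum_le_sum_abs (fun l => pu j l *
        S.Ex (fun z x => z (bcE l (w j)) * (U *ᵥ spin x.2) (w j))) (Finset.range (K + 1))).trans hb
    linarith only [h1, h2]

end Bound

section Main

variable {N K : ℕ} {m : ℕ → ℝ}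

lemma ce_ext (w : Fin n → Fin N) (hw : Function.Injective w) (f g : Fin N → ℝ)
    (h : ∀ i, (¬∃ j, w j = i) → f i = g i) : ∑ i, f i - ∑ i, g i = ∑ j, (f (w j) - g (w j)) := by
  rw [← Finset.sum_sub_distrib]
  refine (Fintype.sum_of_injective w hw _ _ (fun i hi => ?_) fun j => rfl).symm
  rw [h i fun ⟨j, hj⟩ => hi ⟨j, hj⟩, sub_self]

/-- The difference of the energies. -/
lemma ce_diff {b α : Fin (n + 1) → ℝ} {μ g : Fin n → ℝ} {c : Fin N → Fin (n + 1)}
    {P : Pm (n + 1)} {r : Fin (n + 1) → Fin N} (hr : ∀ k, c (r k) = k) (k0 : Fin (n + 1))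
    (rd : ℝ) (rr s' : ℕ → ℝ) (σ τ : ℝ) (U : Matrix (Fin N) (Fin N) ℝ) (z : Ie N K → ℝ)
    (x : Xe N) :
    (GE K m b α μ g c P r k0 rd rr s' σ τ).en U z x - (egs K m (ce_P0 c P)).en U z x =
      ce_D K U (wi r k0) (1 / 2 * mbar b α + 1 / 2 * τ ^ 2 * (rd - rr K)) s' (tcov τ rr)
        (fun j => (μ j - P.b (c (wi r k0 j))) / 2) (fun j => σ * g j)
        (fun j l => -P.u (c (wi r k0 j)) l) z x := by
  have hw := m2_wi_inj hr k0
  obtain ⟨y, hy⟩ : ∃ y, y = U *ᵥ spin x.2 := ⟨_, rfl⟩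
  obtain ⟨E, hE⟩ : ∃ E, E = MP K c (wi r k0) P μ g (mbar b α) rd rr s' σ τ := ⟨_, rfl⟩
  have a1 : (GE K m b α μ g c P r k0 rd rr s' σ τ).en U z x = eE0 K E z x +
      (∑ i, E.lam i / 2 * y i ^ 2 + ∑ i, E.kap i * sg1 x.1 * y i +
        ∑ l ∈ Finset.range (K + 1), ∑ i, E.u i l * (z (bcE l i) * y i)) := by
    rw [hE, hy]
    rfl
  have a2 : (egs K m (ce_P0 c P)).en U z x = eE0 K (ce_P0 c P) z x +
      (∑ i, P.b (c i) / 2 * y i ^ 2 + ∑ i : Fin N, (0 : ℝ) * sg1 x.1 * y i +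
        ∑ l ∈ Finset.range (K + 1), ∑ i, P.u (c i) l * (z (bcE l i) * y i)) := by
    rw [hy]
    rfl
  have l1 : ∀ i, (¬∃ j, wi r k0 j = i) → E.lam i = P.b (c i) := fun i hi => by
    rw [hE]
    show Function.extend (wi r k0) μ (fun i => P.b (c i)) i = _
    rw [Function.extend_apply' _ _ _ hi]
  have l2 : ∀ j, E.lam (wi r k0 j) = μ j := fun j => by
    rw [hE]
    show Function.extend (wi r k0) μ (fun i => P.b (c i)) (wi r k0 j) = _
    rw [hw.extend_apply]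
  have k1 : ∀ i, (¬∃ j, wi r k0 j = i) → E.kap i = 0 := fun i hi => by
    rw [hE]
    show Function.extend (wi r k0) (fun j => σ * g j) (fun _ => (0 : ℝ)) i = _
    rw [Function.extend_apply' _ _ _ hi]
  have k2 : ∀ j, E.kap (wi r k0 j) = σ * g j := fun j => by
    rw [hE]
    show Function.extend (wi r k0) (fun j => σ * g j) (fun _ => (0 : ℝ)) (wi r k0 j) = _
    rw [hw.extend_apply]
  have u1 : ∀ i, (¬∃ j, wi r k0 j = i) → E.u i = P.u (c i) := fun i hi => by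
    rw [hE]
    show Function.extend (wi r k0) (fun _ _ => (0 : ℝ)) (fun i => P.u (c i)) i = _
    rw [Function.extend_apply' _ _ _ hi]
  have u2 : ∀ j, E.u (wi r k0 j) = fun _ => 0 := fun j => by
    rw [hE]
    show Function.extend (wi r k0) (fun _ _ => (0 : ℝ)) (fun i => P.u (c i)) (wi r k0 j) = _
    rw [hw.extend_apply]
  have s1 := ce_ext (wi r k0) hw (fun i => E.lam i / 2 * y i ^ 2)
    (fun i => P.b (c i) / 2 * y i ^ 2) fun i hi => by simp only [l1 i hi]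
  have s2 := ce_ext (wi r k0) hw (fun i => E.kap i * sg1 x.1 * y i)
    (fun i => (0 : ℝ) * sg1 x.1 * y i) fun i hi => by simp only [k1 i hi]
  have s3 : ∑ l ∈ Finset.range (K + 1), ∑ i, E.u i l * (z (bcE l i) * y i) -
      ∑ l ∈ Finset.range (K + 1), ∑ i, P.u (c i) l * (z (bcE l i) * y i) =
      ∑ j, ∑ l ∈ Finset.range (K + 1), -P.u (c (wi r k0 j)) l *
        (z (bcE l (wi r k0 j)) * y (wi r k0 j)) := by
    rw [← Finset.sum_sub_distrib, Finset.sum_comm (s := Finset.univ)]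
    refine Finset.sum_congr rfl fun l _ => ?_
    have := ce_ext (wi r k0) hw (fun i => E.u i l * (z (bcE l i) * y i))
      (fun i => P.u (c i) l * (z (bcE l i) * y i)) fun i hi => by simp only [u1 i hi]
    rw [this]
    refine Finset.sum_congr rfl fun j _ => ?_
    simp only [u2 j]
    ring
  have s0 : eE0 K E z x - eE0 K (ce_P0 c P) z x =
      1 / 2 * mbar b α + 1 / 2 * τ ^ 2 * (rd - rr K) +
      ∑ l ∈ Finset.range (K + 1), (s' l * (z (ecE N K l) * sg1 x.1) +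
      tcov τ rr l * (z (zcE N K l) * sg1 x.1)) := by
    have e1 : ∑ l ∈ Finset.range (K + 1), (s' l * (z (ecE N K l) * sg1 x.1) +
        tcov τ rr l * (z (zcE N K l) * sg1 x.1)) = sg1 x.1 * ∑ l ∈ Finset.range (K + 1),
          (s' l * z (ecE N K l) + tcov τ rr l * z (zcE N K l)) := by
      rw [Finset.mul_sum]
      exact Finset.sum_congr rfl fun l _ => by ring
    rw [e1, hE]
    simp only [eE0, MP, ce_P0, Pi.zero_apply, zero_mul, add_zero, Finset.sum_const_zero, mul_zero,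
      zero_add]
    ring
  have s12 : ∑ j, ((μ j - P.b (c (wi r k0 j))) / 2 * y (wi r k0 j) ^ 2 +
      σ * g j * (sg1 x.1 * y (wi r k0 j)) + ∑ l ∈ Finset.range (K + 1),
        -P.u (c (wi r k0 j)) l * (z (bcE l (wi r k0 j)) * y (wi r k0 j))) =
      (∑ i, E.lam i / 2 * y i ^ 2 - ∑ i, P.b (c i) / 2 * y i ^ 2) +
      (∑ i, E.kap i * sg1 x.1 * y i - ∑ i, (0 : ℝ) * sg1 x.1 * y i) +
      (∑ l ∈ Finset.range (K + 1), ∑ i, E.u i l * (z (bcE l i) * y i) -
      ∑ l ∈ Finset.range (K + 1), ∑ i, P.u (c i) l * (z (bcE l i) * y i)) := by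
    rw [s1, s2, s3, ← Finset.sum_add_distrib, ← Finset.sum_add_distrib]
    refine Finset.sum_congr rfl fun j _ => ?_
    rw [l2, k2]
    ring
  unfold ce_D
  rw [← hy, s12, a1, a2]
  linarith only [s0]

lemma ce_tcov {τ : ℝ} {rr : ℕ → ℝ} (hrr : ∀ l < K, rr l ≤ rr (l + 1)) :
    ∑ l ∈ Finset.range (K + 1), tcov τ rr l ^ 2 = τ ^ 2 * (rr K - rr 0) := by
  rw [Finset.sum_range_succ']
  have h1 : ∀ l ∈ Finset.range K, tcov τ rr (l + 1) ^ 2 = τ ^ 2 * (rr (l + 1) - rr l) := by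
    intro l hl
    show (τ * √(rr (l + 1) - rr l)) ^ 2 = _
    rw [mul_pow, Real.sq_sqrt (sub_nonneg.2 (hrr l (Finset.mem_range.1 hl)))]
  rw [Finset.sum_congr rfl h1, ← Finset.mul_sum, Finset.sum_range_sub]
  show _ + (0 : ℝ) ^ 2 = _
  ring

/-- The numerical bound. -/
lemma ce_num {b α : Fin (n + 1) → ℝ} {μ g : Fin n → ℝ} {B dl : ℝ} {c : Fin N → Fin (n + 1)}
    {P : Pm (n + 1)} {r : Fin (n + 1) → Fin N} (Gd : Good b α B dl K m c P r)
    (hK : (K + 1) * dl ≤ 1) {k0 : Fin (n + 1)} {rd : ℝ} {rr s' : ℕ → ℝ} {σ τ : ℝ}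
    (EP : EPar K B rd rr s' σ τ) (Y : Fin n → ℝ) (hY : ∀ j, 0 ≤ Y j) :
    |1 / 2 * mbar b α + 1 / 2 * τ ^ 2 * (rd - rr K)| +
      ∑ l ∈ Finset.range (K + 1), (5 / 2 * s' l ^ 2 + 5 / 2 * tcov τ rr l ^ 2) +
      ∑ j, ((|(μ j - P.b (c (wi r k0 j))) / 2| + |σ * g j| / 2 +
        ∑ l ∈ Finset.range (K + 1), 5 / 2 * (-P.u (c (wi r k0 j)) l) ^ 2) * Y j +
          |σ * g j| / 2) ≤
      (|mbar b α| / 2 + 6 * B + (∑ j, |g j|) / 2) +
        ((((∑ j, |μ j|) + ∑ k, |b k|) + 1) / 2 + (∑ j, |g j|) / 2 + 5 / 2) * ∑ j, Y j := by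
  have hdl0 := Gd.dl0
  have hdl1 : dl ≤ 1 := m2_dl_le Gd hK
  have ht := ce_tcov (K := K) (τ := τ) EP.hrr
  have h1 := ce_tcov (K := K) (τ := 1) EP.hrr
  rw [EP.rr0, sub_zero] at ht h1
  have hrK : 0 ≤ rr K := by
    have : 0 ≤ ∑ l ∈ Finset.range (K + 1), tcov 1 rr l ^ 2 :=
      Finset.sum_nonneg fun _ _ => sq_nonneg _
    linarith
  have hτ : τ ^ 2 ≤ 1 := (sq_le_one_iff_abs_le_one τ).2 EP.hτ
  have hrrK := EP.rrK
  have p1 : |1 / 2 * mbar b α + 1 / 2 * τ ^ 2 * (rd - rr K)| ≤ |mbar b α| / 2 + B := by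
    have h2 : |rd - rr K| ≤ 2 * B := by
      have h3 := abs_sub rd (rr K)
      have h4 := EP.hrd
      rw [abs_of_nonneg hrK] at h3
      linarith only [hrrK, h3, h4]
    have h3 : |1 / 2 * τ ^ 2 * (rd - rr K)| ≤ 1 / 2 * 1 * (2 * B) := by
      rw [abs_mul, abs_mul, abs_of_nonneg (sq_nonneg τ)]
      have h5 : |(1 / 2 : ℝ)| = 1 / 2 := abs_of_pos (by norm_num1)
      rw [h5]
      exact mul_le_mul (mul_le_mul_of_nonneg_left hτ (by norm_num)) h2 (abs_nonneg _) (by norm_num)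
    refine (abs_add_le _ _).trans ?_
    rw [abs_mul]
    have h5 : |(1 / 2 : ℝ)| = 1 / 2 := abs_of_pos (by norm_num)
    rw [h5]
    linarith
  have p2 : ∑ l ∈ Finset.range (K + 1), (5 / 2 * s' l ^ 2 + 5 / 2 * tcov τ rr l ^ 2) ≤ 5 * B := by
    rw [Finset.sum_add_distrib, ← Finset.mul_sum, ← Finset.mul_sum, ht]
    have h2 := EP.hs
    have h3 : τ ^ 2 * rr K ≤ B := (mul_le_of_le_one_left hrK hτ).trans hrrK
    linarith only [h2, h3]
  have hk : ∀ j, |σ * g j| ≤ |g j| := fun j => by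
    rw [abs_mul]
    exact mul_le_of_le_one_left (abs_nonneg _) EP.hσ
  have hgs : ∀ j, |g j| ≤ ∑ j, |g j| := fun j =>
    Finset.single_le_sum (f := fun j => |g j|) (fun _ _ => abs_nonneg _) (Finset.mem_univ j)
  have hms : ∀ j, |μ j| ≤ ∑ j, |μ j| := fun j =>
    Finset.single_le_sum (f := fun j => |μ j|) (fun _ _ => abs_nonneg _) (Finset.mem_univ j)
  have hbs : ∀ k, |b k| ≤ ∑ k, |b k| := fun k =>
    Finset.single_le_sum (f := fun k => |b k|) (fun _ _ => abs_nonneg _) (Finset.mem_univ k)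
  have p3 : ∀ j, |(μ j - P.b (c (wi r k0 j))) / 2| ≤ (((∑ j, |μ j|) + ∑ k, |b k|) + 1) / 2 := by
    intro j
    have h2 : |P.b (c (wi r k0 j))| ≤ |b (c (wi r k0 j))| + 1 := by
      have h3 := Gd.hb (c (wi r k0 j))
      have h4 := abs_sub_abs_le_abs_sub (P.b (c (wi r k0 j))) (b (c (wi r k0 j)))
      linarith only [hdl1, h3, h4]
    have h3 := abs_sub (μ j) (P.b (c (wi r k0 j)))
    have h4 := hms j
    have h5 := hbs (c (wi r k0 j))
    rw [abs_div, abs_of_pos (two_pos : (0 : ℝ) < 2)]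
    linarith only [h2, h3, h4, h5]
  have p4 : ∀ j, ∑ l ∈ Finset.range (K + 1), 5 / 2 * (-P.u (c (wi r k0 j)) l) ^ 2 ≤ 5 / 2 := by
    intro j
    have h2 : ∀ l ∈ Finset.range (K + 1), 5 / 2 * (-P.u (c (wi r k0 j)) l) ^ 2 ≤
        5 / 2 * (dl * 1) := fun l hl => by
      have h3 := Gd.hu (c (wi r k0 j)) l (Nat.lt_succ_iff.1 (Finset.mem_range.1 hl))
      refine mul_le_mul_of_nonneg_left ?_ (by norm_num)
      rw [neg_sq, ← sq_abs, sq]
      exact mul_le_mul h3 (h3.trans hdl1) (abs_nonneg _) hdl0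
    refine (Finset.sum_le_sum h2).trans ?_
    rw [Finset.sum_const, Finset.card_range, nsmul_eq_mul]
    push_cast
    linarith only [hK]
  have p5 : ∑ j, ((|(μ j - P.b (c (wi r k0 j))) / 2| + |σ * g j| / 2 +
        ∑ l ∈ Finset.range (K + 1), 5 / 2 * (-P.u (c (wi r k0 j)) l) ^ 2) * Y j +
          |σ * g j| / 2) ≤ ∑ j, (((((∑ j, |μ j|) + ∑ k, |b k|) + 1) / 2 + (∑ j, |g j|) / 2 +
            5 / 2) * Y j + |g j| / 2) := by
    refine Finset.sum_le_sum fun j _ => add_le_add (mul_le_mul_of_nonneg_right ?_ (hY j)) ?_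
    · have h2 := (hk j).trans (hgs j)
      have h3 := p3 j
      have h4 := p4 j
      linarith only [h2, h3, h4]
    · have := hk j
      linarith only [this]
  have p6 : ∑ j, (((((∑ j, |μ j|) + ∑ k, |b k|) + 1) / 2 + (∑ j, |g j|) / 2 + 5 / 2) * Y j +
      |g j| / 2) = ((((∑ j, |μ j|) + ∑ k, |b k|) + 1) / 2 + (∑ j, |g j|) / 2 + 5 / 2) *
        ∑ j, Y j + (∑ j, |g j|) / 2 := by
    rw [Finset.sum_add_distrib, ← Finset.mul_sum, ← Finset.sum_div]
  linarith

end Main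

/-- **The free energies of the systems with a new spin are close to the one of the model.**
For each `U` both differences are bounded with Jensen's inequality (`Reg.jensen`, in both
directions, with respect to the system with a free new spin, which is a product, `pr2_fe`, `PB.fe`),
and the averages with `m2_E`, `m2_mdl`. -/
theorem close_E {b α : Fin (n + 1) → ℝ} {μ g : Fin n → ℝ}
    {Q : Fin (n + 1) → Matrix (Fin (n + 1)) (Fin (n + 1)) ℝ} (D : Dat b α μ g Q) (B : ℝ) :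
    ∃ C x0 : ℝ, 0 ≤ C ∧ 0 < x0 ∧ ∀ (N K : ℕ) (m : ℕ → ℝ) (c : Fin N → Fin (n + 1)) (P : Pm (n + 1))
      (r : Fin (n + 1) → Fin N) (k0 : Fin (n + 1)) [MeasurableSpace (orthogonalGroup (Fin N) ℝ)]
      [BorelSpace (orthogonalGroup (Fin N) ℝ)] (ν : Measure (orthogonalGroup (Fin N) ℝ))
      [IsProbabilityMeasure ν] [ν.IsMulLeftInvariant] (dl : ℝ), Good b α B dl K m c P r →
      (K + 1) * dl ≤ x0 → 1 / √N ≤ x0 →
      ∀ (rd : ℝ) (rr s' : ℕ → ℝ) (σ τ : ℝ), EPar K B rd rr s' σ τ →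
      EU ν (fun U => |((GE K m b α μ g c P r k0 rd rr s' σ τ).sy U).fe -
        (mdl K m c P U).fe|) ≤ C := by
  obtain ⟨CE, xE, hCE, hxE, hE⟩ := m2_E D B
  obtain ⟨CM, xM, hCM, hxM, hM⟩ := m2_mdl D B
  obtain ⟨C1, hC1⟩ : ∃ C1, C1 = |mbar b α| / 2 + 6 * |B| + (∑ j, |g j|) / 2 := ⟨_, rfl⟩
  obtain ⟨C2, hC2⟩ : ∃ C2, C2 = (((∑ j, |μ j|) + ∑ k, |b k|) + 1) / 2 + (∑ j, |g j|) / 2 + 5 / 2 :=
    ⟨_, rfl⟩
  have hG0 : 0 ≤ ∑ j, |g j| := Finset.sum_nonneg fun _ _ => abs_nonneg _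
  have hm0 : 0 ≤ ∑ j, |μ j| := Finset.sum_nonneg fun _ _ => abs_nonneg _
  have hb0 : 0 ≤ ∑ k, |b k| := Finset.sum_nonneg fun _ _ => abs_nonneg _
  have hC10 : 0 ≤ C1 := by rw [hC1]; positivity
  have hC20 : 0 ≤ C2 := by rw [hC2]; positivity
  have hl2 : 0 ≤ Real.log 2 := Real.log_nonneg (by norm_num)
  refine ⟨Real.log 2 + C1 + C2 * (n * (CE + CM)), min xE (min xM 1), by positivity,
    by positivity, ?_⟩
  intro N K m c P r k0 _ _ ν _ _ dl Gd hK hN rd rr s' σ τ EP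
  have hKE := hK.trans (min_le_left _ _)
  have hNE := hN.trans (min_le_left _ _)
  have hKM := hK.trans ((min_le_right _ _).trans (min_le_left _ _))
  have hK1 := hK.trans ((min_le_right _ _).trans (min_le_right _ _))
  have hB : B ≤ |B| := le_abs_self B
  have hA1 : (GE K m b α μ g c P r k0 rd rr s' σ τ).Ok := egs_ok Gd.hm _
  have hA0 : (egs K m (ce_P0 c P)).Ok := egs_ok Gd.hm _
  -- the pointwise bound
  have hpt : ∀ U : orthogonalGroup (Fin N) ℝ,
      |((GE K m b α μ g c P r k0 rd rr s' σ τ).sy U.1).fe - (mdl K m c P U.1).fe| ≤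
        Real.log 2 + C1 + C2 * ∑ j, (((GE K m b α μ g c P r k0 rd rr s' σ τ).sy U.1).Ex
          (fun _ x => (U.1 *ᵥ spin x.2) (wi r k0 j) ^ 2) +
          ((egs K m (ce_P0 c P)).sy U.1).Ex
          (fun _ x => (U.1 *ᵥ spin x.2) (wi r k0 j) ^ 2)) := by
    intro U
    have hY1 : ∀ j, 0 ≤ ((GE K m b α μ g c P r k0 rd rr s' σ τ).sy U.1).Ex
        (fun _ x => (U.1 *ᵥ spin x.2) (wi r k0 j) ^ 2) := fun j =>
      (hA1.regG U.1).Ex_nonneg (Sy.Nh.snd fun x : Xe N => (U.1 *ᵥ spin x.2) (wi r k0 j) ^ 2)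
        fun _ _ => sq_nonneg _
    have hY0 : ∀ j, 0 ≤ ((egs K m (ce_P0 c P)).sy U.1).Ex
        (fun _ x => (U.1 *ᵥ spin x.2) (wi r k0 j) ^ 2) := fun j =>
      (hA0.regG U.1).Ex_nonneg (Sy.Nh.snd fun x : Xe N => (U.1 *ᵥ spin x.2) (wi r k0 j) ^ 2)
        fun _ _ => sq_nonneg _
    have b0 := ce_bound Gd.hm (ce_P0 c P) U.1 (wi r k0)
      (1 / 2 * mbar b α + 1 / 2 * τ ^ 2 * (rd - rr K)) s' (tcov τ rr)
      (fun j => (μ j - P.b (c (wi r k0 j))) / 2) (fun j => σ * g j)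
      (fun j l => -P.u (c (wi r k0 j)) l)
      (fun l _ => by simp only [ce_P0, Pi.zero_apply, abs_zero, abs_nonneg]) (fun l _ => by simp [ce_P0])
      (fun j l _ => by rw [abs_neg]; exact le_rfl)
    have b1 := ce_bound Gd.hm (MP K c (wi r k0) P μ g (mbar b α) rd rr s' σ τ) U.1 (wi r k0)
      (1 / 2 * mbar b α + 1 / 2 * τ ^ 2 * (rd - rr K)) s' (tcov τ rr)
      (fun j => (μ j - P.b (c (wi r k0 j))) / 2) (fun j => σ * g j)
      (fun j l => -P.u (c (wi r k0 j)) l)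
      (fun l _ => le_rfl) (fun l _ => le_rfl)
      (fun j l _ => by
        have h := m2_u_w (K := K) (m := m) (b := b) (α := α) (μ := μ) (g := g) (P := P) (k0 := k0)
          (rd := rd) (rr := rr) (s' := s') (σ := σ) (τ := τ) Gd.hr j l
        have h2 : (MP K c (wi r k0) P μ g (mbar b α) rd rr s' σ τ).u (wi r k0 j) l = 0 := h
        rw [h2, abs_zero]
        exact abs_nonneg _)
    have c0 := ce_num (μ := μ) (g := g) Gd hK1 (k0 := k0) EP _ hY0
    have c1 := ce_num (μ := μ) (g := g) Gd hK1 (k0 := k0) EP _ hY1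
    have d0 := b0.trans c0
    have d1 := b1.trans c1
    rw [← hC2] at d0 d1
    have j0 := (hA0.reg U.1).jensen (H' := (GE K m b α μ g c P r k0 rd rr s' σ τ).en U.1)
      (hA1.reg U.1)
    have j1 := (hA1.reg U.1).jensen (H' := (egs K m (ce_P0 c P)).en U.1) (hA0.reg U.1)
    have e0 : (fun z x => (GE K m b α μ g c P r k0 rd rr s' σ τ).en U.1 z x -
        ((egs K m (ce_P0 c P)).sy U.1).H z x) = ce_D K U.1 (wi r k0)
          (1 / 2 * mbar b α + 1 / 2 * τ ^ 2 * (rd - rr K)) s' (tcov τ rr)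
          (fun j => (μ j - P.b (c (wi r k0 j))) / 2) (fun j => σ * g j)
          (fun j l => -P.u (c (wi r k0 j)) l) := by
      funext z x
      exact ce_diff Gd.hr k0 rd rr s' σ τ U.1 z x
    have e1 : (fun z x => (egs K m (ce_P0 c P)).en U.1 z x -
        ((GE K m b α μ g c P r k0 rd rr s' σ τ).sy U.1).H z x) = fun z x => (-1) * ce_D K U.1
          (wi r k0) (1 / 2 * mbar b α + 1 / 2 * τ ^ 2 * (rd - rr K)) s' (tcov τ rr)
          (fun j => (μ j - P.b (c (wi r k0 j))) / 2) (fun j => σ * g j)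
          (fun j l => -P.u (c (wi r k0 j)) l) z x := by
      funext z x
      rw [← ce_diff (b := b) (α := α) (μ := μ) (g := g) Gd.hr k0 rd rr s' σ τ U.1 z x]
      show (egs K m (ce_P0 c P)).en U.1 z x -
        (GE K m b α μ g c P r k0 rd rr s' σ τ).en U.1 z x = _
      ring
    rw [e0] at j0
    rw [e1, Sy.Ex_const_mul] at j1
    have f0 : (((egs K m (ce_P0 c P)).sy U.1).wH
        ((GE K m b α μ g c P r k0 rd rr s' σ τ).en U.1)).fe =
        ((GE K m b α μ g c P r k0 rd rr s' σ τ).sy U.1).fe := rfl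
    have f1 : (((GE K m b α μ g c P r k0 rd rr s' σ τ).sy U.1).wH
        ((egs K m (ce_P0 c P)).en U.1)).fe = ((egs K m (ce_P0 c P)).sy U.1).fe := rfl
    rw [f0] at j0
    rw [f1] at j1
    have g0 := (abs_le.1 d0).1
    have g1 := (abs_le.1 d1).2
    have hfe := ce_fe Gd.hm c P U.1
    rw [hfe] at j0 j1
    have s0 : 0 ≤ C2 * ∑ j, ((GE K m b α μ g c P r k0 rd rr s' σ τ).sy U.1).Ex
        (fun _ x => (U.1 *ᵥ spin x.2) (wi r k0 j) ^ 2) :=
      mul_nonneg hC20 (Finset.sum_nonneg fun j _ => hY1 j)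
    have s1 : 0 ≤ C2 * ∑ j, ((egs K m (ce_P0 c P)).sy U.1).Ex
        (fun _ x => (U.1 *ᵥ spin x.2) (wi r k0 j) ^ 2) :=
      mul_nonneg hC20 (Finset.sum_nonneg fun j _ => hY0 j)
    rw [Finset.sum_add_distrib, mul_add, abs_le]
    constructor <;> linarith only [hC1, hl2, hB, j0, g0, s0, j1, g1, s1]
  -- the averages
  have i1 : ∀ j, Integrable (fun U : orthogonalGroup (Fin N) ℝ =>
      ((GE K m b α μ g c P r k0 rd rr s' σ τ).sy U.1).Ex
        (fun _ x => (U.1 *ᵥ spin x.2) (wi r k0 j) ^ 2)) ν := fun j => m2_int_sq hA1 (wi r k0 j)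
  have i0 : ∀ j, Integrable (fun U : orthogonalGroup (Fin N) ℝ =>
      ((egs K m (ce_P0 c P)).sy U.1).Ex
        (fun _ x => (U.1 *ᵥ spin x.2) (wi r k0 j) ^ 2)) ν := fun j => m2_int_sq hA0 (wi r k0 j)
  have i2 := integrable_finsetSum (μ := ν) Finset.univ fun j _ => (i1 j).add (i0 j)
  have hE' : ∀ j, ∫ U : orthogonalGroup (Fin N) ℝ,
      ((GE K m b α μ g c P r k0 rd rr s' σ τ).sy U.1).Ex
        (fun _ x => (U.1 *ᵥ spin x.2) (wi r k0 j) ^ 2) ∂ν ≤ CE := fun j =>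
    hE N K m c P r k0 ν dl Gd hKE hNE rd rr s' σ τ EP j
  have hM' : ∀ j, ∫ U : orthogonalGroup (Fin N) ℝ,
      ((egs K m (ce_P0 c P)).sy U.1).Ex
        (fun _ x => (U.1 *ᵥ spin x.2) (wi r k0 j) ^ 2) ∂ν ≤ CM := fun j => by
    have h := hM N K m c P r ν dl Gd hKM (wi r k0 j)
    refine le_trans (le_of_eq ?_) h
    unfold EU
    refine integral_congr_ae (ae_of_all _ fun U => ?_)
    exact ce_Ex Gd.hm c P U.1 fun x => (U.1 *ᵥ spin x) (wi r k0 j) ^ 2
  unfold EU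
  refine (integral_mono_of_nonneg (ae_of_all _ fun U => abs_nonneg _)
    ((integrable_const (Real.log 2 + C1)).add (i2.const_mul C2))
    (ae_of_all _ fun U => hpt U)).trans ?_
  have e3 := integral_add (μ := ν) (integrable_const (Real.log 2 + C1)) (i2.const_mul C2)
  refine (le_of_eq e3).trans ?_
  rw [integral_const, integral_const_mul]
  have e4 := integral_finsetSum (μ := ν) Finset.univ fun j _ => (i1 j).add (i0 j)
  simp only [probReal_univ, one_smul]
  refine add_le_add le_rfl (mul_le_mul_of_nonneg_left ?_ hC20)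
  refine (le_of_eq e4).trans ?_
  have h5 : ∀ j ∈ (Finset.univ : Finset (Fin n)), ∫ U : orthogonalGroup (Fin N) ℝ,
      (((GE K m b α μ g c P r k0 rd rr s' σ τ).sy U.1).Ex
        (fun _ x => (U.1 *ᵥ spin x.2) (wi r k0 j) ^ 2) +
      ((egs K m (ce_P0 c P)).sy U.1).Ex
        (fun _ x => (U.1 *ᵥ spin x.2) (wi r k0 j) ^ 2)) ∂ν ≤ CE + CM := fun j _ => by
    rw [integral_add (i1 j) (i0 j)]
    exact add_le_add (hE' j) (hM' j)
  refine (Finset.sum_le_sum h5).trans ?_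
  rw [Finset.sum_const, Finset.card_univ, Fintype.card_fin, nsmul_eq_mul]

end Vale.Agent.P166.L
end
end

section

section

open MeasureTheory ProbabilityTheory Filter Topology

namespace Vale.Agent.P157

end Vale.Agent.P157
end
end

section

section

/-!
Second and fourth moments of a column of a Haar matrix; the masses of the blocks.
-/

open MeasureTheory Matrix

namespace Vale.Agent.P166.L

open Conc

variable {n κ : ℕ}

lemma col_sq (U : OG n) (j : Fin n) : ∑ i, U.1 i j ^ 2 = 1 := by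
  have h := congrFun (congrFun (OG.transpose_mul U) j) j
  rw [Matrix.mul_apply, Matrix.one_apply_eq] at h
  rw [← h]
  exact Finset.sum_congr rfl fun i _ => by rw [Matrix.transpose_apply]; ring

lemma abs_entry_le (U : OG n) (i j : Fin n) : |U.1 i j| ≤ 1 := by
  have h := col_sq U j
  have h1 : U.1 i j ^ 2 ≤ 1 := by
    rw [← h]
    exact Finset.single_le_sum (f := fun i => U.1 i j ^ 2) (fun i _ => sq_nonneg _)
      (Finset.mem_univ i)
  exact (sq_le_one_iff_abs_le_one _).1 h1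

section Haar

variable [MeasurableSpace (OG n)] [BorelSpace (OG n)] (ν : Measure (OG n))
  [IsProbabilityMeasure ν] [ν.IsMulLeftInvariant]

omit [IsProbabilityMeasure ν] in
/-- Invariance of the law of a column. -/
lemma int_col (L : OG n) (ψ : (Fin n → ℝ) → ℝ) (j : Fin n) :
    ∫ U, ψ (L.1 *ᵥ fun i => U.1 i j) ∂ν = ∫ U, ψ (fun i => U.1 i j) ∂ν := by
  have h := integral_mul_left_eq_self (μ := ν) (fun U : OG n => ψ (fun i => U.1 i j)) L
  rw [← h]
  refine integral_congr_ae (Filter.Eventually.of_forall fun U => ?_)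
  rfl

omit [ν.IsMulLeftInvariant] in
lemma int_entry (j i i' : Fin n) (a b : ℕ) :
    Integrable (fun U : OG n => U.1 i j ^ a * U.1 i' j ^ b) ν := by
  refine (integrable_const (1 : ℝ)).mono'
    (((measurable_coe_OG i j).pow_const a).mul
      ((measurable_coe_OG i' j).pow_const b)).aestronglyMeasurable
    (Filter.Eventually.of_forall fun U => ?_)
  rw [Real.norm_eq_abs, abs_mul, abs_pow, abs_pow]
  exact mul_le_one₀ (pow_le_one₀ (abs_nonneg _) (abs_entry_le U i j)) (by positivity)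
    (pow_le_one₀ (abs_nonneg _) (abs_entry_le U i' j))

omit [IsProbabilityMeasure ν] in
/-- Swapping two coordinates of a column. -/
lemma mom_swap (j : Fin n) {i i' : Fin n} (h : i ≠ i') (a b : ℕ) (k l : Fin n) :
    ∫ U : OG n, U.1 (Equiv.swap i i' k) j ^ a * U.1 (Equiv.swap i i' l) j ^ b ∂ν =
      ∫ U : OG n, U.1 k j ^ a * U.1 l j ^ b ∂ν := by
  have h1 := int_col ν (rflG (Pi.single i 1 - Pi.single i' 1)) (fun v => v k ^ a * v l ^ b) j
  rw [← h1]
  refine integral_congr_ae (Filter.Eventually.of_forall fun U => ?_)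
  have h2 := swap_coord h (fun i => U.1 i j)
  simp only [h2]

omit [IsProbabilityMeasure ν] in
lemma mom2_eq (j i i' : Fin n) : ∫ U : OG n, U.1 i j ^ 2 ∂ν = ∫ U : OG n, U.1 i' j ^ 2 ∂ν := by
  rcases eq_or_ne i i' with rfl | h
  · rfl
  · have := mom_swap ν j h 2 0 i' i'
    simpa only [Equiv.swap_apply_right, pow_zero, mul_one] using this

/-- `E u_i² = 1/n`. -/
theorem mom2_col (j i : Fin n) : ∫ U : OG n, U.1 i j ^ 2 ∂ν = 1 / n := by
  have h1 : ∫ U : OG n, ∑ i, U.1 i j ^ 2 ∂ν = 1 := by simp only [col_sq, integral_const, probReal_univ, smul_eq_mul, mul_one]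
  rw [integral_finsetSum _ fun i _ => by simpa only [pow_zero, mul_one] using int_entry ν j i i 2 0] at h1
  simp_rw [fun i' => mom2_eq ν j i' i] at h1
  rw [Finset.sum_const, Finset.card_univ, Fintype.card_fin, nsmul_eq_mul] at h1
  have hn : (n : ℝ) ≠ 0 := by
    intro e
    rw [e] at h1
    simp at h1
  field_simp
  linarith

omit [IsProbabilityMeasure ν] in
lemma mom4_eq (j i i' : Fin n) : ∫ U : OG n, U.1 i j ^ 4 ∂ν = ∫ U : OG n, U.1 i' j ^ 4 ∂ν := by
  rcases eq_or_ne i i' with rfl | h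
  · rfl
  · have := mom_swap ν j h 4 0 i' i'
    simpa only [Equiv.swap_apply_right, pow_zero, mul_one] using this

omit [IsProbabilityMeasure ν] in
lemma mom22_eq (j : Fin n) {i i' k k' : Fin n} (h : i ≠ i') (hk : k ≠ k') :
    ∫ U : OG n, U.1 i j ^ 2 * U.1 i' j ^ 2 ∂ν = ∫ U : OG n, U.1 k j ^ 2 * U.1 k' j ^ 2 ∂ν := by
  -- first move `i` to `k`
  have h1 : ∀ {i i' k : Fin n}, i ≠ i' → k ≠ i' →
      ∫ U : OG n, U.1 i j ^ 2 * U.1 i' j ^ 2 ∂ν = ∫ U : OG n, U.1 k j ^ 2 * U.1 i' j ^ 2 ∂ν := by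
    intro i i' k h hk
    rcases eq_or_ne i k with rfl | hik
    · rfl
    · have := mom_swap ν j hik 2 2 k i'
      rw [Equiv.swap_apply_right, Equiv.swap_apply_of_ne_of_ne h.symm hk.symm] at this
      exact this
  have hc : ∀ i i' : Fin n, ∫ U : OG n, U.1 i j ^ 2 * U.1 i' j ^ 2 ∂ν =
      ∫ U : OG n, U.1 i' j ^ 2 * U.1 i j ^ 2 ∂ν := fun i i' => by
    simp_rw [mul_comm]
  rcases eq_or_ne k i' with rfl | hki
  · rw [hc i k]
    have h2 : i ≠ k := h
    calc ∫ U : OG n, U.1 k j ^ 2 * U.1 i j ^ 2 ∂ν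
        = ∫ U : OG n, U.1 i j ^ 2 * U.1 k j ^ 2 ∂ν := hc _ _
      _ = ∫ U : OG n, U.1 k' j ^ 2 * U.1 k j ^ 2 ∂ν := h1 h2 hk.symm
      _ = _ := hc _ _
  · calc ∫ U : OG n, U.1 i j ^ 2 * U.1 i' j ^ 2 ∂ν
        = ∫ U : OG n, U.1 k j ^ 2 * U.1 i' j ^ 2 ∂ν := h1 h hki
      _ = ∫ U : OG n, U.1 i' j ^ 2 * U.1 k j ^ 2 ∂ν := hc _ _
      _ = ∫ U : OG n, U.1 k' j ^ 2 * U.1 k j ^ 2 ∂ν := h1 hki.symm hk.symm
      _ = _ := hc _ _

omit [MeasurableSpace (OG n)] [BorelSpace (OG n)] in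
/-- The reflection of angle `π/4` in the plane of the coordinates `i, i'`. -/
lemma refl45 {i i' : Fin n} (h : i ≠ i') (v : Fin n → ℝ) :
    (rfl' (Pi.single i (√2 - 1) - Pi.single i' 1 : Fin n → ℝ) *ᵥ v) i = (v i + v i') / √2 ∧
    (rfl' (Pi.single i (√2 - 1) - Pi.single i' 1 : Fin n → ℝ) *ᵥ v) i' = (v i - v i') / √2 := by
  have h2 : √2 ^ 2 = (2 : ℝ) := Real.sq_sqrt (by norm_num)
  have h0 : 0 < √(2 : ℝ) := by positivity
  have hlt : √(2 : ℝ) < 2 := by
    nlinarith only [h2]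
  set w : Fin n → ℝ := Pi.single i (√2 - 1) - Pi.single i' 1 with hw
  have hwi : w i = √2 - 1 := by simp [hw, h]
  have hwi' : w i' = -1 := by simp only [hw, Pi.sub_apply, ne_eq, h.symm, not_false_eq_true, Pi.single_eq_of_ne, Pi.single_eq_same, zero_sub]
  have hdot : ∀ x : Fin n → ℝ, w ⬝ᵥ x = (√2 - 1) * x i - x i' := by
    intro x
    rw [hw, sub_dotProduct, single_dotProduct, single_dotProduct, one_mul]
  have hww : w ⬝ᵥ w = 4 - 2 * √2 := by
    rw [hdot, hwi, hwi']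
    linarith only [h2]
  have hne : 4 - 2 * √(2 : ℝ) ≠ 0 := by linarith only [hlt]
  rw [rfl'_mulVec, hww, hdot v]
  simp only [Pi.sub_apply, Pi.smul_apply, smul_eq_mul, hwi, hwi']
  constructor
  · rw [eq_div_iff h0.ne']
    field_simp
    ring_nf
    rw [h2]
    have h3 : √2 ^ 3 = 2 * √(2 : ℝ) := by rw [pow_succ, h2]
    rw [h3]
    ring
  · rw [eq_div_iff h0.ne']
    field_simp
    ring_nf
    rw [h2]
    ring

/-- `E u_i⁴ = 3 E u_i² u_j²`. -/
lemma mom4_three (j : Fin n) {i i' : Fin n} (h : i ≠ i') :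
    ∫ U : OG n, U.1 i j ^ 4 ∂ν = 3 * ∫ U : OG n, U.1 i j ^ 2 * U.1 i' j ^ 2 ∂ν := by
  have h1 := int_col ν (rflG (Pi.single i (√2 - 1) - Pi.single i' 1))
    (fun v => v i ^ 2 * v i' ^ 2) j
  have h2 : ∀ U : OG n, (((rflG (Pi.single i (√2 - 1) - Pi.single i' 1) : OG n).1 *ᵥ
      fun i => U.1 i j) i) ^ 2 * (((rflG (Pi.single i (√2 - 1) - Pi.single i' 1) : OG n).1 *ᵥ
      fun i => U.1 i j) i') ^ 2 =
      1 / 4 * (U.1 i j ^ 4 * U.1 i' j ^ 0) + 1 / 4 * (U.1 i' j ^ 4 * U.1 i j ^ 0) -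
        1 / 2 * (U.1 i j ^ 2 * U.1 i' j ^ 2) := by
    intro U
    have h3 := refl45 h (fun i => U.1 i j)
    change ((rfl' _ *ᵥ _) i) ^ 2 * ((rfl' _ *ᵥ _) i') ^ 2 = _
    rw [h3.1, h3.2, div_pow, div_pow, Real.sq_sqrt (by norm_num)]
    ring
  simp_rw [h2] at h1
  rw [integral_sub, integral_add, integral_const_mul, integral_const_mul,
    integral_const_mul] at h1
  · simp only [pow_zero, mul_one] at h1
    rw [mom4_eq ν j i' i] at h1
    linarith
  · exact (int_entry ν j i i' 4 0).const_mul _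
  · exact (int_entry ν j i' i 4 0).const_mul _
  · exact ((int_entry ν j i i' 4 0).const_mul _).add ((int_entry ν j i' i 4 0).const_mul _)
  · exact (int_entry ν j i i' 2 2).const_mul _

/-- The fourth moments of a column. -/
lemma mom4_values (j : Fin n) : ∃ B : ℝ, (∀ i, ∫ U : OG n, U.1 i j ^ 4 ∂ν = 3 * B) ∧
    (∀ i i' : Fin n, i ≠ i' → ∫ U : OG n, U.1 i j ^ 2 * U.1 i' j ^ 2 ∂ν = B) ∧
    B * (n * (n + 2)) = 1 := by
  have key : ∀ B : ℝ, (∀ i, ∫ U : OG n, U.1 i j ^ 4 ∂ν = 3 * B) →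
      (∀ i i' : Fin n, i ≠ i' → ∫ U : OG n, U.1 i j ^ 2 * U.1 i' j ^ 2 ∂ν = B) →
      B * (n * (n + 2)) = 1 := by
    intro B h4 h22
    have h1 : ∫ U : OG n, ∑ i, ∑ i', U.1 i j ^ 2 * U.1 i' j ^ 2 ∂ν = 1 := by
      have : ∀ U : OG n, ∑ i, ∑ i', U.1 i j ^ 2 * U.1 i' j ^ 2 = 1 := by
        intro U
        simp_rw [← Finset.mul_sum, col_sq, mul_one]
        exact col_sq U j
      simp only [this, integral_const, probReal_univ, smul_eq_mul, mul_one]
    rw [integral_finsetSum _ fun i _ => integrable_finsetSum _ fun i' _ =>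
      int_entry ν j i i' 2 2] at h1
    have h2 : ∀ i, ∫ U : OG n, ∑ i', U.1 i j ^ 2 * U.1 i' j ^ 2 ∂ν = B * (n + 2) := by
      intro i
      rw [integral_finsetSum _ fun i' _ => int_entry ν j i i' 2 2]
      have h3 : ∀ i', ∫ U : OG n, U.1 i j ^ 2 * U.1 i' j ^ 2 ∂ν =
          B + if i' = i then 2 * B else 0 := by
        intro i'
        by_cases h : i' = i
        · subst h
          rw [if_pos rfl]
          have h5 : ∀ U : OG n, U.1 i' j ^ 2 * U.1 i' j ^ 2 = U.1 i' j ^ 4 := fun U => by ring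
          simp_rw [h5]
          rw [h4]
          ring
        · rw [if_neg h, h22 i i' (fun e => h e.symm), add_zero]
      simp_rw [h3]
      rw [Finset.sum_add_distrib, Finset.sum_ite_eq']
      simp only [Finset.sum_const, Finset.card_univ, Fintype.card_fin, nsmul_eq_mul, Finset.mem_univ, ↓reduceIte]
      ring
    simp_rw [h2] at h1
    rw [Finset.sum_const, Finset.card_univ, Fintype.card_fin, nsmul_eq_mul] at h1
    linarith only [h1]
  by_cases hn : ∃ i : Fin n, i ≠ j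
  · obtain ⟨i, hi⟩ := hn
    have h4 : ∀ k, ∫ U : OG n, U.1 k j ^ 4 ∂ν =
        3 * ∫ U : OG n, U.1 i j ^ 2 * U.1 j j ^ 2 ∂ν := by
      intro k
      rw [mom4_eq ν j k i, mom4_three ν j hi]
    have h22 : ∀ k k' : Fin n, k ≠ k' → ∫ U : OG n, U.1 k j ^ 2 * U.1 k' j ^ 2 ∂ν =
        ∫ U : OG n, U.1 i j ^ 2 * U.1 j j ^ 2 ∂ν := fun k k' h => mom22_eq ν j h hi
    exact ⟨_, h4, h22, key _ h4 h22⟩
  · push Not at hn
    have h4 : ∀ k, ∫ U : OG n, U.1 k j ^ 4 ∂ν = 3 * (1 / 3) := by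
      intro k
      have h5 : ∀ U : OG n, U.1 k j ^ 4 = 1 := by
        intro U
        have h6 := col_sq U j
        rw [Finset.sum_eq_single k (fun b _ hb => absurd ((hn b).trans (hn k).symm) hb)
          (fun h => absurd (Finset.mem_univ k) h)] at h6
        calc U.1 k j ^ 4 = (U.1 k j ^ 2) ^ 2 := by ring
          _ = 1 := by rw [h6]; norm_num
      simp [h5]
    have h22 : ∀ k k' : Fin n, k ≠ k' → ∫ U : OG n, U.1 k j ^ 2 * U.1 k' j ^ 2 ∂ν = 1 / 3 :=
      fun k k' h => absurd ((hn k).trans (hn k').symm) h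
    exact ⟨_, h4, h22, key _ h4 h22⟩

omit [MeasurableSpace (OG n)] [BorelSpace (OG n)] in
lemma om_eq_sum (t : Fin n → Fin κ) (c : Fin n → ℝ) (k : Fin κ) :
    om t c k = ∑ i ∈ Finset.univ.filter (fun i => t i = k), c i ^ 2 := by
  rw [Finset.sum_filter]; rfl

/-- The mean mass of a block. -/
theorem om_mean (t : Fin n → Fin κ) (j : Fin n) (k : Fin κ) :
    ∫ U : OG n, om t (fun i => U.1 i j) k ∂ν =
      ((Finset.univ.filter fun i => t i = k).card : ℝ) / n := by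
  simp_rw [om_eq_sum]
  rw [integral_finsetSum _ fun i _ => by simpa only [pow_zero, mul_one] using int_entry ν j i i 2 0]
  simp_rw [mom2_col]
  rw [Finset.sum_const, nsmul_eq_mul]
  ring

/-- The variance of the mass of a block. -/
theorem om_var (t : Fin n → Fin κ) (j : Fin n) (k : Fin κ) :
    ∫ U : OG n, (om t (fun i => U.1 i j) k -
      ((Finset.univ.filter fun i => t i = k).card : ℝ) / n) ^ 2 ∂ν ≤ 1 / n := by
  obtain ⟨B, h4, h22, hB⟩ := mom4_values ν j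
  set S := Finset.univ.filter fun i => t i = k with hS
  have hn : (0 : ℝ) < n := by
    have : 0 < n := (Nat.zero_le _).trans_lt j.2
    exact_mod_cast this
  have hm : (S.card : ℝ) ≤ n := by
    have := Finset.card_le_univ S
    rw [Fintype.card_fin] at this
    exact_mod_cast this
  set p : ℝ := (S.card : ℝ) / n with hp
  have hint1 : Integrable (fun U : OG n => om t (fun i => U.1 i j) k) ν := by
    simp_rw [om_eq_sum]
    exact integrable_finsetSum _ fun i _ => by simpa only [pow_zero, mul_one] using int_entry ν j i i 2 0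
  have hexp : ∀ U : OG n, om t (fun i => U.1 i j) k ^ 2 =
      ∑ i ∈ S, ∑ i' ∈ S, U.1 i j ^ 2 * U.1 i' j ^ 2 := by
    intro U
    rw [om_eq_sum, sq, Finset.sum_mul_sum]
  have hint2 : Integrable (fun U : OG n => om t (fun i => U.1 i j) k ^ 2) ν := by
    simp_rw [hexp]
    exact integrable_finsetSum _ fun i _ => integrable_finsetSum _ fun i' _ =>
      int_entry ν j i i' 2 2
  have h2 : ∫ U : OG n, om t (fun i => U.1 i j) k ^ 2 ∂ν = S.card * (S.card + 2) * B := by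
    simp_rw [hexp]
    rw [integral_finsetSum _ fun i _ => integrable_finsetSum _ fun i' _ =>
      int_entry ν j i i' 2 2]
    have h3 : ∀ i ∈ S, ∫ U : OG n, ∑ i' ∈ S, U.1 i j ^ 2 * U.1 i' j ^ 2 ∂ν =
        (S.card + 2) * B := by
      intro i hi
      rw [integral_finsetSum _ fun i' _ => int_entry ν j i i' 2 2]
      have h3 : ∀ i', ∫ U : OG n, U.1 i j ^ 2 * U.1 i' j ^ 2 ∂ν =
          B + if i' = i then 2 * B else 0 := by
        intro i'
        by_cases h : i' = i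
        · subst h
          rw [if_pos rfl]
          have h5 : ∀ U : OG n, U.1 i' j ^ 2 * U.1 i' j ^ 2 = U.1 i' j ^ 4 := fun U => by ring
          simp_rw [h5]
          rw [h4]
          ring
        · rw [if_neg h, h22 i i' (fun e => h e.symm), add_zero]
      simp_rw [h3]
      rw [Finset.sum_add_distrib, Finset.sum_ite_eq', if_pos hi, Finset.sum_const, nsmul_eq_mul]
      ring
    rw [Finset.sum_congr rfl h3, Finset.sum_const, nsmul_eq_mul]
    ring
  have h5 : ∀ U : OG n, (om t (fun i => U.1 i j) k - p) ^ 2 =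
      om t (fun i => U.1 i j) k ^ 2 - 2 * p * om t (fun i => U.1 i j) k + p ^ 2 := fun U => by ring
  have e1 := integral_add (μ := ν)
    (f := fun U : OG n => om t (fun i => U.1 i j) k ^ 2 - 2 * p * om t (fun i => U.1 i j) k)
    (g := fun _ => p ^ 2) (hint2.sub (hint1.const_mul (2 * p))) (integrable_const _)
  have e2 := integral_sub (μ := ν) (f := fun U : OG n => om t (fun i => U.1 i j) k ^ 2)
    (g := fun U : OG n => 2 * p * om t (fun i => U.1 i j) k) hint2 (hint1.const_mul (2 * p))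
  have e3 : ∫ U : OG n, (om t (fun i => U.1 i j) k - p) ^ 2 ∂ν =
      S.card * (S.card + 2) * B - 2 * p * p + p ^ 2 := by
    rw [integral_congr_ae (Filter.Eventually.of_forall h5)]
    refine e1.trans ?_
    rw [e2, integral_const_mul, h2, om_mean, integral_const, probReal_univ, one_smul, ← hS, ← hp]
  rw [e3]
  have hBv : B = 1 / (n * (n + 2)) := by
    rw [eq_div_iff (by positivity)]
    exact hB
  have hpm : (S.card : ℝ) = p * n := (div_mul_cancel₀ _ hn.ne').symm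
  have hp0 : 0 ≤ p := div_nonneg (Nat.cast_nonneg _) hn.le
  have hp1 : p ≤ 1 := (div_le_one hn).2 hm
  rw [hpm, hBv]
  clear_value p
  have h6 : p * n * (p * n + 2) * (1 / (n * (n + 2))) - 2 * p * p + p ^ 2 =
      2 * p * (1 - p) / (n + 2) := by
    field_simp
    ring
  rw [h6, div_le_div_iff₀ (by positivity) hn]
  nlinarith only [sq_nonneg (2 * p - 1)]

end Haar

end Vale.Agent.P166.L
end
end

section

section

/-!
P166, lower bound: the model of size `N + 1` and the systems of size `N` with a new spin.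

By `law`, `∫ F(U') = ∫∫ F(emb ρ (A ω) * one V)`, `ω = om c' (first column of U)`, with
`F U' = (nmd K m c' P s' U').fe`, `c' = Fin.cons k0 c`, `ρ k0 = 0`, `ρ k = (r k).succ` for `k ≠ k0`.
In the system at `emb ρ A * one V` the patterns are `y' = emb ρ A *ᵥ (ε, V x)`: the patterns
`(V x)_j` for `j.succ ∉ range ρ` and `y'_{ρ k} = ∑_k' A k k' * ỹ_k'`, `ỹ_{k0} = ε`,
`ỹ_k = (V x)_{r k}`. With `A = Q k0` (exact weights) and the exact potentials, the quadratic part is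
`(1/2) mbar + ε ∑_j g_j y_{w j} + ∑_j μ_j / 2 * y_{w j}^2`, `w = wi r k0`.
-/

open MeasureTheory ProbabilityTheory Matrix Filter Topology

namespace Vale.Agent.P166.L

open Vale.Agent.P157 (spin)
open Vale.Agent.P157.Lv Vale.Agent.P157.Par Md H U

variable {N K n : ℕ} {m : ℕ → ℝ}

/-- The rotation of the block fields by the transposed matrix. -/
noncomputable def ld_rot (L : Matrix (Fin (N + 1)) (Fin (N + 1)) ℝ) :
    (Ix (N + 1) K → ℝ) →ₗ[ℝ] (Ix (N + 1) K → ℝ) where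
  toFun z e := if e.2.1 = true then z e else ∑ i, L i e.2.2 * z (e.1, false, i)
  map_add' z w := by
    funext e
    simp only [Pi.add_apply]
    split_ifs
    · rfl
    · simp only [mul_add, Finset.sum_add_distrib]
  map_smul' a z := by
    funext e
    simp only [Pi.smul_apply, smul_eq_mul, RingHom.id_apply]
    split_ifs
    · rfl
    · rw [Finset.mul_sum]
      exact Finset.sum_congr rfl fun i _ => by ring

theorem ld_rot_true (L : Matrix (Fin (N + 1)) (Fin (N + 1)) ℝ) (z : Ix (N + 1) K → ℝ)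
    (a : Fin (K + 1)) (j : Fin (N + 1)) : ld_rot L z (a, true, j) = z (a, true, j) := rfl

theorem ld_rot_false (L : Matrix (Fin (N + 1)) (Fin (N + 1)) ℝ) (z : Ix (N + 1) K → ℝ)
    (a : Fin (K + 1)) (j : Fin (N + 1)) :
    ld_rot L z (a, false, j) = ∑ i, L i j * z (a, false, i) := rfl

theorem ld_rot_norm {L : Matrix (Fin (N + 1)) (Fin (N + 1)) ℝ}
    (hL : L ∈ orthogonalGroup (Fin (N + 1)) ℝ) (z : Ix (N + 1) K → ℝ) :
    ∑ e, ld_rot L z e ^ 2 = ∑ e, z e ^ 2 := by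
  have hT : Lᵀ ∈ orthogonalGroup (Fin (N + 1)) ℝ := by
    rw [mem_orthogonalGroup_iff, transpose_transpose]
    exact (mem_orthogonalGroup_iff' _ _).1 hL
  rw [Fintype.sum_prod_type, Fintype.sum_prod_type]
  refine Finset.sum_congr rfl fun a _ => ?_
  rw [Fintype.sum_prod_type, Fintype.sum_prod_type]
  simp only [Fintype.sum_bool, ld_rot_true, ld_rot_false]
  congr 1
  have h := mdl_dot hT (fun i => z (a, false, i)) (fun i => z (a, false, i))
  simp only [dotProduct, mulVec, transpose_apply] at h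
  simp only [sq]
  exact h

/-- A matrix which preserves the blocks commutes with the functions of the blocks. -/
theorem ld_blk {κ : ℕ} (c : Fin (N + 1) → Fin κ) {L : Matrix (Fin (N + 1)) (Fin (N + 1)) ℝ}
    (hL : ∀ i j, c i ≠ c j → L i j = 0) (d : Fin κ → ℝ) (y : Fin (N + 1) → ℝ) (i : Fin (N + 1)) :
    d (c i) * (L *ᵥ y) i = (L *ᵥ fun j => d (c j) * y j) i := by
  simp only [mulVec, dotProduct, Finset.mul_sum]
  refine Finset.sum_congr rfl fun j _ => ?_
  by_cases h : c i = c j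
  · rw [h]
    ring
  · rw [hL i j h]
    ring

theorem ld_H {κ : ℕ} (c : Fin (N + 1) → Fin κ) (P : Pm κ) (s' : ℕ → ℝ)
    (L U : orthogonalGroup (Fin (N + 1)) ℝ) (hL : ∀ i j, c i ≠ c j → L.1 i j = 0)
    (z : Ix (N + 1) K → ℝ) (x : Fin (N + 1) → Bool) :
    (nmd K m c P s' (L.1 * U.1)).H z x = (nmd K m c P s' U.1).H (ld_rot L.1 z) x := by
  have hy : ph (L.1 * U.1) x = L.1 *ᵥ ph U.1 x := by
    unfold ph
    rw [mulVec_mulVec]
  have h1 : ∑ i, P.b (c i) / 2 * (L.1 *ᵥ ph U.1 x) i ^ 2 =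
      ∑ i, P.b (c i) / 2 * ph U.1 x i ^ 2 := by
    have h := mdl_dot L.2 (fun j => P.b (c j) / 2 * ph U.1 x j) (ph U.1 x)
    simp only [dotProduct] at h
    calc _ = ∑ i, (L.1 *ᵥ fun j => P.b (c j) / 2 * ph U.1 x j) i * (L.1 *ᵥ ph U.1 x) i := by
          refine Finset.sum_congr rfl fun i _ => ?_
          rw [← ld_blk c hL (fun k => P.b k / 2)]
          ring
      _ = ∑ i, P.b (c i) / 2 * ph U.1 x i * ph U.1 x i := h
      _ = _ := Finset.sum_congr rfl fun i _ => by ring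
  have h2 : ∀ l, ∑ i, P.u (c i) l * (z (bco l i) * (L.1 *ᵥ ph U.1 x) i) =
      ∑ i, P.u (c i) l * (ld_rot L.1 z (bco l i) * ph U.1 x i) := by
    intro l
    calc _ = ∑ i, z (bco l i) * (L.1 *ᵥ fun j => P.u (c j) l * ph U.1 x j) i := by
          refine Finset.sum_congr rfl fun i _ => ?_
          rw [← ld_blk c hL (fun k => P.u k l)]
          ring
      _ = ∑ i, ∑ j, z (bco l i) * (L.1 i j * (P.u (c j) l * ph U.1 x j)) := by
          refine Finset.sum_congr rfl fun i _ => ?_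
          simp only [mulVec, dotProduct, Finset.mul_sum]
      _ = ∑ j, ∑ i, z (bco l i) * (L.1 i j * (P.u (c j) l * ph U.1 x j)) := Finset.sum_comm
      _ = _ := by
          refine Finset.sum_congr rfl fun j _ => ?_
          have h3 : ld_rot L.1 z (bco l j) = ∑ i, L.1 i j * z (bco l i) := rfl
          rw [h3, Finset.sum_mul, Finset.mul_sum]
          exact Finset.sum_congr rfl fun i _ => by ring
  have h3 : ∀ l (i : Fin (N + 1)), ld_rot L.1 z (sco l i) = z (sco l i) := fun l i => rfl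
  show Md.en c P (L.1 * U.1) z x +
      ∑ l ∈ Finset.range (K + 1), (s' l - P.s l) * (z (sco l 0) * spin x 0) =
    Md.en c P U.1 (ld_rot L.1 z) x +
      ∑ l ∈ Finset.range (K + 1), (s' l - P.s l) * (ld_rot L.1 z (sco l 0) * spin x 0)
  unfold Md.en
  rw [hy, h1, Finset.sum_congr rfl fun l _ => h2 l]
  simp only [h3]

theorem ld_regG {κ : ℕ} (hm : Exponents K m) (c : Fin (N + 1) → Fin κ) (P : Pm κ) (s' : ℕ → ℝ)
    (U : Matrix (Fin (N + 1)) (Fin (N + 1)) ℝ) : RegG (nmd K m c P s' U) :=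
  RegG.of_reg (nmd_regD hm c P s' U).toReg

/-- Invariance of the model under the rotations of the blocks (`Rho`, `Rho.fe` or `PB.fe`: rotate
the coordinates `bco l i` of each level by `L`). -/
theorem nmd_block {κ : ℕ} (hm : Exponents K m) (c : Fin (N + 1) → Fin κ) (P : Pm κ) (s' : ℕ → ℝ)
    (L U : orthogonalGroup (Fin (N + 1)) ℝ) (hL : ∀ i j, c i ≠ c j → L.1 i j = 0) :
    (nmd K m c P s' (L.1 * U.1)).fe = (nmd K m c P s' U.1).fe := by
  have h : PB (nmd K m c P s' U.1) (nmd K m c P s' (L.1 * U.1)) (ld_rot L.1)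
      (Equiv.refl (Fin (N + 1) → Bool)) :=
    { meas := (LinearMap.continuous_of_finiteDimensional (ld_rot L.1)).measurable
      map := gauss_iso (ld_rot L.1) fun z => ld_rot_norm L.2 z
      mix := by
        intro l z w
        funext e
        obtain ⟨a, b, j⟩ := e
        cases b
        · show (if (a : ℕ) ≤ l then ld_rot L.1 z (a, false, j) else ld_rot L.1 w (a, false, j)) =
            ld_rot L.1 (P157.Lv.mix lvl l z w) (a, false, j)
          rw [ld_rot_false, ld_rot_false, ld_rot_false]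
          split_ifs with h
          · refine Finset.sum_congr rfl fun i _ => ?_
            congr 1
            exact (if_pos h).symm
          · refine Finset.sum_congr rfl fun i _ => ?_
            congr 1
            exact (if_neg h).symm
        · rfl
      K := rfl
      m := fun _ _ => rfl
      H := fun z x => ld_H c P s' L U hL z x }
  exact h.fe (ld_regG hm c P s' U.1)

/-- The reserved patterns. -/
def rho0 (r : Fin (n + 1) → Fin N) (k0 : Fin (n + 1)) (k : Fin (n + 1)) : Fin (N + 1) :=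
  if k = k0 then 0 else (r k).succ

/-- The system at `emb ρ A * one V`. -/
noncomputable def sA (K : ℕ) (m : ℕ → ℝ) (c : Fin N → Fin (n + 1)) (P : Pm (n + 1))
    (r : Fin (n + 1) → Fin N) (k0 : Fin (n + 1)) (s' : ℕ → ℝ)
    (A : Matrix (Fin (n + 1)) (Fin (n + 1)) ℝ) (V : Matrix (Fin N) (Fin N) ℝ) :
    Sy (Ix (N + 1) K) (Fin (N + 1) → Bool) :=
  nmd K m (Fin.cons k0 c : Fin (N + 1) → Fin (n + 1)) P s' (emb (rho0 r k0) A * one V)

/-- The same system on the coordinates and the configurations of `GE`. -/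
noncomputable def sAE (K : ℕ) (m : ℕ → ℝ) (c : Fin N → Fin (n + 1)) (P : Pm (n + 1))
    (r : Fin (n + 1) → Fin N) (k0 : Fin (n + 1)) (s' : ℕ → ℝ)
    (A : Matrix (Fin (n + 1)) (Fin (n + 1)) ℝ) (V : Matrix (Fin N) (Fin N) ℝ) :
    Sy (Ie N K) (Xe N) where
  lev := lve
  K := K
  m := m
  H := fun z x => (sA K m c P r k0 s' A V).H (fun e => z (Sum.inl e)) (Fin.cons x.1 x.2)

/-- The vector `ỹ`. -/
noncomputable def yt (r : Fin (n + 1) → Fin N) (k0 : Fin (n + 1)) (V : Matrix (Fin N) (Fin N) ℝ)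
    (x : Xe N) (k : Fin (n + 1)) : ℝ :=
  if k = k0 then sg1 x.1 else (V *ᵥ spin x.2) (r k)

theorem sAE_reg (hm : Exponents K m) (c : Fin N → Fin (n + 1)) (P : Pm (n + 1))
    (r : Fin (n + 1) → Fin N) (k0 : Fin (n + 1)) (s' : ℕ → ℝ)
    (A : Matrix (Fin (n + 1)) (Fin (n + 1)) ℝ) (V : Matrix (Fin N) (Fin N) ℝ) :
    (sAE K m c P r k0 s' A V).Reg := by
  have hR := (nmd_regD (K := K) hm (Fin.cons k0 c : Fin (N + 1) → Fin (n + 1)) P s'
    (emb (rho0 r k0) A * one V)).toReg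
  refine ⟨hR.m0, hR.mK, hR.mono, hR.pos, ?_, fun x => ?_⟩
  · rintro (e | l)
    · exact Nat.lt_succ_iff.1 e.1.2
    · exact Nat.lt_succ_iff.1 l.2
  · obtain ⟨C, hC0, hC⟩ := hR.lip (Fin.cons x.1 x.2)
    refine ⟨C, hC0, fun z w => (hC _ _).trans (mul_le_mul_of_nonneg_left ?_ hC0)⟩
    rw [pi_norm_le_iff_of_nonneg (norm_nonneg _)]
    exact fun e => norm_le_pi_norm (z - w) (Sum.inl e)

theorem sAE_pb (c : Fin N → Fin (n + 1)) (P : Pm (n + 1)) (r : Fin (n + 1) → Fin N)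
    (k0 : Fin (n + 1)) (s' : ℕ → ℝ) (A : Matrix (Fin (n + 1)) (Fin (n + 1)) ℝ)
    (V : Matrix (Fin N) (Fin N) ℝ) :
    PB (sA K m c P r k0 s' A V) (sAE K m c P r k0 s' A V) (fun z e => z (Sum.inl e))
      (Fin.consEquiv fun _ => Bool) where
  meas := by fun_prop
  map := gI_restrict Sum.inl_injective
  mix := fun _ _ _ => rfl
  K := rfl
  m := fun _ _ => rfl
  H := fun _ _ => rfl

theorem sAE_fe (hm : Exponents K m) (c : Fin N → Fin (n + 1)) (P : Pm (n + 1))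
    (r : Fin (n + 1) → Fin N) (k0 : Fin (n + 1)) (s' : ℕ → ℝ)
    (A : Matrix (Fin (n + 1)) (Fin (n + 1)) ℝ) (V : Matrix (Fin N) (Fin N) ℝ) :
    (sAE K m c P r k0 s' A V).fe = (sA K m c P r k0 s' A V).fe :=
  (sAE_pb c P r k0 s' A V).fe (ld_regG hm _ P s' _)

theorem ld_c_rho {c : Fin N → Fin (n + 1)} {r : Fin (n + 1) → Fin N} (hr : ∀ k, c (r k) = k)
    (k0 k : Fin (n + 1)) : (Fin.cons k0 c : Fin (N + 1) → Fin (n + 1)) (rho0 r k0 k) = k := by
  unfold rho0
  split_ifs with h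
  · rw [Fin.cons_zero, h]
  · rw [Fin.cons_succ, hr]

theorem ld_rho_inj {c : Fin N → Fin (n + 1)} {r : Fin (n + 1) → Fin N} (hr : ∀ k, c (r k) = k)
    (k0 : Fin (n + 1)) : Function.Injective (rho0 r k0) := fun a b h => by
  rw [← ld_c_rho hr k0 a, ← ld_c_rho hr k0 b, h]

theorem ld_wi_inj {c : Fin N → Fin (n + 1)} {r : Fin (n + 1) → Fin N} (hr : ∀ k, c (r k) = k)
    (k0 : Fin (n + 1)) : Function.Injective (wi r k0) := fun a b h => by
  have h1 : r (k0.succAbove a) = r (k0.succAbove b) := h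
  have h2 := congrArg c h1
  rw [hr, hr] at h2
  exact Fin.succAbove_right_injective h2

theorem ld_sum_range {w : Fin n → Fin N} (hw : Function.Injective w) (g : Fin N → ℝ) :
    ∑ j, g j = ∑ a, g (w a) + ∑ j, if ∃ a, w a = j then 0 else g j := by
  have h1 : ∑ a, g (w a) = ∑ j, if ∃ a, w a = j then g j else 0 := by
    rw [← Finset.sum_filter, ← Finset.sum_image (s := Finset.univ) (g := w) (f := g)
      fun a _ b _ h => hw h]
    refine Finset.sum_congr ?_ fun _ _ => rfl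
    ext j
    simp only [Finset.mem_image, Finset.mem_univ, true_and, Finset.univ_filter_exists]
  rw [h1, ← Finset.sum_add_distrib]
  refine Finset.sum_congr rfl fun j _ => ?_
  split_ifs <;> ring

theorem ld_sum_extend {β : Type} {w : Fin n → Fin N} (hw : Function.Injective w) (F : Fin n → β)
    (G : Fin N → β) (Φ : β → Fin N → ℝ) :
    ∑ i, Φ (Function.extend w F G i) i =
      ∑ a, Φ (F a) (w a) + ∑ i, if ∃ a, w a = i then 0 else Φ (G i) i := by
  rw [ld_sum_range hw fun i => Φ (Function.extend w F G i) i]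
  congr 1
  · exact Finset.sum_congr rfl fun a _ => by rw [hw.extend_apply]
  · refine Finset.sum_congr rfl fun i _ => ?_
    by_cases h : ∃ a, w a = i
    · rw [if_pos h, if_pos h]
    · rw [if_neg h, if_neg h, Function.extend_apply' _ _ _ h]

theorem ld_sum_split {c : Fin N → Fin (n + 1)} {r : Fin (n + 1) → Fin N} (hr : ∀ k, c (r k) = k)
    (k0 : Fin (n + 1)) (f : Fin (N + 1) → ℝ) :
    ∑ i, f i = ∑ k, f (rho0 r k0 k) +
      ∑ j : Fin N, if ∃ a, wi r k0 a = j then 0 else f j.succ := by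
  rw [Fin.sum_univ_succ, ld_sum_range (ld_wi_inj hr k0) fun j => f j.succ,
    Fin.sum_univ_succAbove _ k0]
  have h0 : rho0 r k0 k0 = 0 := if_pos rfl
  have h1 : ∀ a, rho0 r k0 (k0.succAbove a) = (wi r k0 a).succ := fun a =>
    if_neg (Fin.succAbove_ne k0 a)
  have h2 : ∑ a, f (rho0 r k0 (k0.succAbove a)) = ∑ a, f (wi r k0 a).succ :=
    Finset.sum_congr rfl fun a _ => by rw [h1 a]
  rw [h0, h2, add_assoc]

theorem ld_spin (b : Bool) (x : Fin N → Bool) :
    spin (Fin.cons b x : Fin (N + 1) → Bool) = Fin.cons (sg1 b) (spin x) := by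
  funext i
  refine Fin.cases ?_ (fun j => ?_) i
  · rfl
  · rfl

/-- The pattern coordinates. -/
theorem ld_ph (ρ : Fin (n + 1) → Fin (N + 1)) (A : Matrix (Fin (n + 1)) (Fin (n + 1)) ℝ)
    (V : Matrix (Fin N) (Fin N) ℝ) (b : Bool) (x : Fin N → Bool) :
    ph (emb ρ A * one V) (Fin.cons b x : Fin (N + 1) → Bool) =
      emb ρ A *ᵥ (Fin.cons (sg1 b) (V *ᵥ spin x) : Fin (N + 1) → ℝ) := by
  unfold ph
  rw [ld_spin, ← mulVec_mulVec, one_mulVec]

theorem ld_ph_rho {c : Fin N → Fin (n + 1)} {r : Fin (n + 1) → Fin N} (hr : ∀ k, c (r k) = k)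
    (k0 : Fin (n + 1)) (A : Matrix (Fin (n + 1)) (Fin (n + 1)) ℝ)
    (V : Matrix (Fin N) (Fin N) ℝ) (x : Xe N) (k : Fin (n + 1)) :
    ph (emb (rho0 r k0) A * one V) (Fin.cons x.1 x.2 : Fin (N + 1) → Bool) (rho0 r k0 k) =
      (A *ᵥ yt r k0 V x) k := by
  rw [ld_ph, emb_range (ld_rho_inj hr k0)]
  simp only [mulVec, dotProduct]
  refine Finset.sum_congr rfl fun k' _ => ?_
  congr 1
  unfold rho0 yt
  split_ifs with h
  · rw [Fin.cons_zero]
  · rw [Fin.cons_succ]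

theorem ld_ph_not {r : Fin (n + 1) → Fin N}
    (k0 : Fin (n + 1)) (A : Matrix (Fin (n + 1)) (Fin (n + 1)) ℝ)
    (V : Matrix (Fin N) (Fin N) ℝ) (x : Xe N) {j : Fin N} (hj : ¬ ∃ a, wi r k0 a = j) :
    ph (emb (rho0 r k0) A * one V) (Fin.cons x.1 x.2 : Fin (N + 1) → Bool) j.succ =
      (V *ᵥ spin x.2) j := by
  rw [ld_ph, emb_not_range, Fin.cons_succ]
  intro k
  unfold rho0
  split_ifs with h
  · exact (Fin.succ_ne_zero j).symm
  · intro he
    obtain ⟨a, ha⟩ := Fin.exists_succAbove_eq h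
    refine hj ⟨a, ?_⟩
    unfold wi
    rw [ha]
    exact Fin.succ_injective _ he

theorem ld_quad (A : Matrix (Fin (n + 1)) (Fin (n + 1)) ℝ) (b y : Fin (n + 1) → ℝ) :
    ∑ k, ∑ k', (Aᵀ * diagonal b * A) k k' * (y k * y k') = ∑ k, b k * (A *ᵥ y) k ^ 2 := by
  have h1 : ∀ k k', (Aᵀ * diagonal b * A) k k' * (y k * y k') =
      ∑ j, b j * ((A j k * y k) * (A j k' * y k')) := by
    intro k k'
    rw [Matrix.mul_apply, Finset.sum_mul]
    refine Finset.sum_congr rfl fun j _ => ?_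
    rw [Matrix.mul_diagonal, transpose_apply]
    ring
  calc _ = ∑ k, ∑ j, ∑ k', b j * ((A j k * y k) * (A j k' * y k')) := by
        refine Finset.sum_congr rfl fun k _ => ?_
        rw [← Finset.sum_comm]
        exact Finset.sum_congr rfl fun k' _ => h1 k k'
    _ = ∑ j, ∑ k, ∑ k', b j * ((A j k * y k) * (A j k' * y k')) := Finset.sum_comm
    _ = _ := by
        refine Finset.sum_congr rfl fun j _ => ?_
        rw [sq]
        simp only [mulVec, dotProduct]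
        rw [Finset.sum_mul_sum, Finset.mul_sum]
        refine Finset.sum_congr rfl fun k _ => ?_
        rw [Finset.mul_sum]

theorem ld_sg1_sq (b : Bool) : sg1 b * sg1 b = 1 := by
  unfold sg1
  split_ifs <;> ring

theorem ld_tcov (l : ℕ) : tcov 0 (0 : ℕ → ℝ) l = 0 := by
  cases l with
  | zero => rfl
  | succ l => exact zero_mul _

theorem ld_quadQ {b α : Fin (n + 1) → ℝ} {μ g : Fin n → ℝ}
    {Q : Fin (n + 1) → Matrix (Fin (n + 1)) (Fin (n + 1)) ℝ} (D : Dat b α μ g Q)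
    (r : Fin (n + 1) → Fin N) (k0 : Fin (n + 1)) (V : Matrix (Fin N) (Fin N) ℝ) (x : Xe N) :
    ∑ k, ∑ k', ((Q k0)ᵀ * diagonal b * Q k0) k k' * (yt r k0 V x k * yt r k0 V x k') =
      mbar b α + 2 * ∑ a, g a * sg1 x.1 * (V *ᵥ spin x.2) (wi r k0 a) +
        ∑ a, μ a * (V *ᵥ spin x.2) (wi r k0 a) ^ 2 := by
  have y0 : yt r k0 V x k0 = sg1 x.1 := if_pos rfl
  have y1 : ∀ a, yt r k0 V x (k0.succAbove a) = (V *ᵥ spin x.2) (wi r k0 a) := fun a =>
    if_neg (Fin.succAbove_ne k0 a)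
  have h2 : ∀ a, ∑ a', ((Q k0)ᵀ * diagonal b * Q k0) (k0.succAbove a) (k0.succAbove a') *
      ((V *ᵥ spin x.2) (wi r k0 a) * (V *ᵥ spin x.2) (wi r k0 a')) =
      μ a * (V *ᵥ spin x.2) (wi r k0 a) ^ 2 := by
    intro a
    rw [Finset.sum_eq_single a]
    · rw [D.out.eij, if_pos rfl]
      ring
    · intro a' _ h
      rw [D.out.eij, if_neg (Ne.symm h), zero_mul]
    · intro h
      exact absurd (Finset.mem_univ a) h
  have hA : ∀ k, ∑ k', ((Q k0)ᵀ * diagonal b * Q k0) k k' * (yt r k0 V x k * yt r k0 V x k') =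
      ((Q k0)ᵀ * diagonal b * Q k0) k k0 * (yt r k0 V x k * yt r k0 V x k0) +
      ∑ a, ((Q k0)ᵀ * diagonal b * Q k0) k (k0.succAbove a) *
        (yt r k0 V x k * yt r k0 V x (k0.succAbove a)) := fun k => Fin.sum_univ_succAbove _ k0
  rw [Finset.sum_congr rfl fun k _ => hA k, Fin.sum_univ_succAbove _ k0]
  simp only [y0, y1, D.out.e00, D.out.e0j, D.out.ej0, h2,
    Finset.sum_add_distrib, ld_sg1_sq]
  unfold mbar
  have h3 : ∑ a, g a * ((V *ᵥ spin x.2) (wi r k0 a) * sg1 x.1) =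
      ∑ a, g a * sg1 x.1 * (V *ᵥ spin x.2) (wi r k0 a) :=
    Finset.sum_congr rfl fun a _ => by ring
  have h4 : ∑ a, g a * (sg1 x.1 * (V *ᵥ spin x.2) (wi r k0 a)) =
      ∑ a, g a * sg1 x.1 * (V *ᵥ spin x.2) (wi r k0 a) :=
    Finset.sum_congr rfl fun a _ => by ring
  rw [h3, h4]
  ring

/-- **The energy.** -/
theorem sAE_en {b α : Fin (n + 1) → ℝ} {μ g : Fin n → ℝ}
    {Q : Fin (n + 1) → Matrix (Fin (n + 1)) (Fin (n + 1)) ℝ} (D : Dat b α μ g Q)
    {c : Fin N → Fin (n + 1)} (P : Pm (n + 1)) {r : Fin (n + 1) → Fin N} (hr : ∀ k, c (r k) = k)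
    (k0 : Fin (n + 1)) (s' : ℕ → ℝ) (A : Matrix (Fin (n + 1)) (Fin (n + 1)) ℝ)
    (V : Matrix (Fin N) (Fin N) ℝ) (z : Ie N K → ℝ) (x : Xe N) :
    (sAE K m c P r k0 s' A V).H z x =
      ((GE K m b α μ g c P r k0 0 0 s' 1 0).sy V).H z x +
      1 / 2 * ∑ k, ∑ k', ((Aᵀ * diagonal P.b * A) k k' - ((Q k0)ᵀ * diagonal b * Q k0) k k') *
        (yt r k0 V x k * yt r k0 V x k') +
      ∑ l ∈ Finset.range (K + 1), ∑ k, P.u k l *
        (z (Sum.inl (bco l (rho0 r k0 k))) * (A *ᵥ yt r k0 V x) k) := by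
  have hw := ld_wi_inj hr k0
  set y : Fin N → ℝ := V *ᵥ spin x.2 with hy
  set Y := yt r k0 V x with hY
  set p : Fin (N + 1) → ℝ := ph (emb (rho0 r k0) A * one V)
    (Fin.cons x.1 x.2 : Fin (N + 1) → Bool) with hp
  have p1 : ∀ k, p (rho0 r k0 k) = (A *ᵥ Y) k := fun k => ld_ph_rho hr k0 A V x k
  have p2 : ∀ j : Fin N, (¬ ∃ a, wi r k0 a = j) → p j.succ = y j := fun j hj =>
    ld_ph_not k0 A V x hj
  -- the quadratic part
  have q1 : ∑ i, P.b ((Fin.cons k0 c : Fin (N + 1) → Fin (n + 1)) i) / 2 * p i ^ 2 =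
      1 / 2 * ∑ k, P.b k * (A *ᵥ Y) k ^ 2 +
        ∑ j, if ∃ a, wi r k0 a = j then 0 else P.b (c j) / 2 * y j ^ 2 := by
    rw [ld_sum_split hr k0, Finset.mul_sum]
    congr 1
    · refine Finset.sum_congr rfl fun k _ => ?_
      rw [ld_c_rho hr, p1]
      ring
    · refine Finset.sum_congr rfl fun j _ => ?_
      by_cases h : ∃ a, wi r k0 a = j
      · rw [if_pos h, if_pos h]
      · rw [if_neg h, if_neg h, p2 j h, Fin.cons_succ]
  -- the fields of the patterns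
  have q2 : ∀ l, ∑ i, P.u ((Fin.cons k0 c : Fin (N + 1) → Fin (n + 1)) i) l *
      (z (Sum.inl (bco l i)) * p i) =
      ∑ k, P.u k l * (z (Sum.inl (bco l (rho0 r k0 k))) * (A *ᵥ Y) k) +
        ∑ j : Fin N, if ∃ a, wi r k0 a = j then 0 else
          P.u (c j) l * (z (Sum.inl (bco l j.succ)) * y j) := by
    intro l
    rw [ld_sum_split hr k0]
    congr 1
    · refine Finset.sum_congr rfl fun k _ => ?_
      rw [ld_c_rho hr, p1]
    · refine Finset.sum_congr rfl fun j _ => ?_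
      by_cases h : ∃ a, wi r k0 a = j
      · rw [if_pos h, if_pos h]
      · rw [if_neg h, if_neg h, p2 j h, Fin.cons_succ]
  -- the fields of the sites
  have q3 : ∑ l ∈ Finset.range (K + 1), P.s l * ∑ i, z (Sum.inl (sco l i)) *
      spin (Fin.cons x.1 x.2 : Fin (N + 1) → Bool) i +
      ∑ l ∈ Finset.range (K + 1), (s' l - P.s l) * (z (Sum.inl (sco l 0)) *
        spin (Fin.cons x.1 x.2 : Fin (N + 1) → Bool) 0) =
      ∑ l ∈ Finset.range (K + 1), P.s l * ∑ i, z (scE l i) * spin x.2 i +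
        sg1 x.1 * ∑ l ∈ Finset.range (K + 1), (s' l * z (ecE N K l) +
          tcov 0 (0 : ℕ → ℝ) l * z (zcE N K l)) := by
    rw [Finset.mul_sum, ← Finset.sum_add_distrib, ← Finset.sum_add_distrib]
    refine Finset.sum_congr rfl fun l _ => ?_
    rw [ld_spin, Fin.sum_univ_succ, Fin.cons_zero, ld_tcov]
    simp only [Fin.cons_succ, scE, ecE]
    ring
  -- the system with a new spin
  have g1 := ld_sum_extend hw μ (fun i => P.b (c i)) fun b i => b / 2 * y i ^ 2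
  have g2 := ld_sum_extend hw (fun j => (1 : ℝ) * g j) (fun _ => 0)
    fun b i => b * sg1 x.1 * y i
  have g3 := fun l => ld_sum_extend hw (fun _ _ => (0 : ℝ)) (fun i => P.u (c i))
    fun (b : ℕ → ℝ) i => b l * (z (bcE l i) * y i)
  have g0 : ((GE K m b α μ g c P r k0 0 0 s' 1 0).sy V).H z x =
      1 / 2 * mbar b α + ∑ l ∈ Finset.range (K + 1), P.s l * ∑ i, z (scE l i) * spin x.2 i +
        sg1 x.1 * ∑ l ∈ Finset.range (K + 1), (s' l * z (ecE N K l) +
          tcov 0 (0 : ℕ → ℝ) l * z (zcE N K l)) +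
      (∑ i, Function.extend (wi r k0) μ (fun i => P.b (c i)) i / 2 * y i ^ 2 +
        ∑ i, Function.extend (wi r k0) (fun j => (1 : ℝ) * g j) (fun _ => 0) i * sg1 x.1 * y i +
        ∑ l ∈ Finset.range (K + 1), ∑ i,
          Function.extend (wi r k0) (fun _ _ => (0 : ℝ)) (fun i => P.u (c i)) i l *
            (z (bcE l i) * y i)) := by
    show (1 / 2 * mbar b α + 1 / 2 * (0 : ℝ) ^ 2 * (0 - (0 : ℕ → ℝ) K) + _ + _) + _ = _
    rw [show (0 : ℝ) ^ 2 = 0 by norm_num, mul_zero, zero_mul, add_zero]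
    rfl
  rw [g0, g1, g2, Finset.sum_congr rfl fun l _ => g3 l]
  have hL : (sAE K m c P r k0 s' A V).H z x =
      ∑ i, P.b ((Fin.cons k0 c : Fin (N + 1) → Fin (n + 1)) i) / 2 * p i ^ 2 +
      ∑ l ∈ Finset.range (K + 1), P.s l * ∑ i, z (Sum.inl (sco l i)) *
        spin (Fin.cons x.1 x.2 : Fin (N + 1) → Bool) i +
      ∑ l ∈ Finset.range (K + 1), ∑ i, P.u ((Fin.cons k0 c : Fin (N + 1) → Fin (n + 1)) i) l *
        (z (Sum.inl (bco l i)) * p i) +
      ∑ l ∈ Finset.range (K + 1), (s' l - P.s l) * (z (Sum.inl (sco l 0)) *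
        spin (Fin.cons x.1 x.2 : Fin (N + 1) → Bool) 0) := rfl
  rw [hL, q1, Finset.sum_congr rfl fun l _ => q2 l]
  have hq : ∑ k, ∑ k', ((Aᵀ * diagonal P.b * A) k k' - ((Q k0)ᵀ * diagonal b * Q k0) k k') *
      (Y k * Y k') = ∑ k, P.b k * (A *ᵥ Y) k ^ 2 -
        (mbar b α + 2 * ∑ a, g a * sg1 x.1 * y (wi r k0 a) + ∑ a, μ a * y (wi r k0 a) ^ 2) := by
    rw [← ld_quad, ← ld_quadQ D r k0 V x]
    simp only [sub_mul, Finset.sum_sub_distrib]
    rfl
  rw [hq]
  have e1 : ∑ a, μ a / 2 * y (wi r k0 a) ^ 2 = 1 / 2 * ∑ a, μ a * y (wi r k0 a) ^ 2 := by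
    rw [Finset.mul_sum]
    exact Finset.sum_congr rfl fun a _ => by ring
  have e2 : ∑ a, 1 * g a * sg1 x.1 * y (wi r k0 a) = ∑ a, g a * sg1 x.1 * y (wi r k0 a) :=
    Finset.sum_congr rfl fun a _ => by ring
  have e3 : (∑ i, if ∃ a, wi r k0 a = i then (0 : ℝ) else 0 * sg1 x.1 * y i) = 0 :=
    Finset.sum_eq_zero fun i _ => by split_ifs <;> ring
  have e4 : ∑ l ∈ Finset.range (K + 1), (∑ a, (0 : ℝ) * (z (bcE l (wi r k0 a)) * y (wi r k0 a)) +
      ∑ i, if ∃ a, wi r k0 a = i then 0 else P.u (c i) l * (z (bcE l i) * y i)) =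
      ∑ l ∈ Finset.range (K + 1), ∑ j : Fin N, if ∃ a, wi r k0 a = j then 0 else
          P.u (c j) l * (z (Sum.inl (bco l j.succ)) * y j) := by
    refine Finset.sum_congr rfl fun l _ => ?_
    simp only [zero_mul, Finset.sum_const_zero, zero_add]
    rfl
  rw [Finset.sum_add_distrib, e1, e2, e3, e4]
  linear_combination q3

/-- The free energy is monotone in the energy. -/
theorem ld_fe_mono {ι X : Type} [Fintype ι] [Fintype X] [Nonempty X] {S : Sy ι X}
    {H' : (ι → ℝ) → X → ℝ} (hS : S.Reg) (hS' : (S.wH H').Reg) (h : ∀ z x, S.H z x ≤ H' z x) :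
    S.fe ≤ (S.wH H').fe := by
  have h1 := hS.jensen hS'
  have h2 := hS.Ex_mono (f := fun _ _ => (0 : ℝ)) (fun _ => Vale.Agent.P157.Lv.EG.const 0)
    (hS.nh_diff hS') (fun z x => sub_nonneg.2 (h z x))
  rw [hS.Ex_const] at h2
  linarith

theorem ld_abs_Y {V : Matrix (Fin N) (Fin N) ℝ} (hV : V ∈ orthogonalGroup (Fin N) ℝ) (b : Bool)
    (x : Fin N → Bool) (i : Fin (N + 1)) :
    |(Fin.cons (sg1 b) (V *ᵥ spin x) : Fin (N + 1) → ℝ) i| ≤ 1 + √N := by
  refine Fin.cases ?_ (fun j => ?_) i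
  · rw [Fin.cons_zero]
    have h1 : |sg1 b| = 1 := by
      unfold sg1
      split_ifs <;> norm_num
    rw [h1]
    have := Real.sqrt_nonneg (N : ℝ)
    linarith only [this]
  · rw [Fin.cons_succ]
    have h1 := ph_sq hV x
    have h2 : (V *ᵥ spin x) j ^ 2 ≤ N := by
      rw [← h1]
      exact Finset.single_le_sum (f := fun i => ph V x i ^ 2) (fun _ _ => sq_nonneg _)
        (Finset.mem_univ j)
    have h3 := Real.abs_le_sqrt h2
    linarith

/-- A bound of the pattern coordinates. -/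
theorem ld_abs_ph (ρ : Fin (n + 1) → Fin (N + 1)) (A : Matrix (Fin (n + 1)) (Fin (n + 1)) ℝ)
    {V : Matrix (Fin N) (Fin N) ℝ} (hV : V ∈ orthogonalGroup (Fin N) ℝ)
    (x : Fin (N + 1) → Bool) (i : Fin (N + 1)) :
    |ph (emb ρ A * one V) x i| ≤ ∑ i', ∑ j, |emb ρ A i' j| * (1 + √N) := by
  have hx : x = Fin.cons (x 0) (Fin.tail x) := (Fin.cons_self_tail x).symm
  rw [hx, ld_ph]
  simp only [mulVec, dotProduct]
  refine (Finset.abs_sum_le_sum_abs _ _).trans ?_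
  refine le_trans (Finset.sum_le_sum fun j _ => ?_) (Finset.single_le_sum
    (f := fun i' => ∑ j, |emb ρ A i' j| * (1 + √N)) (fun i' _ => Finset.sum_nonneg fun j _ =>
      mul_nonneg (abs_nonneg _) (by positivity)) (Finset.mem_univ i))
  rw [abs_mul]
  exact mul_le_mul_of_nonneg_left (ld_abs_Y hV (x 0) (Fin.tail x) j) (abs_nonneg _)

/-- A bound of the energy. -/
theorem ld_abs_H {κ : ℕ} (c : Fin (N + 1) → Fin κ) (P : Pm κ) (s' : ℕ → ℝ) {M : ℝ} (hM : 0 ≤ M)
    (U : Matrix (Fin (N + 1)) (Fin (N + 1)) ℝ) (hU : ∀ x i, |ph U x i| ≤ M)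
    (z : Ix (N + 1) K → ℝ) (x : Fin (N + 1) → Bool) :
    |(nmd K m c P s' U).H z x| ≤ ∑ i, |P.b (c i) / 2| * M ^ 2 +
      (∑ l ∈ Finset.range (K + 1), |P.s l| * ∑ _i : Fin (N + 1), (1 : ℝ) +
        ∑ l ∈ Finset.range (K + 1), ∑ i, |P.u (c i) l| * M +
        ∑ l ∈ Finset.range (K + 1), |s' l - P.s l|) * ∑ e, |z e| := by
  set T : ℝ := ∑ e, |z e| with hT
  have hT0 : 0 ≤ T := Finset.sum_nonneg fun _ _ => abs_nonneg _
  have hz : ∀ e, |z e| ≤ T := fun e =>
    Finset.single_le_sum (f := fun e => |z e|) (fun _ _ => abs_nonneg _) (Finset.mem_univ e)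
  have hsp : ∀ i, |spin x i| = 1 := fun i => by
    unfold spin
    split_ifs <;> norm_num
  have a1 : |∑ i, P.b (c i) / 2 * ph U x i ^ 2| ≤ ∑ i, |P.b (c i) / 2| * M ^ 2 := by
    refine (Finset.abs_sum_le_sum_abs _ _).trans (Finset.sum_le_sum fun i _ => ?_)
    rw [abs_mul, abs_pow]
    exact mul_le_mul_of_nonneg_left (pow_le_pow_left₀ (abs_nonneg _) (hU x i) 2) (abs_nonneg _)
  have a2 : |∑ l ∈ Finset.range (K + 1), P.s l * ∑ i, z (sco l i) * spin x i| ≤
      ∑ l ∈ Finset.range (K + 1), |P.s l| * (∑ _i : Fin (N + 1), (1 : ℝ)) * T := by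
    refine (Finset.abs_sum_le_sum_abs _ _).trans (Finset.sum_le_sum fun l _ => ?_)
    rw [abs_mul, mul_assoc]
    refine mul_le_mul_of_nonneg_left ?_ (abs_nonneg _)
    refine (Finset.abs_sum_le_sum_abs _ _).trans ?_
    rw [Finset.sum_mul]
    refine Finset.sum_le_sum fun i _ => ?_
    rw [abs_mul, hsp, mul_one, _root_.one_mul]
    exact hz _
  have a3 : |∑ l ∈ Finset.range (K + 1), ∑ i, P.u (c i) l * (z (bco l i) * ph U x i)| ≤
      ∑ l ∈ Finset.range (K + 1), (∑ i, |P.u (c i) l| * M) * T := by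
    refine (Finset.abs_sum_le_sum_abs _ _).trans (Finset.sum_le_sum fun l _ => ?_)
    refine (Finset.abs_sum_le_sum_abs _ _).trans ?_
    rw [Finset.sum_mul]
    refine Finset.sum_le_sum fun i _ => ?_
    rw [abs_mul, abs_mul, mul_assoc]
    refine mul_le_mul_of_nonneg_left ?_ (abs_nonneg _)
    rw [mul_comm]
    exact mul_le_mul (hU x i) (hz _) (abs_nonneg _) hM
  have a4 : |∑ l ∈ Finset.range (K + 1), (s' l - P.s l) * (z (sco l 0) * spin x 0)| ≤
      ∑ l ∈ Finset.range (K + 1), |s' l - P.s l| * T := by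
    refine (Finset.abs_sum_le_sum_abs _ _).trans (Finset.sum_le_sum fun l _ => ?_)
    rw [abs_mul, abs_mul, hsp, mul_one]
    exact mul_le_mul_of_nonneg_left (hz _) (abs_nonneg _)
  have hH : (nmd K m c P s' U).H z x = ∑ i, P.b (c i) / 2 * ph U x i ^ 2 +
      ∑ l ∈ Finset.range (K + 1), P.s l * ∑ i, z (sco l i) * spin x i +
      ∑ l ∈ Finset.range (K + 1), ∑ i, P.u (c i) l * (z (bco l i) * ph U x i) +
      ∑ l ∈ Finset.range (K + 1), (s' l - P.s l) * (z (sco l 0) * spin x 0) := rfl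
  rw [hH, add_mul, add_mul, Finset.sum_mul, Finset.sum_mul, Finset.sum_mul]
  refine (abs_add_le _ _).trans ?_
  have b1 := abs_add_le (∑ i, P.b (c i) / 2 * ph U x i ^ 2 +
      ∑ l ∈ Finset.range (K + 1), P.s l * ∑ i, z (sco l i) * spin x i)
      (∑ l ∈ Finset.range (K + 1), ∑ i, P.u (c i) l * (z (bco l i) * ph U x i))
  have b2 := abs_add_le (∑ i, P.b (c i) / 2 * ph U x i ^ 2)
      (∑ l ∈ Finset.range (K + 1), P.s l * ∑ i, z (sco l i) * spin x i)
  linarith only [a1, a2, a3, a4, b1, b2]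

/-- A bound of the free energy. -/
theorem ld_bdd_fe {κ : ℕ} (hm : Exponents K m) (c : Fin (N + 1) → Fin κ) (P : Pm κ)
    (s' : ℕ → ℝ) {M : ℝ} (hM : 0 ≤ M) : ∃ C : ℝ, ∀ U : Matrix (Fin (N + 1)) (Fin (N + 1)) ℝ,
      (∀ x i, |ph U x i| ≤ M) → |(nmd K m c P s' U).fe| ≤ C := by
  set a : ℝ := ∑ i, |P.b (c i) / 2| * M ^ 2 with ha
  set b : ℝ := ∑ l ∈ Finset.range (K + 1), |P.s l| * ∑ _i : Fin (N + 1), (1 : ℝ) +
        ∑ l ∈ Finset.range (K + 1), ∑ i, |P.u (c i) l| * M +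
        ∑ l ∈ Finset.range (K + 1), |s' l - P.s l| with hb
  set G : (Ix (N + 1) K → ℝ) → (Fin (N + 1) → Bool) → ℝ := fun z _ => a + b * ∑ e, |z e| with hG
  set G' : (Ix (N + 1) K → ℝ) → (Fin (N + 1) → Bool) → ℝ :=
    fun z _ => (-1) * (a + b * ∑ e, |z e|) with hG'
  have hlip : Lip fun z : Ix (N + 1) K → ℝ => a + b * ∑ e, |z e| := by
    refine Lip.add (Lip.const _) (Lip.const_mul (Lip.sum _ fun e _ => ?_) _)
    exact (Lip.coord e).comp (g := fun x => |x|) (L := 1) zero_le_one fun x y => by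
      rw [_root_.one_mul]
      exact abs_abs_sub_abs_le_abs_sub x y
  set S0 : Sy (Ix (N + 1) K) (Fin (N + 1) → Bool) := nmd K m c P s' 0 with hS0
  have hR0 : S0.Reg := (nmd_regD hm c P s' 0).toReg
  have hRG : (S0.wH G).Reg := ⟨hR0.m0, hR0.mK, hR0.mono, hR0.pos, hR0.lev, fun _ => hlip⟩
  have hRG' : (S0.wH G').Reg :=
    ⟨hR0.m0, hR0.mK, hR0.mono, hR0.pos, hR0.lev, fun _ => hlip.const_mul (-1)⟩
  refine ⟨|(S0.wH G).fe| + |(S0.wH G').fe|, fun U hU => ?_⟩
  have hR : (nmd K m c P s' U).Reg := (nmd_regD hm c P s' U).toReg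
  have h1 : (nmd K m c P s' U).fe ≤ (S0.wH G).fe :=
    ld_fe_mono (S := nmd K m c P s' U) (H' := G) hR hRG fun z x =>
      (abs_le.1 (ld_abs_H c P s' hM U hU z x)).2
  have h2 : (S0.wH G').fe ≤ (nmd K m c P s' U).fe :=
    ld_fe_mono (S := S0.wH G') (H' := (nmd K m c P s' U).H) hRG' hR fun z x => by
      have h := (abs_le.1 (ld_abs_H (m := m) c P s' hM U hU z x)).1
      show (-1) * (a + b * ∑ e, |z e|) ≤ _
      rw [neg_one_mul]
      exact h
  rw [abs_le]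
  have h3 := le_abs_self (S0.wH G).fe
  have h4 := neg_abs_le (S0.wH G').fe
  have h5 := abs_nonneg (S0.wH G).fe
  have h6 := abs_nonneg (S0.wH G').fe
  constructor <;> linarith only [h2, h4, h5, h1, h3, h6]

section

variable [MeasurableSpace (orthogonalGroup (Fin N) ℝ)] [BorelSpace (orthogonalGroup (Fin N) ℝ)]
  (ν : Measure (orthogonalGroup (Fin N) ℝ)) [IsProbabilityMeasure ν]

theorem int_sA_fe (hm : Exponents K m) (c : Fin N → Fin (n + 1)) (P : Pm (n + 1))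
    (r : Fin (n + 1) → Fin N) (k0 : Fin (n + 1)) (s' : ℕ → ℝ)
    (A : Matrix (Fin (n + 1)) (Fin (n + 1)) ℝ) :
    Integrable (fun V : orthogonalGroup (Fin N) ℝ => (sA K m c P r k0 s' A V.1).fe) ν := by
  obtain ⟨C, hC⟩ := ld_bdd_fe (K := K) hm (Fin.cons k0 c : Fin (N + 1) → Fin (n + 1)) P s'
    (M := ∑ i' : Fin (N + 1), ∑ j, |emb (rho0 r k0) A i' j| * (1 + √N)) (by positivity)
  refine integrable_of_bdd (C := C) ?_ fun V => hC _ fun x i => ld_abs_ph _ A V.2 x i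
  have hone : ∀ i j, Measurable fun V : orthogonalGroup (Fin N) ℝ => one V.1 i j := by
    intro i j
    refine Fin.cases ?_ (fun i => ?_) i <;> refine Fin.cases ?_ (fun j => ?_) j
    · exact measurable_const
    · exact measurable_const
    · exact measurable_const
    · exact Vale.Agent.P166.Conc.measurable_coe_OG i j
  have hp : ∀ (x : Fin (N + 1) → Bool) i, Measurable fun V : orthogonalGroup (Fin N) ℝ =>
      ph (emb (rho0 r k0) A * one V.1) x i := by
    intro x i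
    unfold ph
    simp only [mulVec, dotProduct, Matrix.mul_apply]
    exact Finset.measurable_fun_sum _ fun j _ => (Finset.measurable_fun_sum _ fun j' _ =>
      (hone j' j).const_mul _).mul_const _
  refine meas_fe (S := sA K m c P r k0 s' A 0)
    (H := fun V : orthogonalGroup (Fin N) ℝ => (sA K m c P r k0 s' A V.1).H) fun x => ?_
  have hp2 : ∀ i, Measurable fun p : orthogonalGroup (Fin N) ℝ × (Ix (N + 1) K → ℝ) =>
      ph (emb (rho0 r k0) A * one p.1.1) x i := fun i => (hp x i).comp measurable_fst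
  have hz : ∀ e : Ix (N + 1) K, Measurable fun p : orthogonalGroup (Fin N) ℝ ×
      (Ix (N + 1) K → ℝ) => p.2 e := fun e => (measurable_pi_apply e).comp measurable_snd
  show Measurable fun p : orthogonalGroup (Fin N) ℝ × (Ix (N + 1) K → ℝ) =>
    Md.en (Fin.cons k0 c : Fin (N + 1) → Fin (n + 1)) P (emb (rho0 r k0) A * one p.1.1) p.2 x +
      ∑ l ∈ Finset.range (K + 1), (s' l - P.s l) * (p.2 (sco l 0) * spin x 0)
  unfold Md.en
  refine Measurable.add (Measurable.add (Measurable.add ?_ ?_) ?_) ?_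
  · exact Finset.measurable_fun_sum _ fun i _ => ((hp2 i).pow_const 2).const_mul _
  · exact Finset.measurable_fun_sum _ fun l _ => (Finset.measurable_fun_sum _ fun i _ =>
      (hz _).mul_const _).const_mul _
  · exact Finset.measurable_fun_sum _ fun l _ => Finset.measurable_fun_sum _ fun i _ =>
      ((hz _).mul (hp2 i)).const_mul _
  · exact Finset.measurable_fun_sum _ fun l _ => ((hz _).mul_const _).const_mul _

end

end Vale.Agent.P166.L
end
end

section

section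

/-! P166, lower bound: second moments in the model of size `N + 1`. -/

open MeasureTheory ProbabilityTheory Matrix Filter Topology

namespace Vale.Agent.P166.L

open Vale.Agent.P157 (spin)
open Vale.Agent.P157.Lv Vale.Agent.P157.Par Md H U

variable {N K n : ℕ} {m : ℕ → ℝ}

/-- Orthogonal matrices preserve the norm. -/
theorem lm_norm {κ : ℕ} {A : Matrix (Fin κ) (Fin κ) ℝ} (hA : A ∈ orthogonalGroup (Fin κ) ℝ)
    (v : Fin κ → ℝ) : ∑ k, (A *ᵥ v) k ^ 2 = ∑ k, v k ^ 2 := by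
  have h1 : (A *ᵥ v) ⬝ᵥ (A *ᵥ v) = v ⬝ᵥ v := by
    rw [Matrix.dotProduct_mulVec, Matrix.vecMul_mulVec,
      (Matrix.mem_orthogonalGroup_iff' (Fin κ) ℝ).1 hA, Matrix.vecMul_one]
  have h2 : ∀ u : Fin κ → ℝ, u ⬝ᵥ u = ∑ k, u k ^ 2 := fun u =>
    Finset.sum_congr rfl fun k _ => (sq (u k)).symm
  rwa [h2, h2] at h1

/-- The image of a vector with the coordinate `k0` separated. -/
theorem lm_split {A : Matrix (Fin (n + 1)) (Fin (n + 1)) ℝ} {k0 : Fin (n + 1)}
    {y : Fin (n + 1) → ℝ} {ε : ℝ} {v : Fin n → ℝ} (h0 : y k0 = ε)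
    (hj : ∀ j, y (k0.succAbove j) = v j) (k : Fin (n + 1)) :
    (A *ᵥ y) k = A k k0 * ε + ∑ j, A k (k0.succAbove j) * v j := by
  rw [Matrix.mulVec, dotProduct, Fin.sum_univ_succAbove _ k0, h0]
  congr 1
  exact Finset.sum_congr rfl fun j _ => by rw [hj]

theorem lm_sq_sum {k0 : Fin (n + 1)} {y : Fin (n + 1) → ℝ} {ε : ℝ} {v : Fin n → ℝ} (h0 : y k0 = ε)
    (hj : ∀ j, y (k0.succAbove j) = v j) : ∑ k, y k ^ 2 = ε ^ 2 + ∑ j, v j ^ 2 := by
  rw [Fin.sum_univ_succAbove _ k0, h0]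
  congr 1
  exact Finset.sum_congr rfl fun j _ => by rw [hj]

theorem lm_quad (b : Fin (n + 1) → ℝ) (A : Matrix (Fin (n + 1)) (Fin (n + 1)) ℝ)
    (k0 : Fin (n + 1)) (v : Fin n → ℝ) :
    ∑ i, ∑ j, (Aᵀ * diagonal b * A) (k0.succAbove i) (k0.succAbove j) * (v i * v j) =
      ∑ k, b k * (∑ j, A k (k0.succAbove j) * v j) ^ 2 := by
  have h1 : ∀ i j, (Aᵀ * diagonal b * A) (k0.succAbove i) (k0.succAbove j) =
      ∑ k, A k (k0.succAbove i) * b k * A k (k0.succAbove j) := by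
    intro i j
    rw [Matrix.mul_apply]
    refine Finset.sum_congr rfl fun k _ => ?_
    rw [Matrix.mul_diagonal, Matrix.transpose_apply]
  simp_rw [h1]
  have h2 : ∀ k, b k * (∑ j, A k (k0.succAbove j) * v j) ^ 2 =
      ∑ i, ∑ j, A k (k0.succAbove i) * b k * A k (k0.succAbove j) * (v i * v j) := by
    intro k
    rw [sq, Finset.sum_mul_sum, Finset.mul_sum]
    refine Finset.sum_congr rfl fun i _ => ?_
    rw [Finset.mul_sum]
    exact Finset.sum_congr rfl fun j _ => by ring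
  simp_rw [h2, Finset.sum_mul]
  calc ∑ i, ∑ j, ∑ k, A k (k0.succAbove i) * b k * A k (k0.succAbove j) * (v i * v j)
      = ∑ i, ∑ k, ∑ j, A k (k0.succAbove i) * b k * A k (k0.succAbove j) * (v i * v j) :=
        Finset.sum_congr rfl fun i _ => Finset.sum_comm
    _ = _ := Finset.sum_comm

/-- The bounds of the quadratic form. -/
theorem lm_up {b ω : Fin (n + 1) → ℝ} {h Bb a0 dl ε : ℝ} {A : Matrix (Fin (n + 1)) (Fin (n + 1)) ℝ}
    {k0 : Fin (n + 1)} (hA : A ∈ orthogonalGroup (Fin (n + 1)) ℝ) (hB : ∀ k, |b k| ≤ Bb)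
    (hgap : ∀ v : Fin n → ℝ, ∑ i, ∑ j, (Aᵀ * diagonal b * A) (k0.succAbove i) (k0.succAbove j) *
      (v i * v j) ≤ (b (Fin.last n) - h * ω (Fin.last n)) * ∑ j, v j ^ 2)
    (ha0 : a0 ≤ h * ω (Fin.last n)) (hdl : 0 < dl) (hε : ε ^ 2 = 1) (v : Fin n → ℝ)
    {y : Fin (n + 1) → ℝ} (h0 : y k0 = ε) (hj : ∀ j, y (k0.succAbove j) = v j) :
    ∑ k, b k * (A *ᵥ y) k ^ 2 ≤
      Bb * (1 + 1 / dl) + (b (Fin.last n) - a0 + Bb * dl) * ∑ j, v j ^ 2 := by
  set av : Fin (n + 1) → ℝ := fun k => ∑ j, A k (k0.succAbove j) * v j with hav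
  have hB0 : 0 ≤ Bb := (abs_nonneg _).trans (hB 0)
  have e1 : ∑ k, A k k0 ^ 2 = 1 := by
    have h1 := lm_norm hA (Pi.single k0 1)
    rw [Matrix.mulVec_single_one] at h1
    have h2 : ∑ k, (Pi.single k0 (1 : ℝ) : Fin (n + 1) → ℝ) k ^ 2 = 1 := by
      rw [Finset.sum_eq_single k0]
      · simp
      · intro k _ hk
        rw [Pi.single_eq_of_ne hk]
        norm_num
      · intro hk
        exact absurd (Finset.mem_univ _) hk
    rw [h2] at h1
    exact h1
  have e2 : ∑ k, av k ^ 2 = ∑ j, v j ^ 2 := by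
    set y0 : Fin (n + 1) → ℝ := Fin.insertNth k0 (0 : ℝ) v with hy0
    have y00 : y0 k0 = 0 := Fin.insertNth_apply_same k0 _ _
    have y0j : ∀ j, y0 (k0.succAbove j) = v j := fun j => Fin.insertNth_apply_succAbove k0 _ _ j
    have h1 := lm_norm hA y0
    rw [lm_sq_sum y00 y0j] at h1
    have h2 : ∀ k, (A *ᵥ y0) k = av k := by
      intro k
      rw [lm_split y00 y0j, mul_zero, zero_add]
    simp only [h2] at h1
    linarith only [h1]
  have e3 : ∑ k, b k * av k ^ 2 ≤ (b (Fin.last n) - a0) * ∑ j, v j ^ 2 := by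
    have h1 := hgap v
    rw [lm_quad] at h1
    refine h1.trans (mul_le_mul_of_nonneg_right (by linarith only [ha0])
      (Finset.sum_nonneg fun j _ => sq_nonneg _))
  have e4 : ∀ k, b k * (A *ᵥ y) k ^ 2 ≤ Bb * (1 + 1 / dl) * A k k0 ^ 2 + Bb * dl * av k ^ 2 +
      b k * av k ^ 2 := by
    intro k
    rw [lm_split h0 hj]
    have h1 : (A k k0 * ε + av k) ^ 2 = A k k0 ^ 2 + 2 * (A k k0 * ε * av k) + av k ^ 2 := by
      have : (A k k0 * ε) ^ 2 = A k k0 ^ 2 := by rw [mul_pow, hε, mul_one]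
      rw [add_sq, this]
      ring
    have h2 : b k * A k k0 ^ 2 ≤ Bb * A k k0 ^ 2 :=
      mul_le_mul_of_nonneg_right ((le_abs_self _).trans (hB k)) (sq_nonneg _)
    have h3 : b k * (2 * (A k k0 * ε * av k)) ≤ Bb * (1 / dl * A k k0 ^ 2 + dl * av k ^ 2) := by
      have h4 : |2 * (A k k0 * ε * av k)| ≤ 1 / dl * A k k0 ^ 2 + dl * av k ^ 2 := by
        have h5 : 0 ≤ 1 / dl * (|A k k0| - dl * |av k|) ^ 2 := by positivity
        have h6 : |ε| = 1 := by
          have := sq_abs ε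
          rw [hε] at this
          nlinarith only [this, abs_nonneg ε]
        rw [abs_mul, abs_mul, abs_mul, h6, abs_two, mul_one]
        have h7 : 1 / dl * (|A k k0| - dl * |av k|) ^ 2 =
            1 / dl * A k k0 ^ 2 - 2 * (|A k k0| * |av k|) + dl * av k ^ 2 := by
          rw [← sq_abs (A k k0), ← sq_abs (av k)]
          field_simp
          ring
        linarith
      calc b k * (2 * (A k k0 * ε * av k)) ≤ |b k * (2 * (A k k0 * ε * av k))| := le_abs_self _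
        _ = |b k| * |2 * (A k k0 * ε * av k)| := abs_mul _ _
        _ ≤ _ := mul_le_mul (hB k) h4 (abs_nonneg _) hB0
    show b k * (A k k0 * ε + av k) ^ 2 ≤ _
    rw [h1]
    linarith
  have e5 := Finset.sum_le_sum fun k (_ : k ∈ Finset.univ) => e4 k
  rw [Finset.sum_add_distrib, Finset.sum_add_distrib, ← Finset.mul_sum, ← Finset.mul_sum, e1,
    e2] at e5
  linarith

theorem lm_low {b : Fin (n + 1) → ℝ} {Bb ε : ℝ} {A : Matrix (Fin (n + 1)) (Fin (n + 1)) ℝ}
    {k0 : Fin (n + 1)} (hA : A ∈ orthogonalGroup (Fin (n + 1)) ℝ) (hB : ∀ k, |b k| ≤ Bb)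
    (hε : ε ^ 2 = 1) (v : Fin n → ℝ)
    {y : Fin (n + 1) → ℝ} (h0 : y k0 = ε) (hj : ∀ j, y (k0.succAbove j) = v j) :
    -(Bb * (1 + ∑ j, v j ^ 2)) ≤ ∑ k, b k * (A *ᵥ y) k ^ 2 := by
  have h1 : ∀ k, -(Bb * (A *ᵥ y) k ^ 2) ≤ b k * (A *ᵥ y) k ^ 2 := fun k => by
    rw [← neg_mul]
    exact mul_le_mul_of_nonneg_right (abs_le.1 (hB k)).1 (sq_nonneg _)
  have h2 := Finset.sum_le_sum fun k (_ : k ∈ Finset.univ) => h1 k
  rw [Finset.sum_neg_distrib, ← Finset.mul_sum, lm_norm hA, lm_sq_sum h0 hj, hε] at h2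
  exact h2

/-- The choice of the patterns of `Bt`. -/
theorem lm_choose {Y : Fin N → ℝ} (hY : ∀ i, 0 ≤ Y i) {S : ℝ} (hS : ∑ i, Y i ≤ S)
    {B : Finset (Fin N)} (hB : 2 * n ≤ B.card) :
    ∃ t : Fin n → Fin N, Function.Injective t ∧ ∀ j, t j ∈ B ∧ Y (t j) * B.card ≤ 2 * S := by
  classical
  set L := B.filter fun i => Y i * B.card ≤ 2 * S with hL
  have hS0 : 0 ≤ S := (Finset.sum_nonneg fun i _ => hY i).trans hS
  have hn : n ≤ L.card := by
    by_contra hc
    rw [not_le] at hc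
    set L' := B.filter fun i => ¬ Y i * B.card ≤ 2 * S with hL'
    have h1 : L.card + L'.card = B.card := Finset.card_filter_add_card_filter_not _
    have h2 : B.card < 2 * L'.card := by omega
    have h3 : L'.Nonempty := Finset.card_pos.1 (by omega)
    have h4 : ∑ i ∈ L', Y i * B.card ≤ S * B.card := by
      rw [← Finset.sum_mul]
      refine mul_le_mul_of_nonneg_right ?_ (Nat.cast_nonneg _)
      exact (Finset.sum_le_univ_sum_of_nonneg hY).trans hS
    have h5 : ∑ i ∈ L', 2 * S < ∑ i ∈ L', Y i * B.card :=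
      Finset.sum_lt_sum_of_nonempty h3 fun i hi => not_le.1 (Finset.mem_filter.1 hi).2
    rw [Finset.sum_const, nsmul_eq_mul] at h5
    have h6 : (B.card : ℝ) ≤ 2 * L'.card := by exact_mod_cast h2.le
    have h7 := mul_le_mul_of_nonneg_left h6 hS0
    linarith only [h4, h5, h7]
  obtain ⟨L', hL', hc⟩ := Finset.exists_subset_card_eq hn
  refine ⟨L'.orderEmbOfFin hc, (L'.orderEmbOfFin hc).injective, fun j => ?_⟩
  have h1 := hL' (L'.orderEmbOfFin_mem hc j)
  rw [hL, Finset.mem_filter] at h1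
  exact h1

/-! ### The fields -/

section Fld

variable {ι X : Type} [Fintype ι] [DecidableEq ι] [Fintype X] [Nonempty X] {M : ℕ} {A : GS M ι X}

/-- Integration by parts for a pattern field. -/
theorem lm_fld (hA : A.Ok) (U : Matrix (Fin M) (Fin M) ℝ) {l : ℕ} (hl : l ≤ A.K) (i : Fin M)
    (f : X → ℝ) : |(A.sy U).Ex (fun z x => z (A.bc l i) * f x)| ≤
      |A.u i l| * (A.sy U).Ex (fun _ x => f x ^ 2 + A.y U x i ^ 2) := by
  have hG := hA.regG U
  have hS := hA.regE U hl i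
  have n1 : Nh fun (_ : ι → ℝ) (x : X) => f x := Sy.Nh.snd f
  have n2 : Nh fun (_ : ι → ℝ) (x : X) => A.y U x i := Sy.Nh.snd _
  have h1 := hS.ibp (h := fun _ x => f x) (h' := fun _ _ => 0) (fun x => PD.const _) n1
    (Sy.Nh.snd fun _ => 0)
  set g : (ι → ℝ) → X → ℝ := fun z x => f x * (A.y U x i -
    ∑ k ∈ Finset.Ico ((A.sy U).lev (A.bc l i)) ((A.sy U).K + 1), (A.sy U).p k *
      (A.sy U).T k (fun _ x => A.y U x i) z) with hg
  have h2 : (A.sy U).Ex (fun z x => z (A.bc l i) * f x) = A.u i l * (A.sy U).Ex g := by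
    rw [h1, ← Sy.Ex_const_mul]
    congr 1
    funext z x
    rw [hg]
    simp only [Sy.T_const_mul]
    have h3 : ∑ k ∈ Finset.Ico ((A.sy U).lev (A.bc l i)) ((A.sy U).K + 1), (A.sy U).p k *
        (A.u i l * (A.sy U).T k (fun _ x => A.y U x i) z) = A.u i l *
        ∑ k ∈ Finset.Ico ((A.sy U).lev (A.bc l i)) ((A.sy U).K + 1), (A.sy U).p k *
        (A.sy U).T k (fun _ x => A.y U x i) z := by
      rw [Finset.mul_sum]
      exact Finset.sum_congr rfl fun k _ => by ring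
    rw [h3]
    ring
  have nT : ∀ k ∈ Finset.Ico ((A.sy U).lev (A.bc l i)) ((A.sy U).K + 1),
      EG ((A.sy U).T k (fun _ x => A.y U x i)) := fun k hk =>
    hG.eg_T (Nat.lt_succ_iff.1 (Finset.mem_Ico.1 hk).2) n2
  have ng : Nh g := Sy.Nh.mul n1 (Sy.Nh.sub n2 (Sy.Nh.fst (EG.sum _ fun k hk =>
    (nT k hk).const_mul _)))
  rw [h2, abs_mul]
  refine mul_le_mul_of_nonneg_left ?_ (abs_nonneg _)
  have nG : ∀ k ∈ Finset.Ico ((A.sy U).lev (A.bc l i)) ((A.sy U).K + 1),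
      Nh fun (z : ι → ℝ) (x : X) => (A.sy U).p k * (1 / 2 * f x ^ 2 +
        1 / 2 * (A.sy U).T k (fun _ x => A.y U x i) z ^ 2) := fun k hk =>
    Sy.Nh.const_mul _ (Sy.Nh.add (Sy.Nh.const_mul _ (Sy.Nh.pow n1 2))
      (Sy.Nh.const_mul _ (Sy.Nh.fst ((nT k hk).pow 2))))
  have n0 : Nh fun (_ : ι → ℝ) (x : X) => 1 / 2 * f x ^ 2 + 1 / 2 * A.y U x i ^ 2 :=
    Sy.Nh.add (Sy.Nh.const_mul _ (Sy.Nh.pow n1 2)) (Sy.Nh.const_mul _ (Sy.Nh.pow n2 2))
  have hp : ∀ k ∈ Finset.Ico ((A.sy U).lev (A.bc l i)) ((A.sy U).K + 1), 0 ≤ (A.sy U).p k :=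
    fun k hk => p_nonneg hG (Nat.lt_succ_iff.1 (Finset.mem_Ico.1 hk).2)
  refine (hG.abs_Ex_le_of (f := g) (g := fun z x => (1 / 2 * f x ^ 2 + 1 / 2 * A.y U x i ^ 2) +
    ∑ k ∈ Finset.Ico ((A.sy U).lev (A.bc l i)) ((A.sy U).K + 1), (A.sy U).p k *
      (1 / 2 * f x ^ 2 + 1 / 2 * (A.sy U).T k (fun _ x => A.y U x i) z ^ 2)) ng
      (Sy.Nh.add n0 (Sy.Nh.sum _ nG)) fun z x => ?_).trans ?_
  · have h4 : ∀ a b : ℝ, |a * b| ≤ 1 / 2 * a ^ 2 + 1 / 2 * b ^ 2 := by
      intro a b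
      rw [abs_mul]
      have := sq_nonneg (|a| - |b|)
      rw [← sq_abs a, ← sq_abs b]
      nlinarith
    have h5 : g z x = f x * A.y U x i -
        ∑ k ∈ Finset.Ico ((A.sy U).lev (A.bc l i)) ((A.sy U).K + 1), (A.sy U).p k *
          (f x * (A.sy U).T k (fun _ x => A.y U x i) z) := by
      rw [hg]
      simp only
      rw [mul_sub, Finset.mul_sum]
      congr 1
      exact Finset.sum_congr rfl fun k _ => by ring
    rw [h5]
    refine (abs_sub _ _).trans (add_le_add (h4 _ _) ?_)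
    refine (Finset.abs_sum_le_sum_abs _ _).trans (Finset.sum_le_sum fun k hk => ?_)
    rw [abs_mul, abs_of_nonneg (hp k hk)]
    exact mul_le_mul_of_nonneg_left (h4 _ _) (hp k hk)
  · rw [hG.Ex_add n0 (Sy.Nh.sum _ nG), hG.Ex_sum _ nG]
    set a := (A.sy U).Ex (fun _ x => f x ^ 2) with ha
    set c := (A.sy U).Ex (fun _ x => A.y U x i ^ 2) with hc
    have e1 : (A.sy U).Ex (fun _ x => f x ^ 2 + A.y U x i ^ 2) = a + c :=
      hG.Ex_add (Sy.Nh.pow n1 2) (Sy.Nh.pow n2 2)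
    have e0 : (A.sy U).Ex (fun _ x => 1 / 2 * f x ^ 2 + 1 / 2 * A.y U x i ^ 2) =
        1 / 2 * a + 1 / 2 * c := by
      rw [hG.Ex_add (Sy.Nh.const_mul _ (Sy.Nh.pow n1 2)) (Sy.Nh.const_mul _ (Sy.Nh.pow n2 2)),
        Sy.Ex_const_mul, Sy.Ex_const_mul]
    have ha0 : 0 ≤ a := hG.Ex_nonneg (Sy.Nh.pow n1 2) fun _ _ => sq_nonneg _
    have hc0 : 0 ≤ c := hG.Ex_nonneg (Sy.Nh.pow n2 2) fun _ _ => sq_nonneg _
    have e2 : ∀ k ∈ Finset.Ico ((A.sy U).lev (A.bc l i)) ((A.sy U).K + 1),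
        (A.sy U).Ex (fun z x => (A.sy U).p k * (1 / 2 * f x ^ 2 +
        1 / 2 * (A.sy U).T k (fun _ x => A.y U x i) z ^ 2)) ≤
        (A.sy U).p k * (1 / 2 * a + 1 / 2 * c) := by
      intro k hk
      have hk' := Nat.lt_succ_iff.1 (Finset.mem_Ico.1 hk).2
      rw [Sy.Ex_const_mul, hG.Ex_add (Sy.Nh.const_mul _ (Sy.Nh.pow n1 2))
        (Sy.Nh.const_mul _ (Sy.Nh.fst ((nT k hk).pow 2))), Sy.Ex_const_mul, Sy.Ex_const_mul]
      refine mul_le_mul_of_nonneg_left ?_ (hp k hk)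
      have h6 : (A.sy U).Ex (fun z _ => (A.sy U).T k (fun _ x => A.y U x i) z ^ 2) ≤ c := by
        rw [hc, ← hG.Ex_T hk' (Sy.Nh.pow n2 2)]
        exact hG.Ex_mono (Sy.Nh.fst ((nT k hk).pow 2))
          (Sy.Nh.fst (hG.eg_T hk' (Sy.Nh.pow n2 2))) fun z _ => hG.sq_T_le hk' n2 z
      linarith only [h6]
    have e3 := Finset.sum_le_sum e2
    rw [← Finset.sum_mul] at e3
    have e4 : ∑ k ∈ Finset.Ico ((A.sy U).lev (A.bc l i)) ((A.sy U).K + 1), (A.sy U).p k ≤ 1 :=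
      sum_p_le hG ((hG.lev _).trans (Nat.le_succ _)) le_rfl
    have e5 := mul_le_mul_of_nonneg_right e4 (show 0 ≤ 1 / 2 * a + 1 / 2 * c by positivity)
    rw [e0, e1]
    linarith only [e3, e5]

/-- The contribution of the fields of the patterns of the set `T`. -/
theorem lm_fields (hA : A.Ok) (U : Matrix (Fin M) (Fin M) ℝ) (f : Fin M → X → ℝ)
    (T : Finset (Fin M)) (hf : ∀ i ∉ T, ∀ x, f i x = 0) {dl : ℝ}
    (hu : ∀ i, ∀ l ≤ A.K, |A.u i l| ≤ dl) :
    |(A.sy U).Ex (fun z x => ∑ l ∈ Finset.range (A.K + 1), ∑ i,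
      A.u i l * (z (A.bc l i) * f i x))| ≤ (A.K + 1) * (dl ^ 2 *
      (A.sy U).Ex (fun _ x => ∑ i ∈ T, (f i x ^ 2 + A.y U x i ^ 2))) := by
  have hG := hA.regG U
  have nf : ∀ l i, Nh fun (z : ι → ℝ) (x : X) => A.u i l * (z (A.bc l i) * f i x) := fun l i =>
    Sy.Nh.const_mul _ (Sy.Nh.mul (Sy.Nh.fst (EG.coord _)) (Sy.Nh.snd _))
  have ny : ∀ i, Nh fun (_ : ι → ℝ) (x : X) => f i x ^ 2 + A.y U x i ^ 2 := fun i =>
    Sy.Nh.snd fun x => f i x ^ 2 + A.y U x i ^ 2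
  rw [hG.Ex_sum _ fun l _ => Sy.Nh.sum _ fun i _ => nf l i, hG.Ex_sum _ fun i _ => ny i]
  refine (Finset.abs_sum_le_sum_abs _ _).trans ?_
  have h1 : ∀ l ∈ Finset.range (A.K + 1), |(A.sy U).Ex (fun z x => ∑ i,
      A.u i l * (z (A.bc l i) * f i x))| ≤ dl ^ 2 * ∑ i ∈ T, (A.sy U).Ex
        (fun _ x => f i x ^ 2 + A.y U x i ^ 2) := by
    intro l hl
    have hl' := Nat.lt_succ_iff.1 (Finset.mem_range.1 hl)
    rw [hG.Ex_sum _ fun i _ => nf l i]
    have h2 : ∑ i, (A.sy U).Ex (fun z x => A.u i l * (z (A.bc l i) * f i x)) =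
        ∑ i ∈ T, (A.sy U).Ex (fun z x => A.u i l * (z (A.bc l i) * f i x)) := by
      symm
      refine Finset.sum_subset (Finset.subset_univ _) fun i _ hi => ?_
      have h3 : (fun (z : ι → ℝ) (x : X) => A.u i l * (z (A.bc l i) * f i x)) = fun _ _ => 0 := by
        funext z x
        rw [hf i hi x, mul_zero, mul_zero]
      rw [h3, hG.Ex_const]
    rw [h2, Finset.mul_sum]
    refine (Finset.abs_sum_le_sum_abs _ _).trans (Finset.sum_le_sum fun i _ => ?_)
    rw [Sy.Ex_const_mul, abs_mul]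
    have h4 := lm_fld hA U hl' i (f i)
    have h5 := mul_le_mul_of_nonneg_left h4 (abs_nonneg (A.u i l))
    refine h5.trans ?_
    rw [← mul_assoc, ← sq]
    refine mul_le_mul_of_nonneg_right ?_ (hG.Ex_nonneg (ny i) fun _ _ => by positivity)
    exact pow_le_pow_left₀ (abs_nonneg _) (hu i l hl') 2
  refine (Finset.sum_le_sum h1).trans (le_of_eq ?_)
  rw [Finset.sum_const, Finset.card_range, nsmul_eq_mul]
  push_cast
  ring

omit [Fintype ι] [DecidableEq ι] [Fintype X] [Nonempty X] in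
/-- The difference of the energies at two matrices. -/
theorem lm_diff (hk : ∀ i x, A.kap i x = 0) (U V : Matrix (Fin M) (Fin M) ℝ) (z : ι → ℝ) (x : X) :
    A.en V z x - A.en U z x = ∑ i, A.lam i / 2 * (A.y V x i ^ 2 - A.y U x i ^ 2) +
      ∑ l ∈ Finset.range (A.K + 1), ∑ i, A.u i l * (z (A.bc l i) * (A.y V x i - A.y U x i)) := by
  unfold GS.en GS.ev
  simp only [hk, zero_mul, Finset.sum_const_zero, add_zero]
  have h1 : ∑ i, A.lam i / 2 * (A.y V x i ^ 2 - A.y U x i ^ 2) =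
      ∑ i, A.lam i / 2 * A.y V x i ^ 2 - ∑ i, A.lam i / 2 * A.y U x i ^ 2 := by
    rw [← Finset.sum_sub_distrib]
    exact Finset.sum_congr rfl fun i _ => by ring
  have h2 : ∑ l ∈ Finset.range (A.K + 1), ∑ i, A.u i l *
      (z (A.bc l i) * (A.y V x i - A.y U x i)) =
      ∑ l ∈ Finset.range (A.K + 1), ∑ i, A.u i l * (z (A.bc l i) * A.y V x i) -
      ∑ l ∈ Finset.range (A.K + 1), ∑ i, A.u i l * (z (A.bc l i) * A.y U x i) := by
    rw [← Finset.sum_sub_distrib]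
    refine Finset.sum_congr rfl fun l _ => ?_
    rw [← Finset.sum_sub_distrib]
    exact Finset.sum_congr rfl fun i _ => by ring
  rw [h1, h2]
  ring

end Fld

/-! ### The patterns -/

/-- The sum of a function which vanishes outside the reserved patterns and the patterns `t j`. -/
theorem lm_sum {r : Fin (n + 1) → Fin N} {k0 : Fin (n + 1)} {t : Fin n → Fin N}
    (he : Function.Injective (Sum.elim (wi r k0) t)) {F : Fin (N + 1) → ℝ}
    (hF : ∀ i : Fin N, i ∉ Set.range (Sum.elim (wi r k0) t) → F i.succ = 0) :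
    ∑ i, F i = ∑ k, F (rho0 r k0 k) + ∑ j, F (t j).succ := by
  rw [Fin.sum_univ_succ, Fin.sum_univ_succAbove (fun k => F (rho0 r k0 k)) k0]
  have h1 : rho0 r k0 k0 = 0 := if_pos rfl
  have h2 : ∀ j, rho0 r k0 (k0.succAbove j) = (wi r k0 j).succ := fun j =>
    if_neg (Fin.succAbove_ne k0 j)
  simp only [h1, h2]
  have h3 := Fintype.sum_of_injective (Sum.elim (wi r k0) t) he
    (fun x => F (Sum.elim (wi r k0) t x).succ) (fun i => F i.succ) hF (fun _ => rfl)
  rw [Fintype.sum_sum_type] at h3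
  simp only [Sum.elim_inl, Sum.elim_inr] at h3
  rw [← h3]
  ring

/-- The exchange of the patterns `w j` and `t j`. -/
noncomputable def lmsw {w t : Fin n → Fin N} (he : Function.Injective (Sum.elim w t)) :
    Equiv.Perm (Fin N) :=
  Equiv.Perm.viaEmbedding (Equiv.sumComm (Fin n) (Fin n)) ⟨Sum.elim w t, he⟩

theorem lmsw_w {w t : Fin n → Fin N} (he : Function.Injective (Sum.elim w t)) (j : Fin n) :
    lmsw he (w j) = t j :=
  Equiv.Perm.viaEmbedding_apply (Equiv.sumComm (Fin n) (Fin n) : Equiv.Perm (Fin n ⊕ Fin n))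
    ⟨Sum.elim w t, he⟩ (Sum.inl j)

theorem lmsw_t {w t : Fin n → Fin N} (he : Function.Injective (Sum.elim w t)) (j : Fin n) :
    lmsw he (t j) = w j :=
  Equiv.Perm.viaEmbedding_apply (Equiv.sumComm (Fin n) (Fin n) : Equiv.Perm (Fin n ⊕ Fin n))
    ⟨Sum.elim w t, he⟩ (Sum.inr j)

theorem lmsw_of {w t : Fin n → Fin N} (he : Function.Injective (Sum.elim w t)) {i : Fin N}
    (hi : i ∉ Set.range (Sum.elim w t)) : lmsw he i = i :=
  Equiv.Perm.viaEmbedding_apply_of_notMem _ ⟨Sum.elim w t, he⟩ i hi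

/-- The patterns of the old sites. -/
noncomputable def lmq (V : Matrix (Fin N) (Fin N) ℝ) (x : Fin (N + 1) → Bool) : Fin N → ℝ :=
  V *ᵥ spin fun i => x i.succ

/-- The vector of the reserved patterns. -/
noncomputable def lmy (r : Fin (n + 1) → Fin N) (k0 : Fin (n + 1)) (V : Matrix (Fin N) (Fin N) ℝ)
    (x : Fin (N + 1) → Bool) (k : Fin (n + 1)) : ℝ :=
  if k = k0 then sg1 (x 0) else lmq V x (r k)

theorem lmy_zero (r : Fin (n + 1) → Fin N) (k0 : Fin (n + 1)) (V : Matrix (Fin N) (Fin N) ℝ)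
    (x : Fin (N + 1) → Bool) : lmy r k0 V x k0 = sg1 (x 0) := if_pos rfl

theorem lmy_succ (r : Fin (n + 1) → Fin N) (k0 : Fin (n + 1)) (V : Matrix (Fin N) (Fin N) ℝ)
    (x : Fin (N + 1) → Bool) (j : Fin n) : lmy r k0 V x (k0.succAbove j) = lmq V x (wi r k0 j) :=
  if_neg (Fin.succAbove_ne k0 j)

theorem lm_sg (b : Bool) : sg1 b ^ 2 = 1 := by
  unfold sg1
  split_ifs <;> norm_num

/-- The matrix of the system `sA`. -/
noncomputable def lmU (r : Fin (n + 1) → Fin N) (k0 : Fin (n + 1))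
    (A : Matrix (Fin (n + 1)) (Fin (n + 1)) ℝ) (V : Matrix (Fin N) (Fin N) ℝ) :
    Matrix (Fin (N + 1)) (Fin (N + 1)) ℝ := emb (rho0 r k0) A * one V

theorem lm_spin (x : Fin (N + 1) → Bool) :
    spin x = (Fin.cons (sg1 (x 0)) (spin fun i => x i.succ) : Fin (N + 1) → ℝ) := by
  funext i
  refine Fin.cases ?_ (fun i => ?_) i <;> rfl

theorem lm_y (r : Fin (n + 1) → Fin N) (k0 : Fin (n + 1))
    (A : Matrix (Fin (n + 1)) (Fin (n + 1)) ℝ) (V : Matrix (Fin N) (Fin N) ℝ)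
    (x : Fin (N + 1) → Bool) : lmU r k0 A V *ᵥ spin x =
      emb (rho0 r k0) A *ᵥ (Fin.cons (sg1 (x 0)) (lmq V x) : Fin (N + 1) → ℝ) := by
  rw [lmU, ← Matrix.mulVec_mulVec, lm_spin, one_mulVec]
  rfl

theorem lm_rho_inj {r : Fin (n + 1) → Fin N} (hr : Function.Injective r) (k0 : Fin (n + 1)) :
    Function.Injective (rho0 r k0) := by
  intro k k' h
  unfold rho0 at h
  split_ifs at h with h1 h2 h2
  · rw [h1, h2]
  · exact absurd h (Fin.succ_ne_zero _).symm
  · exact absurd h (Fin.succ_ne_zero _)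
  · exact hr (Fin.succ_injective _ h)

theorem lm_y_rho {r : Fin (n + 1) → Fin N} (hr : Function.Injective r) (k0 : Fin (n + 1))
    (A : Matrix (Fin (n + 1)) (Fin (n + 1)) ℝ) (V : Matrix (Fin N) (Fin N) ℝ)
    (x : Fin (N + 1) → Bool) (k : Fin (n + 1)) :
    (lmU r k0 A V *ᵥ spin x) (rho0 r k0 k) = (A *ᵥ lmy r k0 V x) k := by
  rw [lm_y, emb_range (lm_rho_inj hr k0)]
  refine Finset.sum_congr rfl fun k' _ => ?_
  congr 1
  unfold rho0 lmy
  by_cases h : k' = k0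
  · rw [if_pos h, if_pos h]
    rfl
  · rw [if_neg h, if_neg h]
    rfl

theorem lm_y_not (r : Fin (n + 1) → Fin N) (k0 : Fin (n + 1))
    (A : Matrix (Fin (n + 1)) (Fin (n + 1)) ℝ) (V : Matrix (Fin N) (Fin N) ℝ)
    (x : Fin (N + 1) → Bool) {i : Fin N} (hi : ∀ j, i ≠ wi r k0 j) :
    (lmU r k0 A V *ᵥ spin x) i.succ = lmq V x i := by
  rw [lm_y, emb_not_range]
  · rfl
  · intro k
    unfold rho0
    by_cases h : k = k0
    · rw [if_pos h]
      exact (Fin.succ_ne_zero _).symm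
    · rw [if_neg h]
      obtain ⟨j, rfl⟩ := Fin.exists_succAbove_eq h
      intro h2
      exact hi j (Fin.succ_injective _ h2).symm

theorem lmq_pm (σ : Equiv.Perm (Fin N)) (V : Matrix (Fin N) (Fin N) ℝ) (x : Fin (N + 1) → Bool)
    (i : Fin N) : lmq (pm σ * V) x i = lmq V x (σ i) := by
  rw [lmq, pm_mul]
  rfl

theorem lm_mem {r : Fin (n + 1) → Fin N} (hr : Function.Injective r) (k0 : Fin (n + 1))
    {A : Matrix (Fin (n + 1)) (Fin (n + 1)) ℝ} (hA : A ∈ orthogonalGroup (Fin (n + 1)) ℝ)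
    (V : orthogonalGroup (Fin N) ℝ) : lmU r k0 A V.1 ∈ orthogonalGroup (Fin (N + 1)) ℝ :=
  mul_mem (emb_mem (lm_rho_inj hr k0) hA) (one_memL V)

/-- The sum of the squares of the patterns `w`. -/
noncomputable def lmW (w : Fin n → Fin N) (V : Matrix (Fin N) (Fin N) ℝ) (x : Fin (N + 1) → Bool) :
    ℝ := ∑ j, lmq V x (w j) ^ 2

theorem lmW_nonneg (w : Fin n → Fin N) (V : Matrix (Fin N) (Fin N) ℝ) (x : Fin (N + 1) → Bool) :
    0 ≤ lmW w V x := Finset.sum_nonneg fun _ _ => sq_nonneg _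

/-- The quadratic part of the difference of the energies. -/
theorem lm_QD {b ω : Fin (n + 1) → ℝ} {h Bb a0 : ℝ} {A : Matrix (Fin (n + 1)) (Fin (n + 1)) ℝ}
    {r : Fin (n + 1) → Fin N} (hr : Function.Injective r) {k0 : Fin (n + 1)}
    (hA : A ∈ orthogonalGroup (Fin (n + 1)) ℝ) (hB : ∀ k, |b k| ≤ Bb) (hB1 : 1 ≤ Bb)
    (hgap : ∀ v : Fin n → ℝ, ∑ i, ∑ j, (Aᵀ * diagonal b * A) (k0.succAbove i) (k0.succAbove j) *
      (v i * v j) ≤ (b (Fin.last n) - h * ω (Fin.last n)) * ∑ j, v j ^ 2)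
    (ha : 0 < a0) (ha0 : a0 ≤ h * ω (Fin.last n)) {t : Fin n → Fin N}
    (he : Function.Injective (Sum.elim (wi r k0) t)) {lam : Fin (N + 1) → ℝ}
    (hl : ∀ k, lam (rho0 r k0 k) = b k) (ht : ∀ j, lam (t j).succ = b (Fin.last n))
    (V : Matrix (Fin N) (Fin N) ℝ) (x : Fin (N + 1) → Bool) :
    a0 / 4 * lmW (wi r k0) V x - Bb * lmW t V x - Bb * (1 + Bb / a0) ≤
      ∑ i, lam i / 2 * ((lmU r k0 A (pm (lmsw he) * V) *ᵥ spin x) i ^ 2 -
        (lmU r k0 A V *ᵥ spin x) i ^ 2) := by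
  have hB0 : 0 < Bb := by linarith only [hB1]
  have hti : ∀ j j', t j ≠ wi r k0 j' := fun j j' h1 => by
    have := he (a₁ := Sum.inr j) (a₂ := Sum.inl j') h1
    simp at this
  rw [lm_sum he (F := fun i => lam i / 2 * ((lmU r k0 A (pm (lmsw he) * V) *ᵥ spin x) i ^ 2 -
        (lmU r k0 A V *ᵥ spin x) i ^ 2)) fun i hi => ?_]
  · have e1 : ∑ k, lam (rho0 r k0 k) / 2 *
        ((lmU r k0 A (pm (lmsw he) * V) *ᵥ spin x) (rho0 r k0 k) ^ 2 -
        (lmU r k0 A V *ᵥ spin x) (rho0 r k0 k) ^ 2) =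
        1 / 2 * (∑ k, b k * (A *ᵥ lmy r k0 (pm (lmsw he) * V) x) k ^ 2 -
          ∑ k, b k * (A *ᵥ lmy r k0 V x) k ^ 2) := by
      rw [← Finset.sum_sub_distrib, Finset.mul_sum]
      refine Finset.sum_congr rfl fun k _ => ?_
      rw [hl, lm_y_rho hr, lm_y_rho hr]
      ring
    have e2 : ∑ j, lam (t j).succ / 2 *
        ((lmU r k0 A (pm (lmsw he) * V) *ᵥ spin x) (t j).succ ^ 2 -
        (lmU r k0 A V *ᵥ spin x) (t j).succ ^ 2) =
        b (Fin.last n) / 2 * (lmW (wi r k0) V x - lmW t V x) := by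
      unfold lmW
      rw [← Finset.sum_sub_distrib, Finset.mul_sum]
      refine Finset.sum_congr rfl fun j _ => ?_
      rw [ht, lm_y_not _ _ _ _ _ (hti j), lm_y_not _ _ _ _ _ (hti j), lmq_pm, lmsw_t]
    rw [e1, e2]
    have hsw : ∀ j, lmy r k0 (pm (lmsw he) * V) x (k0.succAbove j) = lmq V x (t j) := fun j => by
      rw [lmy_succ, lmq_pm, lmsw_w]
    have dl0 : 0 < a0 / (2 * Bb) := by positivity
    have u1 := lm_up hA hB hgap ha0 dl0 (lm_sg (x 0)) (fun j => lmq V x (wi r k0 j))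
      (lmy_zero r k0 V x) (lmy_succ r k0 V x)
    have u2 := lm_low hA hB (lm_sg (x 0)) (fun j => lmq V x (t j))
      (lmy_zero r k0 (pm (lmsw he) * V) x) hsw
    have hW : ∑ j, lmq V x (wi r k0 j) ^ 2 = lmW (wi r k0) V x := rfl
    have hT : ∑ j, lmq V x (t j) ^ 2 = lmW t V x := rfl
    rw [hW] at u1
    rw [hT] at u2
    have hW0 := lmW_nonneg (wi r k0) V x
    have hT0 := lmW_nonneg t V x
    have c1 : Bb * (a0 / (2 * Bb)) = a0 / 2 := by field_simp
    have c2 : Bb * (1 + 1 / (a0 / (2 * Bb))) = Bb + 2 * (Bb * (Bb / a0)) := by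
      field_simp
    rw [c1, c2] at u1
    have c3 : b (Fin.last n) * lmW t V x ≤ Bb * lmW t V x :=
      mul_le_mul_of_nonneg_right ((le_abs_self _).trans (hB _)) hT0
    linarith only [u1, u2, c3]
  · have h1 : ∀ j, i ≠ wi r k0 j := fun j h2 => hi ⟨Sum.inl j, h2.symm⟩
    rw [lm_y_not _ _ _ _ _ h1, lm_y_not _ _ _ _ _ h1, lmq_pm, lmsw_of he hi, sub_self, mul_zero]

/-- The reserved patterns and the patterns `t j`. -/
noncomputable def lmT (r : Fin (n + 1) → Fin N) (k0 : Fin (n + 1)) (t : Fin n → Fin N) :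
    Finset (Fin (N + 1)) := by
  classical
  exact Finset.univ.image (rho0 r k0) ∪ Finset.univ.image fun j => (t j).succ

theorem lmT_not {r : Fin (n + 1) → Fin N} {k0 : Fin (n + 1)} {t : Fin n → Fin N} {i : Fin N}
    (hi : i ∉ Set.range (Sum.elim (wi r k0) t)) : i.succ ∉ lmT r k0 t := by
  classical
  unfold lmT
  rw [Finset.mem_union, Finset.mem_image, Finset.mem_image]
  rintro (⟨k, -, h⟩ | ⟨j, -, h⟩)
  · unfold rho0 at h
    by_cases h1 : k = k0
    · rw [if_pos h1] at h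
      exact (Fin.succ_ne_zero _).symm h
    · rw [if_neg h1] at h
      obtain ⟨j, rfl⟩ := Fin.exists_succAbove_eq h1
      exact hi ⟨Sum.inl j, Fin.succ_injective _ h⟩
  · exact hi ⟨Sum.inr j, Fin.succ_injective _ h⟩

/-- The squares of the patterns of `lmT`. -/
theorem lm_TS {A : Matrix (Fin (n + 1)) (Fin (n + 1)) ℝ}
    {r : Fin (n + 1) → Fin N} (hr : Function.Injective r) {k0 : Fin (n + 1)}
    (hA : A ∈ orthogonalGroup (Fin (n + 1)) ℝ) {t : Fin n → Fin N}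
    (he : Function.Injective (Sum.elim (wi r k0) t))
    (V : Matrix (Fin N) (Fin N) ℝ) (x : Fin (N + 1) → Bool) :
    ∑ i ∈ lmT r k0 t, (((lmU r k0 A (pm (lmsw he) * V) *ᵥ spin x) i -
      (lmU r k0 A V *ᵥ spin x) i) ^ 2 + (lmU r k0 A V *ᵥ spin x) i ^ 2) ≤
      1 + 5 * lmW (wi r k0) V x + 5 * lmW t V x := by
  classical
  have hti : ∀ j j', t j ≠ wi r k0 j' := fun j j' h1 => by
    have := he (a₁ := Sum.inr j) (a₂ := Sum.inl j') h1
    simp at this
  set G : Fin (N + 1) → ℝ := fun i => ((lmU r k0 A (pm (lmsw he) * V) *ᵥ spin x) i -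
      (lmU r k0 A V *ᵥ spin x) i) ^ 2 + (lmU r k0 A V *ᵥ spin x) i ^ 2 with hGd
  have h0 : ∑ i ∈ lmT r k0 t, G i = ∑ i, if i ∈ lmT r k0 t then G i else 0 := by
    rw [Finset.sum_ite_mem, Finset.univ_inter]
  rw [h0, lm_sum he (F := fun i => if i ∈ lmT r k0 t then G i else 0)
    fun i hi => if_neg (lmT_not hi)]
  have m1 : ∀ k, rho0 r k0 k ∈ lmT r k0 t := fun k => by
    unfold lmT
    exact Finset.mem_union_left _ (Finset.mem_image_of_mem _ (Finset.mem_univ k))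
  have m2 : ∀ j, (t j).succ ∈ lmT r k0 t := fun j => by
    unfold lmT
    exact Finset.mem_union_right _ (Finset.mem_image_of_mem (fun j => (t j).succ)
      (Finset.mem_univ j))
  simp only [m1, m2, if_true]
  have e1 : ∑ k, G (rho0 r k0 k) = ∑ j, (lmq V x (t j) - lmq V x (wi r k0 j)) ^ 2 +
      (1 + lmW (wi r k0) V x) := by
    have e2 : ∀ k, G (rho0 r k0 k) =
        (A *ᵥ (lmy r k0 (pm (lmsw he) * V) x - lmy r k0 V x)) k ^ 2 +
        (A *ᵥ lmy r k0 V x) k ^ 2 := by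
      intro k
      rw [hGd]
      simp only
      rw [lm_y_rho hr, lm_y_rho hr, Matrix.mulVec_sub, Pi.sub_apply]
    simp only [e2]
    rw [Finset.sum_add_distrib, lm_norm hA, lm_norm hA,
      lm_sq_sum (lmy_zero r k0 V x) (lmy_succ r k0 V x), lm_sg,
      lm_sq_sum (k0 := k0) (ε := 0) (v := fun j => lmq V x (t j) - lmq V x (wi r k0 j))]
    · simp only [ne_eq, OfNat.ofNat_ne_zero, not_false_eq_true, zero_pow, zero_add]
      rfl
    · rw [Pi.sub_apply, lmy_zero, lmy_zero, sub_self]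
    · intro j
      rw [Pi.sub_apply, lmy_succ, lmy_succ, lmq_pm, lmsw_w]
  have e3 : ∑ j, G (t j).succ = ∑ j, (lmq V x (t j) - lmq V x (wi r k0 j)) ^ 2 +
      lmW t V x := by
    unfold lmW
    rw [← Finset.sum_add_distrib]
    refine Finset.sum_congr rfl fun j _ => ?_
    rw [hGd]
    simp only
    rw [lm_y_not _ _ _ _ _ (hti j), lm_y_not _ _ _ _ _ (hti j), lmq_pm, lmsw_t]
    ring
  have e4 : ∑ j, (lmq V x (t j) - lmq V x (wi r k0 j)) ^ 2 ≤
      2 * lmW t V x + 2 * lmW (wi r k0) V x := by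
    unfold lmW
    rw [Finset.mul_sum, Finset.mul_sum, ← Finset.sum_add_distrib]
    refine Finset.sum_le_sum fun j _ => ?_
    linarith only [sq_nonneg (lmq V x (t j) + lmq V x (wi r k0 j))]
  rw [e1, e3]
  linarith only [e4]

/-- The inequality at one matrix. -/
theorem lm_V {m : ℕ → ℝ} {c : Fin N → Fin (n + 1)} {P : Pm (n + 1)} (hm : Exponents K m)
    {s' : ℕ → ℝ} {ω : Fin (n + 1) → ℝ} {h Bb a0 dl x1 : ℝ}
    {A : Matrix (Fin (n + 1)) (Fin (n + 1)) ℝ}
    {r : Fin (n + 1) → Fin N} (hcr : ∀ k, c (r k) = k) {k0 : Fin (n + 1)}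
    (hA : A ∈ orthogonalGroup (Fin (n + 1)) ℝ) (hB : ∀ k, |P.b k| ≤ Bb) (hB1 : 1 ≤ Bb)
    (hgap : ∀ v : Fin n → ℝ, ∑ i, ∑ j, (Aᵀ * diagonal P.b * A) (k0.succAbove i)
      (k0.succAbove j) * (v i * v j) ≤ (P.b (Fin.last n) - h * ω (Fin.last n)) * ∑ j, v j ^ 2)
    (ha : 0 < a0) (ha0 : a0 ≤ h * ω (Fin.last n)) (hu : ∀ k, ∀ l ≤ K, |P.u k l| ≤ dl)
    (hx : (K + 1) * dl ^ 2 ≤ x1) (hx1 : x1 ≤ 1) (hxa : 40 * x1 ≤ a0) {t : Fin n → Fin N}
    (he : Function.Injective (Sum.elim (wi r k0) t)) (ht : ∀ j, c (t j) = Fin.last n)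
    (V : Matrix (Fin N) (Fin N) ℝ) :
    a0 / 8 * ((nmG K m (Fin.cons k0 c : Fin (N + 1) → Fin (n + 1)) P s').sy
        (lmU r k0 A V)).Ex (fun _ x => lmW (wi r k0) V x) -
      (Bb + 5) * ((nmG K m (Fin.cons k0 c : Fin (N + 1) → Fin (n + 1)) P s').sy
        (lmU r k0 A V)).Ex (fun _ x => lmW t V x) - (Bb * (1 + Bb / a0) + 1) ≤
      ((nmG K m (Fin.cons k0 c : Fin (N + 1) → Fin (n + 1)) P s').sy (lmU r k0 A V)).Ex
        (fun z x => (nmG K m (Fin.cons k0 c : Fin (N + 1) → Fin (n + 1)) P s').en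
          (lmU r k0 A (pm (lmsw he) * V)) z x -
          (nmG K m (Fin.cons k0 c : Fin (N + 1) → Fin (n + 1)) P s').en (lmU r k0 A V) z x) := by
  set G := nmG K m (Fin.cons k0 c : Fin (N + 1) → Fin (n + 1)) P s' with hGd
  have hG : G.Ok := sy_nmG_ok hm _ P s'
  have hR := hG.regG (lmU r k0 A V)
  have hr : Function.Injective r := fun k k' h1 => by
    rw [← hcr k, ← hcr k', h1]
  have hk : ∀ i x, G.kap i x = 0 := fun i x => rfl
  have hlam : ∀ i, G.lam i = P.b ((Fin.cons k0 c : Fin (N + 1) → Fin (n + 1)) i) := fun i => rfl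
  have hl : ∀ k, G.lam (rho0 r k0 k) = P.b k := fun k => by
    rw [hlam]
    congr 1
    unfold rho0
    by_cases h1 : k = k0
    · rw [if_pos h1, h1]
      rfl
    · rw [if_neg h1]
      exact hcr k
  have hlt : ∀ j, G.lam (t j).succ = P.b (Fin.last n) := fun j => by
    rw [hlam]
    congr 1
    exact ht j
  have hGu : ∀ i, ∀ l ≤ G.K, |G.u i l| ≤ dl := fun i l hl => hu _ l hl
  set S := G.sy (lmU r k0 A V) with hS
  set f : Fin (N + 1) → (Fin (N + 1) → Bool) → ℝ := fun i x =>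
    (lmU r k0 A (pm (lmsw he) * V) *ᵥ spin x) i - (lmU r k0 A V *ᵥ spin x) i with hf
  have hfT : ∀ i ∉ lmT r k0 t, ∀ x, f i x = 0 := by
    classical
    intro i hi x
    rcases Fin.eq_zero_or_eq_succ i with rfl | ⟨i', rfl⟩
    · exfalso
      refine hi ?_
      unfold lmT
      refine Finset.mem_union_left _ (Finset.mem_image.2 ⟨k0, Finset.mem_univ _, if_pos rfl⟩)
    · have h1 : ∀ j, i' ≠ wi r k0 j := fun j h2 => by
        refine hi ?_
        unfold lmT
        refine Finset.mem_union_left _ (Finset.mem_image.2 ⟨k0.succAbove j, Finset.mem_univ _, ?_⟩)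
        rw [h2]
        exact if_neg (Fin.succAbove_ne k0 j)
      have h3 : ∀ j, i' ≠ t j := fun j h2 => by
        refine hi ?_
        unfold lmT
        refine Finset.mem_union_right _ (Finset.mem_image.2 ⟨j, Finset.mem_univ _, ?_⟩)
        rw [h2]
      have h4 : i' ∉ Set.range (Sum.elim (wi r k0) t) := by
        rintro ⟨j | j, h5⟩
        · exact h1 j h5.symm
        · exact h3 j h5.symm
      rw [hf]
      simp only
      rw [lm_y_not _ _ _ _ _ h1, lm_y_not _ _ _ _ _ h1, lmq_pm, lmsw_of he h4, sub_self]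
  have e1 : S.Ex (fun z x => G.en (lmU r k0 A (pm (lmsw he) * V)) z x - G.en (lmU r k0 A V) z x) =
      S.Ex (fun _ x => ∑ i, G.lam i / 2 * ((lmU r k0 A (pm (lmsw he) * V) *ᵥ spin x) i ^ 2 -
        (lmU r k0 A V *ᵥ spin x) i ^ 2)) +
      S.Ex (fun z x => ∑ l ∈ Finset.range (G.K + 1), ∑ i, G.u i l * (z (G.bc l i) * f i x)) := by
    rw [← hR.Ex_add (Sy.Nh.snd _) (Sy.Nh.sum _ fun l _ => Sy.Nh.sum _ fun i _ =>
      Sy.Nh.const_mul _ (Sy.Nh.mul (Sy.Nh.fst (Vale.Agent.P157.Lv.EG.coord _)) (Sy.Nh.snd _)))]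
    congr 1
    funext z x
    rw [lm_diff hk]
    rfl
  have n1 : Nh fun (_ : Ix (N + 1) K → ℝ) (x : Fin (N + 1) → Bool) => lmW (wi r k0) V x :=
    Sy.Nh.snd _
  have n2 : Nh fun (_ : Ix (N + 1) K → ℝ) (x : Fin (N + 1) → Bool) => lmW t V x :=
    Sy.Nh.snd _
  have e2 : a0 / 4 * S.Ex (fun _ x => lmW (wi r k0) V x) - Bb * S.Ex (fun _ x => lmW t V x) -
      Bb * (1 + Bb / a0) ≤
      S.Ex (fun _ x => ∑ i, G.lam i / 2 * ((lmU r k0 A (pm (lmsw he) * V) *ᵥ spin x) i ^ 2 -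
        (lmU r k0 A V *ᵥ spin x) i ^ 2)) := by
    have h1 := hR.Ex_mono (f := fun _ x => a0 / 4 * lmW (wi r k0) V x - Bb * lmW t V x -
      Bb * (1 + Bb / a0)) (Sy.Nh.snd _) (Sy.Nh.snd _)
      (fun _ x => lm_QD hr hA hB hB1 hgap ha ha0 he hl hlt V x)
    rw [hR.Ex_sub (Sy.Nh.snd fun x => a0 / 4 * lmW (wi r k0) V x - Bb * lmW t V x)
      (Sy.Nh.snd fun _ => Bb * (1 + Bb / a0)), hR.Ex_const, hR.Ex_sub (Sy.Nh.const_mul _ n1)
      (Sy.Nh.const_mul _ n2), Sy.Ex_const_mul, Sy.Ex_const_mul] at h1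
    exact h1
  have e3 := lm_fields hG (lmU r k0 A V) f (lmT r k0 t) hfT hGu
  have e4 : S.Ex (fun _ x => ∑ i ∈ lmT r k0 t, (f i x ^ 2 + G.y (lmU r k0 A V) x i ^ 2)) ≤
      1 + 5 * S.Ex (fun _ x => lmW (wi r k0) V x) + 5 * S.Ex (fun _ x => lmW t V x) := by
    have h1 := hR.Ex_mono (g := fun _ x => 1 + 5 * lmW (wi r k0) V x + 5 * lmW t V x)
      (Sy.Nh.snd _) (Sy.Nh.snd _) (fun _ x => lm_TS hr hA he V x)
    rw [hR.Ex_add (Sy.Nh.snd fun x => 1 + 5 * lmW (wi r k0) V x) (Sy.Nh.const_mul _ n2),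
      hR.Ex_add (Sy.Nh.snd fun _ => 1) (Sy.Nh.const_mul _ n1), hR.Ex_const, Sy.Ex_const_mul,
      Sy.Ex_const_mul] at h1
    exact h1
  have w0 : 0 ≤ S.Ex (fun _ x => lmW (wi r k0) V x) :=
    hR.Ex_nonneg n1 fun _ x => lmW_nonneg _ _ _
  have t0 : 0 ≤ S.Ex (fun _ x => lmW t V x) := hR.Ex_nonneg n2 fun _ x => lmW_nonneg _ _ _
  have e5 := (abs_le.1 e3).1
  have e6 : ((G.K : ℕ) + 1 : ℝ) * (dl ^ 2 * S.Ex (fun _ x => ∑ i ∈ lmT r k0 t,
      (f i x ^ 2 + G.y (lmU r k0 A V) x i ^ 2))) ≤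
      x1 * (1 + 5 * S.Ex (fun _ x => lmW (wi r k0) V x) + 5 * S.Ex (fun _ x => lmW t V x)) := by
    rw [← mul_assoc]
    exact mul_le_mul hx e4 (hR.Ex_nonneg (Sy.Nh.snd _) fun _ x => Finset.sum_nonneg fun i _ =>
      by positivity) (le_trans (by positivity) hx)
  have e7 : x1 * (1 + 5 * S.Ex (fun _ x => lmW (wi r k0) V x) +
      5 * S.Ex (fun _ x => lmW t V x)) ≤ 1 + a0 / 8 * S.Ex (fun _ x => lmW (wi r k0) V x) +
      5 * S.Ex (fun _ x => lmW t V x) := by
    have h1 := mul_le_mul_of_nonneg_right hxa w0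
    have h2 := mul_le_mul_of_nonneg_right hx1 t0
    linarith only [hx1, h1, h2]
  rw [e1]
  linarith

theorem lm_col {A : Matrix (Fin (n + 1)) (Fin (n + 1)) ℝ} (k0 : Fin (n + 1))
    (hA : A ∈ orthogonalGroup (Fin (n + 1)) ℝ) : ∑ k, A k k0 ^ 2 = 1 := by
  have h1 := lm_norm hA (Pi.single k0 1)
  rw [Matrix.mulVec_single_one] at h1
  have h2 : ∑ k, (Pi.single k0 (1 : ℝ) : Fin (n + 1) → ℝ) k ^ 2 = 1 := by
    rw [Finset.sum_eq_single k0]
    · simp
    · intro k _ hk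
      rw [Pi.single_eq_of_ne hk]
      norm_num
    · intro hk
      exact absurd (Finset.mem_univ _) hk
  rw [h2] at h1
  exact h1

section Meas

variable [MeasurableSpace (orthogonalGroup (Fin N) ℝ)] [BorelSpace (orthogonalGroup (Fin N) ℝ)]

theorem lm_mq (x : Fin (N + 1) → Bool) (i : Fin N) :
    Measurable fun V : orthogonalGroup (Fin N) ℝ => lmq V.1 x i := by
  unfold lmq Matrix.mulVec dotProduct
  exact Finset.measurable_fun_sum _ fun j _ => (Conc.measurable_coe_OG i j).mul_const _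

theorem lm_my (r : Fin (n + 1) → Fin N) (k0 : Fin (n + 1))
    (A : Matrix (Fin (n + 1)) (Fin (n + 1)) ℝ) (x : Fin (N + 1) → Bool) (i : Fin (N + 1)) :
    Measurable fun V : orthogonalGroup (Fin N) ℝ => (lmU r k0 A V.1 *ᵥ spin x) i := by
  have h1 : (fun V : orthogonalGroup (Fin N) ℝ => (lmU r k0 A V.1 *ᵥ spin x) i) = fun V =>
      emb (rho0 r k0) A i 0 * sg1 (x 0) + ∑ j, emb (rho0 r k0) A i (Fin.succ j) *
        lmq V.1 x j := by
    funext V
    rw [lm_y, Matrix.mulVec, dotProduct, Fin.sum_univ_succ]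
    rfl
  rw [h1]
  exact measurable_const.add (Finset.measurable_fun_sum _ fun j _ => (lm_mq x j).const_mul _)

/-- The energies are measurable. -/
theorem lm_men {m : ℕ → ℝ} (hm : Exponents K m) {κ : ℕ} (c : Fin (N + 1) → Fin κ) (P : Pm κ)
    (s' : ℕ → ℝ) (r : Fin (n + 1) → Fin N) (k0 : Fin (n + 1))
    (A : Matrix (Fin (n + 1)) (Fin (n + 1)) ℝ) (x : Fin (N + 1) → Bool) :
    Measurable fun p : orthogonalGroup (Fin N) ℝ × (Ix (N + 1) K → ℝ) =>
      (nmG K m c P s').en (lmU r k0 A p.1.1) p.2 x := by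
  have hG := sy_nmG_ok hm c P s'
  have hy : ∀ i, Measurable fun p : orthogonalGroup (Fin N) ℝ × (Ix (N + 1) K → ℝ) =>
      (nmG K m c P s').y (lmU r k0 A p.1.1) x i := fun i =>
    (lm_my r k0 A x i).comp measurable_fst
  have hz : ∀ e : Ix (N + 1) K, Measurable
      fun p : orthogonalGroup (Fin N) ℝ × (Ix (N + 1) K → ℝ) => p.2 e := fun e =>
    (measurable_pi_apply e).comp measurable_snd
  unfold GS.en GS.ev
  refine ((hG.lip x).measurable.comp measurable_snd).add (((Finset.measurable_fun_sum _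
    fun i _ => ((hy i).pow_const 2).const_mul _).add (Finset.measurable_fun_sum _
    fun i _ => (hy i).const_mul _)).add (Finset.measurable_fun_sum _ fun l _ =>
      Finset.measurable_fun_sum _ fun i _ => ((hz _).mul (hy i)).const_mul _))

variable (ν : Measure (orthogonalGroup (Fin N) ℝ)) [IsProbabilityMeasure ν]

theorem lm_int_fe {m : ℕ → ℝ} (hm : Exponents K m) {κ : ℕ} (c : Fin (N + 1) → Fin κ) (P : Pm κ)
    (s' : ℕ → ℝ) {r : Fin (n + 1) → Fin N} (hr : Function.Injective r) (k0 : Fin (n + 1))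
    {A : Matrix (Fin (n + 1)) (Fin (n + 1)) ℝ} (hA : A ∈ orthogonalGroup (Fin (n + 1)) ℝ) :
    Integrable (fun V : orthogonalGroup (Fin N) ℝ =>
      ((nmG K m c P s').sy (lmU r k0 A V.1)).fe) ν := by
  obtain ⟨C, hC⟩ := sy_bdd_fe (sy_nmG_ok hm c P s')
  refine integrable_of_bdd (C := C) ?_ fun V => hC _ (lm_mem hr k0 hA V)
  exact meas_fe (S := (nmG K m c P s').sy 0)
    (H := fun V : orthogonalGroup (Fin N) ℝ => (nmG K m c P s').en (lmU r k0 A V.1))
    (lm_men hm c P s' r k0 A)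

omit [MeasurableSpace (orthogonalGroup (Fin N) ℝ)] [BorelSpace (orthogonalGroup (Fin N) ℝ)] in
theorem lmq_sum (V : orthogonalGroup (Fin N) ℝ) (x : Fin (N + 1) → Bool) :
    ∑ i, lmq V.1 x i ^ 2 = N := by
  unfold lmq
  rw [lm_norm V.2]
  exact mdl_spin_sum _

theorem lm_int_Ex {m : ℕ → ℝ} (hm : Exponents K m) {κ : ℕ} (c : Fin (N + 1) → Fin κ) (P : Pm κ)
    (s' : ℕ → ℝ) (r : Fin (n + 1) → Fin N) (k0 : Fin (n + 1))
    (A : Matrix (Fin (n + 1)) (Fin (n + 1)) ℝ) (i : Fin N) :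
    Integrable (fun V : orthogonalGroup (Fin N) ℝ =>
      ((nmG K m c P s').sy (lmU r k0 A V.1)).Ex (fun _ x => lmq V.1 x i ^ 2)) ν := by
  refine integrable_of_bdd (C := N) ?_ fun V => ?_
  · exact meas_Ex (S := (nmG K m c P s').sy 0)
      (H := fun V : orthogonalGroup (Fin N) ℝ => (nmG K m c P s').en (lmU r k0 A V.1))
      (h := fun V _ x => lmq V.1 x i ^ 2)
      (lm_men hm c P s' r k0 A) fun x => ((lm_mq x i).comp measurable_fst).pow_const 2
  · refine ((sy_nmG_ok hm c P s').regG _).abs_Ex_le_const (Sy.Nh.snd _) fun _ x => ?_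
    rw [abs_of_nonneg (sq_nonneg _), ← lmq_sum V x]
    exact Finset.single_le_sum (f := fun i => lmq V.1 x i ^ 2) (fun i _ => sq_nonneg _)
      (Finset.mem_univ i)

/-- The sum of the second moments. -/
theorem lm_sum_Y {m : ℕ → ℝ} (hm : Exponents K m) {κ : ℕ} (c : Fin (N + 1) → Fin κ) (P : Pm κ)
    (s' : ℕ → ℝ) (r : Fin (n + 1) → Fin N) (k0 : Fin (n + 1))
    (A : Matrix (Fin (n + 1)) (Fin (n + 1)) ℝ) :
    ∑ i, ∫ V : orthogonalGroup (Fin N) ℝ,
      ((nmG K m c P s').sy (lmU r k0 A V.1)).Ex (fun _ x => lmq V.1 x i ^ 2) ∂ν = N := by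
  rw [← integral_finsetSum _ fun i _ => lm_int_Ex ν hm c P s' r k0 A i]
  have h1 : ∀ V : orthogonalGroup (Fin N) ℝ, ∑ i,
      ((nmG K m c P s').sy (lmU r k0 A V.1)).Ex (fun _ x => lmq V.1 x i ^ 2) = N := by
    intro V
    have hR := (sy_nmG_ok hm c P s').regG (lmU r k0 A V.1)
    rw [← hR.Ex_sum _ fun i _ => Sy.Nh.snd fun x => lmq V.1 x i ^ 2]
    simp only [lmq_sum]
    exact hR.Ex_const _
  simp only [h1, integral_const, probReal_univ, one_smul]

/-- The main inequality. -/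
theorem lm_E [ν.IsMulLeftInvariant] {m : ℕ → ℝ} {c : Fin N → Fin (n + 1)} {P : Pm (n + 1)}
    (hm : Exponents K m)
    {s' : ℕ → ℝ} {ω : Fin (n + 1) → ℝ} {h Bb a0 dl x1 : ℝ}
    {A : Matrix (Fin (n + 1)) (Fin (n + 1)) ℝ}
    {r : Fin (n + 1) → Fin N} (hcr : ∀ k, c (r k) = k) {k0 : Fin (n + 1)}
    (hA : A ∈ orthogonalGroup (Fin (n + 1)) ℝ) (hB : ∀ k, |P.b k| ≤ Bb) (hB1 : 1 ≤ Bb)
    (hgap : ∀ v : Fin n → ℝ, ∑ i, ∑ j, (Aᵀ * diagonal P.b * A) (k0.succAbove i)
      (k0.succAbove j) * (v i * v j) ≤ (P.b (Fin.last n) - h * ω (Fin.last n)) * ∑ j, v j ^ 2)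
    (ha : 0 < a0) (ha0 : a0 ≤ h * ω (Fin.last n)) (hu : ∀ k, ∀ l ≤ K, |P.u k l| ≤ dl)
    (hx : (K + 1) * dl ^ 2 ≤ x1) (hx1 : x1 ≤ 1) (hxa : 40 * x1 ≤ a0) {t : Fin n → Fin N}
    (he : Function.Injective (Sum.elim (wi r k0) t)) (ht : ∀ j, c (t j) = Fin.last n) :
    a0 / 8 * ∑ j, ∫ V : orthogonalGroup (Fin N) ℝ,
        ((nmG K m (Fin.cons k0 c : Fin (N + 1) → Fin (n + 1)) P s').sy
          (lmU r k0 A V.1)).Ex (fun _ x => lmq V.1 x (wi r k0 j) ^ 2) ∂ν ≤
      (Bb + 5) * ∑ j, ∫ V : orthogonalGroup (Fin N) ℝ,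
        ((nmG K m (Fin.cons k0 c : Fin (N + 1) → Fin (n + 1)) P s').sy
          (lmU r k0 A V.1)).Ex (fun _ x => lmq V.1 x (t j) ^ 2) ∂ν +
      (Bb * (1 + Bb / a0) + 1) := by
  set G := nmG K m (Fin.cons k0 c : Fin (N + 1) → Fin (n + 1)) P s' with hGd
  have hG : G.Ok := sy_nmG_ok hm _ P s'
  have hr : Function.Injective r := fun k k' h1 => by
    rw [← hcr k, ← hcr k', h1]
  have hI : ∀ i, Integrable (fun V : orthogonalGroup (Fin N) ℝ =>
      (G.sy (lmU r k0 A V.1)).Ex (fun _ x => lmq V.1 x i ^ 2)) ν := fun i =>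
    lm_int_Ex ν hm _ P s' r k0 A i
  have hW : ∀ (w : Fin n → Fin N) (V : orthogonalGroup (Fin N) ℝ),
      (G.sy (lmU r k0 A V.1)).Ex (fun _ x => lmW w V.1 x) =
      ∑ j, (G.sy (lmU r k0 A V.1)).Ex (fun _ x => lmq V.1 x (w j) ^ 2) := by
    intro w V
    unfold lmW
    exact (hG.regG _).Ex_sum _ fun j _ => Sy.Nh.snd fun x => lmq V.1 x (w j) ^ 2
  have hIW : ∀ w : Fin n → Fin N, Integrable (fun V : orthogonalGroup (Fin N) ℝ =>
      ∑ j, (G.sy (lmU r k0 A V.1)).Ex (fun _ x => lmq V.1 x (w j) ^ 2)) ν := fun w =>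
    integrable_finsetSum _ fun j _ => hI (w j)
  have i1 : Integrable (fun V : orthogonalGroup (Fin N) ℝ => a0 / 8 *
      ∑ j, (G.sy (lmU r k0 A V.1)).Ex (fun _ x => lmq V.1 x (wi r k0 j) ^ 2)) ν :=
    (hIW _).const_mul _
  have i2 : Integrable (fun V : orthogonalGroup (Fin N) ℝ => (Bb + 5) *
      ∑ j, (G.sy (lmU r k0 A V.1)).Ex (fun _ x => lmq V.1 x (t j) ^ 2)) ν :=
    (hIW _).const_mul _
  have i3 : Integrable (fun V : orthogonalGroup (Fin N) ℝ => a0 / 8 *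
      ∑ j, (G.sy (lmU r k0 A V.1)).Ex (fun _ x => lmq V.1 x (wi r k0 j) ^ 2) - (Bb + 5) *
      ∑ j, (G.sy (lmU r k0 A V.1)).Ex (fun _ x => lmq V.1 x (t j) ^ 2)) ν := i1.sub i2
  have h1 := haar_jensen (ν := ν) (K := K) (m := m) (lev := Md.lvl)
    (H := fun V : Matrix (Fin N) (Fin N) ℝ => G.en (lmU r k0 A V))
    (fun V => hG.reg (lmU r k0 A V.1)) (lm_int_fe ν hm _ P s' hr k0 hA)
    ⟨pm (lmsw he), pm_mem _⟩
    (v := fun V => a0 / 8 * ∑ j, (G.sy (lmU r k0 A V.1)).Ex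
      (fun _ x => lmq V.1 x (wi r k0 j) ^ 2) - (Bb + 5) * ∑ j, (G.sy (lmU r k0 A V.1)).Ex
      (fun _ x => lmq V.1 x (t j) ^ 2) - (Bb * (1 + Bb / a0) + 1))
    (i3.sub (integrable_const _))
    (fun V => by
      have h2 := lm_V hm (s' := s') hcr hA hB hB1 hgap ha ha0 hu hx hx1 hxa he ht V.1
      rw [← hGd, hW, hW] at h2
      exact h2)
  rw [integral_sub i3 (integrable_const _), integral_sub i1 i2, integral_const_mul,
    integral_const_mul, integral_finsetSum _ fun j _ => hI _, integral_finsetSum _ fun j _ => hI _,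
    integral_const, probReal_univ, one_smul] at h1
  linarith

end Meas

/-- A positive gap. -/
theorem lm_gap {b : Fin (n + 1) → ℝ} (hb : StrictMono b) :
    ∃ g : ℝ, 0 < g ∧ ∀ k, k ≠ Fin.last n → b k ≤ b (Fin.last n) - g := by
  rcases (Finset.univ.erase (Fin.last n)).eq_empty_or_nonempty with h | h
  · refine ⟨1, one_pos, fun k hk => ?_⟩
    have : k ∈ Finset.univ.erase (Fin.last n) := Finset.mem_erase.2 ⟨hk, Finset.mem_univ _⟩
    rw [h] at this
    exact absurd this (Finset.notMem_empty _)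
  · obtain ⟨k1, hk1, hmin⟩ := Finset.exists_min_image _ (fun k => b (Fin.last n) - b k) h
    refine ⟨b (Fin.last n) - b k1, sub_pos.2 (hb ((Fin.le_last k1).lt_of_ne
      (Finset.mem_erase.1 hk1).1)), fun k hk => ?_⟩
    have := hmin k (Finset.mem_erase.2 ⟨hk, Finset.mem_univ _⟩)
    linarith

/-- **Second moments in the system `sA`.** `haar_jensen` for the permutation which exchanges the
patterns `wi r k0 j` with `n` patterns of `Bt`: the quadratic form of the patterns `w j` is at most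
`(b last - h ω_last) |v|^2` (`compression_gap`), the one of the patterns of `Bt` is
`b last |v|^2`. `w0` is a lower bound for `ω_last`. -/
theorem sA_m2 {b α : Fin (n + 1) → ℝ} {μ g : Fin n → ℝ}
    {Q : Fin (n + 1) → Matrix (Fin (n + 1)) (Fin (n + 1)) ℝ} (D : Dat b α μ g Q) (B : ℝ) :
    ∃ C x0 : ℝ, 0 ≤ C ∧ 0 < x0 ∧ ∀ (N K : ℕ) (m : ℕ → ℝ) (c : Fin N → Fin (n + 1)) (P : Pm (n + 1))
      (r : Fin (n + 1) → Fin N) (k0 : Fin (n + 1)) [MeasurableSpace (orthogonalGroup (Fin N) ℝ)]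
      [BorelSpace (orthogonalGroup (Fin N) ℝ)] (ν : Measure (orthogonalGroup (Fin N) ℝ))
      [IsProbabilityMeasure ν] [ν.IsMulLeftInvariant] (dl : ℝ), Good b α B dl K m c P r →
      (K + 1) * dl ≤ x0 → 1 / √N ≤ x0 → ∀ (s' : ℕ → ℝ), EPar K B 0 0 s' 1 0 →
      ∀ A : Matrix (Fin (n + 1)) (Fin (n + 1)) ℝ, A ∈ orthogonalGroup (Fin (n + 1)) ℝ →
      ∀ ω : Fin (n + 1) → ℝ, (∀ k, 0 ≤ ω k) → (∀ k, A k k0 = √(ω k)) →
      α (Fin.last n) / 2 ≤ ω (Fin.last n) → ∀ j : Fin n,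
      EU ν (fun V => (sAE K m c P r k0 s' A V).Ex
        (fun _ x => (V *ᵥ spin x.2) (wi r k0 j) ^ 2)) ≤ C := by
  obtain ⟨x2, hx2, hBt⟩ := Bt_card D B
  obtain ⟨g0, hg0, hgap0⟩ := lm_gap D.mono
  set al := α (Fin.last n) with hal
  have hal0 : 0 < al := D.pos _
  set Bb : ℝ := ∑ k, |b k| + 1 with hBb
  have hB1 : 1 ≤ Bb := by
    have := Finset.sum_nonneg fun k (_ : k ∈ (Finset.univ : Finset (Fin (n + 1)))) =>
      abs_nonneg (b k)
    linarith only [this]
  set a0 : ℝ := g0 * al / 4 with ha0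
  have ha : 0 < a0 := by positivity
  have hn1 : (0 : ℝ) < n + 1 := by positivity
  refine ⟨8 / a0 * ((Bb + 5) * (n * (4 / al)) + (Bb * (1 + Bb / a0) + 1)),
    min x2 (min 1 (min (g0 / 4) (min (a0 / 40) (al / (4 * (n + 1)))))), by positivity,
    by positivity, ?_⟩
  intro N K m c P r k0 _ _ ν _ _ dl hgd hdl hN s' hE A hA ω hω hAω hωl j
  have b0 := hdl.trans (min_le_left _ _)
  have b0' := hN.trans (min_le_left _ _)
  have b1 := hdl.trans ((min_le_right _ _).trans (min_le_left _ _))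
  have b1' := hN.trans ((min_le_right _ _).trans (min_le_left _ _))
  have b2 := hdl.trans ((min_le_right _ _).trans ((min_le_right _ _).trans (min_le_left _ _)))
  have b3 := hdl.trans ((min_le_right _ _).trans ((min_le_right _ _).trans
    ((min_le_right _ _).trans (min_le_left _ _))))
  have b4' := hN.trans ((min_le_right _ _).trans ((min_le_right _ _).trans
    ((min_le_right _ _).trans (min_le_right _ _))))
  obtain ⟨c1, -⟩ := hBt N K m c P r k0 dl hgd b0 b0'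
  have hdl0 := hgd.dl0
  have hK0 : (0 : ℝ) ≤ K := Nat.cast_nonneg K
  have hdlK : dl ≤ (K + 1) * dl := by nlinarith only [hdl0]
  have hN0 : (0 : ℝ) < N := by exact_mod_cast hgd.N0
  have hs0 : 0 < √(N : ℝ) := Real.sqrt_pos.2 hN0
  -- the size
  have d1 : 1 ≤ al / (4 * (n + 1)) * N := by
    have h1 : 1 ≤ al / (4 * (n + 1)) * √(N : ℝ) := by
      rwa [div_le_iff₀ hs0] at b4'
    have h2 : 1 ≤ √(N : ℝ) := by
      rw [div_le_iff₀ hs0, _root_.one_mul] at b1'
      exact b1'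
    have h3 : √(N : ℝ) ≤ N := by
      have := Real.mul_self_sqrt hN0.le
      nlinarith only [this, h2]
    exact h1.trans (mul_le_mul_of_nonneg_left h3 (by positivity))
  have d2 : 2 * (n + 1) ≤ al / 2 * N := by
    rw [div_mul_eq_mul_div, le_div_iff₀ (by positivity)] at d1
    linarith only [d1]
  have d3 : al / 2 * N ≤ (Bt c (wi r k0)).card := by
    rwa [le_div_iff₀ hN0] at c1
  have d4 : 2 * n ≤ (Bt c (wi r k0)).card := by
    have : (2 * n : ℝ) ≤ (Bt c (wi r k0)).card := by linarith only [d2, d3]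
    exact_mod_cast this
  -- the second moments
  have hr : Function.Injective r := fun k k' h1 => by
    rw [← hgd.hr k, ← hgd.hr k', h1]
  set Y : Fin N → ℝ := fun i => ∫ V : orthogonalGroup (Fin N) ℝ,
      ((nmG K m (Fin.cons k0 c : Fin (N + 1) → Fin (n + 1)) P s').sy
        (lmU r k0 A V.1)).Ex (fun _ x => lmq V.1 x i ^ 2) ∂ν with hY
  have hY0 : ∀ i, 0 ≤ Y i := fun i => integral_nonneg fun V =>
    ((sy_nmG_ok hgd.hm _ P s').regG _).Ex_nonneg (Sy.Nh.snd _) fun _ x => sq_nonneg _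
  have hYs : ∑ i, Y i = N := lm_sum_Y ν hgd.hm _ P s' r k0 A
  obtain ⟨t, ht, htB⟩ := lm_choose hY0 hYs.le d4
  have htw : ∀ i j, wi r k0 i ≠ t j := fun i j h1 => by
    have h2 := (htB j).1
    unfold Bt at h2
    rw [Finset.mem_sdiff] at h2
    exact h2.2 (Finset.mem_image.2 ⟨i, Finset.mem_univ _, h1⟩)
  have htl : ∀ j, c (t j) = Fin.last n := fun j => by
    have h2 := (htB j).1
    unfold Bt at h2
    rw [Finset.mem_sdiff] at h2
    exact (Finset.mem_filter.1 h2.1).2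
  have hwi : Function.Injective (wi r k0) := fun i i' h1 =>
    Fin.succAbove_right_injective (hr h1)
  have he : Function.Injective (Sum.elim (wi r k0) t) := hwi.sumElim ht htw
  have hb' : ∀ k, |P.b k - b k| ≤ dl := hgd.hb
  have hBk : ∀ k, |P.b k| ≤ Bb := fun k => by
    have h1 := hb' k
    have h2 : |b k| ≤ ∑ k, |b k| :=
      Finset.single_le_sum (f := fun k => |b k|) (fun _ _ => abs_nonneg _) (Finset.mem_univ k)
    have h3 : |P.b k| ≤ |P.b k - b k| + |b k| := by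
      have := abs_add_le (P.b k - b k) (b k)
      rwa [sub_add_cancel] at this
    linarith only [b1, hdlK, h1, h2, h3]
  have hgapP : ∀ k, k ≠ Fin.last n → P.b k ≤ P.b (Fin.last n) - g0 / 2 := fun k hk => by
    have h1 := (abs_le.1 (hb' k)).2
    have h2 := (abs_le.1 (hb' (Fin.last n))).1
    have h3 := hgap0 k hk
    linarith only [b2, hdlK, h1, h2, h3]
  have hω1 : ∑ k, ω k = 1 := by
    rw [← lm_col k0 hA]
    refine Finset.sum_congr rfl fun k _ => ?_
    rw [hAω, Real.sq_sqrt (hω k)]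
  have haω : a0 ≤ g0 / 2 * ω (Fin.last n) := by
    have := mul_le_mul_of_nonneg_left hωl (show 0 ≤ g0 / 2 by positivity)
    rw [ha0]
    linarith only [this]
  have hfin := lm_E ν hgd.hm (s' := s') (ω := ω) (h := g0 / 2) (x1 := min 1 (a0 / 40)) hgd.hr hA
    hBk hB1
    (fun v => compression_gap (by positivity) hgapP hω hω1 hA hAω v) ha haω hgd.hu
    (by
      have h1 : (K + 1) * dl ^ 2 = ((K + 1) * dl) * dl := by ring
      have h2 : ((K + 1) * dl) * dl ≤ ((K + 1) * dl) * 1 :=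
        mul_le_mul_of_nonneg_left (by linarith only [b1, hdlK]) (by positivity)
      rw [h1]
      refine le_min ?_ ?_ <;> linarith only [b1, h2, b3])
    (min_le_left _ _) (by
      have := min_le_right (1 : ℝ) (a0 / 40)
      linarith only [this]) he htl
  have hT : ∑ j, Y (t j) ≤ n * (4 / al) := by
    have h1 : ∀ j ∈ (Finset.univ : Finset (Fin n)), Y (t j) ≤ 4 / al := by
      intro j _
      have h2 := (htB j).2
      have h3 := mul_le_mul_of_nonneg_left d3 (hY0 (t j))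
      rw [le_div_iff₀ hal0]
      have h4 : Y (t j) * al * N ≤ 4 * N := by linarith only [h2, h3]
      exact le_of_mul_le_mul_right h4 hN0
    have h5 := Finset.sum_le_card_nsmul _ _ _ h1
    rwa [Finset.card_univ, Fintype.card_fin, nsmul_eq_mul] at h5
  have hj : Y (wi r k0 j) ≤ ∑ j, Y (wi r k0 j) :=
    Finset.single_le_sum (f := fun j => Y (wi r k0 j)) (fun _ _ => hY0 _) (Finset.mem_univ j)
  have hfin2 : a0 / 8 * Y (wi r k0 j) ≤ (Bb + 5) * (n * (4 / al)) + (Bb * (1 + Bb / a0) + 1) := by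
    have h1 := mul_le_mul_of_nonneg_left hj (show 0 ≤ a0 / 8 by positivity)
    have h2 := mul_le_mul_of_nonneg_left hT (show 0 ≤ Bb + 5 by linarith only [hB1])
    linarith only [hfin, h1, h2]
  have hEq : EU ν (fun V => (sAE K m c P r k0 s' A V).Ex
      (fun _ x => (V *ᵥ spin x.2) (wi r k0 j) ^ 2)) = Y (wi r k0 j) := by
    unfold EU
    rw [hY]
    refine integral_congr_ae (Filter.Eventually.of_forall fun V => ?_)
    have hS : sA K m c P r k0 s' A V.1 =
        (nmG K m (Fin.cons k0 c : Fin (N + 1) → Fin (n + 1)) P s').sy (lmU r k0 A V.1) :=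
      (sy_nmG _ P s' _).symm
    have hG : RegG (sA K m c P r k0 s' A V.1) := by
      rw [hS]
      exact (sy_nmG_ok hgd.hm _ P s').regG _
    have h1 := (sAE_pb c P r k0 s' A V.1 (m := m) (K := K)).Ex hG
      (f := fun _ x => lmq V.1 x (wi r k0 j) ^ 2) (Sy.Nh.snd _)
    rw [hS] at h1
    exact h1
  rw [hEq]
  have h8 : Y (wi r k0 j) = 8 / a0 * (a0 / 8 * Y (wi r k0 j)) := by field_simp
  rw [h8]
  exact mul_le_mul_of_nonneg_left hfin2 (by positivity)

end Vale.Agent.P166.L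
end
end

section

section

/-! P166, lower bound: the model of size `N + 1`, Jensen above. -/

set_option linter.all false

open MeasureTheory ProbabilityTheory Matrix Filter Topology

namespace Vale.Agent.P166.L

open Vale.Agent.P157 (spin)
open Vale.Agent.P157.Lv Vale.Agent.P157.Par Md H U

variable {N K n : ℕ} {m : ℕ → ℝ}

/-- Integration by parts, for a field with small strength. -/
theorem lu_ibp {ι X : Type} [Fintype ι] [DecidableEq ι] [Fintype X] [Nonempty X] {S : Sy ι X}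
    {e : ι} {u : ℝ} {v : X → ℝ} (hS : RegE S e fun _ x => u * v x) :
    |S.Ex (fun z x => z e * v x)| ≤ 2 * |u| * S.Ex (fun _ x => v x ^ 2) := by
  have hG := hS.toRegG
  have nv : Nh fun (_ : ι → ℝ) (x : X) => v x := Sy.Nh.snd v
  have nv2 : Nh fun (_ : ι → ℝ) (x : X) => v x ^ 2 := Sy.Nh.snd fun x => v x ^ 2
  have nT : ∀ i ≤ S.K, EG (S.T i fun _ x => v x) := fun i hi => hG.eg_T hi nv
  have nTu : ∀ i ≤ S.K, EG (S.T i fun _ x => u * v x) := fun i hi => hG.eg_T hi hS.nh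
  have hTu : ∀ i (z : ι → ℝ), S.T i (fun _ x => u * v x) z = u * S.T i (fun _ x => v x) z := by
    intro i z
    exact Sy.T_const_mul S i u (fun _ x => v x) z
  have h := hS.ibp (h := fun _ x => v x) (h' := fun _ _ => 0)
    (fun x => PD.const (v x)) nv (fun _ => EG.const 0)
  rw [h]
  have e1 : (fun (z : ι → ℝ) (x : X) => 0 + v x * (u * v x -
      ∑ l ∈ Finset.Ico (S.lev e) (S.K + 1), S.p l * S.T l (fun _ x => u * v x) z)) =
      fun z x => u * (v x ^ 2 - ∑ l ∈ Finset.Ico (S.lev e) (S.K + 1), S.p l *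
        (v x * S.T l (fun _ x => v x) z)) := by
    funext z x
    simp only [hTu]
    rw [zero_add, mul_sub, mul_sub, Finset.mul_sum, Finset.mul_sum]
    congr 1
    · ring
    · exact Finset.sum_congr rfl fun l _ => by ring
  rw [e1, Sy.Ex_const_mul, abs_mul]
  have nvT : ∀ i ≤ S.K, Nh fun (z : ι → ℝ) (x : X) => v x * S.T i (fun _ x => v x) z :=
    fun i hi => Sy.Nh.mul nv (Sy.Nh.fst (nT i hi))
  have hIco : ∀ l ∈ Finset.Ico (S.lev e) (S.K + 1), l ≤ S.K := fun l hl =>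
    Nat.lt_succ_iff.1 (Finset.mem_Ico.1 hl).2
  have nS : Nh fun (z : ι → ℝ) (x : X) => ∑ l ∈ Finset.Ico (S.lev e) (S.K + 1), S.p l *
      (v x * S.T l (fun _ x => v x) z) :=
    Sy.Nh.sum _ fun l hl => Sy.Nh.const_mul _ (nvT l (hIco l hl))
  rw [hG.Ex_sub nv2 nS, hG.Ex_sum _ fun l hl => Sy.Nh.const_mul _ (nvT l (hIco l hl))]
  have hv0 : 0 ≤ S.Ex (fun _ x => v x ^ 2) := hG.Ex_nonneg nv2 fun _ x => sq_nonneg _
  have hb : |∑ l ∈ Finset.Ico (S.lev e) (S.K + 1), S.Ex (fun z x => S.p l *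
      (v x * S.T l (fun _ x => v x) z))| ≤ S.Ex (fun _ x => v x ^ 2) := by
    simp only [Sy.Ex_const_mul]
    refine abs_sum_p_le hG (by have := hG.lev e; omega) le_rfl hv0 fun l hl => ?_
    have hl' := hIco l hl
    have n1 : Nh fun (z : ι → ℝ) (_ : X) => S.T l (fun _ x => v x) z ^ 2 :=
      Sy.Nh.pow (Sy.Nh.fst (nT l hl')) 2
    have n2 : Nh fun (z : ι → ℝ) (x : X) => 1 / 2 * v x ^ 2 + 1 / 2 * S.T l (fun _ x => v x) z ^ 2 :=
      Sy.Nh.add (Sy.Nh.const_mul _ nv2) (Sy.Nh.const_mul _ n1)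
    have h1 := hG.abs_Ex_le_of (nvT l hl') n2 fun z x => by
      rw [abs_mul]
      linarith only [sq_nonneg (|v x| - |S.T l (fun _ x => v x) z|), sq_abs (v x), sq_abs (S.T l (fun _ x => v x) z)]
    rw [hG.Ex_add (Sy.Nh.const_mul _ nv2) (Sy.Nh.const_mul _ n1), Sy.Ex_const_mul,
      Sy.Ex_const_mul] at h1
    have h2 : S.Ex (fun z _ => S.T l (fun _ x => v x) z ^ 2) ≤ S.Ex (fun _ x => v x ^ 2) := by
      have h3 := hG.Ex_mono n1 (Sy.Nh.fst (hG.eg_T hl' nv2)) fun z _ => hG.sq_T_le hl' nv z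
      rwa [hG.Ex_T hl' nv2] at h3
    linarith
  have h4 : |S.Ex (fun _ x => v x ^ 2) - ∑ l ∈ Finset.Ico (S.lev e) (S.K + 1),
      S.Ex (fun z x => S.p l * (v x * S.T l (fun _ x => v x) z))| ≤
      2 * S.Ex (fun _ x => v x ^ 2) := by
    refine (abs_sub _ _).trans ?_
    rw [abs_of_nonneg hv0]
    linarith only [hb]
  calc |u| * _ ≤ |u| * (2 * S.Ex (fun _ x => v x ^ 2)) :=
        mul_le_mul_of_nonneg_left h4 (abs_nonneg _)
    _ = _ := by ring

theorem lu_rho_inj {c : Fin N → Fin (n + 1)} {r : Fin (n + 1) → Fin N} (hr : ∀ k, c (r k) = k)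
    (k0 : Fin (n + 1)) : Function.Injective (rho0 r k0) := by
  have hri : Function.Injective r := fun a b h => by rw [← hr a, ← hr b, h]
  intro a b h
  unfold rho0 at h
  split_ifs at h with h1 h2 h2
  · rw [h1, h2]
  · exact absurd h.symm (Fin.succ_ne_zero _)
  · exact absurd h (Fin.succ_ne_zero _)
  · exact hri (Fin.succ_injective _ h)

theorem lu_wi_inj {c : Fin N → Fin (n + 1)} {r : Fin (n + 1) → Fin N} (hr : ∀ k, c (r k) = k)
    (k0 : Fin (n + 1)) : Function.Injective (wi r k0) := by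
  have hri : Function.Injective r := fun a b h => by rw [← hr a, ← hr b, h]
  intro a b h
  exact Fin.succAbove_right_injective (hri h)

/-- The energy does not depend on the fields of the reserved patterns in `GE`. -/
theorem lu_egsD {b α : Fin (n + 1) → ℝ} {μ g : Fin n → ℝ} {c : Fin N → Fin (n + 1)}
    (P : Pm (n + 1)) {r : Fin (n + 1) → Fin N} (hr : ∀ k, c (r k) = k) (k0 k : Fin (n + 1))
    (rd : ℝ) (rr s' : ℕ → ℝ) (σ τ : ℝ) (V : Matrix (Fin N) (Fin N) ℝ) (l : ℕ)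
    (z : Ie N K → ℝ) (x : Xe N) :
    egsD K (MP K c (wi r k0) P μ g (mbar b α) rd rr s' σ τ) V
      (Sum.inl (bco l (rho0 r k0 k))) z x = 0 := by
  unfold rho0
  split_ifs with h
  · rfl
  · obtain ⟨j, hj⟩ := Fin.exists_succAbove_eq h
    show (MP K c (wi r k0) P μ g (mbar b α) rd rr s' σ τ).u (r k)
      ((Fin.ofNat (K + 1) l : Fin (K + 1)) : ℕ) * _ = 0
    have h1 : r k = wi r k0 j := by rw [wi, hj]
    have h2 : (MP K c (wi r k0) P μ g (mbar b α) rd rr s' σ τ).u (r k) = fun _ => 0 := by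
      rw [h1]
      show Function.extend (wi r k0) (fun _ _ => (0 : ℝ)) (fun i => P.u (c i)) (wi r k0 j) = _
      exact (lu_wi_inj hr k0).extend_apply _ _ _
    rw [h2, zero_mul]

/-- The derivative of the energy in the coordinate of a field of a reserved pattern. -/
theorem lu_regE {b α : Fin (n + 1) → ℝ} {μ g : Fin n → ℝ}
    {Q : Fin (n + 1) → Matrix (Fin (n + 1)) (Fin (n + 1)) ℝ} (D : Dat b α μ g Q)
    (hm : Exponents K m) {c : Fin N → Fin (n + 1)} (P : Pm (n + 1)) {r : Fin (n + 1) → Fin N}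
    (hr : ∀ k, c (r k) = k) (k0 k : Fin (n + 1)) (s' : ℕ → ℝ)
    (A : Matrix (Fin (n + 1)) (Fin (n + 1)) ℝ) (V : Matrix (Fin N) (Fin N) ℝ) {l : ℕ}
    (hl : l ≤ K) :
    RegE (sAE K m c P r k0 s' A V) (Sum.inl (bco l (rho0 r k0 k)) : Ie N K)
      (fun _ x => P.u k l * (A *ᵥ yt r k0 V x) k) := by
  refine ⟨RegG.of_reg (sAE_reg hm c P r k0 s' A V), fun x => ?_, Sy.Nh.snd _⟩
  have e1 : (fun z => (sAE K m c P r k0 s' A V).H z x) = fun z =>
      ((GE K m b α μ g c P r k0 0 0 s' 1 0).sy V).H z x +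
      1 / 2 * ∑ k, ∑ k', ((Aᵀ * diagonal P.b * A) k k' - ((Q k0)ᵀ * diagonal b * Q k0) k k') *
        (yt r k0 V x k * yt r k0 V x k') +
      ∑ l ∈ Finset.range (K + 1), ∑ k, P.u k l *
        (z (Sum.inl (bco l (rho0 r k0 k))) * (A *ᵥ yt r k0 V x) k) :=
    funext fun z => sAE_en D P hr k0 s' A V z x
  rw [e1]
  set e : Ie N K := Sum.inl (bco l (rho0 r k0 k)) with he
  have h1 := sy_pd (K := K) (m := m) (MP K c (wi r k0) P μ g (mbar b α) 0 0 s' 1 0) V e x
  have h2 : PD e (fun z : Ie N K → ℝ => ∑ l' ∈ Finset.range (K + 1), ∑ k', P.u k' l' *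
        (z (Sum.inl (bco l' (rho0 r k0 k'))) * (A *ᵥ yt r k0 V x) k'))
      (fun _ => ∑ l' ∈ Finset.range (K + 1), ∑ k', P.u k' l' *
        ((if (Sum.inl (bco l' (rho0 r k0 k')) : Ie N K) = e then (1 : ℝ) else 0) *
          (A *ᵥ yt r k0 V x) k')) := by
    refine PD.sum _ fun l' _ => PD.sum _ fun k' _ => PD.const_mul ?_ _
    have h := (PD.coord (e := e) (Sum.inl (bco l' (rho0 r k0 k')) : Ie N K)).const_mul
      ((A *ᵥ yt r k0 V x) k')
    simpa only [mul_comm] using h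
  refine (PD.add (PD.add h1 (PD.const _)) h2).congr fun z => ?_
  rw [he, lu_egsD P hr k0 k]
  have hinj := lu_rho_inj hr k0
  have hif : ∀ l' ∈ Finset.range (K + 1), ∀ k',
      (if (Sum.inl (bco l' (rho0 r k0 k')) : Ie N K) = Sum.inl (bco l (rho0 r k0 k))
        then (1 : ℝ) else 0) = if l' = l ∧ k' = k then 1 else 0 := by
    intro l' hl' k'
    refine if_congr ?_ rfl rfl
    rw [Sum.inl.injEq]
    constructor
    · intro h
      have h3 := sy_bco_inj (K := K) (Nat.lt_succ_iff.1 (Finset.mem_range.1 hl')) hl h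
      exact ⟨h3.1, hinj h3.2⟩
    · rintro ⟨rfl, rfl⟩
      rfl
  have h4 : ∑ l' ∈ Finset.range (K + 1), ∑ k', P.u k' l' *
        ((if (Sum.inl (bco l' (rho0 r k0 k')) : Ie N K) = Sum.inl (bco l (rho0 r k0 k))
          then (1 : ℝ) else 0) * (A *ᵥ yt r k0 V x) k') =
      P.u k l * (A *ᵥ yt r k0 V x) k := by
    rw [Finset.sum_eq_single_of_mem l (Finset.mem_range.2 (by omega))]
    · rw [Finset.sum_eq_single_of_mem k (Finset.mem_univ k)]
      · rw [hif l (Finset.mem_range.2 (by omega)), if_pos ⟨rfl, rfl⟩, _root_.one_mul]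
      · intro k' _ hne
        rw [hif l (Finset.mem_range.2 (by omega)), if_neg fun h => hne h.2]
        ring
    · intro l' hl' hne
      refine Finset.sum_eq_zero fun k' _ => ?_
      rw [hif l' hl', if_neg fun h => hne h.1]
      ring
  rw [h4]
  ring

theorem lu_sum_yt (r : Fin (n + 1) → Fin N) (k0 : Fin (n + 1)) (V : Matrix (Fin N) (Fin N) ℝ)
    (x : Xe N) : ∑ k, yt r k0 V x k ^ 2 = 1 + ∑ j, (V *ᵥ spin x.2) (wi r k0 j) ^ 2 := by
  rw [Fin.sum_univ_succAbove _ k0]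
  congr 1
  · unfold yt sg1
    rw [if_pos rfl]
    split_ifs <;> norm_num
  · refine Finset.sum_congr rfl fun j _ => ?_
    unfold yt wi
    rw [if_neg (Fin.succAbove_ne k0 j)]

theorem lu_sum_Ayt {A : Matrix (Fin (n + 1)) (Fin (n + 1)) ℝ}
    (hA : A ∈ orthogonalGroup (Fin (n + 1)) ℝ) (y : Fin (n + 1) → ℝ) :
    ∑ k, (A *ᵥ y) k ^ 2 = ∑ k, y k ^ 2 := by
  have h1 : (A *ᵥ y) ⬝ᵥ (A *ᵥ y) = y ⬝ᵥ y := by
    rw [Matrix.dotProduct_mulVec, Matrix.vecMul_mulVec,
      (Matrix.mem_orthogonalGroup_iff' (Fin (n + 1)) ℝ).1 hA, Matrix.vecMul_one]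
  simpa only [dotProduct, ← sq] using h1

/-- The pointwise estimate. -/
theorem lu_point {b α : Fin (n + 1) → ℝ} {μ g : Fin n → ℝ}
    {Q : Fin (n + 1) → Matrix (Fin (n + 1)) (Fin (n + 1)) ℝ} (D : Dat b α μ g Q) {B dl : ℝ}
    {c : Fin N → Fin (n + 1)} {P : Pm (n + 1)} {r : Fin (n + 1) → Fin N}
    (G : Good b α B dl K m c P r) (k0 : Fin (n + 1)) (s' : ℕ → ℝ)
    {A : Matrix (Fin (n + 1)) (Fin (n + 1)) ℝ} (hA : A ∈ orthogonalGroup (Fin (n + 1)) ℝ)
    (V : Matrix (Fin N) (Fin N) ℝ) {η : ℝ}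
    (hη : ∀ i j, |(Aᵀ * diagonal P.b * A) i j - ((Q k0)ᵀ * diagonal b * Q k0) i j| ≤ η) :
    (sA K m c P r k0 s' A V).fe ≤ ((GE K m b α μ g c P r k0 0 0 s' 1 0).sy V).fe +
      ((n + 1) / 2 * η + 2 * ((K + 1) * dl ^ 2)) *
        (1 + ∑ j, (sAE K m c P r k0 s' A V).Ex (fun _ x => (V *ᵥ spin x.2) (wi r k0 j) ^ 2)) := by
  have hm := G.hm
  set S := sAE K m c P r k0 s' A V with hS
  have hR : S.Reg := sAE_reg hm c P r k0 s' A V
  have hG : RegG S := RegG.of_reg hR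
  have hE := egs_ok hm (MP K c (wi r k0) P μ g (mbar b α) 0 0 s' 1 0)
  have hRE : ((GE K m b α μ g c P r k0 0 0 s' 1 0).sy V).Reg := hE.reg V
  have hη0 : 0 ≤ η := (abs_nonneg _).trans (hη 0 0)
  have j1 := hR.jensen (H' := (GE K m b α μ g c P r k0 0 0 s' 1 0).en V) hRE
  have f1 : (S.wH ((GE K m b α μ g c P r k0 0 0 s' 1 0).en V)).fe =
    ((GE K m b α μ g c P r k0 0 0 s' 1 0).sy V).fe := rfl
  rw [f1] at j1
  rw [← sAE_fe hm c P r k0 s' A V]
  set Δ : Matrix (Fin (n + 1)) (Fin (n + 1)) ℝ :=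
    Matrix.of fun k k' => (Aᵀ * diagonal P.b * A) k k' - ((Q k0)ᵀ * diagonal b * Q k0) k k' with hΔ
  set y : Xe N → Fin (n + 1) → ℝ := yt r k0 V with hy
  set cf : ℕ → Fin (n + 1) → Ie N K := fun l k => Sum.inl (bco l (rho0 r k0 k)) with hcf
  have e1 : (fun z x => (GE K m b α μ g c P r k0 0 0 s' 1 0).en V z x - S.H z x) =
      fun z x => -1 * (1 / 2 * (∑ k, ∑ k', Δ k k' * (y x k * y x k')) +
        ∑ l ∈ Finset.range (K + 1), ∑ k, P.u k l * (z (cf l k) * (A *ᵥ y x) k)) := by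
    funext z x
    have h := sAE_en (m := m) D P G.hr k0 s' A V z x
    have h2 : ((GE K m b α μ g c P r k0 0 0 s' 1 0).sy V).H z x =
      (GE K m b α μ g c P r k0 0 0 s' 1 0).en V z x := rfl
    rw [h2] at h
    rw [hS, h]
    simp only [hΔ, Matrix.of_apply, hcf, hy]
    ring
  rw [e1, Sy.Ex_const_mul] at j1
  have n1 : Nh fun (_ : Ie N K → ℝ) (x : Xe N) => 1 / 2 * (∑ k, ∑ k', Δ k k' * (y x k * y x k')) :=
    Sy.Nh.snd fun x => 1 / 2 * (∑ k, ∑ k', Δ k k' * (y x k * y x k'))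
  have nz : ∀ l k, Nh fun (z : Ie N K → ℝ) (x : Xe N) => z (cf l k) * (A *ᵥ y x) k := fun l k =>
    Sy.Nh.mul (fun _ => EG.coord _) (Sy.Nh.snd fun x => (A *ᵥ y x) k)
  have n2 : ∀ l, Nh fun (z : Ie N K → ℝ) (x : Xe N) =>
      ∑ k, P.u k l * (z (cf l k) * (A *ᵥ y x) k) := fun l =>
    Sy.Nh.sum _ fun k _ => Sy.Nh.const_mul _ (nz l k)
  have n3 : Nh fun (z : Ie N K → ℝ) (x : Xe N) =>
      ∑ l ∈ Finset.range (K + 1), ∑ k, P.u k l * (z (cf l k) * (A *ᵥ y x) k) :=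
    Sy.Nh.sum _ fun l _ => n2 l
  rw [hG.Ex_add n1 n3] at j1
  -- the sum of the squares
  set T : ℝ := S.Ex (fun _ x => ∑ k, y x k ^ 2) with hT
  have nsq : Nh fun (_ : Ie N K → ℝ) (x : Xe N) => ∑ k, y x k ^ 2 :=
    Sy.Nh.snd fun x => ∑ k, y x k ^ 2
  have hT1 : T = 1 + ∑ j, S.Ex (fun _ x => (V *ᵥ spin x.2) (wi r k0 j) ^ 2) := by
    have e2 : (fun (_ : Ie N K → ℝ) (x : Xe N) => ∑ k, y x k ^ 2) =
        fun _ x => 1 + ∑ j, (V *ᵥ spin x.2) (wi r k0 j) ^ 2 := by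
      funext _ x
      exact lu_sum_yt r k0 V x
    rw [hT, e2, hG.Ex_add (fun _ => EG.const 1)
      (Sy.Nh.snd fun x : Xe N => ∑ j, (V *ᵥ spin x.2) (wi r k0 j) ^ 2), hG.Ex_const,
      hG.Ex_sum _ fun j _ => Sy.Nh.snd fun x : Xe N => (V *ᵥ spin x.2) (wi r k0 j) ^ 2]
  have hT0 : 0 ≤ T := hG.Ex_nonneg nsq fun _ x => Finset.sum_nonneg fun k _ => sq_nonneg _
  -- the quadratic form
  have b1 : S.Ex (fun _ x => 1 / 2 * (∑ k, ∑ k', Δ k k' * (y x k * y x k'))) ≤
      (n + 1) / 2 * η * T := by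
    have h1 := hG.Ex_mono n1 (g := fun _ x => (n + 1) / 2 * η * ∑ k, y x k ^ 2)
      (Sy.Nh.const_mul _ nsq) fun z x => by
        have h2 : ∑ k, ∑ k', Δ k k' * (y x k * y x k') ≤ ∑ k, ∑ k', η * (|y x k| * |y x k'|) := by
          refine Finset.sum_le_sum fun k _ => Finset.sum_le_sum fun k' _ => ?_
          refine (le_abs_self _).trans ?_
          rw [abs_mul, abs_mul]
          exact mul_le_mul_of_nonneg_right (hη k k') (by positivity)
        have h3 : ∑ k, ∑ k', η * (|y x k| * |y x k'|) = η * (∑ k, |y x k|) ^ 2 := by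
          rw [sq, Finset.sum_mul_sum, Finset.mul_sum]
          refine Finset.sum_congr rfl fun k _ => ?_
          rw [Finset.mul_sum]
        have h4 : (∑ k, |y x k|) ^ 2 ≤ (n + 1) * ∑ k, y x k ^ 2 := by
          have h5 := sq_sum_le_card_mul_sum_sq (s := (Finset.univ : Finset (Fin (n + 1))))
            (f := fun k => |y x k|)
          simp only [sq_abs, Finset.card_univ, Fintype.card_fin] at h5
          push_cast at h5
          exact h5
        have h6 : η * (∑ k, |y x k|) ^ 2 ≤ η * ((n + 1) * ∑ k, y x k ^ 2) :=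
          mul_le_mul_of_nonneg_left h4 hη0
        show 1 / 2 * (∑ k, ∑ k', Δ k k' * (y x k * y x k')) ≤ (n + 1) / 2 * η * ∑ k, y x k ^ 2
        linarith only [h2, h3, h6]
    refine h1.trans (le_of_eq ?_)
    rw [Sy.Ex_const_mul]
  -- the fields
  have b2 : S.Ex (fun z x => ∑ l ∈ Finset.range (K + 1), ∑ k, P.u k l *
      (z (cf l k) * (A *ᵥ y x) k)) ≤ 2 * ((K + 1) * dl ^ 2) * T := by
    rw [hG.Ex_sum _ fun l _ => n2 l]
    have h1 : ∀ l ∈ Finset.range (K + 1), S.Ex (fun z x => ∑ k, P.u k l *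
        (z (cf l k) * (A *ᵥ y x) k)) ≤ 2 * dl ^ 2 * T := by
      intro l hl
      have hl' := Nat.lt_succ_iff.1 (Finset.mem_range.1 hl)
      rw [hG.Ex_sum _ fun k _ => Sy.Nh.const_mul _ (nz l k)]
      have h2 : ∀ k, S.Ex (fun z x => P.u k l * (z (cf l k) * (A *ᵥ y x) k)) ≤
          2 * dl ^ 2 * S.Ex (fun _ x => (A *ᵥ y x) k ^ 2) := by
        intro k
        rw [Sy.Ex_const_mul]
        have h3 := lu_ibp (lu_regE (α := α) (b := b) D hm P G.hr k0 k s' A V hl')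
        have h4 : 0 ≤ S.Ex (fun _ x => (A *ᵥ y x) k ^ 2) :=
          hG.Ex_nonneg (Sy.Nh.snd fun x => (A *ᵥ y x) k ^ 2) fun _ x => sq_nonneg _
        have h5 : |P.u k l| ^ 2 ≤ dl ^ 2 := pow_le_pow_left₀ (abs_nonneg _) (G.hu k l hl') 2
        calc P.u k l * S.Ex (fun z x => z (cf l k) * (A *ᵥ y x) k)
            ≤ |P.u k l * S.Ex (fun z x => z (cf l k) * (A *ᵥ y x) k)| := le_abs_self _
          _ = |P.u k l| * |S.Ex (fun z x => z (cf l k) * (A *ᵥ y x) k)| := abs_mul _ _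
          _ ≤ |P.u k l| * (2 * |P.u k l| * S.Ex (fun _ x => (A *ᵥ y x) k ^ 2)) :=
              mul_le_mul_of_nonneg_left h3 (abs_nonneg _)
          _ = 2 * |P.u k l| ^ 2 * S.Ex (fun _ x => (A *ᵥ y x) k ^ 2) := by ring
          _ ≤ 2 * dl ^ 2 * S.Ex (fun _ x => (A *ᵥ y x) k ^ 2) :=
              mul_le_mul_of_nonneg_right (by linarith only [h5]) h4
      refine (Finset.sum_le_sum fun k _ => h2 k).trans (le_of_eq ?_)
      rw [← Finset.mul_sum, ← hG.Ex_sum _ fun k _ => Sy.Nh.snd fun x => (A *ᵥ y x) k ^ 2]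
      congr 2
      funext _ x
      exact lu_sum_Ayt hA (y x)
    refine (Finset.sum_le_sum h1).trans (le_of_eq ?_)
    rw [Finset.sum_const, Finset.card_range, nsmul_eq_mul]
    push_cast
    ring
  rw [← hT1]
  have : (((n : ℝ) + 1) / 2 * η + 2 * ((K + 1) * dl ^ 2)) * T =
    (n + 1) / 2 * η * T + 2 * ((K + 1) * dl ^ 2) * T := by ring
  linarith only [j1, b1, b2]

/-- The coordinates of the patterns are bounded. -/
theorem lu_sq_le {V : Matrix (Fin N) (Fin N) ℝ} (hV : V ∈ orthogonalGroup (Fin N) ℝ)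
    (x : Fin N → Bool) : ∑ i, (V *ᵥ spin x) i ^ 2 = N := by
  have h := ph_sq hV x
  exact h

/-- A sum over some of the patterns. -/
theorem lu_sum_wi {c : Fin N → Fin (n + 1)} {r : Fin (n + 1) → Fin N} (hr : ∀ k, c (r k) = k)
    (k0 : Fin (n + 1)) {V : Matrix (Fin N) (Fin N) ℝ} (hV : V ∈ orthogonalGroup (Fin N) ℝ)
    (x : Fin N → Bool) : ∑ j, (V *ᵥ spin x) (wi r k0 j) ^ 2 ≤ N := by
  classical
  rw [← lu_sq_le hV x, ← Finset.sum_image (f := fun i => (V *ᵥ spin x) i ^ 2)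
    (s := (Finset.univ : Finset (Fin n))) (g := wi r k0)
    fun a _ b _ h => lu_wi_inj hr k0 h]
  exact Finset.sum_le_sum_of_subset_of_nonneg (Finset.subset_univ _) fun i _ _ => sq_nonneg _

section Meas

variable [MeasurableSpace (orthogonalGroup (Fin N) ℝ)] [BorelSpace (orthogonalGroup (Fin N) ℝ)]

theorem lu_meas_y (i : Fin N) (x : Fin N → Bool) :
    Measurable fun V : orthogonalGroup (Fin N) ℝ => (V.1 *ᵥ spin x) i := by
  unfold Matrix.mulVec dotProduct
  exact Finset.measurable_fun_sum _ fun j _ => (Conc.measurable_coe_OG i j).mul_const _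

theorem lu_meas_yt (r : Fin (n + 1) → Fin N) (k0 : Fin (n + 1)) (x : Xe N) (k : Fin (n + 1)) :
    Measurable fun V : orthogonalGroup (Fin N) ℝ => yt r k0 V.1 x k := by
  unfold yt
  split_ifs
  · exact measurable_const
  · exact lu_meas_y (r k) x.2

theorem lu_meas_H {b α : Fin (n + 1) → ℝ} {μ g : Fin n → ℝ}
    {Q : Fin (n + 1) → Matrix (Fin (n + 1)) (Fin (n + 1)) ℝ} (D : Dat b α μ g Q)
    (hm : Exponents K m) {c : Fin N → Fin (n + 1)} (P : Pm (n + 1)) {r : Fin (n + 1) → Fin N}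
    (hr : ∀ k, c (r k) = k) (k0 : Fin (n + 1)) (s' : ℕ → ℝ)
    (A : Matrix (Fin (n + 1)) (Fin (n + 1)) ℝ) (x : Xe N) :
    Measurable fun p : orthogonalGroup (Fin N) ℝ × (Ie N K → ℝ) =>
      (sAE K m c P r k0 s' A p.1.1).H p.2 x := by
  have e1 : (fun p : orthogonalGroup (Fin N) ℝ × (Ie N K → ℝ) =>
      (sAE K m c P r k0 s' A p.1.1).H p.2 x) = fun p =>
      (GE K m b α μ g c P r k0 0 0 s' 1 0).en p.1.1 p.2 x +
      1 / 2 * ∑ k, ∑ k', ((Aᵀ * diagonal P.b * A) k k' - ((Q k0)ᵀ * diagonal b * Q k0) k k') *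
        (yt r k0 p.1.1 x k * yt r k0 p.1.1 x k') +
      ∑ l ∈ Finset.range (K + 1), ∑ k, P.u k l *
        (p.2 (Sum.inl (bco l (rho0 r k0 k))) * (A *ᵥ yt r k0 p.1.1 x) k) :=
    funext fun p => sAE_en (m := m) D P hr k0 s' A p.1.1 p.2 x
  rw [e1]
  have hE := egs_ok (K := K) hm (MP K c (wi r k0) P μ g (mbar b α) 0 0 s' 1 0)
  have hy : ∀ k, Measurable fun p : orthogonalGroup (Fin N) ℝ × (Ie N K → ℝ) =>
      yt r k0 p.1.1 x k := fun k => (lu_meas_yt r k0 x k).comp measurable_fst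
  refine ((hE.men x).add (Measurable.const_mul (Finset.measurable_fun_sum _ fun k _ =>
    Finset.measurable_fun_sum _ fun k' _ => ((hy k).mul (hy k')).const_mul _) _)).add
    (Finset.measurable_fun_sum _ fun l _ => Finset.measurable_fun_sum _ fun k _ =>
      Measurable.const_mul (((measurable_pi_apply _).comp measurable_snd).mul ?_) _)
  unfold Matrix.mulVec dotProduct
  exact Finset.measurable_fun_sum _ fun k' _ => (hy k').const_mul _

theorem lu_int_Y {b α : Fin (n + 1) → ℝ} {μ g : Fin n → ℝ}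
    {Q : Fin (n + 1) → Matrix (Fin (n + 1)) (Fin (n + 1)) ℝ} (D : Dat b α μ g Q)
    (ν : Measure (orthogonalGroup (Fin N) ℝ)) [IsProbabilityMeasure ν]
    (hm : Exponents K m) {c : Fin N → Fin (n + 1)} (P : Pm (n + 1)) {r : Fin (n + 1) → Fin N}
    (hr : ∀ k, c (r k) = k) (k0 : Fin (n + 1)) (s' : ℕ → ℝ)
    (A : Matrix (Fin (n + 1)) (Fin (n + 1)) ℝ) (i : Fin N) :
    Integrable (fun V : orthogonalGroup (Fin N) ℝ => (sAE K m c P r k0 s' A V.1).Ex
      (fun _ x => (V.1 *ᵥ spin x.2) i ^ 2)) ν := by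
  have hmeas : Measurable fun V : orthogonalGroup (Fin N) ℝ => (sAE K m c P r k0 s' A V.1).Ex
      (fun _ x => (V.1 *ᵥ spin x.2) i ^ 2) := by
    refine U.meas_Ex (S := sAE K m c P r k0 s' A 0)
      (H := fun V : orthogonalGroup (Fin N) ℝ => (sAE K m c P r k0 s' A V.1).H)
      (h := fun V _ x => (V.1 *ᵥ spin x.2) i ^ 2)
      (lu_meas_H D hm P hr k0 s' A) fun x => ?_
    exact ((lu_meas_y i x.2).comp measurable_fst).pow_const 2
  refine integrable_of_bdd (C := (N : ℝ)) hmeas fun V => ?_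
  refine (RegG.of_reg (sAE_reg hm c P r k0 s' A V.1)).abs_Ex_le_const
    (Sy.Nh.snd fun x : Xe N => (V.1 *ᵥ spin x.2) i ^ 2) fun _ x => ?_
  rw [abs_of_nonneg (sq_nonneg _), ← lu_sq_le V.2 x.2]
  exact Finset.single_le_sum (f := fun i => (V.1 *ᵥ spin x.2) i ^ 2) (fun i _ => sq_nonneg _)
    (Finset.mem_univ i)

end Meas

/-- **Jensen's inequality, above**, for `ω_last ≥ α_last / 2`. -/
theorem sA_up {b α : Fin (n + 1) → ℝ} {μ g : Fin n → ℝ}
    {Q : Fin (n + 1) → Matrix (Fin (n + 1)) (Fin (n + 1)) ℝ} (D : Dat b α μ g Q) (B : ℝ) :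
    ∃ C x0 : ℝ, 0 ≤ C ∧ 0 < x0 ∧ ∀ (N K : ℕ) (m : ℕ → ℝ) (c : Fin N → Fin (n + 1)) (P : Pm (n + 1))
      (r : Fin (n + 1) → Fin N) (k0 : Fin (n + 1)) [MeasurableSpace (orthogonalGroup (Fin N) ℝ)]
      [BorelSpace (orthogonalGroup (Fin N) ℝ)] (ν : Measure (orthogonalGroup (Fin N) ℝ))
      [IsProbabilityMeasure ν] [ν.IsMulLeftInvariant] (dl : ℝ), Good b α B dl K m c P r →
      (K + 1) * dl ≤ x0 → 1 / √N ≤ x0 → ∀ (s' : ℕ → ℝ), EPar K B 0 0 s' 1 0 →
      ∀ A : Matrix (Fin (n + 1)) (Fin (n + 1)) ℝ, A ∈ orthogonalGroup (Fin (n + 1)) ℝ →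
      ∀ ω : Fin (n + 1) → ℝ, (∀ k, 0 ≤ ω k) → (∀ k, A k k0 = √(ω k)) →
      α (Fin.last n) / 2 ≤ ω (Fin.last n) → ∀ δ : ℝ,
      (∀ i j, |(Aᵀ * diagonal P.b * A) i j - ((Q k0)ᵀ * diagonal b * Q k0) i j| ≤ δ) →
      EU ν (fun V => (sA K m c P r k0 s' A V).fe) ≤
        EF ν K m (MP K c (wi r k0) P μ g (mbar b α) 0 0 s' 1 0) + C * (δ + dl) := by
  obtain ⟨C2, x2, hC2, hx2, hM2⟩ := sA_m2 D B
  refine ⟨((n + 1) / 2 + 2) * (1 + n * C2), min x2 1, by positivity, lt_min hx2 one_pos, ?_⟩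
  intro N K m c P r k0 _ _ ν _ _ dl G hdl hN s' hs' A hA ω hω hAω hωl δ hδ
  have hdl0 := G.dl0
  have hd1 : (K + 1) * dl ≤ x2 := hdl.trans (min_le_left _ _)
  have hd2 : (K + 1) * dl ≤ 1 := hdl.trans (min_le_right _ _)
  have hn1 : 1 / √N ≤ x2 := hN.trans (min_le_left _ _)
  have hδ0 : 0 ≤ δ := (abs_nonneg _).trans (hδ 0 0)
  have hY := hM2 N K m c P r k0 ν dl G hd1 hn1 s' hs' A hA ω hω hAω hωl
  set κ : ℝ := ((n : ℝ) + 1) / 2 * δ + 2 * ((K + 1) * dl ^ 2) with hκ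
  have hκ0 : 0 ≤ κ := by positivity
  have hκ1 : κ ≤ ((n + 1) / 2 + 2) * (δ + dl) := by
    have h1 : (K + 1) * dl ^ 2 ≤ dl := by
      calc (K + 1) * dl ^ 2 = ((K + 1) * dl) * dl := by ring
        _ ≤ 1 * dl := mul_le_mul_of_nonneg_right hd2 hdl0
        _ = dl := by ring
    have h2 : (0 : ℝ) ≤ ((n : ℝ) + 1) / 2 := by positivity
    rw [hκ]
    linarith only [hδ0, h1, mul_nonneg h2 hdl0]
  have i1 := int_sA_fe ν G.hm c P r k0 s' A
  have i2 := int_gs_fe ν (egs_ok G.hm (MP K c (wi r k0) P μ g (mbar b α) 0 0 s' 1 0))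
  have i3 : ∀ j : Fin n, Integrable (fun V : orthogonalGroup (Fin N) ℝ =>
      (sAE K m c P r k0 s' A V.1).Ex (fun _ x => (V.1 *ᵥ spin x.2) (wi r k0 j) ^ 2)) ν := fun j =>
    lu_int_Y D ν G.hm P G.hr k0 s' A (wi r k0 j)
  have i4 : Integrable (fun V : orthogonalGroup (Fin N) ℝ => ∑ j : Fin n,
      (sAE K m c P r k0 s' A V.1).Ex (fun _ x => (V.1 *ᵥ spin x.2) (wi r k0 j) ^ 2)) ν :=
    integrable_finsetSum _ fun j _ => i3 j
  have i5 : Integrable (fun V : orthogonalGroup (Fin N) ℝ => κ * (1 + ∑ j : Fin n,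
      (sAE K m c P r k0 s' A V.1).Ex (fun _ x => (V.1 *ᵥ spin x.2) (wi r k0 j) ^ 2))) ν :=
    ((integrable_const 1).add i4).const_mul κ
  have h1 := integral_mono i1 (i2.add i5) fun V => lu_point D G k0 s' hA V.1 hδ
  have h2 : ∫ V : orthogonalGroup (Fin N) ℝ, (((GE K m b α μ g c P r k0 0 0 s' 1 0).sy V.1).fe +
      κ * (1 + ∑ j : Fin n, (sAE K m c P r k0 s' A V.1).Ex
        (fun _ x => (V.1 *ᵥ spin x.2) (wi r k0 j) ^ 2))) ∂ν =
      EF ν K m (MP K c (wi r k0) P μ g (mbar b α) 0 0 s' 1 0) + κ * (1 + ∑ j : Fin n,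
        EU ν (fun V => (sAE K m c P r k0 s' A V).Ex
          (fun _ x => (V *ᵥ spin x.2) (wi r k0 j) ^ 2))) := by
    rw [integral_add i2 i5, integral_const_mul, integral_add (integrable_const 1) i4,
      integral_finsetSum _ fun j _ => i3 j]
    simp only [integral_const, probReal_univ, smul_eq_mul, mul_one]
    rfl
  have h3 : ∑ j : Fin n, EU ν (fun V => (sAE K m c P r k0 s' A V).Ex
      (fun _ x => (V *ᵥ spin x.2) (wi r k0 j) ^ 2)) ≤ n * C2 := by
    refine (Finset.sum_le_sum fun j _ => hY j).trans (le_of_eq ?_)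
    rw [Finset.sum_const, Finset.card_univ, Fintype.card_fin, nsmul_eq_mul]
  have h4 : EU ν (fun V => (sA K m c P r k0 s' A V).fe) ≤
      EF ν K m (MP K c (wi r k0) P μ g (mbar b α) 0 0 s' 1 0) + κ * (1 + ∑ j : Fin n,
        EU ν (fun V => (sAE K m c P r k0 s' A V).Ex
          (fun _ x => (V *ᵥ spin x.2) (wi r k0 j) ^ 2))) := h1.trans (le_of_eq h2)
  refine h4.trans (add_le_add le_rfl ?_)
  calc κ * (1 + ∑ j : Fin n, EU ν (fun V => (sAE K m c P r k0 s' A V).Ex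
          (fun _ x => (V *ᵥ spin x.2) (wi r k0 j) ^ 2))) ≤ κ * (1 + n * C2) :=
        mul_le_mul_of_nonneg_left (by linarith only [h3]) hκ0
    _ ≤ ((n + 1) / 2 + 2) * (δ + dl) * (1 + n * C2) :=
        mul_le_mul_of_nonneg_right hκ1 (by positivity)
    _ = _ := by ring

/-- The entries of a conjugate of a diagonal matrix. -/
theorem lu_entry {A : Matrix (Fin (n + 1)) (Fin (n + 1)) ℝ}
    (hA : A ∈ orthogonalGroup (Fin (n + 1)) ℝ) {d : Fin (n + 1) → ℝ} {β : ℝ}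
    (hd : ∀ k, |d k| ≤ β) (i j : Fin (n + 1)) : |(Aᵀ * diagonal d * A) i j| ≤ β := by
  have hcol : ∀ j, ∑ k, A k j ^ 2 = 1 := by
    intro j
    have h1 := (Matrix.mem_orthogonalGroup_iff' (Fin (n + 1)) ℝ).1 hA
    have h2 := congrFun (congrFun h1 j) j
    rw [Matrix.mul_apply, Matrix.one_apply_eq] at h2
    rw [← h2]
    refine Finset.sum_congr rfl fun k _ => ?_
    rw [Matrix.transpose_apply, sq]
  have hβ : 0 ≤ β := (abs_nonneg _).trans (hd 0)
  have e : (Aᵀ * diagonal d * A) i j = ∑ k, A k i * d k * A k j := by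
    rw [Matrix.mul_apply]
    refine Finset.sum_congr rfl fun k _ => ?_
    rw [Matrix.mul_diagonal, Matrix.transpose_apply]
  rw [e]
  calc |∑ k, A k i * d k * A k j| ≤ ∑ k, |A k i * d k * A k j| := Finset.abs_sum_le_sum_abs _ _
    _ ≤ ∑ k, (β / 2 * A k i ^ 2 + β / 2 * A k j ^ 2) := by
        refine Finset.sum_le_sum fun k _ => ?_
        rw [abs_mul, abs_mul]
        have h1 := hd k
        have h2 : |A k i| * |A k j| ≤ (A k i ^ 2 + A k j ^ 2) / 2 := by
          linarith only [sq_nonneg (|A k i| - |A k j|), sq_abs (A k i), sq_abs (A k j)]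
        calc |A k i| * |d k| * |A k j| = |d k| * (|A k i| * |A k j|) := by ring
          _ ≤ β * ((A k i ^ 2 + A k j ^ 2) / 2) :=
              mul_le_mul h1 h2 (by positivity) hβ
          _ = _ := by ring
    _ = β := by
        rw [Finset.sum_add_distrib, ← Finset.mul_sum, ← Finset.mul_sum, hcol, hcol]
        ring

/-- A crude bound, for all `A`: `|fe (sA) - fe (GE)| ≤ C (N + 1)` (the energies without the fields
differ by at most `C (N + 1)`; use `Reg.jensen` in both directions). -/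
theorem sA_crude {b α : Fin (n + 1) → ℝ} {μ g : Fin n → ℝ}
    {Q : Fin (n + 1) → Matrix (Fin (n + 1)) (Fin (n + 1)) ℝ} (D : Dat b α μ g Q) (B : ℝ) :
    ∃ C x0 : ℝ, 0 ≤ C ∧ 0 < x0 ∧ ∀ (N K : ℕ) (m : ℕ → ℝ) (c : Fin N → Fin (n + 1)) (P : Pm (n + 1))
      (r : Fin (n + 1) → Fin N) (k0 : Fin (n + 1)) [MeasurableSpace (orthogonalGroup (Fin N) ℝ)]
      [BorelSpace (orthogonalGroup (Fin N) ℝ)] (ν : Measure (orthogonalGroup (Fin N) ℝ))
      [IsProbabilityMeasure ν] [ν.IsMulLeftInvariant] (dl : ℝ), Good b α B dl K m c P r →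
      (K + 1) * dl ≤ x0 → ∀ (s' : ℕ → ℝ), EPar K B 0 0 s' 1 0 →
      ∀ A : Matrix (Fin (n + 1)) (Fin (n + 1)) ℝ, A ∈ orthogonalGroup (Fin (n + 1)) ℝ →
      EU ν (fun V => (sA K m c P r k0 s' A V).fe) ≤
        EF ν K m (MP K c (wi r k0) P μ g (mbar b α) 0 0 s' 1 0) + C * (N + 1) := by
  set β : ℝ := ∑ k, |b k| + 1 with hβ
  have hb0 : 0 ≤ ∑ k, |b k| := Finset.sum_nonneg fun k _ => abs_nonneg _
  refine ⟨(n + 1) / 2 * (2 * β) + 2, 1, by positivity, one_pos, ?_⟩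
  intro N K m c P r k0 _ _ ν _ _ dl G hdl s' hs' A hA
  have hdl0 := G.dl0
  have hK : (0 : ℝ) ≤ K := Nat.cast_nonneg K
  have hdl1 : dl ≤ 1 := by nlinarith only [hdl]
  have hbk : ∀ k, |b k| ≤ ∑ k, |b k| := fun k =>
    Finset.single_le_sum (f := fun k => |b k|) (fun k _ => abs_nonneg _) (Finset.mem_univ k)
  have hη : ∀ i j, |(Aᵀ * diagonal P.b * A) i j - ((Q k0)ᵀ * diagonal b * Q k0) i j| ≤ 2 * β := by
    intro i j
    have h1 := lu_entry hA (d := P.b) (β := β) (fun k => by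
      have h2 := G.hb k
      have h3 := hbk k
      have h4 := abs_sub_abs_le_abs_sub (P.b k) (b k)
      linarith only [hdl1, h2, h3, h4]) i j
    have h2 := lu_entry (D.out.orth k0) (d := b) (β := β) (fun k => by
      have h3 := hbk k
      linarith) i j
    refine (abs_sub _ _).trans ?_
    linarith only [h1, h2]
  set κ : ℝ := ((n : ℝ) + 1) / 2 * (2 * β) + 2 * ((K + 1) * dl ^ 2) with hκ
  have hκ0 : 0 ≤ κ := by positivity
  have hκ1 : κ ≤ (n + 1) / 2 * (2 * β) + 2 := by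
    have h1 : (K + 1) * dl ^ 2 ≤ 1 := by
      calc (K + 1) * dl ^ 2 = ((K + 1) * dl) * dl := by ring
        _ ≤ 1 * 1 := mul_le_mul hdl hdl1 hdl0 zero_le_one
        _ = 1 := by ring
    rw [hκ]
    linarith only [h1]
  have i1 := int_sA_fe ν G.hm c P r k0 s' A
  have i2 := int_gs_fe ν (egs_ok G.hm (MP K c (wi r k0) P μ g (mbar b α) 0 0 s' 1 0))
  have hpt : ∀ V : orthogonalGroup (Fin N) ℝ, (sA K m c P r k0 s' A V.1).fe ≤
      ((GE K m b α μ g c P r k0 0 0 s' 1 0).sy V.1).fe + ((n + 1) / 2 * (2 * β) + 2) * (N + 1) := by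
    intro V
    refine (lu_point D G k0 s' hA V.1 hη).trans (add_le_add le_rfl ?_)
    have hG := RegG.of_reg (sAE_reg G.hm c P r k0 s' A V.1)
    have h1 : ∑ j : Fin n, (sAE K m c P r k0 s' A V.1).Ex
        (fun _ x => (V.1 *ᵥ spin x.2) (wi r k0 j) ^ 2) ≤ N := by
      rw [← hG.Ex_sum _ fun j _ => Sy.Nh.snd fun x : Xe N => (V.1 *ᵥ spin x.2) (wi r k0 j) ^ 2]
      exact hG.Ex_le_const (Sy.Nh.snd fun x : Xe N => ∑ j, (V.1 *ᵥ spin x.2) (wi r k0 j) ^ 2)
        fun _ x => lu_sum_wi G.hr k0 V.2 x.2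
    calc κ * (1 + ∑ j : Fin n, (sAE K m c P r k0 s' A V.1).Ex
        (fun _ x => (V.1 *ᵥ spin x.2) (wi r k0 j) ^ 2)) ≤ κ * (N + 1) :=
          mul_le_mul_of_nonneg_left (by linarith only [h1]) hκ0
      _ ≤ _ := mul_le_mul_of_nonneg_right hκ1 (by positivity)
  have h1 := integral_mono i1 (i2.add (integrable_const _)) hpt
  refine h1.trans (le_of_eq ?_)
  have h2 : ∫ V : orthogonalGroup (Fin N) ℝ, (((GE K m b α μ g c P r k0 0 0 s' 1 0).sy V.1).fe +
      ((n + 1) / 2 * (2 * β) + 2) * (N + 1)) ∂ν = _ := integral_add i2 (integrable_const _)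
  refine h2.trans ?_
  simp only [integral_const, probReal_univ, smul_eq_mul]
  rw [_root_.one_mul]
  rfl

end Vale.Agent.P166.L
end
end
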